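import Crest.Agent.R266.Defs

/-! Row 266: chart API for `md`, `HolAt`, `tc`, `ti`, `HolSec`; identity theorem. -/

set_option autoImplicit false
set_option linter.unusedSectionVars false

open Set Filter Topology Metric
open scoped Manifold ContDiff

noncomputable section
namespace Crest.Agent.R266

variable {E F G : Type} [NormedAddCommGroup E] [NormedSpace ℂ E] [NormedAddCommGroup F]
  [NormedSpace ℂ F] [NormedAddCommGroup G] [NormedSpace ℂ G]
  {X M Z : Type} [TopologicalSpace X] [ChartedSpace E X] [TopologicalSpace M] [ChartedSpace F M]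
  [TopologicalSpace Z] [ChartedSpace G Z]

theorem md_comp {g : X → Z} {f : M → X} {y : M} (hg : HolAt E G g (f y)) (hf : HolAt F E f y) :
    md F G (g ∘ f) y = (md E G g (f y)).comp (md F E f y) :=
  mfderiv_comp y hg hf

theorem md_comp_apply {g : X → Z} {f : M → X} {y : M} (hg : HolAt E G g (f y))
    (hf : HolAt F E f y) (a : F) : md F G (g ∘ f) y a = md E G g (f y) (md F E f y a) := by
  rw [md_comp hg hf]; rfl

theorem md_self (f : F → E) (y : F) : md F E f y = fderiv ℂ f y := mfderiv_eq_fderiv

theorem holAt_self {f : F → E} {y : F} : HolAt F E f y ↔ DifferentiableAt ℂ f y :=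
  mdifferentiableAt_iff_differentiableAt

theorem md_congr {f g : M → X} {y : M} (h : f =ᶠ[𝓝 y] g) : md F E f y = md F E g y :=
  h.mfderiv_eq

theorem md_id (x : X) : md E E (id : X → X) x = ContinuousLinearMap.id ℂ E := mfderiv_id

theorem md_const (x : X) (y : M) : md F E (fun _ : M => x) y = 0 := mfderiv_const

theorem holAt_congr {f g : M → X} {y : M} (hf : HolAt F E f y) (h : g =ᶠ[𝓝 y] f) :
    HolAt F E g y :=
  hf.congr_of_eventuallyEq h

variable [IsManifold 𝓘(ℂ, E) ω X]

theorem holAt_chart {c x : X} (hx : x ∈ (chartAt E c).source) : HolAt E E (chartAt E c) x := mdifferentiableAt_atlas (chart_mem_atlas E c) hx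

theorem holAt_chart_symm {c : X} {y : E} (hy : y ∈ (chartAt E c).target) :
    HolAt E E (chartAt E c).symm y := mdifferentiableAt_atlas_symm (chart_mem_atlas E c) hy

theorem ti_tc {c x : X} (hx : x ∈ (chartAt E c).source) (v : E) :
    ti E c (chartAt E c x) (tc E c x v) = v := by
  have h1 := md_comp_apply (F := E) (E := E) (G := E) (g := (chartAt E c).symm) (f := chartAt E c)
    (holAt_chart_symm ((chartAt E c).map_source hx)) (holAt_chart hx) v
  have h2 : ((chartAt E c).symm ∘ chartAt E c) =ᶠ[𝓝 x] id :=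
    (chartAt E c).eventually_left_inverse hx
  rw [md_congr h2, md_id] at h1
  exact h1.symm

theorem tc_ti {c x : X} (hx : x ∈ (chartAt E c).source) (v : E) :
    tc E c x (ti E c (chartAt E c x) v) = v := by
  have hy := (chartAt E c).map_source hx
  have h0 : HolAt E E (chartAt E c) ((chartAt E c).symm (chartAt E c x)) :=
    holAt_chart ((chartAt E c).map_target hy)
  have h1 := md_comp_apply (F := E) (E := E) (G := E) h0 (holAt_chart_symm hy) v
  have h2 : (chartAt E c ∘ (chartAt E c).symm) =ᶠ[𝓝 (chartAt E c x)] id :=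
    (chartAt E c).eventually_right_inverse hy
  rw [md_congr h2, md_id, (chartAt E c).left_inv hx] at h1
  exact h1.symm

theorem tc_self (x : X) : tc E x x = ContinuousLinearMap.id ℂ E := mfderiv_extChartAt_self (I := 𝓘(ℂ, E)) (x := x)

theorem ti_self (x : X) : ti E x (chartAt E x x) = ContinuousLinearMap.id ℂ E := by
  ext v
  have h := ti_tc (E := E) (mem_chart_source E x) v
  rw [tc_self] at h
  exact h

theorem Pc_tc (P : X → E →L[ℂ] E) {c x : X} (hx : x ∈ (chartAt E c).source) (v : E) :
    Pc P c (chartAt E c x) (tc E c x v) = tc E c x (P x v) := by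
  unfold Pc
  rw [(chartAt E c).left_inv hx, ContinuousLinearMap.comp_apply, ContinuousLinearMap.comp_apply,
    ti_tc hx]

theorem Pc_self (P : X → E →L[ℂ] E) (x : X) : Pc P x (chartAt E x x) = P x := by
  ext v
  have h := Pc_tc P (mem_chart_source E x) v
  rw [tc_self] at h
  exact h

/-- holomorphy can be tested in any chart containing the image point. -/
theorem holAt_iff_chart {f : M → X} {y : M} {c : X} (hc : f y ∈ (chartAt E c).source) :
    HolAt F E f y ↔ ContinuousAt f y ∧ HolAt F E (chartAt E c ∘ f) y := by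
  refine ⟨fun h => ⟨h.continuousAt, (holAt_chart hc).comp y h⟩, fun ⟨h1, h2⟩ => ?_⟩
  have h3 : HolAt F E ((chartAt E c).symm ∘ (chartAt E c ∘ f)) y :=
    MDifferentiableAt.comp y (holAt_chart_symm ((chartAt E c).map_source hc)) h2
  refine holAt_congr h3 ?_
  filter_upwards [h1.preimage_mem_nhds ((chartAt E c).open_source.mem_nhds hc)] with z hz
  exact ((chartAt E c).left_inv hz).symm

/-- for a map from a normed space, the chart expression has derivative `tc ∘ md`. -/
theorem hasFDerivAt_chart {f : F → X} {y : F} {c : X} (hf : HolAt F E f y)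
    (hc : f y ∈ (chartAt E c).source) :
    HasFDerivAt (chartAt E c ∘ f) ((tc E c (f y)).comp (md F E f y)) y := by
  have h1 : HolAt F E (chartAt E c ∘ f) y := (holAt_chart hc).comp y hf
  have h2 := (holAt_self.1 h1).hasFDerivAt
  rw [← md_self, md_comp (holAt_chart hc) hf] at h2
  exact h2

theorem contDiffAt_trans {c c' x : X} (hc : x ∈ (chartAt E c).source)
    (hc' : x ∈ (chartAt E c').source) :
    ContDiffAt ℂ ω (chartAt E c' ∘ (chartAt E c).symm) (chartAt E c x) := by
  have h1 : ContMDiffAt 𝓘(ℂ, E) 𝓘(ℂ, E) ω (chartAt E c).symm (chartAt E c x) :=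
    contMDiffOn_chart_symm.contMDiffAt
      ((chartAt E c).open_target.mem_nhds ((chartAt E c).map_source hc))
  have h2 : ContMDiffAt 𝓘(ℂ, E) 𝓘(ℂ, E) ω (chartAt E c') ((chartAt E c).symm (chartAt E c x)) := by
    rw [(chartAt E c).left_inv hc]
    exact contMDiffOn_chart.contMDiffAt ((chartAt E c').open_source.mem_nhds hc')
  exact (h2.comp _ h1).contDiffAt

/-- transition maps are analytic. -/
theorem analyticAt_trans {c c' x : X} (hc : x ∈ (chartAt E c).source)
    (hc' : x ∈ (chartAt E c').source) :
    AnalyticAt ℂ (chartAt E c' ∘ (chartAt E c).symm) (chartAt E c x) := (contDiffAt_trans hc hc').analyticAt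

theorem fderiv_trans {c c' x : X} (hc : x ∈ (chartAt E c).source)
    (hc' : x ∈ (chartAt E c').source) :
    fderiv ℂ (chartAt E c' ∘ (chartAt E c).symm) (chartAt E c x) =
      (tc E c' x).comp (ti E c (chartAt E c x)) := by
  have h := hasFDerivAt_chart (F := E) (c := c') (holAt_chart_symm ((chartAt E c).map_source hc))
    (by rw [(chartAt E c).left_inv hc]; exact hc')
  rw [(chartAt E c).left_inv hc] at h
  exact h.fderiv

theorem holSec_chart_change {β : F → X} {σ : F → E} {u : F} {c c' : X} (hβ : HolAt F E β u)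
    (hc : β u ∈ (chartAt E c).source) (hc' : β u ∈ (chartAt E c').source)
    (h : DifferentiableAt ℂ (fun t => tc E c (β t) (σ t)) u) :
    DifferentiableAt ℂ (fun t => tc E c' (β t) (σ t)) u := by
  have h1 : DifferentiableAt ℂ (fderiv ℂ (chartAt E c' ∘ (chartAt E c).symm)) (chartAt E c (β u)) :=
    ((contDiffAt_trans hc hc').fderiv_right (m := 1) le_top).differentiableAt one_ne_zero
  have h2 := (h1.comp u (hasFDerivAt_chart hβ hc).differentiableAt).clm_apply h
  refine h2.congr_of_eventuallyEq ?_
  filter_upwards [hβ.continuousAt.preimage_mem_nhds ((chartAt E c).open_source.mem_nhds hc),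
    hβ.continuousAt.preimage_mem_nhds ((chartAt E c').open_source.mem_nhds hc')] with t h3 h4
  show _ = fderiv ℂ (chartAt E c' ∘ (chartAt E c).symm) (chartAt E c (β t)) _
  rw [fderiv_trans h3 h4, ContinuousLinearMap.comp_apply, ti_tc h3]

/-- holomorphy of a section can be tested in any chart (`tc c x = D(transition) ∘ tc (β u) x`). -/
theorem holSec_iff_chart {β : F → X} {σ : F → E} {u : F} {c : X} (hβ : HolAt F E β u)
    (hc : β u ∈ (chartAt E c).source) :
    HolSec E β σ u ↔ DifferentiableAt ℂ (fun t => tc E c (β t) (σ t)) u := ⟨fun h => holSec_chart_change hβ (mem_chart_source E _) hc h.2,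
    fun h => ⟨hβ, holSec_chart_change hβ hc (mem_chart_source E _) h⟩⟩

variable [FiniteDimensional ℂ E] [FiniteDimensional ℂ F] [IsManifold 𝓘(ℂ, F) ω M]

private theorem B1b_an {f : F → X} {y : F} {c : X} (hf : ∀ᶠ z in 𝓝 y, HolAt F E f z)
    (hc : f y ∈ (chartAt E c).source) : AnalyticAt ℂ (chartAt E c ∘ f) y := by
  have := FiniteDimensional.complete ℂ E
  refine R264.SCV.analyticAt_of_eventually ?_
  filter_upwards [hf, hf.self_of_nhds.continuousAt.preimage_mem_nhds
    ((chartAt E c).open_source.mem_nhds hc)] with z hz hz'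
  exact (hasFDerivAt_chart hz hz').differentiableAt

private theorem B1b_ev {f : M → X} {y : M} (hf : ∀ᶠ z in 𝓝 y, HolAt F E f z) :
    ∀ᶠ p in 𝓝 (chartAt F y y), HolAt F E (f ∘ (chartAt F y).symm) p := by
  have hy := mem_chart_source F y
  rw [← (chartAt F y).symm_map_nhds_eq hy, eventually_map] at hf
  filter_upwards [hf, (chartAt F y).open_target.mem_nhds ((chartAt F y).map_source hy)]
    with p hp hp'
  exact hp.comp p (holAt_chart_symm hp')

private theorem B1b_freq {A B : F → E} {p : F} (hA : AnalyticAt ℂ A p) (hB : AnalyticAt ℂ B p)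
    (h : ∃ᶠ w in 𝓝 p, A =ᶠ[𝓝 w] B) : A =ᶠ[𝓝 p] B := by
  obtain ⟨r, hr, hb⟩ := Metric.eventually_nhds_iff_ball.1
    (hA.eventually_analyticAt.and hB.eventually_analyticAt)
  obtain ⟨w, hw, hwb⟩ := (h.and_eventually (ball_mem_nhds p hr)).exists
  have := AnalyticOnNhd.eqOn_of_preconnected_of_eventuallyEq (𝕜 := ℂ) (fun z hz => (hb z hz).1)
    (fun z hz => (hb z hz).2) (convex_ball p r).isPreconnected hwb hw
  filter_upwards [ball_mem_nhds p hr] with z hz using this hz

/-- holomorphic near a point ⇒ analytic (`Crest.Agent.R264.SCV.analyticAt_of_eventually` in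
charts). -/
theorem contMDiffAt_of_hol {f : M → X} {y : M} (hf : ∀ᶠ z in 𝓝 y, HolAt F E f z) :
    ContMDiffAt 𝓘(ℂ, F) 𝓘(ℂ, E) ω f y := by
  have hy := mem_chart_source F y
  have h1 : AnalyticAt ℂ (chartAt E (f y) ∘ (f ∘ (chartAt F y).symm)) (chartAt F y y) :=
    B1b_an (B1b_ev hf) (by simp)
  rw [contMDiffAt_iff]
  refine ⟨hf.self_of_nhds.continuousAt, ?_⟩
  simpa [Function.comp_def] using h1.contDiffAt.contDiffWithinAt

theorem analyticAt_chart {f : F → X} {y : F} {c : X} (hf : ∀ᶠ z in 𝓝 y, HolAt F E f z)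
    (hc : f y ∈ (chartAt E c).source) : AnalyticAt ℂ (chartAt E c ∘ f) y := by
  exact B1b_an hf hc

/-- for a holomorphic map `φ` and a fixed vector `a`, `t ↦ dφ_t a` is a holomorphic section. -/
theorem holSec_md {φ : F → X} {u : F} (hφ : ∀ᶠ z in 𝓝 u, HolAt F E φ z) (a : F) :
    HolSec E φ (fun t => md F E φ t a) u := by
  have := FiniteDimensional.complete ℂ E
  have hc := mem_chart_source E (φ u)
  refine ⟨hφ.self_of_nhds, ?_⟩
  refine (((analyticAt_chart hφ hc).fderiv.differentiableAt).clm_apply
    (differentiableAt_const a)).congr_of_eventuallyEq ?_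
  filter_upwards [hφ, hφ.self_of_nhds.continuousAt.preimage_mem_nhds
    ((chartAt E (φ u)).open_source.mem_nhds hc)] with z hz hz'
  rw [(hasFDerivAt_chart hz hz').fderiv]
  rfl

omit [FiniteDimensional ℂ E] [FiniteDimensional ℂ F] in
theorem HolSec.comp {β : F → X} {σ : F → E} {h : G → F} {u : G} (hσ : HolSec E β σ (h u))
    (hh : DifferentiableAt ℂ h u) : HolSec E (β ∘ h) (σ ∘ h) u := by
  exact ⟨hσ.1.comp u (holAt_self.2 hh), hσ.2.comp u hh⟩

/-- identity theorem for holomorphic maps between manifolds. -/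
theorem hol_eqOn [T2Space X] {f g : M → X} {U : Set M} (hU : IsOpen U) (hc : IsPreconnected U)
    (hf : HolOn F E f U) (hg : HolOn F E g U) {y : M} (hy : y ∈ U) (h : f =ᶠ[𝓝 y] g) :
    EqOn f g U := by
  have key : U ⊆ {z | f =ᶠ[𝓝 z] g} := by
    refine hc.subset_of_closure_inter_subset isOpen_setOfPred_eventually_nhds ⟨y, hy, h⟩ ?_
    rintro z ⟨hz, hzU⟩
    rw [mem_closure_iff_frequently] at hz
    have hfz : ∀ᶠ w in 𝓝 z, HolAt F E f w := eventually_of_mem (hU.mem_nhds hzU) hf
    have hgz : ∀ᶠ w in 𝓝 z, HolAt F E g w := eventually_of_mem (hU.mem_nhds hzU) hg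
    have hcf := (hf z hzU).continuousAt
    have hcg := (hg z hzU).continuousAt
    have e : f z = g z :=
      tendsto_nhds_unique_of_frequently_eq hcf hcg (hz.mono fun w hw => hw.self_of_nhds)
    have hz0 := mem_chart_source F z
    have hc1 := mem_chart_source E (f z)
    have hc2 : g z ∈ (chartAt E (f z)).source := e ▸ hc1
    have h1 : AnalyticAt ℂ (chartAt E (f z) ∘ (f ∘ (chartAt F z).symm)) (chartAt F z z) :=
      B1b_an (B1b_ev hfz) (by simp [hz0])
    have h2 : AnalyticAt ℂ (chartAt E (f z) ∘ (g ∘ (chartAt F z).symm)) (chartAt F z z) :=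
      B1b_an (B1b_ev hgz) (by simpa [hz0] using hc2)
    rw [← (chartAt F z).symm_map_nhds_eq hz0, frequently_map] at hz
    have h3 := B1b_freq h1 h2 ((hz.and_eventually ((chartAt F z).open_target.mem_nhds
      ((chartAt F z).map_source hz0))).mono fun p hp => by
        filter_upwards [((chartAt F z).continuousAt_symm hp.2).tendsto.eventually hp.1] with q hq
        simp only [Function.comp_apply, hq])
    filter_upwards [((chartAt F z).continuousAt hz0).tendsto.eventually h3,
      (chartAt F z).open_source.mem_nhds hz0,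
      hcf.preimage_mem_nhds ((chartAt E (f z)).open_source.mem_nhds hc1),
      hcg.preimage_mem_nhds ((chartAt E (f z)).open_source.mem_nhds hc2)] with w hw hw0 hw1 hw2
    simp only [Function.comp_apply, (chartAt F z).left_inv hw0] at hw
    exact (chartAt E (f z)).injOn hw1 hw2 hw
  exact fun z hz => (key hz).self_of_nhds

/-- identity theorem for holomorphic sections along a holomorphic map. -/
theorem holSec_zero {β : F → X} {σ : F → E} {U : Set F} (hU : IsOpen U) (hc : IsPreconnected U)
    (hσ : ∀ u ∈ U, HolSec E β σ u) {y : F} (hy : y ∈ U) (h : ∀ᶠ u in 𝓝 y, σ u = 0) :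
    ∀ u ∈ U, σ u = 0 := by
  have := FiniteDimensional.complete ℂ E
  have key : U ⊆ {z | ∀ᶠ u in 𝓝 z, σ u = 0} := by
    refine hc.subset_of_closure_inter_subset isOpen_setOfPred_eventually_nhds ⟨y, hy, h⟩ ?_
    rintro z ⟨hz, hzU⟩
    rw [mem_closure_iff_frequently] at hz
    have hs : ∀ᶠ t in 𝓝 z, β t ∈ (chartAt E (β z)).source :=
      (hσ z hzU).1.continuousAt.preimage_mem_nhds
        ((chartAt E (β z)).open_source.mem_nhds (mem_chart_source E (β z)))
    have h1 : AnalyticAt ℂ (fun t => tc E (β z) (β t) (σ t)) z := by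
      refine R264.SCV.analyticAt_of_eventually ?_
      filter_upwards [hs, hU.mem_nhds hzU] with t ht htU
      exact (holSec_iff_chart (hσ t htU).1 ht).1 (hσ t htU)
    have h2 := B1b_freq h1 (analyticAt_const (v := (0 : E))) (hz.mono fun w hw => by
      filter_upwards [hw] with t ht
      rw [ht, map_zero])
    filter_upwards [h2, hs] with t ht ht'
    rw [← ti_tc ht' (σ t), ht, map_zero]
  exact fun z hz => (key hz).self_of_nhds

/-- inverse function theorem for a map from a manifold to a normed space. -/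
theorem exists_local_inv [FiniteDimensional ℂ G] {f : X → G} {x : X}
    (hf : ∀ᶠ z in 𝓝 x, HolAt E G f z) (hb : Function.Bijective (md E G f x)) {O : Set X}
    (hO : O ∈ 𝓝 x) :
    ∃ e : OpenPartialHomeomorph X G, x ∈ e.source ∧ e.source ⊆ O ∧ (∀ z, e z = f z) ∧
      HolOn E G e e.source ∧ HolOn G E e.symm e.target := by
  have hx := mem_chart_source E x
  obtain ⟨W, hW, hWo, hxW⟩ := mem_nhds_iff.1 (inter_mem hO hf)
  have hO' : IsOpen ((chartAt E x).target ∩ (chartAt E x).symm ⁻¹' W) :=
    (chartAt E x).isOpen_inter_preimage_symm hWo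
  have hd : ∀ p ∈ (chartAt E x).target ∩ (chartAt E x).symm ⁻¹' W,
      HolAt E G (f ∘ (chartAt E x).symm) p := fun p hp =>
    MDifferentiableAt.comp p (hW hp.2).2 (holAt_chart_symm hp.1)
  have hm : chartAt E x x ∈ (chartAt E x).target ∩ (chartAt E x).symm ⁻¹' W :=
    ⟨(chartAt E x).map_source hx, by simpa [hx] using hxW⟩
  have hb' : Function.Bijective (fderiv ℂ (f ∘ (chartAt E x).symm) (chartAt E x x)) := by
    rw [← md_self, md_comp (hW hm.2).2 (holAt_chart_symm hm.1), (chartAt E x).left_inv hx]
    change Function.Bijective ((md E G f x).comp (ti E x (chartAt E x x)))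
    rwa [ti_self, ContinuousLinearMap.comp_id]
  obtain ⟨A, B, g, hA, haA, hAO, hB, hg, hAB, hBA, hl, hr⟩ := R264.exists_local_inverse hO'
    (fun p hp => (holAt_self.1 (hd p hp)).differentiableWithinAt) hm hb'
  have hsW : ∀ z ∈ (chartAt E x).source ∩ chartAt E x ⁻¹' A, z ∈ W := fun z hz => by
    simpa [hz.1] using (hAO hz.2).2
  have hinv : ∀ y ∈ B, HolAt G E ((chartAt E x).symm ∘ g) y := fun y hy =>
    MDifferentiableAt.comp y (holAt_chart_symm (hAO (hBA hy)).1)
      (holAt_self.2 (hg.differentiableAt (hB.mem_nhds hy)))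
  refine ⟨{ toFun := f
            invFun := (chartAt E x).symm ∘ g
            source := (chartAt E x).source ∩ chartAt E x ⁻¹' A
            target := B
            map_source' := fun z hz => by simpa [hz.1] using hAB hz.2
            map_target' := fun y hy => ⟨(chartAt E x).map_target (hAO (hBA hy)).1, by
              simpa [(hAO (hBA hy)).1] using hBA hy⟩
            left_inv' := fun z hz => by
              have := hl _ hz.2
              simp only [Function.comp_apply, (chartAt E x).left_inv hz.1] at this ⊢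
              rw [this, (chartAt E x).left_inv hz.1]
            right_inv' := hr
            open_source := (chartAt E x).isOpen_inter_preimage hA
            open_target := hB
            continuousOn_toFun := fun z hz => (hW (hsW z hz)).2.continuousAt.continuousWithinAt
            continuousOn_invFun := fun y hy => (hinv y hy).continuousAt.continuousWithinAt },
    ⟨hx, haA⟩, fun z hz => (hW (hsW z hz)).1, fun _ => rfl, fun z hz => (hW (hsW z hz)).2, hinv⟩

end Crest.Agent.R266
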