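import Crest.Agent.R266.Basic1

/-! Row 266: fields of projections, change of chart, the torsion tensor. -/

set_option autoImplicit false
set_option linter.unusedSectionVars false

open Set Filter Topology Metric
open scoped Manifold ContDiff

noncomputable section
namespace Crest.Agent.R266

variable {E F : Type} [NormedAddCommGroup E] [NormedSpace ℂ E] [NormedAddCommGroup F]
  [NormedSpace ℂ F]

/-- derivative of `p ∘ p = p`. -/
theorem fderiv_idem {p : E → E →L[ℂ] E} {y : E} (hd : DifferentiableAt ℂ p y)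
    (hi : ∀ᶠ z in 𝓝 y, ∀ v, p z (p z v) = p z v) (a v : E) :
    fderiv ℂ p y a (p y v) + p y (fderiv ℂ p y a v) = fderiv ℂ p y a v := by
  have hp := hd.hasFDerivAt
  have h2 : HasFDerivAt (fun z => p z v) ((p y).comp 0 + (fderiv ℂ p y).flip v) y :=
    hp.clm_apply (hasFDerivAt_const v y)
  have h1 := hp.clm_apply h2
  have he : (fun z => p z (p z v)) =ᶠ[𝓝 y] fun z => p z v := hi.mono fun z hz => hz v
  have h3 := (h1.congr_of_eventuallyEq he.symm).unique h2
  have h4 := congrArg (fun L : E →L[ℂ] E => L a) h3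
  simp only [ContinuousLinearMap.add_apply, ContinuousLinearMap.comp_apply,
    ContinuousLinearMap.flip_apply, ContinuousLinearMap.zero_apply, map_zero, zero_add] at h4
  rw [add_comm]
  exact h4

/-- change of coordinates for the derivative of a field of endomorphisms: differentiate
`p' (T z) (DT z b) = DT z (p z b)` in the direction `a`. -/
theorem cov_formula [CompleteSpace E] {T : E → E} {p p' : E → E →L[ℂ] E} {y : E} (hT : AnalyticAt ℂ T y)
    (hp : DifferentiableAt ℂ p y) (hp' : DifferentiableAt ℂ p' (T y))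
    (h : ∀ᶠ z in 𝓝 y, ∀ b, p' (T z) (fderiv ℂ T z b) = fderiv ℂ T z (p z b)) (a b : E) :
    fderiv ℂ p' (T y) (fderiv ℂ T y a) (fderiv ℂ T y b) =
      fderiv ℂ (fderiv ℂ T) y a (p y b) - p' (T y) (fderiv ℂ (fderiv ℂ T) y a b) +
        fderiv ℂ T y (fderiv ℂ p y a b) := by
  have hT1 : HasFDerivAt T (fderiv ℂ T y) y := hT.differentiableAt.hasFDerivAt
  have hT2 : HasFDerivAt (fderiv ℂ T) (fderiv ℂ (fderiv ℂ T) y) y :=
    hT.fderiv.differentiableAt.hasFDerivAt
  have hq : HasFDerivAt (fun z => p' (T z)) ((fderiv ℂ p' (T y)).comp (fderiv ℂ T y)) y :=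
    hp'.hasFDerivAt.comp y hT1
  have hb : HasFDerivAt (fun z => fderiv ℂ T z b)
      ((fderiv ℂ T y).comp 0 + (fderiv ℂ (fderiv ℂ T) y).flip b) y :=
    hT2.clm_apply (hasFDerivAt_const b y)
  have hpb : HasFDerivAt (fun z => p z b) ((p y).comp 0 + (fderiv ℂ p y).flip b) y :=
    hp.hasFDerivAt.clm_apply (hasFDerivAt_const b y)
  have h1 := hq.clm_apply hb
  have h2 := hT2.clm_apply hpb
  have he : (fun z => p' (T z) (fderiv ℂ T z b)) =ᶠ[𝓝 y] fun z => fderiv ℂ T z (p z b) :=
    h.mono fun z hz => hz b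
  have h3 := (h1.congr_of_eventuallyEq he.symm).unique h2
  have h4 := congrArg (fun L : E →L[ℂ] E => L a) h3
  simp only [ContinuousLinearMap.add_apply, ContinuousLinearMap.comp_apply,
    ContinuousLinearMap.flip_apply, ContinuousLinearMap.zero_apply, map_zero, zero_add] at h4
  rw [← sub_eq_zero]
  rw [← sub_eq_zero] at h4
  rw [← h4]
  abel

variable {X : Type} [TopologicalSpace X] [ChartedSpace E X] {P : X → E →L[ℂ] E}

@[simp] theorem sw_apply (x : X) (v : E) : sw P x v = v - P x v := rfl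

@[simp] theorem sw_sw : sw (sw P) = P := by
  funext x; simp [sw]

theorem HT_iff_sw {M : Type} [TopologicalSpace M] [ChartedSpace F M] {f : M → X} {y : M} :
    HT F P f y ↔ VT F (sw P) f y := by
  simp only [HT, VT, sw_apply, sub_eq_zero]
  exact forall_congr' fun a => eq_comm

theorem VT_iff_sw {M : Type} [TopologicalSpace M] [ChartedSpace F M] {f : M → X} {y : M} :
    VT F P f y ↔ HT F (sw P) f y := by
  rw [HT_iff_sw, sw_sw]

variable [IsManifold 𝓘(ℂ, E) ω X]

theorem Pc_sw {c : X} {y : E} (hy : y ∈ (chartAt E c).target) :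
    Pc (sw P) c y = ContinuousLinearMap.id ℂ E - Pc P c y := by
  have hx : (chartAt E c).symm y ∈ (chartAt E c).source := (chartAt E c).map_target hy
  have hy' : chartAt E c ((chartAt E c).symm y) = y := (chartAt E c).right_inv hy
  ext v
  have h1 := tc_ti hx v
  rw [hy'] at h1
  simp only [Pc, ContinuousLinearMap.comp_apply, sw_apply, map_sub, h1,
    ContinuousLinearMap.sub_apply, ContinuousLinearMap.id_apply]

theorem IsPF.sw (hP : IsPF P) : IsPF (sw P) := by
  refine ⟨fun x v => ?_, fun c => ?_⟩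
  · simp only [sw_apply, map_sub, hP.idem, sub_self, sub_zero]
  · refine DifferentiableOn.congr (f := fun y => ContinuousLinearMap.id ℂ E - Pc P c y) ?_
      (fun y hy => Pc_sw hy)
    exact (differentiableOn_const _).sub (hP.hol c)

theorem IsPF.Pc_idem (hP : IsPF P) {c : X} {y : E} (hy : y ∈ (chartAt E c).target) (v : E) :
    Pc P c y (Pc P c y v) = Pc P c y v := by
  have hx : (chartAt E c).symm y ∈ (chartAt E c).source := (chartAt E c).map_target hy
  have hy' : chartAt E c ((chartAt E c).symm y) = y := (chartAt E c).right_inv hy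
  have h1 := fun w => ti_tc hx w
  rw [hy'] at h1
  simp only [Pc, ContinuousLinearMap.comp_apply, h1, hP.idem]

/-- the chart expressions in two charts are conjugate by the differential of the transition. -/
theorem Pc_trans (P : X → E →L[ℂ] E) {c c' x : X} (hc : x ∈ (chartAt E c).source)
    (hc' : x ∈ (chartAt E c').source) :
    ∀ᶠ z in 𝓝 (chartAt E c x), ∀ b,
      Pc P c' ((chartAt E c' ∘ (chartAt E c).symm) z)
          (fderiv ℂ (chartAt E c' ∘ (chartAt E c).symm) z b) =
        fderiv ℂ (chartAt E c' ∘ (chartAt E c).symm) z (Pc P c z b) := by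
  have h1 : ∀ᶠ z in 𝓝 (chartAt E c x), z ∈ (chartAt E c).target :=
    (chartAt E c).open_target.mem_nhds ((chartAt E c).map_source hc)
  have h2 : ∀ᶠ z in 𝓝 (chartAt E c x), (chartAt E c).symm z ∈ (chartAt E c').source := by
    apply ((chartAt E c).continuousAt_symm ((chartAt E c).map_source hc)).eventually
    rw [(chartAt E c).left_inv hc]
    exact (chartAt E c').open_source.mem_nhds hc'
  filter_upwards [h1, h2] with z hz hz' b
  have hx : (chartAt E c).symm z ∈ (chartAt E c).source := (chartAt E c).map_target hz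
  have hy' : chartAt E c ((chartAt E c).symm z) = z := (chartAt E c).right_inv hz
  have h3 := fderiv_trans hx hz'
  rw [hy'] at h3
  have h4 := fun w => ti_tc hx w
  rw [hy'] at h4
  rw [h3]
  simp only [ContinuousLinearMap.comp_apply, Function.comp_apply]
  rw [Pc_tc P hz']
  simp only [Pc, ContinuousLinearMap.comp_apply, h4]

variable [FiniteDimensional ℂ E]

/-- covariance of the torsion (`cov_formula` for the transition from the chart at `x` to the chart
at `c`, symmetry of the second derivative of an analytic map). -/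
theorem IsPF.tc_Nt (hP : IsPF P) {c x : X} (hc : x ∈ (chartAt E c).source) {a b : E}
    (ha : P x a = 0) (hb : P x b = 0) :
    tc E c x (Nt P x a b) =
      fderiv ℂ (Pc P c) (chartAt E c x) (tc E c x a) (tc E c x b) -
        fderiv ℂ (Pc P c) (chartAt E c x) (tc E c x b) (tc E c x a) := by
  haveI : CompleteSpace E := FiniteDimensional.complete ℂ E
  have hx : x ∈ (chartAt E x).source := mem_chart_source E x
  have hT := analyticAt_trans hx hc
  have hTy : (chartAt E c ∘ (chartAt E x).symm) (chartAt E x x) = chartAt E c x := by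
    simp only [Function.comp_apply, (chartAt E x).left_inv hx]
  have hD : fderiv ℂ (chartAt E c ∘ (chartAt E x).symm) (chartAt E x x) = tc E c x := by
    rw [fderiv_trans hx hc, ti_self]
    rfl
  have hp : DifferentiableAt ℂ (Pc P x) (chartAt E x x) :=
    (hP.hol x).differentiableAt
      ((chartAt E x).open_target.mem_nhds ((chartAt E x).map_source hx))
  have hp' : DifferentiableAt ℂ (Pc P c) ((chartAt E c ∘ (chartAt E x).symm) (chartAt E x x)) := by
    rw [hTy]
    exact (hP.hol c).differentiableAt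
      ((chartAt E c).open_target.mem_nhds ((chartAt E c).map_source hc))
  have h1 := cov_formula hT hp hp' (Pc_trans P hx hc) a b
  have h2 := cov_formula hT hp hp' (Pc_trans P hx hc) b a
  have hs : IsSymmSndFDerivAt ℂ (chartAt E c ∘ (chartAt E x).symm) (chartAt E x x) :=
    (hT.contDiffAt (n := ω)).isSymmSndFDerivAt_of_omega
  rw [hTy, hD, Pc_self, hb] at h1
  rw [hTy, hD, Pc_self, ha] at h2
  rw [h1, h2, hs a b]
  simp only [Nt, map_sub, map_zero]
  abel

theorem IsPF.P_Nt (hP : IsPF P) {x : X} {a b : E} (ha : P x a = 0) (hb : P x b = 0) :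
    P x (Nt P x a b) = Nt P x a b := by
  have hx : x ∈ (chartAt E x).source := mem_chart_source E x
  have ht : ∀ᶠ z in 𝓝 (chartAt E x x), z ∈ (chartAt E x).target :=
    (chartAt E x).open_target.mem_nhds ((chartAt E x).map_source hx)
  have hp : DifferentiableAt ℂ (Pc P x) (chartAt E x x) := (hP.hol x).differentiableAt ht
  have hi : ∀ᶠ z in 𝓝 (chartAt E x x), ∀ v, Pc P x z (Pc P x z v) = Pc P x z v :=
    ht.mono fun z hz v => hP.Pc_idem hz v
  have h1 := fderiv_idem hp hi a b
  have h2 := fderiv_idem hp hi b a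
  rw [Pc_self, hb, map_zero, zero_add] at h1
  rw [Pc_self, ha, map_zero, zero_add] at h2
  simp only [Nt, map_sub, h1, h2]

theorem nzero_iff_Nt {x : X} :
    Nzero P x ↔ ∀ a b, P x a = 0 → P x b = 0 → Nt P x a b = 0 := by
  simp only [Nzero, NzC, Nt, Pc_self, sub_eq_zero]

theorem IsPF.nzC_iff (hP : IsPF P) {c x : X} (hc : x ∈ (chartAt E c).source) :
    NzC P c (chartAt E c x) ↔ Nzero P x := by
  rw [nzero_iff_Nt]
  constructor
  · intro h a b ha hb
    have h1 := hP.tc_Nt hc ha hb
    have ha' : Pc P c (chartAt E c x) (tc E c x a) = 0 := by rw [Pc_tc P hc, ha, map_zero]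
    have hb' : Pc P c (chartAt E c x) (tc E c x b) = 0 := by rw [Pc_tc P hc, hb, map_zero]
    rw [h _ _ ha' hb', sub_self] at h1
    rw [← ti_tc hc (Nt P x a b), h1, map_zero]
  · intro h a b ha hb
    have key : ∀ w, Pc P c (chartAt E c x) w = 0 → P x (ti E c (chartAt E c x) w) = 0 := by
      intro w hw
      have h1 := Pc_tc P hc (ti E c (chartAt E c x) w)
      rw [tc_ti hc, hw] at h1
      rw [← ti_tc hc (P x _), ← h1, map_zero]
    have h1 := hP.tc_Nt hc (key a ha) (key b hb)
    rw [h _ _ (key a ha) (key b hb), map_zero, tc_ti hc, tc_ti hc] at h1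
    exact sub_eq_zero.1 h1.symm

theorem B2b_ev {β : F → X} {u : F} (hβ : HolAt F E β u) :
    ∀ᶠ t in 𝓝 u, β t ∈ (chartAt E (β u)).source :=
  hβ.continuousAt.preimage_mem_nhds
    ((chartAt E (β u)).open_source.mem_nhds (mem_chart_source E (β u)))

omit [IsManifold 𝓘(ℂ, E) ω X] [FiniteDimensional ℂ E] in
theorem IsPF.B2b_diff (hP : IsPF P) {c : X} {y : E} (hy : y ∈ (chartAt E c).target) :
    DifferentiableAt ℂ (Pc P c) y :=
  (hP.hol c).differentiableAt ((chartAt E c).open_target.mem_nhds hy)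

omit [IsManifold 𝓘(ℂ, E) ω X] in
theorem IsPF.B2b_diff2 (hP : IsPF P) {c : X} {y : E} (hy : y ∈ (chartAt E c).target) :
    DifferentiableAt ℂ (fderiv ℂ (Pc P c)) y := by
  have : CompleteSpace E := FiniteDimensional.complete ℂ E
  exact (Crest.Agent.R264.SCV.differentiableOn_fderiv (chartAt E c).open_target
    (hP.hol c)).differentiableAt ((chartAt E c).open_target.mem_nhds hy)

theorem HolSec.proj (hP : IsPF P) {β : F → X} {σ : F → E} {u : F} (hσ : HolSec E β σ u) :
    HolSec E β (fun t => P (β t) (σ t)) u := by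
  refine ⟨hσ.1, ?_⟩
  have hc : β u ∈ (chartAt E (β u)).source := mem_chart_source E (β u)
  have h1 : DifferentiableAt ℂ (chartAt E (β u) ∘ β) u :=
    (hasFDerivAt_chart hσ.1 hc).differentiableAt
  have h2 : DifferentiableAt ℂ (Pc P (β u)) ((chartAt E (β u) ∘ β) u) :=
    hP.B2b_diff ((chartAt E (β u)).map_source hc)
  have h3 : DifferentiableAt ℂ
      (fun t => Pc P (β u) (chartAt E (β u) (β t)) (tc E (β u) (β t) (σ t))) u :=
    (h2.comp u h1).clm_apply hσ.2
  refine h3.congr_of_eventuallyEq ?_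
  filter_upwards [B2b_ev hσ.1] with t ht
  rw [Pc_tc P ht]

theorem HolSec.Nt (hP : IsPF P) {β : F → X} {σ τ : F → E} {u : F} (hσ : HolSec E β σ u)
    (hτ : HolSec E β τ u) (h0 : ∀ᶠ t in 𝓝 u, P (β t) (σ t) = 0 ∧ P (β t) (τ t) = 0) :
    HolSec E β (fun t => Nt P (β t) (σ t) (τ t)) u := by
  refine ⟨hσ.1, ?_⟩
  have hc : β u ∈ (chartAt E (β u)).source := mem_chart_source E (β u)
  have h1 : DifferentiableAt ℂ (chartAt E (β u) ∘ β) u :=
    (hasFDerivAt_chart hσ.1 hc).differentiableAt
  have h2 : DifferentiableAt ℂ (fderiv ℂ (Pc P (β u))) ((chartAt E (β u) ∘ β) u) :=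
    hP.B2b_diff2 ((chartAt E (β u)).map_source hc)
  have h4 : DifferentiableAt ℂ
      (fun t => fderiv ℂ (Pc P (β u)) (chartAt E (β u) (β t))) u :=
    DifferentiableAt.comp (G := E →L[ℂ] E →L[ℂ] E) (g := fderiv ℂ (Pc P (β u)))
      (f := chartAt E (β u) ∘ β) u h2 h1
  have h3 : DifferentiableAt ℂ
      (fun t => fderiv ℂ (Pc P (β u)) (chartAt E (β u) (β t)) (tc E (β u) (β t) (σ t))
          (tc E (β u) (β t) (τ t)) -
        fderiv ℂ (Pc P (β u)) (chartAt E (β u) (β t)) (tc E (β u) (β t) (τ t))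
          (tc E (β u) (β t) (σ t))) u :=
    ((h4.clm_apply hσ.2).clm_apply hτ.2).sub ((h4.clm_apply hτ.2).clm_apply hσ.2)
  refine h3.congr_of_eventuallyEq ?_
  filter_upwards [B2b_ev hσ.1, h0] with t ht h0t
  rw [hP.tc_Nt ht h0t.1 h0t.2]

/-- the holomorphic functions whose vanishing is `NzC`. -/
def B2b_W (P : X → E →L[ℂ] E) (c : X) (a b : E) (y : E) : E :=
  fderiv ℂ (Pc P c) y (a - Pc P c y a) (b - Pc P c y b) -
    fderiv ℂ (Pc P c) y (b - Pc P c y b) (a - Pc P c y a)

theorem IsPF.B2b_nzC (hP : IsPF P) {c : X} {y : E} (hy : y ∈ (chartAt E c).target) :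
    NzC P c y ↔ ∀ a b, B2b_W P c a b y = 0 := by
  constructor
  · intro h a b
    refine sub_eq_zero.2 (h _ _ ?_ ?_)
    · rw [map_sub, hP.Pc_idem hy, sub_self]
    · rw [map_sub, hP.Pc_idem hy, sub_self]
  · intro h a b ha hb
    have := h a b
    simp only [B2b_W, ha, hb, sub_zero] at this
    exact sub_eq_zero.1 this

omit [IsManifold 𝓘(ℂ, E) ω X] in
theorem IsPF.B2b_W_diff (hP : IsPF P) {c : X} {y : E} (hy : y ∈ (chartAt E c).target) (a b : E) :
    DifferentiableAt ℂ (B2b_W P c a b) y := by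
  have h1 := hP.B2b_diff hy
  have h2 := hP.B2b_diff2 hy
  have h3 : ∀ v : E, DifferentiableAt ℂ (fun z => v - Pc P c z v) y := fun v =>
    (differentiableAt_const v).sub (h1.clm_apply (differentiableAt_const v))
  exact ((h2.clm_apply (h3 a)).clm_apply (h3 b)).sub ((h2.clm_apply (h3 b)).clm_apply (h3 a))

theorem IsPF.B2b_nzero (hP : IsPF P) {c x : X} (hc : x ∈ (chartAt E c).source) :
    Nzero P x ↔ ∀ a b, B2b_W P c a b (chartAt E c x) = 0 := by
  rw [← hP.nzC_iff hc, hP.B2b_nzC ((chartAt E c).map_source hc)]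

/-- in a chart, `Nzero` is the vanishing of the holomorphic functions
`y ↦ DP (Q a) (Q b) - DP (Q b) (Q a)`, `Q = 1 - Pc P c y`. -/
theorem IsPF.isClosed_nzero (hP : IsPF P) : IsClosed {x | Nzero P x} := by
  rw [← isOpen_compl_iff, isOpen_iff_mem_nhds]
  intro x hx
  have hc : x ∈ (chartAt E x).source := mem_chart_source E x
  have hx' : ¬ ∀ a b, B2b_W P x a b (chartAt E x x) = 0 := fun h => hx ((hP.B2b_nzero hc).2 h)
  push Not at hx'
  obtain ⟨a, b, hab⟩ := hx'
  have h1 : ContinuousAt (fun z => B2b_W P x a b (chartAt E x z)) x :=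
    ContinuousAt.comp (g := B2b_W P x a b) (f := chartAt E x)
      (hP.B2b_W_diff ((chartAt E x).map_source hc) a b).continuousAt
      ((chartAt E x).continuousAt hc)
  filter_upwards [h1.eventually_ne hab, (chartAt E x).open_source.mem_nhds hc] with z hz hzc
  exact fun h => hz ((hP.B2b_nzero hzc).1 h a b)

variable [FiniteDimensional ℂ F]

/-- identity theorem for the torsion along a holomorphic map. -/
theorem IsPF.nzero_of_eventually (hP : IsPF P) {M : Type} [TopologicalSpace M] [ChartedSpace F M]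
    [IsManifold 𝓘(ℂ, F) ω M] [PreconnectedSpace M] {f : M → X} (hf : ∀ y, HolAt F E f y) {y₀ : M}
    (h : ∀ᶠ y in 𝓝 y₀, Nzero P (f y)) (y : M) : Nzero P (f y) := by
  have : LocallyConnectedSpace M := ChartedSpace.locallyConnectedSpace F M
  have hS : IsClopen {z : M | ∀ᶠ w in 𝓝 z, Nzero P (f w)} := by
    refine ⟨?_, isOpen_setOfPred_eventually_nhds⟩
    rw [← closure_subset_iff_isClosed]
    intro z hz
    set c := f z
    have hc : f z ∈ (chartAt E c).source := mem_chart_source E c
    have hO : f ⁻¹' (chartAt E c).source ∈ 𝓝 z :=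
      (hf z).continuousAt.preimage_mem_nhds ((chartAt E c).open_source.mem_nhds hc)
    obtain ⟨U, ⟨hUo, hzU, hUc⟩, hUO⟩ := (LocallyConnectedSpace.open_connected_basis z).mem_iff.1 hO
    obtain ⟨w, hwU, hw⟩ := mem_closure_iff.1 hz U hUo hzU
    have key : ∀ a b, EqOn (B2b_W P c a b ∘ (chartAt E c ∘ f)) (fun _ => (0 : E)) U := by
      intro a b
      refine hol_eqOn (F := F) (E := E) hUo hUc.isPreconnected ?_ ?_ hwU ?_
      · intro t ht
        have h1 : HolAt E E (B2b_W P c a b) ((chartAt E c ∘ f) t) :=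
          holAt_self.2 (hP.B2b_W_diff ((chartAt E c).map_source (hUO ht)) a b)
        exact h1.comp t ((holAt_chart (hUO ht)).comp t (hf t))
      · intro t _
        exact mdifferentiableAt_const
      · filter_upwards [hw, hUo.mem_nhds hwU] with t ht htU
        exact (hP.B2b_nzero (hUO htU)).1 ht a b
    filter_upwards [hUo.mem_nhds hzU] with t ht
    exact (hP.B2b_nzero (hUO ht)).2 fun a b => key a b ht
  have hy : y ∈ {z : M | ∀ᶠ w in 𝓝 z, Nzero P (f w)} := by
    rw [hS.eq_univ ⟨y₀, h⟩]; trivial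
  exact Filter.Eventually.self_of_nhds (p := fun w => Nzero P (f w)) hy

/-- identity theorem for vertical tangency (`holSec_zero`, `holSec_md`, `HolSec.proj`). -/
theorem IsPF.vt_of_eventually (hP : IsPF P) {f : F → X} {U : Set F} (hU : IsOpen U)
    (hc : IsPreconnected U) (hf : HolOn F E f U) {y₀ : F} (hy₀ : y₀ ∈ U)
    (h : ∀ᶠ y in 𝓝 y₀, VT F P f y) : ∀ y ∈ U, VT F P f y := by
  intro y hy a
  refine holSec_zero (β := f) (σ := fun t => P (f t) (md F E f t a)) hU hc ?_ hy₀ ?_ y hy
  · intro u hu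
    refine HolSec.proj hP (holSec_md ?_ a)
    filter_upwards [hU.mem_nhds hu] with z hz using hf z hz
  · filter_upwards [h] with t ht using ht a

omit [IsManifold 𝓘(ℂ, E) ω X] in
theorem IsPF.B2b_trace (hP : IsPF P) (x : X) :
    LinearMap.trace ℂ E (P x : E →ₗ[ℂ] E) =
      (Module.finrank ℂ (LinearMap.range (P x : E →ₗ[ℂ] E)) : ℂ) := by
  refine LinearMap.IsProj.trace ⟨fun v => LinearMap.mem_range_self _ v, ?_⟩
  rintro _ ⟨v, rfl⟩
  exact hP.idem x v

theorem B2b_trace_Pc (P : X → E →L[ℂ] E) {c x : X} (hc : x ∈ (chartAt E c).source) :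
    LinearMap.trace ℂ E (Pc P c (chartAt E c x) : E →ₗ[ℂ] E) =
      LinearMap.trace ℂ E (P x : E →ₗ[ℂ] E) := by
  have h1 : (Pc P c (chartAt E c x) : E →ₗ[ℂ] E) =
      (tc E c x : E →ₗ[ℂ] E) ∘ₗ ((P x : E →ₗ[ℂ] E) ∘ₗ (ti E c (chartAt E c x) : E →ₗ[ℂ] E)) := by
    ext v
    simp [Pc, (chartAt E c).left_inv hc]
  rw [h1, LinearMap.trace_comp_comm']
  congr 1
  ext v
  simp [ti_tc hc]

/-- the rank is constant: the trace of `Pc P c y` is continuous and equals the rank. -/
theorem IsPF.finrank_ker_eq (hP : IsPF P) [PreconnectedSpace X] (x y : X) :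
    Module.finrank ℂ (LinearMap.ker (P x : E →ₗ[ℂ] E)) =
      Module.finrank ℂ (LinearMap.ker (P y : E →ₗ[ℂ] E)) := by
  have hlc : IsLocallyConstant fun z : X =>
      Module.finrank ℂ (LinearMap.range (P z : E →ₗ[ℂ] E)) := by
    rw [IsLocallyConstant.iff_eventually_eq]
    intro c
    have hc : c ∈ (chartAt E c).source := mem_chart_source E c
    let T : (E →L[ℂ] E) →ₗ[ℂ] ℂ := LinearMap.trace ℂ E ∘ₗ ContinuousLinearMap.coeLM ℂ
    have hT : Continuous T := T.continuous_of_finiteDimensional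
    have h1 : ContinuousAt (fun z => T (Pc P c (chartAt E c z))) c :=
      hT.continuousAt.comp (ContinuousAt.comp (g := Pc P c) (f := chartAt E c)
        (hP.B2b_diff ((chartAt E c).map_source hc)).continuousAt ((chartAt E c).continuousAt hc))
    have h2 : ∀ z ∈ (chartAt E c).source, T (Pc P c (chartAt E c z)) =
        (Module.finrank ℂ (LinearMap.range (P z : E →ₗ[ℂ] E)) : ℂ) := by
      intro z hz
      rw [← hP.B2b_trace z, ← B2b_trace_Pc P hz]
      rfl
    filter_upwards [Metric.tendsto_nhds.1 h1 1 one_pos, (chartAt E c).open_source.mem_nhds hc]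
      with z hz hzc
    rw [h2 z hzc, h2 c hc, Complex.dist_eq, ← Complex.ofReal_natCast, ← Complex.ofReal_natCast,
      ← Complex.ofReal_sub, Complex.norm_real, Real.norm_eq_abs, abs_lt] at hz
    have h3 : (Module.finrank ℂ (LinearMap.range (P z : E →ₗ[ℂ] E)) : ℝ) <
        (Module.finrank ℂ (LinearMap.range (P c : E →ₗ[ℂ] E)) : ℝ) + 1 := by linarith [hz.2]
    have h4 : (Module.finrank ℂ (LinearMap.range (P c : E →ₗ[ℂ] E)) : ℝ) <
        (Module.finrank ℂ (LinearMap.range (P z : E →ₗ[ℂ] E)) : ℝ) + 1 := by linarith [hz.1]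
    have h3' : Module.finrank ℂ (LinearMap.range (P z : E →ₗ[ℂ] E)) <
        Module.finrank ℂ (LinearMap.range (P c : E →ₗ[ℂ] E)) + 1 := by exact_mod_cast h3
    have h4' : Module.finrank ℂ (LinearMap.range (P c : E →ₗ[ℂ] E)) <
        Module.finrank ℂ (LinearMap.range (P z : E →ₗ[ℂ] E)) + 1 := by exact_mod_cast h4
    omega
  have h1 := hlc.apply_eq_of_preconnectedSpace x y
  have h2 := LinearMap.finrank_range_add_finrank_ker (P x : E →ₗ[ℂ] E)
  have h3 := LinearMap.finrank_range_add_finrank_ker (P y : E →ₗ[ℂ] E)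
  omega

end Crest.Agent.R266
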