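import Crest.Agent.R266.Basic2

/-! Row 266: bifoliated maps and product charts (no assumption on `P`). -/

set_option autoImplicit false
set_option linter.unusedSectionVars false

open Set Filter Topology Metric
open scoped Manifold ContDiff

noncomputable section
namespace Crest.Agent.R266

variable {E F A B A' B' A'' B'' : Type} [NormedAddCommGroup E] [NormedSpace ℂ E]
  [NormedAddCommGroup F] [NormedSpace ℂ F]
  [NormedAddCommGroup A] [NormedSpace ℂ A] [NormedAddCommGroup B] [NormedSpace ℂ B]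
  [NormedAddCommGroup A'] [NormedSpace ℂ A'] [NormedAddCommGroup B'] [NormedSpace ℂ B']
  [NormedAddCommGroup A''] [NormedSpace ℂ A''] [NormedAddCommGroup B''] [NormedSpace ℂ B'']
  {X : Type} [TopologicalSpace X] [ChartedSpace E X] {P : X → E →L[ℂ] E}
  {M : Type} [TopologicalSpace M] [ChartedSpace F M]

theorem VT.congr {f g : M → X} {y : M} (h : VT F P f y) (hfg : g =ᶠ[𝓝 y] f) : VT F P g y := by
  intro a
  rw [md_congr hfg, hfg.eq_of_nhds]
  exact h a

theorem HT.congr {f g : M → X} {y : M} (h : HT F P f y) (hfg : g =ᶠ[𝓝 y] f) : HT F P g y := by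
  intro a
  rw [md_congr hfg, hfg.eq_of_nhds]
  exact h a

theorem Bif.congr {φ ψ : A' × B' → X} {y : A' × B'} (h : Bif P φ y) (hfg : ψ =ᶠ[𝓝 y] φ) :
    Bif P ψ y := by
  unfold Bif
  rw [md_congr hfg, hfg.eq_of_nhds]
  exact h

theorem VT.comp {G : Type} [NormedAddCommGroup G] [NormedSpace ℂ G] {Z : Type} [TopologicalSpace Z]
    [ChartedSpace G Z] {f : M → X} {h : Z → M} {z : Z} (hf : HolAt F E f (h z))
    (hv : VT F P f (h z)) (hh : HolAt G F h z) : VT G P (f ∘ h) z := by
  intro a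
  rw [md_comp_apply hf hh]
  exact hv _

theorem HT.comp {G : Type} [NormedAddCommGroup G] [NormedSpace ℂ G] {Z : Type} [TopologicalSpace Z]
    [ChartedSpace G Z] {f : M → X} {h : Z → M} {z : Z} (hf : HolAt F E f (h z))
    (hv : HT F P f (h z)) (hh : HolAt G F h z) : HT G P (f ∘ h) z := by
  intro a
  rw [md_comp_apply hf hh]
  exact hv _

/-- composition with a product map. -/
theorem Bif.comp_prod {φ : A' × B' → X} {α : A'' → A'} {β : B'' → B'} {y : A'' × B''}
    (hφ : HolAt (A' × B') E φ (α y.1, β y.2)) (hb : Bif P φ (α y.1, β y.2))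
    (hα : DifferentiableAt ℂ α y.1) (hβ : DifferentiableAt ℂ β y.2) :
    HolAt (A'' × B'') E (fun q : A'' × B'' => φ (α q.1, β q.2)) y ∧
      Bif P (fun q : A'' × B'' => φ (α q.1, β q.2)) y := by
  have hd : HasFDerivAt (fun q : A'' × B'' => (α q.1, β q.2))
      (((fderiv ℂ α y.1).comp (ContinuousLinearMap.fst ℂ A'' B'')).prod
        ((fderiv ℂ β y.2).comp (ContinuousLinearMap.snd ℂ A'' B''))) y :=
    (hα.hasFDerivAt.comp y hasFDerivAt_fst).prodMk (hβ.hasFDerivAt.comp y hasFDerivAt_snd)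
  have hh : HolAt (A'' × B'') (A' × B') (fun q : A'' × B'' => (α q.1, β q.2)) y :=
    holAt_self.2 hd.differentiableAt
  have hm : ∀ v, md (A'' × B'') E (fun q : A'' × B'' => φ (α q.1, β q.2)) y v =
      md (A' × B') E φ (α y.1, β y.2) (fderiv ℂ α y.1 v.1, fderiv ℂ β y.2 v.2) := by
    intro v
    have := md_comp_apply (g := φ) (f := fun q : A'' × B'' => (α q.1, β q.2)) (y := y) hφ hh v
    rw [md_self, hd.fderiv] at this
    exact this
  refine ⟨MDifferentiableAt.comp (g := φ) (f := fun q : A'' × B'' => (α q.1, β q.2)) y hφ hh,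
    fun a => ?_, fun b => ?_⟩
  · rw [hm]
    simp only [map_zero]
    exact hb.1 _
  · rw [hm]
    simp only [map_zero]
    exact hb.2 _

theorem Bif.ht {φ : A' × B' → X} {a : A'} {b : B'} (hφ : HolAt (A' × B') E φ (a, b))
    (hb : Bif P φ (a, b)) : HolAt A' E (fun z => φ (z, b)) a ∧ HT A' P (fun z => φ (z, b)) a := by
  have hd : HasFDerivAt (fun z : A' => (z, b)) (ContinuousLinearMap.inl ℂ A' B') a :=
    hasFDerivAt_prodMk_left a b
  have hh : HolAt A' (A' × B') (fun z : A' => (z, b)) a := holAt_self.2 hd.differentiableAt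
  refine ⟨MDifferentiableAt.comp (g := φ) (f := fun z : A' => (z, b)) a hφ hh, fun v => ?_⟩
  have := md_comp_apply (g := φ) (f := fun z : A' => (z, b)) (y := a) hφ hh v
  rw [md_self, hd.fderiv] at this
  have e : md A' E (fun z => φ (z, b)) a v = md (A' × B') E φ (a, b) (v, 0) := this
  rw [e]
  exact hb.1 v

theorem Bif.vt {φ : A' × B' → X} {a : A'} {b : B'} (hφ : HolAt (A' × B') E φ (a, b))
    (hb : Bif P φ (a, b)) : HolAt B' E (fun w => φ (a, w)) b ∧ VT B' P (fun w => φ (a, w)) b := by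
  have hd : HasFDerivAt (fun w : B' => (a, w)) (ContinuousLinearMap.inr ℂ A' B') b :=
    hasFDerivAt_prodMk_right a b
  have hh : HolAt B' (A' × B') (fun w : B' => (a, w)) b := holAt_self.2 hd.differentiableAt
  refine ⟨MDifferentiableAt.comp (g := φ) (f := fun w : B' => (a, w)) b hφ hh, fun v => ?_⟩
  have := md_comp_apply (g := φ) (f := fun w : B' => (a, w)) (y := b) hφ hh v
  rw [md_self, hd.fderiv] at this
  have e : md B' E (fun w => φ (a, w)) b v = md (A' × B') E φ (a, b) (0, v) := this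
  rw [e]
  exact hb.2 v

theorem Bif.swap {φ : A' × B' → X} {a : A'} {b : B'} (hφ : HolAt (A' × B') E φ (a, b))
    (hb : Bif P φ (a, b)) :
    HolAt (B' × A') E (φ ∘ Prod.swap) (b, a) ∧ Bif (sw P) (φ ∘ Prod.swap) (b, a) := by
  have hd : HasFDerivAt (Prod.swap : B' × A' → A' × B')
      ((ContinuousLinearMap.snd ℂ B' A').prod (ContinuousLinearMap.fst ℂ B' A')) (b, a) :=
    hasFDerivAt_snd.prodMk hasFDerivAt_fst
  have hh : HolAt (B' × A') (A' × B') (Prod.swap : B' × A' → A' × B') (b, a) :=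
    holAt_self.2 hd.differentiableAt
  have hm : ∀ v : B' × A', md (B' × A') E (φ ∘ Prod.swap) (b, a) v =
      md (A' × B') E φ (a, b) (v.2, v.1) := by
    intro v
    have := md_comp_apply (g := φ) (f := (Prod.swap : B' × A' → A' × B')) (y := (b, a)) hφ hh v
    rw [md_self, hd.fderiv] at this
    exact this
  refine ⟨MDifferentiableAt.comp (g := φ) (f := (Prod.swap : B' × A' → A' × B')) (b, a) hφ hh,
    fun v => ?_, fun v => ?_⟩
  · rw [hm, sw_apply]
    have : P ((φ ∘ Prod.swap) (b, a)) (md (A' × B') E φ (a, b) (0, v)) = 0 := hb.2 v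
    rw [this, sub_zero]
  · rw [hm, sw_apply]
    have : P ((φ ∘ Prod.swap) (b, a)) (md (A' × B') E φ (a, b) (v, 0)) =
        md (A' × B') E φ (a, b) (v, 0) := hb.1 v
    rw [this, sub_self]

theorem Cross.swap (h : Cross A' B' P) : Cross B' A' (sw P) := by
  intro G₁ G₂ a₀ b₀ r s hr hs h₁ h₂ h0
  obtain ⟨φ, hφ, e₁, e₂⟩ := h G₂ G₁ b₀ a₀ s r hs hr
    (fun z hz => ⟨(h₂ z hz).1, HT_iff_sw.2 (h₂ z hz).2⟩)
    (fun w hw => ⟨(h₁ w hw).1, VT_iff_sw.2 (h₁ w hw).2⟩) h0.symm
  refine ⟨φ ∘ Prod.swap, ?_, fun z hz => e₂ z hz, fun w hw => e₁ w hw⟩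
  rintro ⟨b, a⟩ ⟨hb, ha⟩
  exact Bif.swap (hφ (a, b) ⟨ha, hb⟩).1 (hφ (a, b) ⟨ha, hb⟩).2

/-- the chart `e` followed by the swap of the factors. -/
def swC (e : OpenPartialHomeomorph X (A × B)) : OpenPartialHomeomorph X (B × A) :=
  e.transHomeomorph (Homeomorph.prodComm A B)

@[simp] theorem swC_apply (e : OpenPartialHomeomorph X (A × B)) (x : X) :
    swC e x = (e x).swap := rfl

@[simp] theorem swC_source (e : OpenPartialHomeomorph X (A × B)) : (swC e).source = e.source := rfl

@[simp] theorem swC_symm_apply (e : OpenPartialHomeomorph X (A × B)) (y : B × A) :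
    (swC e).symm y = e.symm y.swap := rfl

theorem IsPC.swap {e : OpenPartialHomeomorph X (A × B)} (he : IsPC P e) : IsPC (sw P) (swC e) := by
  have hd : ∀ y : A × B, HasFDerivAt (Prod.swap : A × B → B × A)
      ((ContinuousLinearMap.snd ℂ A B).prod (ContinuousLinearMap.fst ℂ A B)) y :=
    fun y => hasFDerivAt_snd.prodMk hasFDerivAt_fst
  have hh : ∀ y : A × B, HolAt (A × B) (B × A) (Prod.swap : A × B → B × A) y :=
    fun y => holAt_self.2 (hd y).differentiableAt
  have hh' : ∀ y : B × A, HolAt (B × A) (A × B) (Prod.swap : B × A → A × B) y :=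
    fun y => holAt_self.2 (differentiableAt_snd.prodMk differentiableAt_fst)
  have ht : ∀ y : B × A, y ∈ (swC e).target ↔ y.swap ∈ e.target := fun y => Iff.rfl
  have hm : ∀ x ∈ e.source, ∀ v, md E (B × A) (swC e) x v = (md E (A × B) e x v).swap := by
    intro x hx v
    have := md_comp_apply (g := (Prod.swap : A × B → B × A)) (f := e) (y := x) (hh _)
      (he.hol x hx) v
    rw [md_self, (hd _).fderiv] at this
    exact this
  refine ⟨?_, fun x hx => ?_, fun y hy => ?_, fun x hx v => ?_⟩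
  · ext y
    rw [ht, he.target_eq, mem_ball_zero_iff, mem_ball_zero_iff, Prod.norm_def, Prod.norm_def,
      max_comm]
    rfl
  · exact MDifferentiableAt.comp (g := (Prod.swap : A × B → B × A)) (f := e) x (hh _)
      (he.hol x hx)
  · exact MDifferentiableAt.comp (g := e.symm) (f := (Prod.swap : B × A → A × B)) y
      (he.hol_symm _ ((ht y).1 hy)) (hh' y)
  · rw [hm x hx, hm x hx, sw_apply, map_sub, he.compat x hx]
    ext <;> simp

theorem HasPC.swap (h : HasPC A B P) : HasPC B A (sw P) := by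
  intro x
  obtain ⟨e, he, hx, h0⟩ := h x
  refine ⟨swC e, he.swap, hx, ?_⟩
  rw [swC_apply, h0]
  rfl

theorem IsPC.mem_target {e : OpenPartialHomeomorph X (A × B)} (he : IsPC P e) {y : A × B} :
    y ∈ e.target ↔ ‖y.1‖ < 1 ∧ ‖y.2‖ < 1 := by
  rw [he.target_eq, mem_ball_zero_iff, Prod.norm_def, max_lt_iff]

theorem IsPC.md_injective {e : OpenPartialHomeomorph X (A × B)} (he : IsPC P e) {x : X}
    (hx : x ∈ e.source) : Function.Injective (md E (A × B) e x) := by
  have h1 : (e.symm ∘ e : X → X) =ᶠ[𝓝 x] id := by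
    filter_upwards [e.open_source.mem_nhds hx] with z hz
    exact e.left_inv hz
  have h2 : ∀ v, md (A × B) E e.symm (e x) (md E (A × B) e x v) = v := by
    intro v
    rw [← md_comp_apply (he.hol_symm _ (e.map_source hx)) (he.hol x hx), md_congr h1, md_id]
    rfl
  exact Function.LeftInverse.injective h2

/-- the inverse of a product chart is bifoliated. -/
theorem IsPC.bifOn_symm {e : OpenPartialHomeomorph X (A × B)} (he : IsPC P e) :
    BifOn P e.symm e.target := by
  intro y hy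
  have hx : e.symm y ∈ e.source := e.map_target hy
  have h1 : (e ∘ e.symm : A × B → A × B) =ᶠ[𝓝 y] id := by
    filter_upwards [e.open_target.mem_nhds hy] with z hz
    exact e.right_inv hz
  have h2 : ∀ v, md E (A × B) e (e.symm y) (md (A × B) E e.symm y v) = v := by
    intro v
    rw [← md_comp_apply (he.hol _ hx) (he.hol_symm y hy), md_congr h1, md_id]
    rfl
  refine ⟨he.hol_symm y hy, fun a => he.md_injective hx ?_, fun b => he.md_injective hx ?_⟩
  · rw [he.compat _ hx, h2]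
  · rw [he.compat _ hx, h2, map_zero]
    rfl

private theorem b3_const {C : Type} [NormedAddCommGroup C] [NormedSpace ℂ C]
    {e : OpenPartialHomeomorph X (A × B)} (he : IsPC P e) {f : F → X} (L : A × B →L[ℂ] C)
    {U : Set F} (hU : IsOpen U) (hc : IsPreconnected U) (hf : ∀ y ∈ U, HolAt F E f y)
    (h0 : ∀ y ∈ U, ∀ a, L (md E (A × B) e (f y) (md F E f y a)) = 0) (hm : MapsTo f U e.source)
    {y y' : F} (hy : y ∈ U) (hy' : y' ∈ U) : L (e (f y)) = L (e (f y')) := by
  have hd : ∀ z ∈ U, HasFDerivAt (fun z => L (e (f z))) (0 : F →L[ℂ] C) z := by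
    intro z hz
    have h1 : HolAt F (A × B) (e ∘ f) z := (he.hol _ (hm hz)).comp z (hf z hz)
    have h2 := L.hasFDerivAt.comp z (holAt_self.1 h1).hasFDerivAt
    refine h2.congr_fderiv (ContinuousLinearMap.ext fun a => ?_)
    rw [← md_self, ContinuousLinearMap.comp_apply, md_comp_apply (he.hol _ (hm hz)) (hf z hz)]
    exact h0 z hz a
  exact hU.is_const_of_fderiv_eq_zero (𝕜 := ℂ) hc
    (fun z hz => (hd z hz).differentiableAt.differentiableWithinAt)
    (fun z hz => (hd z hz).fderiv) hy hy'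

/-- the first coordinate is constant along vertical maps (on convex sets; mean value theorem). -/
theorem IsPC.fst_eq_of_vt {e : OpenPartialHomeomorph X (A × B)} (he : IsPC P e) {f : F → X}
    {U : Set F} (hU : IsOpen U) (hc : IsPreconnected U)
    (hf : ∀ y ∈ U, HolAt F E f y ∧ VT F P f y) (hm : MapsTo f U e.source) {y y' : F} (hy : y ∈ U)
    (hy' : y' ∈ U) : (e (f y)).1 = (e (f y')).1 := by
  refine b3_const he (ContinuousLinearMap.fst ℂ A B) hU hc (fun z hz => (hf z hz).1)
    (fun z hz a => ?_) hm hy hy'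
  have h := he.compat _ (hm hz) (md F E f z a)
  rw [(hf z hz).2 a, map_zero] at h
  exact (congrArg Prod.fst h).symm

/-- the second coordinate is constant along horizontal maps. -/
theorem IsPC.snd_eq_of_ht {e : OpenPartialHomeomorph X (A × B)} (he : IsPC P e) {f : F → X}
    {U : Set F} (hU : IsOpen U) (hc : IsPreconnected U)
    (hf : ∀ y ∈ U, HolAt F E f y ∧ HT F P f y) (hm : MapsTo f U e.source) {y y' : F} (hy : y ∈ U)
    (hy' : y' ∈ U) : (e (f y)).2 = (e (f y')).2 := by
  refine b3_const he (ContinuousLinearMap.snd ℂ A B) hU hc (fun z hz => (hf z hz).1)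
    (fun z hz a => ?_) hm hy hy'
  have h := he.compat _ (hm hz) (md F E f z a)
  rw [(hf z hz).2 a] at h
  exact congrArg Prod.snd h

/-- local product structure of a bifoliated map. -/
theorem IsPC.local_prod {e : OpenPartialHomeomorph X (A × B)} (he : IsPC P e)
    {φ : A' × B' → X} {y : A' × B'} (hφ : ∀ᶠ q in 𝓝 y, HolAt (A' × B') E φ q ∧ Bif P φ q)
    (hy : φ y ∈ e.source) :
    ∀ᶠ q in 𝓝 y, φ q = e.symm ((e (φ (q.1, y.2))).1, (e (φ (y.1, q.2))).2) := by
  have hs : ∀ᶠ q in 𝓝 y, φ q ∈ e.source :=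
    hφ.self_of_nhds.1.continuousAt.preimage_mem_nhds (e.open_source.mem_nhds hy)
  obtain ⟨ε, hε, hb⟩ := Metric.eventually_nhds_iff_ball.1 (hφ.and hs)
  have hm : ∀ a ∈ ball y.1 ε, ∀ b ∈ ball y.2 ε, (a, b) ∈ ball y ε := fun a ha b hb => by
    rw [← ball_prod_same]
    exact ⟨ha, hb⟩
  filter_upwards [ball_mem_nhds y hε] with q hq
  have hq' := hq
  rw [← ball_prod_same] at hq'
  have h1 := he.fst_eq_of_vt (f := fun w => φ (q.1, w)) isOpen_ball
    (convex_ball y.2 ε).isPreconnected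
    (fun w hw => (hb _ (hm _ hq'.1 _ hw)).1.2.vt (hb _ (hm _ hq'.1 _ hw)).1.1)
    (fun w hw => (hb _ (hm _ hq'.1 _ hw)).2) hq'.2 (mem_ball_self hε)
  have h2 := he.snd_eq_of_ht (f := fun z => φ (z, q.2)) isOpen_ball
    (convex_ball y.1 ε).isPreconnected
    (fun z hz => (hb _ (hm _ hz _ hq'.2)).1.2.ht (hb _ (hm _ hz _ hq'.2)).1.1)
    (fun z hz => (hb _ (hm _ hz _ hq'.2)).2) hq'.1 (mem_ball_self hε)
  rw [← h1, ← h2]
  exact (e.left_inv (hb q hq).2).symm

/-- transitions between product charts are locally products. -/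
theorem IsPC.trans_fst {e e' : OpenPartialHomeomorph X (A × B)} (he : IsPC P e) (he' : IsPC P e')
    {x : X} (hx : x ∈ e.source) (hx' : x ∈ e'.source) :
    ∀ᶠ z in 𝓝 x, (e' z).1 = (e' (e.symm ((e z).1, (e x).2))).1 ∧
      e.symm ((e z).1, (e x).2) = e'.symm ((e' z).1, (e' x).2) := by
  have hx0 : e.symm (e x) ∈ e'.source := by rwa [e.left_inv hx]
  have ht : e.target ∈ 𝓝 (e x) := e.open_target.mem_nhds (e.map_source hx)
  have hl := he'.local_prod (φ := e.symm) (y := e x)
    (mem_of_superset ht fun q hq => he.bifOn_symm q hq) hx0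
  have hs : ∀ᶠ q in 𝓝 (e x), e.symm q ∈ e'.source :=
    (e.continuousAt_symm (e.map_source hx)).preimage_mem_nhds (e'.open_source.mem_nhds hx0)
  have c0 : Tendsto e (𝓝 x) (𝓝 (e x)) := e.continuousAt hx
  have c1 : Tendsto (fun z => ((e z).1, (e x).2)) (𝓝 x) (𝓝 (e x)) :=
    (c0.fst_nhds).prodMk_nhds tendsto_const_nhds
  have c2 : Tendsto (fun z => ((e x).1, (e z).2)) (𝓝 x) (𝓝 (e x)) :=
    tendsto_const_nhds.prodMk_nhds c0.snd_nhds
  filter_upwards [c0.eventually hl, c1.eventually hl, c1.eventually hs, c2.eventually hs,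
    e.open_source.mem_nhds hx] with z h1 h2 h3 h4 h5
  rw [e.left_inv h5] at h1
  have h6 : (e' z).1 = (e' (e.symm ((e z).1, (e x).2))).1 := by
    have h7 := congrArg e' h1
    have h8 : ((e' (e.symm ((e z).1, (e x).2))).1, (e' (e.symm ((e x).1, (e z).2))).2) ∈ e'.target :=
      he'.mem_target.2 ⟨(he'.mem_target.1 (e'.map_source h3)).1,
        (he'.mem_target.1 (e'.map_source h4)).2⟩
    rw [e'.right_inv h8] at h7
    rw [h7]
  refine ⟨h6, ?_⟩
  rw [h6]
  simpa only [Prod.mk.eta, e.left_inv hx] using h2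

variable [IsManifold 𝓘(ℂ, E) ω X] [FiniteDimensional ℂ E] [FiniteDimensional ℂ A]
  [FiniteDimensional ℂ B] [FiniteDimensional ℂ A'] [FiniteDimensional ℂ B'] [T2Space X]

/-- a bifoliated map is determined by its germs along a cross (`local_prod`, `hol_eqOn`). -/
theorem bif_unique (hPC : HasPC A B P) {φ ψ : A' × B' → X} {G : Set (A' × B')} (hG : IsOpen G)
    (hc : IsPreconnected G) (hφ : BifOn P φ G) (hψ : BifOn P ψ G) {y : A' × B'} (hy : y ∈ G)
    (h₁ : ∀ᶠ z in 𝓝 y.1, φ (z, y.2) = ψ (z, y.2)) (h₂ : ∀ᶠ w in 𝓝 y.2, φ (y.1, w) = ψ (y.1, w)) :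
    EqOn φ ψ G := by
  have h0 : φ y = ψ y := h₁.self_of_nhds
  obtain ⟨e, he, hx, -⟩ := hPC (φ y)
  have hn := hG.mem_nhds hy
  refine hol_eqOn (F := A' × B') (E := E) hG hc (fun q hq => (hφ q hq).1) (fun q hq => (hψ q hq).1)
    hy ?_
  filter_upwards [he.local_prod (mem_of_superset hn fun q hq => hφ q hq) hx,
    he.local_prod (mem_of_superset hn fun q hq => hψ q hq) (h0 ▸ hx),
    continuous_fst.continuousAt.eventually h₁, continuous_snd.continuousAt.eventually h₂]
    with q a1 a2 a3 a4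
  rw [a1, a2, a3, a4]

/-- a germ with bijective differential carrying `P` to the first projection gives a centred product
chart (`exists_local_inv`, restrict to the preimage of a small ball, rescale). -/
theorem exists_isPC_of_germ {f : X → A × B} {x : X}
    (hf : ∀ᶠ z in 𝓝 x, HolAt E (A × B) f z ∧
      ∀ v, md E (A × B) f z (P z v) = ((md E (A × B) f z v).1, 0))
    (hb : Function.Bijective (md E (A × B) f x)) :
    ∃ e : OpenPartialHomeomorph X (A × B), IsPC P e ∧ x ∈ e.source ∧ e x = 0 := by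
  obtain ⟨e, hx, hO, hef, h1, h2⟩ := exists_local_inv (hf.mono fun z hz => hz.1) hb hf
  have hef' : ⇑e = f := funext hef
  obtain ⟨r, hr, hball⟩ := Metric.isOpen_iff.1 e.open_target (e x) (e.map_source hx)
  have hr' : (r : ℂ) ≠ 0 := by exact_mod_cast hr.ne'
  let h : (A × B) ≃ₜ (A × B) :=
    (Homeomorph.subRight (e x)).trans (Homeomorph.smulOfNeZero (r : ℂ)⁻¹ (inv_ne_zero hr'))
  have hh : ∀ y, h y = (r : ℂ)⁻¹ • (y - e x) := fun _ => rfl
  have hs : ∀ y, h.symm y = (r : ℂ) • y + e x := fun y => by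
    rw [Homeomorph.symm_apply_eq, hh, add_sub_cancel_right, inv_smul_smul₀ hr']
  have hmem : ∀ y, h.symm y ∈ ball (e x) r ↔ y ∈ ball (0 : A × B) 1 := fun y => by
    rw [hs, mem_ball_iff_norm, add_sub_cancel_right, norm_smul, Complex.norm_real,
      Real.norm_of_nonneg hr.le, mem_ball_zero_iff, mul_lt_iff_lt_one_right hr]
  have hd : ∀ y, HasFDerivAt h ((r : ℂ)⁻¹ • ContinuousLinearMap.id ℂ (A × B)) y := fun y =>
    ((hasFDerivAt_id y).sub_const (e x)).const_smul (r : ℂ)⁻¹
  have hd' : ∀ y, DifferentiableAt ℂ h.symm y := fun y => by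
    rw [show ⇑h.symm = fun y => (r : ℂ) • y + e x from funext hs]
    fun_prop
  let k := h.toOpenPartialHomeomorph.restrOpen (ball (e x) r) isOpen_ball
  have htar : (e.trans k).target = ball 0 1 := by
    ext y
    constructor
    · intro hy
      exact (hmem y).1 hy.1.2
    · intro hy
      exact ⟨⟨mem_univ _, (hmem y).2 hy⟩, hball ((hmem y).2 hy)⟩
  refine ⟨e.trans k, ⟨htar, fun z hz => ?_, fun y hy => ?_, fun z hz v => ?_⟩,
    ⟨hx, mem_univ _, mem_ball_self hr⟩, ?_⟩
  · exact (holAt_self.2 (hd _).differentiableAt).comp z (h1 z hz.1)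
  · exact (h2 _ hy.2).comp y (holAt_self.2 (hd' y))
  · have e1 : ∀ w, md E (A × B) (e.trans k) z w = (r : ℂ)⁻¹ • md E (A × B) f z w := fun w => by
      have := md_comp_apply (holAt_self.2 (hd (e z)).differentiableAt) (h1 z hz.1) w
      rw [md_self, (hd _).fderiv, hef'] at this
      rw [← hef'] at this ⊢
      exact this
    rw [e1, e1, (hO hz.1).2 v]
    simp
  · show h (e x) = 0
    rw [hh, sub_self, smul_zero]

end Crest.Agent.R266
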