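import Crest.Agent.R266.Basic2

/-! Row 266: from the statement's `Splitting` to `IsPF`, `Nzero`. -/

set_option autoImplicit false
set_option linter.unusedSectionVars false

open Set Filter Topology Metric
open scoped Manifold ContDiff

noncomputable section
namespace Crest.Agent.R266

open Crest.AlgGeometry.HolSplit

variable {n : ℕ} {X : Type} [TopologicalSpace X] [ChartedSpace (Model n) X]
  [IsManifold (mI n) ω X]

/-- the projection field of a splitting. -/
def spP (S : Splitting n X) : X → Model n →L[ℂ] Model n := fun x => S.proj x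

theorem Br1_triv {c x : X} (hx : x ∈ (chartAt (Model n) c).source) (v : Model n) :
    ((trivializationAt (Model n) (TangentSpace (mI n)) c) ⟨x, v⟩).2 = tc (Model n) c x v := by
  have h1 := TangentBundle.continuousLinearMapAt_trivializationAt (I := mI n) (x₀ := c) hx
  have h2 := (trivializationAt (Model n) (TangentSpace (mI n)) c).continuousLinearMapAt_apply_of_mem
    ℂ (b := x) (by simpa using hx) v
  rw [← h2, h1]
  rfl

/-- a vector field on an open subset of a chart domain is holomorphic iff its chart expression is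
(`contMDiffOn_section_of_mem_baseSet` / `Trivialization.contMDiffOn_section_iff` for the tangent
bundle trivialization at `c`, whose fibre component is `tc c x`). -/
theorem holVF_iff {U : Set X} (hU : IsOpen U) {c : X} (hc : U ⊆ (chartAt (Model n) c).source)
    (V : X → Model n) :
    IsHolVectorFieldOn (n := n) U V ↔ DifferentiableOn ℂ
      (fun y => tc (Model n) c ((chartAt (Model n) c).symm y) (V ((chartAt (Model n) c).symm y)))
      (chartAt (Model n) c '' U) := by
  have h1 := Bundle.Trivialization.contMDiffOn_section_iff (E := TangentSpace (mI n))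
    (IB := mI n) (n := ω) (s := V) (trivializationAt (Model n) (TangentSpace (mI n)) c) hU
    (by simpa using hc)
  have h2 : ContMDiffOn (mI n) 𝓘(ℂ, Model n) ω
      (fun x => ((trivializationAt (Model n) (TangentSpace (mI n)) c) ⟨x, V x⟩).2) U ↔
      ContMDiffOn (mI n) 𝓘(ℂ, Model n) ω (fun x => tc (Model n) c x (V x)) U :=
    contMDiffOn_congr (fun x hx => Br1_triv (hc hx) (V x))
  refine Iff.trans h1 (h2.trans ?_)
  have hO : IsOpen (chartAt (Model n) c '' U) :=
    (chartAt (Model n) c).isOpen_image_of_subset_source hU hc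
  constructor
  · rintro h _ ⟨x, hx, rfl⟩
    have h3 : HolAt (Model n) (Model n) (fun x => tc (Model n) c x (V x))
        ((chartAt (Model n) c).symm (chartAt (Model n) c x)) := by
      rw [(chartAt (Model n) c).left_inv (hc hx)]
      exact ((h x hx).contMDiffAt (hU.mem_nhds hx)).mdifferentiableAt (by simp)
    have h4 := MDifferentiableAt.comp (chartAt (Model n) c x) h3
      (holAt_chart_symm ((chartAt (Model n) c).map_source (hc hx)))
    exact (holAt_self.1 h4).differentiableWithinAt
  · intro h x hx
    refine (contMDiffAt_of_hol (E := Model n) (F := Model n) ?_).contMDiffWithinAt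
    filter_upwards [hU.mem_nhds hx] with z hz
    have h3 : HolAt (Model n) (Model n)
        (fun y => tc (Model n) c ((chartAt (Model n) c).symm y) (V ((chartAt (Model n) c).symm y)))
        (chartAt (Model n) c z) :=
      holAt_self.2 ((h _ ⟨z, hz, rfl⟩).differentiableAt (hO.mem_nhds ⟨z, hz, rfl⟩))
    have h4 := MDifferentiableAt.comp z h3 (holAt_chart (hc hz))
    refine holAt_congr h4 ?_
    filter_upwards [(chartAt (Model n) c).open_source.mem_nhds (hc hz)] with w hw
    simp only [Function.comp_apply, (chartAt (Model n) c).left_inv hw]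

/-- apply `S.holomorphic` to the fields `x ↦ ti c (chart x) a`; a map into `E →L E` is
differentiable iff its values on each vector are (`differentiableOn_clm_apply`). -/
theorem spP_isPF (S : Splitting n X) : IsPF (spP S) := by
  refine ⟨fun x v => S.idem x v, fun c => ?_⟩
  have hO := (chartAt (Model n) c).open_source
  have hT := (chartAt (Model n) c).open_target
  have key : ∀ a : Model n, DifferentiableOn ℂ (fun y => Pc (spP S) c y a)
      (chartAt (Model n) c).target := by
    intro a
    have h1 : IsHolVectorFieldOn (n := n) (chartAt (Model n) c).source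
        (fun x => ti (Model n) c (chartAt (Model n) c x) a) := by
      rw [holVF_iff hO subset_rfl, (chartAt (Model n) c).image_source_eq_target]
      refine (differentiableOn_const a).congr fun y hy => ?_
      exact tc_ti ((chartAt (Model n) c).map_target hy) a
    have h2 := S.holomorphic _ hO _ h1
    have h3 := (holVF_iff hO subset_rfl
      (fun x => spP S x (ti (Model n) c (chartAt (Model n) c x) a))).1 h2
    rw [(chartAt (Model n) c).image_source_eq_target] at h3
    refine h3.congr fun y hy => ?_
    simp only [Pc, ContinuousLinearMap.comp_apply, (chartAt (Model n) c).right_inv hy]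
  have h4 : ContDiffOn ℂ 1 (Pc (spP S) c) (chartAt (Model n) c).target :=
    contDiffOn_clm_apply.2 fun a =>
      (Crest.Agent.R264.SCV.analyticOnNhd hT (key a)).contDiffOn_of_completeSpace
  exact h4.differentiableOn one_ne_zero

theorem Br1_pull (V : X → Model n) (x : X) :
    (VectorField.mpullbackWithin 𝓘(ℂ, Model n) (mI n) (extChartAt (mI n) x).symm V
      (range (mI n)) : Model n → Model n) =ᶠ[𝓝 (chartAt (Model n) x x)]
      fun y => tc (Model n) x ((chartAt (Model n) x).symm y) (V ((chartAt (Model n) x).symm y)) := by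
  filter_upwards [(chartAt (Model n) x).open_target.mem_nhds
    ((chartAt (Model n) x).map_source (mem_chart_source _ x))] with y hy
  have hs := (chartAt (Model n) x).map_target hy
  have h1 : (ti (Model n) x y).inverse = tc (Model n) x ((chartAt (Model n) x).symm y) := by
    apply ContinuousLinearMap.inverse_eq
    · ext1 v
      have := ti_tc hs v
      rw [(chartAt (Model n) x).right_inv hy] at this
      exact this
    · ext1 v
      have := tc_ti hs v
      rw [(chartAt (Model n) x).right_inv hy] at this
      exact this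
  have h2 : range (mI n) = univ := by simp
  have h3 : (mfderivWithin 𝓘(ℂ, Model n) (mI n) (extChartAt (mI n) x).symm (range (mI n)) y :
      Model n →L[ℂ] Model n) = ti (Model n) x y := by
    rw [h2, mfderivWithin_univ]; rfl
  rw [← h1, ← h3]
  rfl

/-- the bracket at `x` in the chart at `x`: `mlieBracket V W x = DŴ (V x) - DV̂ (W x)`, where
`V̂ y = tc x (chart.symm y) (V (chart.symm y))` (unfold `mlieBracketWithin`, `mpullback`;
the inverse of `ti x y` is `tc x (chart.symm y)`). -/
theorem mlieBracket_eq (V W : X → Model n) (x : X) :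
    (VectorField.mlieBracket (mI n) V W x : Model n) =
      fderiv ℂ (fun y => tc (Model n) x ((chartAt (Model n) x).symm y)
          (W ((chartAt (Model n) x).symm y))) (chartAt (Model n) x x) (V x) -
        fderiv ℂ (fun y => tc (Model n) x ((chartAt (Model n) x).symm y)
          (V ((chartAt (Model n) x).symm y))) (chartAt (Model n) x x) (W x) := by
  have h2 : range (mI n) = univ := by simp
  have hV := Br1_pull V x
  have hW := Br1_pull W x
  have h0 : (chartAt (Model n) x).symm (chartAt (Model n) x x) = x :=
    (chartAt (Model n) x).left_inv (mem_chart_source _ x)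
  have hV0 := hV.self_of_nhds
  have hW0 := hW.self_of_nhds
  simp only [h0, tc_self, ContinuousLinearMap.id_apply] at hV0 hW0
  have e2 : (extChartAt (mI n) x).symm ⁻¹' univ ∩ range (mI n) = univ := by
    rw [h2]; simp
  have key : ∀ (V' W' V₁ W₁ : Model n → Model n) (s : Set (Model n)) (y a b : Model n),
      s = univ → V' =ᶠ[𝓝 y] V₁ → W' =ᶠ[𝓝 y] W₁ → V' y = a → W' y = b →
      (tc (Model n) x x).inverse (VectorField.lieBracketWithin ℂ V' W' s y) =
        fderiv ℂ W₁ y a - fderiv ℂ V₁ y b := by
    intro V' W' V₁ W₁ s y a b hs h1 h2 h3 h4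
    rw [hs, tc_self, ContinuousLinearMap.inverse_id, ContinuousLinearMap.id_apply,
      VectorField.lieBracketWithin_univ, VectorField.lieBracket, h1.fderiv_eq, h2.fderiv_eq, h3, h4]
  exact key _ _ _ _ _ _ _ _ e2 hV hW hV0 hW0

theorem bracket_iff_deriv {P : X → Model n →L[ℂ] Model n} (hP : IsPF P) {U : Set X}
    (hU : IsOpen U) {W : X → Model n} (hW : IsHolVectorFieldOn (n := n) U W)
    (h0 : ∀ x ∈ U, P x (W x) = 0) {x : X} (hx : x ∈ U) (a : Model n) :
    P x (fderiv ℂ (fun y => tc (Model n) x ((chartAt (Model n) x).symm y)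
          (W ((chartAt (Model n) x).symm y))) (chartAt (Model n) x x) a) =
      - fderiv ℂ (Pc P x) (chartAt (Model n) x x) a (W x) := by
  set φ := chartAt (Model n) x with hφ
  have hxs : x ∈ φ.source := mem_chart_source _ x
  have hU' : IsOpen (U ∩ φ.source) := hU.inter φ.open_source
  have hW' : IsHolVectorFieldOn (n := n) (U ∩ φ.source) W :=
    ContMDiffOn.mono hW inter_subset_left
  have hd := (holVF_iff hU' (c := x) inter_subset_right W).1 hW'
  have hnb : φ '' (U ∩ φ.source) ∈ 𝓝 (φ x) :=
    φ.image_mem_nhds hxs (hU'.mem_nhds ⟨hx, hxs⟩)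
  have hWd := hd.differentiableAt hnb
  have hpd : DifferentiableAt ℂ (Pc P x) (φ x) :=
    (hP.hol x).differentiableAt (φ.open_target.mem_nhds (φ.map_source hxs))
  set Wh : Model n → Model n := fun y => tc (Model n) x (φ.symm y) (W (φ.symm y)) with hWh
  have hz : (fun y => Pc P x y (Wh y)) =ᶠ[𝓝 (φ x)] fun _ => 0 := by
    filter_upwards [hnb] with y hy
    obtain ⟨z, ⟨hzU, hzs⟩, rfl⟩ := hy
    simp only [hWh, φ.left_inv hzs]
    rw [Pc_tc P hzs, h0 z hzU, map_zero]
  have h1 := hz.fderiv_eq (𝕜 := ℂ)
  rw [fderiv_clm_apply hpd hWd] at h1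
  have h2 := congrArg (fun L : Model n →L[ℂ] Model n => L a) h1
  have h3 : Wh (φ x) = W x := by
    simp only [hWh, φ.left_inv hxs, tc_self, ContinuousLinearMap.id_apply]
  have h4 : Pc P x (φ x) = P x := Pc_self P x
  simp only [ContinuousLinearMap.add_apply, ContinuousLinearMap.comp_apply,
    ContinuousLinearMap.flip_apply, h3, h4, fderiv_fun_const, Pi.zero_apply,
    ContinuousLinearMap.zero_apply] at h2
  exact eq_neg_of_add_eq_zero_left h2

theorem bracket_iff_Nt {P : X → Model n →L[ℂ] Model n} (hP : IsPF P) {U : Set X}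
    (hU : IsOpen U) {V W : X → Model n} (hV : IsHolVectorFieldOn (n := n) U V)
    (hW : IsHolVectorFieldOn (n := n) U W) (hV0 : ∀ x ∈ U, P x (V x) = 0)
    (hW0 : ∀ x ∈ U, P x (W x) = 0) {x : X} (hx : x ∈ U) :
    P x (VectorField.mlieBracket (mI n) V W x) = - Nt P x (V x) (W x) := by
  have e := mlieBracket_eq V W x
  have e' : P x (VectorField.mlieBracket (mI n) V W x) = _ := congrArg (P x) e
  rw [e', map_sub, bracket_iff_deriv hP hU hW hW0 hx, bracket_iff_deriv hP hU hV hV0 hx, Nt]
  abel

theorem bracket_iff_field {P : X → Model n →L[ℂ] Model n} (hP : IsPF P) (x : X) {a : Model n}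
    (ha : P x a = 0) : ∃ V : X → Model n,
      IsHolVectorFieldOn (n := n) (chartAt (Model n) x).source V ∧
      (∀ z ∈ (chartAt (Model n) x).source, P z (V z) = 0) ∧ V x = a := by
  refine ⟨fun z => ti (Model n) x (chartAt (Model n) x z)
    (a - Pc P x (chartAt (Model n) x z) a), ?_, fun z hz => ?_, ?_⟩
  · rw [holVF_iff (chartAt (Model n) x).open_source (c := x) subset_rfl,
      (chartAt (Model n) x).image_source_eq_target]
    have hd : DifferentiableOn ℂ (fun y => a - Pc P x y a) (chartAt (Model n) x).target :=
      (differentiableOn_const a).sub ((hP.hol x).clm_apply (differentiableOn_const a))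
    refine hd.congr fun y hy => ?_
    rw [tc_ti ((chartAt (Model n) x).map_target hy), (chartAt (Model n) x).right_inv hy]
  · rw [← ti_tc hz (P z _), ← Pc_tc P hz, tc_ti hz, map_sub,
      hP.Pc_idem ((chartAt (Model n) x).map_source hz), sub_self, map_zero]
  · simp only [ti_self, Pc_self, ha, sub_zero, ContinuousLinearMap.id_apply]

/-- integrability of `ker P` in terms of brackets.  Differentiating `P̂ Ŵ = 0`:
`P (DŴ V) = - DP̂ V W`.  For `⇒` use the fields `Q (constant a)` on the chart domain at `x`. -/
theorem bracket_iff {P : X → Model n →L[ℂ] Model n} (hP : IsPF P) :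
    (∀ (U : Set X), IsOpen U → ∀ (V W : X → Model n), IsHolVectorFieldOn (n := n) U V →
      IsHolVectorFieldOn (n := n) U W → (∀ x ∈ U, P x (V x) = 0) → (∀ x ∈ U, P x (W x) = 0) →
      ∀ x ∈ U, P x (VectorField.mlieBracket (mI n) V W x) = 0) ↔ ∀ x, Nzero P x := by
  constructor
  · intro h x
    rw [nzero_iff_Nt]
    intro a b ha hb
    obtain ⟨V, hV, hV0, hVx⟩ := bracket_iff_field hP x ha
    obtain ⟨W, hW, hW0, hWx⟩ := bracket_iff_field hP x hb
    have h1 := h _ (chartAt (Model n) x).open_source V W hV hW hV0 hW0 x (mem_chart_source _ x)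
    rw [bracket_iff_Nt hP (chartAt (Model n) x).open_source hV hW hV0 hW0 (mem_chart_source _ x),
      hVx, hWx] at h1
    exact neg_eq_zero.1 h1
  · intro h U hU V W hV hW hV0 hW0 x hx
    rw [bracket_iff_Nt hP hU hV hW hV0 hW0 hx,
      nzero_iff_Nt.1 (h x) _ _ (hV0 x hx) (hW0 x hx), neg_zero]

theorem second_iff (S : Splitting n X) : S.SecondIntegrable ↔ ∀ x, Nzero (spP S) x :=
  bracket_iff (spP_isPF S)

theorem first_iff (S : Splitting n X) : S.FirstIntegrable ↔ ∀ x, Nzero (sw (spP S)) x := by
  rw [← bracket_iff (spP_isPF S).sw]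
  have key : ∀ (x : X) (v : Model n), sw (spP S) x v = 0 ↔ S.proj x v = v := fun x v => by
    rw [sw_apply, sub_eq_zero]; exact eq_comm
  constructor
  · intro h U hU V W hV hW h1 h2 x hx
    exact (key x _).2 (h U hU V W hV hW (fun x hx => (key x _).1 (h1 x hx))
      (fun x hx => (key x _).1 (h2 x hx)) x hx)
  · intro h U hU V W hV hW h1 h2 x hx
    exact (key x _).1 (h U hU V W hV hW (fun x hx => (key x _).2 (h1 x hx))
      (fun x hx => (key x _).2 (h2 x hx)) x hx)

end Crest.Agent.R266
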