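import Crest.Agent.R264.Osgood

/-!
# Row 266 G: Picard iteration for bounded holomorphic functions; parametric integrals

* `picard`: `h₀ = 0`, `h_{k+1} = T h_k`; `‖h_{k+1} x - h_k x‖ ≤ 2ρ 2^{-k}` on `U`; the pointwise limit `h` is a uniform limit
  on `U`, holomorphic by `Crest.Agent.R264.SCV.weierstrass`, bounded by `ρ`; `‖T h x - T h_k x‖ ≤ ε_k / 2 → 0`.
* `differentiableOn_integral`: holomorphic dependence on parameters of `∫ s in 0..1, g (s, x)`: `g` is given as a
  holomorphic function of `(s, x) ∈ ℂ × G` on an open set containing `[0,1] × U`.  Use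
  `hasFDerivAt_integral_of_dominated_of_fderiv_le` (interval version: `intervalIntegral.hasFDerivAt_integral_of_dominated_of_fderiv_le`)
  with the bound of the continuous function `fderiv ℂ g` (`SCV.differentiableOn_fderiv`) on the compact set
  `[0,1] × closedBall x ε ⊆ O` (tube lemma).
-/

set_option autoImplicit false
open scoped Topology
open Set Filter Metric

namespace Crest.Agent.R266G

variable {G F : Type*} [NormedAddCommGroup G] [NormedSpace ℂ G] [FiniteDimensional ℂ G]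
  [NormedAddCommGroup F] [NormedSpace ℂ F] [CompleteSpace F]

theorem picard {U : Set G} (hU : IsOpen U) (T : (G → F) → (G → F)) {ρ : ℝ} (hρ : 0 ≤ ρ)
    (hmap : ∀ h : G → F, DifferentiableOn ℂ h U → (∀ x ∈ U, ‖h x‖ ≤ ρ) →
      DifferentiableOn ℂ (T h) U ∧ ∀ x ∈ U, ‖T h x‖ ≤ ρ)
    (hcon : ∀ h h' : G → F, DifferentiableOn ℂ h U → (∀ x ∈ U, ‖h x‖ ≤ ρ) →
      DifferentiableOn ℂ h' U → (∀ x ∈ U, ‖h' x‖ ≤ ρ) → ∀ ε : ℝ, (∀ x ∈ U, ‖h x - h' x‖ ≤ ε) →
      ∀ x ∈ U, ‖T h x - T h' x‖ ≤ ε / 2) :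
    ∃ h : G → F, DifferentiableOn ℂ h U ∧ (∀ x ∈ U, ‖h x‖ ≤ ρ) ∧ ∀ x ∈ U, T h x = h x := by
  let seq : ℕ → G → F := fun k => T^[k] 0
  have hsucc : ∀ k, seq (k + 1) = T (seq k) := fun k => Function.iterate_succ_apply' T k 0
  have hs : ∀ k, DifferentiableOn ℂ (seq k) U ∧ ∀ x ∈ U, ‖seq k x‖ ≤ ρ := by
    intro k
    induction k with
    | zero => exact ⟨differentiableOn_const 0, fun x _ => by simpa [seq] using hρ⟩
    | succ k ih => rw [hsucc]; exact hmap _ ih.1 ih.2
  have hd : ∀ k, ∀ x ∈ U, ‖seq k x - seq (k + 1) x‖ ≤ ρ * (1 / 2) ^ k := by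
    intro k
    induction k with
    | zero =>
      intro x hx
      have h0 : seq 0 x = 0 := rfl
      rw [h0, zero_sub, norm_neg, pow_zero, mul_one]
      exact (hs 1).2 x hx
    | succ k ih =>
      intro x hx
      have := hcon _ _ (hs k).1 (hs k).2 (hs (k + 1)).1 (hs (k + 1)).2 _ ih x hx
      rw [← hsucc, ← hsucc] at this
      calc _ ≤ _ := this
        _ = _ := by ring
  have hd' : ∀ x ∈ U, ∀ k, dist (seq k x) (seq (k + 1) x) ≤ ρ * (1 / 2) ^ k := fun x hx k => by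
    rw [dist_eq_norm]; exact hd k x hx
  let h : G → F := fun x => limUnder atTop (fun k => seq k x)
  have hlim : ∀ x ∈ U, Tendsto (fun k => seq k x) atTop (𝓝 (h x)) := fun x hx =>
    (cauchySeq_of_le_geometric (1 / 2) ρ (by norm_num) (hd' x hx)).tendsto_limUnder
  have hest : ∀ k, ∀ x ∈ U, ‖seq k x - h x‖ ≤ ρ * (1 / 2) ^ k / (1 - 1 / 2) := fun k x hx => by
    rw [← dist_eq_norm]
    exact dist_le_of_le_geometric_of_tendsto (1 / 2) ρ (by norm_num) (hd' x hx) (hlim x hx) k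
  have hzero : Tendsto (fun k : ℕ => ρ * (1 / 2 : ℝ) ^ k / (1 - 1 / 2)) atTop (𝓝 0) := by
    have := ((tendsto_pow_atTop_nhds_zero_of_lt_one (r := (1 / 2 : ℝ)) (by norm_num)
      (by norm_num)).const_mul ρ).div_const (1 - 1 / 2)
    simpa using this
  have hunif : TendstoUniformlyOn seq h atTop U := by
    rw [Metric.tendstoUniformlyOn_iff]
    intro ε hε
    filter_upwards [hzero.eventually (gt_mem_nhds hε)] with k hk x hx
    rw [dist_comm, dist_eq_norm]
    exact (hest k x hx).trans_lt hk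
  have hhol : DifferentiableOn ℂ h U :=
    (Crest.Agent.R264.SCV.weierstrass hU (Eventually.of_forall fun k => (hs k).1)
      hunif.tendstoLocallyUniformlyOn).1
  have hbd : ∀ x ∈ U, ‖h x‖ ≤ ρ := fun x hx =>
    le_of_tendsto' (hlim x hx).norm fun k => (hs k).2 x hx
  refine ⟨h, hhol, hbd, fun x hx => ?_⟩
  have h1 : Tendsto (fun k => seq (k + 1) x) atTop (𝓝 (h x)) :=
    (hlim x hx).comp (tendsto_add_atTop_nat 1)
  have h2 : Tendsto (fun k => seq (k + 1) x) atTop (𝓝 (T h x)) := by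
    rw [tendsto_iff_norm_sub_tendsto_zero]
    refine squeeze_zero (fun _ => norm_nonneg _) (fun k => ?_)
      (by simpa using hzero.div_const 2)
    rw [hsucc]
    have := hcon _ _ (hs k).1 (hs k).2 hhol hbd _ (hest k) x hx
    simpa using this
  exact tendsto_nhds_unique h2 h1

theorem differentiableOn_integral {U : Set G} (hU : IsOpen U) {O : Set (ℂ × G)} (hO : IsOpen O)
    (hUO : ∀ s ∈ Icc (0 : ℝ) 1, ∀ x ∈ U, ((s : ℂ), x) ∈ O) {g : ℂ × G → F}
    (hg : DifferentiableOn ℂ g O) :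
    DifferentiableOn ℂ (fun x => ∫ s in (0 : ℝ)..1, g ((s : ℂ), x)) U := by
  intro x₀ hx₀
  haveI : ProperSpace G := FiniteDimensional.proper ℂ G
  obtain ⟨ε, hε, hball⟩ := Metric.nhds_basis_closedBall.mem_iff.1 (hU.mem_nhds hx₀)
  have hg' : ContinuousOn (fderiv ℂ g) O :=
    (Crest.Agent.R264.SCV.differentiableOn_fderiv hO hg).continuousOn
  let j : ℝ × G → ℂ × G := fun p => ((p.1 : ℂ), p.2)
  have hj : Continuous j := (Complex.continuous_ofReal.comp continuous_fst).prodMk continuous_snd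
  have hK : IsCompact (j '' (Icc (0 : ℝ) 1 ×ˢ closedBall x₀ ε)) :=
    (isCompact_Icc.prod (isCompact_closedBall x₀ ε)).image hj
  have hKO : j '' (Icc (0 : ℝ) 1 ×ˢ closedBall x₀ ε) ⊆ O := by
    rintro _ ⟨⟨s, x⟩, ⟨hs, hx⟩, rfl⟩
    exact hUO s hs x (hball hx)
  obtain ⟨M, hM⟩ := hK.exists_bound_of_continuousOn (hg'.mono hKO)
  have hsub : uIoc (0 : ℝ) 1 ⊆ Icc 0 1 := by
    rw [uIoc_of_le zero_le_one]; exact Ioc_subset_Icc_self
  have hline : ∀ x : G, Continuous fun s : ℝ => (((s : ℂ), x) : ℂ × G) := fun x =>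
    Complex.continuous_ofReal.prodMk continuous_const
  have hcont : ∀ x ∈ U, ContinuousOn (fun s : ℝ => g ((s : ℂ), x)) (Icc 0 1) := fun x hx =>
    hg.continuousOn.comp (hline x).continuousOn fun s hs => hUO s hs x hx
  have hcont' : ContinuousOn (fun s : ℝ =>
      (fderiv ℂ g ((s : ℂ), x₀)).comp (ContinuousLinearMap.inr ℂ ℂ G)) (Icc 0 1) :=
    (hg'.comp (hline x₀).continuousOn fun s hs => hUO s hs x₀ hx₀).clm_comp continuousOn_const
  have key := intervalIntegral.hasFDerivAt_integral_of_dominated_of_fderiv_le (𝕜 := ℂ)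
    (μ := MeasureTheory.volume) (a := 0) (b := 1)
    (F := fun x (s : ℝ) => g ((s : ℂ), x))
    (F' := fun x (s : ℝ) => (fderiv ℂ g ((s : ℂ), x)).comp (ContinuousLinearMap.inr ℂ ℂ G))
    (bound := fun _ => M * ‖ContinuousLinearMap.inr ℂ ℂ G‖) (x₀ := x₀)
    (closedBall_mem_nhds x₀ hε) ?_ ?_ ?_ ?_ ?_ ?_
  · exact key.differentiableAt.differentiableWithinAt
  · filter_upwards [hU.mem_nhds hx₀] with x hx
    exact ((hcont x hx).mono hsub).aestronglyMeasurable measurableSet_uIoc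
  · exact ContinuousOn.intervalIntegrable_of_Icc zero_le_one (hcont x₀ hx₀)
  · exact (hcont'.mono hsub).aestronglyMeasurable measurableSet_uIoc
  · refine Eventually.of_forall fun s hs x hx => ?_
    refine (ContinuousLinearMap.opNorm_comp_le _ _).trans ?_
    exact mul_le_mul_of_nonneg_right (hM _ ⟨(s, x), ⟨hsub hs, hx⟩, rfl⟩) (norm_nonneg _)
  · exact intervalIntegrable_const
  · refine Eventually.of_forall fun s hs x hx => ?_
    have h1 : HasFDerivAt g (fderiv ℂ g ((s : ℂ), x)) ((s : ℂ), x) :=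
      (hg.differentiableAt (hO.mem_nhds (hUO s (hsub hs) x (hball hx)))).hasFDerivAt
    exact h1.comp x (hasFDerivAt_prodMk_right (s : ℂ) x)

end Crest.Agent.R266G
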