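import Crest.Agent.R266.Frob1
import Crest.Agent.R266.GPicard
import Mathlib.Analysis.Complex.HasPrimitives

/-! Row 266 (S0404): segment integrals and the holomorphic Goursat problem on a bidisc. -/

set_option autoImplicit false
set_option linter.unusedSectionVars false

open Set Filter Topology Metric

noncomputable section
namespace Crest.Agent.R266

variable {F : Type} [NormedAddCommGroup F] [NormedSpace ℂ F] [CompleteSpace F]

/-- the integral of `h` along the segment from `z` to `w`. -/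
def ck0_seg (h : ℂ → F) (z w : ℂ) : F := ∫ s in (0 : ℝ)..1, (w - z) • h (z + (s : ℂ) * (w - z))

theorem ck0_mem {c z w : ℂ} {r : ℝ} (hz : z ∈ ball c r) (hw : w ∈ ball c r) {s : ℝ}
    (hs : s ∈ Icc (0 : ℝ) 1) : z + (s : ℂ) * (w - z) ∈ ball c r := by
  have := (convex_ball c r).add_smul_sub_mem hz hw hs
  simpa [Complex.real_smul] using this

theorem ck0_seg_self (h : ℂ → F) (z : ℂ) : ck0_seg h z z = 0 := by
  simp [ck0_seg]

theorem ck0_int {h : ℂ → F} {c z w : ℂ} {r : ℝ} (hh : ContinuousOn h (ball c r))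
    (hz : z ∈ ball c r) (hw : w ∈ ball c r) :
    IntervalIntegrable (fun s : ℝ => (w - z) • h (z + (s : ℂ) * (w - z))) MeasureTheory.volume
      0 1 := by
  refine ContinuousOn.intervalIntegrable_of_Icc zero_le_one ?_
  have hγc : Continuous fun s : ℝ => z + (s : ℂ) * (w - z) := by fun_prop
  exact (hh.comp hγc.continuousOn fun s hs => ck0_mem hz hw hs).const_smul (w - z)

theorem ck0_seg_sub {h h' : ℂ → F} {c z w : ℂ} {r : ℝ} (hh : ContinuousOn h (ball c r))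
    (hh' : ContinuousOn h' (ball c r)) (hz : z ∈ ball c r) (hw : w ∈ ball c r) :
    ck0_seg h z w - ck0_seg h' z w = ck0_seg (fun t => h t - h' t) z w := by
  unfold ck0_seg
  rw [← intervalIntegral.integral_sub (ck0_int hh hz hw) (ck0_int hh' hz hw)]
  simp only [smul_sub]

theorem ck0_seg_norm {h : ℂ → F} {c z w : ℂ} {r M : ℝ} (hM : ∀ t ∈ ball c r, ‖h t‖ ≤ M)
    (hz : z ∈ ball c r) (hw : w ∈ ball c r) : ‖ck0_seg h z w‖ ≤ 2 * r * M := by
  have hM0 : 0 ≤ M := (norm_nonneg _).trans (hM z hz)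
  have hzw : ‖w - z‖ ≤ 2 * r := by
    rw [← dist_eq_norm]
    have h1 := dist_triangle_right w z c
    have h2 := mem_ball.1 hz
    have h3 := mem_ball.1 hw
    linarith
  have := intervalIntegral.norm_integral_le_of_norm_le_const (a := (0 : ℝ)) (b := 1)
    (C := 2 * r * M) (f := fun s : ℝ => (w - z) • h (z + (s : ℂ) * (w - z))) (fun s hs => by
      rw [uIoc_of_le zero_le_one] at hs
      rw [norm_smul]
      exact mul_le_mul hzw (hM _ (ck0_mem hz hw (Ioc_subset_Icc_self hs))) (norm_nonneg _)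
        ((norm_nonneg _).trans hzw))
  simpa [ck0_seg] using this

theorem ck0_seg_deriv {h : ℂ → F} {c z w : ℂ} {r : ℝ} (hh : DifferentiableOn ℂ h (ball c r))
    (hz : z ∈ ball c r) (hw : w ∈ ball c r) : HasDerivAt (ck0_seg h z) (h w) w := by
  obtain ⟨g, hg⟩ := hh.isExactOn_ball
  have key : ∀ u ∈ ball c r, ck0_seg h z u = g u - g z := by
    intro u hu
    have hγ : ∀ s : ℝ, HasDerivAt (fun s : ℝ => z + (s : ℂ) * (u - z)) (u - z) s := by
      intro s
      simpa using ((Complex.ofRealCLM.hasDerivAt (x := s)).mul_const (u - z)).const_add z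
    have := intervalIntegral.integral_eq_sub_of_hasDerivAt (a := (0 : ℝ)) (b := 1)
      (f := fun s : ℝ => g (z + (s : ℂ) * (u - z)))
      (f' := fun s : ℝ => (u - z) • h (z + (s : ℂ) * (u - z)))
      (fun s hs => by
        rw [uIcc_of_le zero_le_one] at hs
        exact HasDerivAt.scomp s (hg _ (ck0_mem hz hu hs)) (hγ s))
      (ck0_int hh.continuousOn hz hu)
    simpa [ck0_seg] using this
  refine ((hg w hw).sub_const (g z)).congr_of_eventuallyEq ?_
  filter_upwards [isOpen_ball.mem_nhds hw] with u hu using key u hu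

theorem ck0_mem_ball {c : ℂ} {r : ℝ} {y : ℂ × ℂ} :
    y ∈ ball (c, c) r ↔ y.1 ∈ ball c r ∧ y.2 ∈ ball c r := by
  rw [← ball_prod_same]; rfl

theorem ck0_seg_diff₂ {g : ℂ × ℂ → F} {c : ℂ} {r : ℝ}
    (hg : DifferentiableOn ℂ g (ball (c, c) r)) :
    DifferentiableOn ℂ (fun y : ℂ × ℂ => ck0_seg (fun t => g (y.1, t)) y.1 y.2) (ball (c, c) r) := by
  let j : ℂ × (ℂ × ℂ) → ℂ × ℂ := fun q => (q.2.1, q.2.1 + q.1 * (q.2.2 - q.2.1))
  have hj : Differentiable ℂ j := by fun_prop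
  refine Crest.Agent.R266G.differentiableOn_integral (G := ℂ × ℂ) isOpen_ball
    (O := j ⁻¹' ball (c, c) r) (isOpen_ball.preimage hj.continuous) ?_
    (g := fun q => (q.2.2 - q.2.1) • g (j q)) ?_
  · intro s hs x hx
    rw [ck0_mem_ball] at hx
    exact ck0_mem_ball.2 ⟨hx.1, ck0_mem hx.1 hx.2 hs⟩
  · refine DifferentiableOn.smul (by fun_prop) ?_
    exact hg.comp hj.differentiableOn fun q hq => hq

theorem ck0_seg_diff₁ {g : ℂ × ℂ → F} {c : ℂ} {r : ℝ}
    (hg : DifferentiableOn ℂ g (ball (c, c) r)) :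
    DifferentiableOn ℂ (fun y : ℂ × ℂ => ck0_seg (fun t => g (t, y.2)) y.2 y.1) (ball (c, c) r) := by
  have hsw : MapsTo (Prod.swap : ℂ × ℂ → ℂ × ℂ) (ball (c, c) r) (ball (c, c) r) := fun y hy =>
    ck0_mem_ball.2 ⟨(ck0_mem_ball.1 hy).2, (ck0_mem_ball.1 hy).1⟩
  have hd : Differentiable ℂ (Prod.swap : ℂ × ℂ → ℂ × ℂ) := by
    unfold Prod.swap; fun_prop
  exact (ck0_seg_diff₂ (hg.comp hd.differentiableOn hsw)).comp hd.differentiableOn hsw

theorem ck0_slice₂ {g : ℂ × ℂ → F} {c z : ℂ} {r : ℝ}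
    (hg : DifferentiableOn ℂ g (ball (c, c) r)) (hz : z ∈ ball c r) :
    DifferentiableOn ℂ (fun t => g (z, t)) (ball c r) :=
  hg.comp (f := fun t : ℂ => (z, t)) (by fun_prop) fun _ ht => ck0_mem_ball.2 ⟨hz, ht⟩

theorem ck0_slice₁ {g : ℂ × ℂ → F} {c w : ℂ} {r : ℝ}
    (hg : DifferentiableOn ℂ g (ball (c, c) r)) (hw : w ∈ ball c r) :
    DifferentiableOn ℂ (fun t => g (t, w)) (ball c r) :=
  hg.comp (f := fun t : ℂ => (t, w)) (by fun_prop) fun _ ht => ck0_mem_ball.2 ⟨ht, hw⟩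

/-- the holomorphic Goursat problem, in integral form. -/
theorem ck0_goursat {A B : F → F} {x₀ : F} {c : ℂ × ℂ → F} {s₀ : ℂ}
    (hA : AnalyticAt ℂ A x₀) (hB : AnalyticAt ℂ B x₀)
    (hc : ∀ᶠ y in 𝓝 (s₀, s₀), DifferentiableAt ℂ c y) (hc₀ : c (s₀, s₀) = x₀)
    {N : Set F} (hN : N ∈ 𝓝 x₀) :
    ∃ r > 0, ∃ X P Q : ℂ × ℂ → F, DifferentiableOn ℂ X (ball (s₀, s₀) r) ∧
      (∀ y ∈ ball (s₀, s₀) r, X y ∈ N) ∧ (∀ y ∈ ball (s₀, s₀) r, X y = c y + P y + Q y) ∧
      (∀ s, P (s, s) = 0) ∧ (∀ s, Q (s, s) = 0) ∧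
      (∀ z ∈ ball s₀ r, ∀ w ∈ ball s₀ r, HasDerivAt (fun t => P (z, t)) (A (X (z, w))) w) ∧
      (∀ z ∈ ball s₀ r, ∀ w ∈ ball s₀ r, HasDerivAt (fun t => Q (t, w)) (B (X (z, w))) z) := by
  obtain ⟨KA, tA, htA, hKA⟩ := (hA.contDiffAt (n := 1)).exists_lipschitzOnWith
  obtain ⟨KB, tB, htB, hKB⟩ := (hB.contDiffAt (n := 1)).exists_lipschitzOnWith
  have hall : N ∩ tA ∩ tB ∩ {x | AnalyticAt ℂ A x} ∩ {x | AnalyticAt ℂ B x} ∈ 𝓝 x₀ :=
    inter_mem (inter_mem (inter_mem (inter_mem hN htA) htB) hA.eventually_analyticAt)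
      hB.eventually_analyticAt
  obtain ⟨ρ, hρ, hsub⟩ := nhds_basis_closedBall.mem_iff.1 hall
  set K : ℝ := (KA : ℝ) + KB + 1 with hK
  have hKA0 : (0 : ℝ) ≤ KA := KA.2
  have hKB0 : (0 : ℝ) ≤ KB := KB.2
  have hK0 : 0 < K := by rw [hK]; linarith
  set M : ℝ := ‖A x₀‖ + ‖B x₀‖ + K * ρ + 1 with hM
  have hM0 : 0 < M := by rw [hM]; positivity
  have hmem : ∀ v : F, ‖v‖ ≤ ρ → x₀ + v ∈ closedBall x₀ ρ := fun v hv => by
    simpa [mem_closedBall, dist_eq_norm] using hv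
  have hLA : ∀ u v : F, ‖u‖ ≤ ρ → ‖v‖ ≤ ρ → ‖A (x₀ + u) - A (x₀ + v)‖ ≤ K * ‖u - v‖ := by
    intro u v hu hv
    have := hKA.norm_sub_le (hsub (hmem u hu)).1.1.1.2 (hsub (hmem v hv)).1.1.1.2
    rw [add_sub_add_left_eq_sub] at this
    exact this.trans (mul_le_mul_of_nonneg_right (by rw [hK]; linarith) (norm_nonneg _))
  have hLB : ∀ u v : F, ‖u‖ ≤ ρ → ‖v‖ ≤ ρ → ‖B (x₀ + u) - B (x₀ + v)‖ ≤ K * ‖u - v‖ := by
    intro u v hu hv
    have := hKB.norm_sub_le (hsub (hmem u hu)).1.1.2 (hsub (hmem v hv)).1.1.2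
    rw [add_sub_add_left_eq_sub] at this
    exact this.trans (mul_le_mul_of_nonneg_right (by rw [hK]; linarith) (norm_nonneg _))
  have hbA : ∀ u : F, ‖u‖ ≤ ρ → ‖A (x₀ + u)‖ ≤ M := by
    intro u hu
    have h1 := hLA u 0 hu (by simpa using hρ.le)
    rw [add_zero, sub_zero] at h1
    have h2 := norm_sub_norm_le (A (x₀ + u)) (A x₀)
    have h3 : K * ‖u‖ ≤ K * ρ := mul_le_mul_of_nonneg_left hu hK0.le
    have h4 := norm_nonneg (B x₀)
    rw [hM]; linarith
  have hbB : ∀ u : F, ‖u‖ ≤ ρ → ‖B (x₀ + u)‖ ≤ M := by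
    intro u hu
    have h1 := hLB u 0 hu (by simpa using hρ.le)
    rw [add_zero, sub_zero] at h1
    have h2 := norm_sub_norm_le (B (x₀ + u)) (B x₀)
    have h3 : K * ‖u‖ ≤ K * ρ := mul_le_mul_of_nonneg_left hu hK0.le
    have h4 := norm_nonneg (A x₀)
    rw [hM]; linarith
  have hcc : ContinuousAt c (s₀, s₀) := hc.self_of_nhds.continuousAt
  have hc2 : ∀ᶠ y in 𝓝 (s₀, s₀), ‖c y - x₀‖ ≤ ρ / 2 := by
    have := hcc.eventually (closedBall_mem_nhds (c (s₀, s₀)) (half_pos hρ))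
    rw [hc₀] at this
    filter_upwards [this] with y hy
    simpa [mem_closedBall, dist_eq_norm] using hy
  obtain ⟨r₀, hr₀, hball⟩ := nhds_basis_ball.mem_iff.1 (hc.and hc2)
  set r : ℝ := min r₀ (min (ρ / (8 * M)) (1 / (8 * K))) with hr
  have hrpos : 0 < r := lt_min hr₀ (lt_min (by positivity) (by positivity))
  have hr1 : 2 * r * M ≤ ρ / 4 := by
    have : r ≤ ρ / (8 * M) := (min_le_right _ _).trans (min_le_left _ _)
    rw [le_div_iff₀ (by positivity)] at this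
    linarith
  have hr2 : 2 * r * K ≤ 1 / 4 := by
    have : r ≤ 1 / (8 * K) := (min_le_right _ _).trans (min_le_right _ _)
    rw [le_div_iff₀ (by positivity)] at this
    linarith
  have hb' : ∀ y ∈ ball (s₀, s₀) r, DifferentiableAt ℂ c y ∧ ‖c y - x₀‖ ≤ ρ / 2 := fun y hy =>
    hball (ball_subset_ball (min_le_left _ _) hy)
  have hcomp : ∀ (C : F → F), (∀ x ∈ closedBall x₀ ρ, AnalyticAt ℂ C x) → ∀ h : ℂ × ℂ → F,
      DifferentiableOn ℂ h (ball (s₀, s₀) r) → (∀ y ∈ ball (s₀, s₀) r, ‖h y‖ ≤ ρ) →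
      DifferentiableOn ℂ (fun y => C (x₀ + h y)) (ball (s₀, s₀) r) := by
    intro C hC h hh hb y hy
    exact (hC _ (hmem _ (hb y hy))).differentiableAt.comp_differentiableWithinAt y
      ((hh y hy).const_add x₀)
  have hAn : ∀ x ∈ closedBall x₀ ρ, AnalyticAt ℂ A x := fun x hx => (hsub hx).1.2
  have hBn : ∀ x ∈ closedBall x₀ ρ, AnalyticAt ℂ B x := fun x hx => (hsub hx).2
  obtain ⟨h, hh, hb, hfix⟩ := Crest.Agent.R266G.picard (G := ℂ × ℂ) (F := F)
    (U := ball (s₀, s₀) r) isOpen_ball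
    (fun h y => c y - x₀ + ck0_seg (fun t => A (x₀ + h (y.1, t))) y.1 y.2 +
      ck0_seg (fun t => B (x₀ + h (t, y.2))) y.2 y.1) hρ.le
    (fun h hh hb => by
      refine ⟨?_, fun y hy => ?_⟩
      · refine DifferentiableOn.add (DifferentiableOn.add ?_ ?_) ?_
        · exact fun y hy => ((hb' y hy).1.sub_const x₀).differentiableWithinAt
        · exact ck0_seg_diff₂ (hcomp A hAn h hh hb)
        · exact ck0_seg_diff₁ (hcomp B hBn h hh hb)
      · have hy' := ck0_mem_ball.1 hy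
        have h1 := ck0_seg_norm (h := fun t => A (x₀ + h (y.1, t))) (M := M)
          (fun t ht => hbA _ (hb _ (ck0_mem_ball.2 ⟨hy'.1, ht⟩))) hy'.1 hy'.2
        have h2 := ck0_seg_norm (h := fun t => B (x₀ + h (t, y.2))) (M := M)
          (fun t ht => hbB _ (hb _ (ck0_mem_ball.2 ⟨ht, hy'.2⟩))) hy'.2 hy'.1
        have h3 := (hb' y hy).2
        refine (norm_add₃_le).trans ?_
        linarith)
    (fun h h' hh hb hh' hb2 ε hε y hy => by
      have hy' := ck0_mem_ball.1 hy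
      have hε0 : 0 ≤ ε := (norm_nonneg _).trans (hε y hy)
      have e1 := ck0_seg_sub (ck0_slice₂ (hcomp A hAn h hh hb) hy'.1).continuousOn
        (ck0_slice₂ (hcomp A hAn h' hh' hb2) hy'.1).continuousOn hy'.1 hy'.2
      have e2 := ck0_seg_sub (ck0_slice₁ (hcomp B hBn h hh hb) hy'.2).continuousOn
        (ck0_slice₁ (hcomp B hBn h' hh' hb2) hy'.2).continuousOn hy'.2 hy'.1
      have h1 := ck0_seg_norm
        (h := fun t => A (x₀ + h (y.1, t)) - A (x₀ + h' (y.1, t))) (M := K * ε)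
        (fun t ht => by
          have hm : (y.1, t) ∈ ball (s₀, s₀) r := ck0_mem_ball.2 ⟨hy'.1, ht⟩
          exact (hLA _ _ (hb _ hm) (hb2 _ hm)).trans
            (mul_le_mul_of_nonneg_left (hε _ hm) hK0.le)) hy'.1 hy'.2
      have h2 := ck0_seg_norm
        (h := fun t => B (x₀ + h (t, y.2)) - B (x₀ + h' (t, y.2))) (M := K * ε)
        (fun t ht => by
          have hm : (t, y.2) ∈ ball (s₀, s₀) r := ck0_mem_ball.2 ⟨ht, hy'.2⟩
          exact (hLB _ _ (hb _ hm) (hb2 _ hm)).trans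
            (mul_le_mul_of_nonneg_left (hε _ hm) hK0.le)) hy'.2 hy'.1
      rw [← e1] at h1
      rw [← e2] at h2
      have h3 : 2 * r * (K * ε) ≤ ε / 4 := by nlinarith
      have e3 : ∀ a b₁ b₂ d₁ d₂ : F, a + b₁ + d₁ - (a + b₂ + d₂) = (b₁ - b₂) + (d₁ - d₂) := by
        intros; abel
      rw [e3]
      refine (norm_add_le _ _).trans ?_
      linarith)
  refine ⟨r, hrpos, fun y => x₀ + h y,
    fun y => ck0_seg (fun t => A (x₀ + h (y.1, t))) y.1 y.2,
    fun y => ck0_seg (fun t => B (x₀ + h (t, y.2))) y.2 y.1, hh.const_add x₀,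
    fun y hy => (hsub (hmem _ (hb y hy))).1.1.1.1, fun y hy => ?_, fun s => ck0_seg_self _ _,
    fun s => ck0_seg_self _ _, fun z hz w hw => ?_, fun z hz w hw => ?_⟩
  · have := hfix y hy
    simp only at this ⊢
    rw [← this]
    abel
  · exact ck0_seg_deriv (ck0_slice₂ (hcomp A hAn h hh hb) hz) hz hw
  · exact ck0_seg_deriv (ck0_slice₁ (hcomp B hBn h hh hb) hw) hw hz

end Crest.Agent.R266
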