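import Crest.Agent.R266.Basic2

/-! Row 266: holomorphic Frobenius theorem in a vector space.

Put `p₀ = p y₀`, `q₀ = 1 - p₀`, `J y = p y ∘ p₀ + (1 - p y) ∘ q₀` (invertible near `y₀`,
`J y₀ = 1`; `J⁻¹ p = p₀ J⁻¹`), and `R y = 1 - (J y)⁻¹ ∘ p y`: the projection onto `ker (p y)` along
`range p₀` (`p y (R y v) = 0`, `q₀ (R y v) = q₀ v`, `R y v = v` if `p y v = 0`).
1. For `b, c`: `DR[R c] b = DR[R b] c` (differentiate `p (R b) = 0` in the direction `R c`, use the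
   hypothesis; the difference lies in `range p₀`, on which `p y` is injective).
2. Let `Φ` be the flow (`Crest.Agent.R264.exists_local_flow`) of `(y, b) ↦ (R y b, 0)` on `E × E`
   near `(y₀, 0)`, `Λ (t, v) = (Φ (t, (y₀ + p₀ v, q₀ v))).1`.  For `c` fixed,
   `W t = D_vΛ (q₀ c) - t R(Λ) (q₀ c)` has `W 0 = 0`, `q₀ W = 0` (as `q₀ Λ = q₀ y₀ + t q₀ v`) and
   `W' = DR[W] (q₀ v)` (symmetry of second derivatives and 1.), so `W = 0` (`lin_zero`).
3. `Θ v = Λ (t₀, p₀ v + t₀⁻¹ q₀ v)`, `t₀ = ε / 2`, has `DΘ 0 = 1` (for `q₀ v = 0` the solution is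
   constant; for `q₀`-directions use 2. and `R y₀ = q₀`), `DΘ v (q₀ c) = R (Θ v) (q₀ c)`.
   `f = p₀ ∘ Θ⁻¹` (`exists_local_inverse`). -/

set_option autoImplicit false
set_option linter.unusedSectionVars false

open Set Filter Topology Metric
open scoped Manifold ContDiff

noncomputable section
namespace Crest.Agent.R266

variable {E : Type} [NormedAddCommGroup E] [NormedSpace ℂ E] [FiniteDimensional ℂ E]

/-- uniqueness for a linear holomorphic ODE on a disc (Gronwall along radii,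
`ODE_solution_unique`, or `norm_le_gronwallBound_of_norm_deriv_right_le`). -/
theorem lin_zero {F : Type} [NormedAddCommGroup F] [NormedSpace ℂ F] {W : ℂ → F}
    {L : ℂ → F →L[ℂ] F} {t₀ : ℂ} {r : ℝ} (hL : ContinuousOn L (ball t₀ r))
    (hW : ∀ t ∈ ball t₀ r, HasDerivAt W (L t (W t)) t) {t₁ : ℂ} (h₁ : t₁ ∈ ball t₀ r)
    (h0 : W t₁ = 0) : ∀ t ∈ ball t₀ r, W t = 0 := by
  intro t ht
  have hmem : ∀ s ∈ Icc (0 : ℝ) 1, t₁ + (s : ℂ) * (t - t₁) ∈ ball t₀ r := by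
    intro s hs
    have := (convex_ball t₀ r).add_smul_sub_mem h₁ ht hs
    simpa [Complex.real_smul] using this
  have hγ : ∀ s : ℝ, HasDerivAt (fun s : ℝ => t₁ + (s : ℂ) * (t - t₁)) (t - t₁) s := by
    intro s
    simpa using ((Complex.ofRealCLM.hasDerivAt (x := s)).mul_const (t - t₁)).const_add t₁
  have hγc : Continuous fun s : ℝ => t₁ + (s : ℂ) * (t - t₁) := by fun_prop
  have hd : ∀ s ∈ Icc (0 : ℝ) 1, HasDerivAt (fun s : ℝ => W (t₁ + (s : ℂ) * (t - t₁)))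
      ((t - t₁) • L (t₁ + (s : ℂ) * (t - t₁)) (W (t₁ + (s : ℂ) * (t - t₁)))) s :=
    fun s hs => HasDerivAt.scomp s (hW _ (hmem s hs)) (hγ s)
  obtain ⟨K, hK⟩ := isCompact_Icc.exists_bound_of_continuousOn
    (f := fun s : ℝ => L (t₁ + (s : ℂ) * (t - t₁))) (hL.comp hγc.continuousOn hmem)
  have := eq_zero_of_abs_deriv_le_mul_abs_self_of_eq_zero_right (K := ‖t - t₁‖ * K) (a := 0) (b := 1)
    (fun s hs => (hd s hs).continuousAt.continuousWithinAt)
    (fun s hs => (hd s (Ico_subset_Icc_self hs)).hasDerivWithinAt) (by simpa using h0)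
    (fun s hs => by
      rw [norm_smul, mul_assoc]
      gcongr
      exact (ContinuousLinearMap.le_opNorm _ _).trans
        (mul_le_mul_of_nonneg_right (hK s (Ico_subset_Icc_self hs)) (norm_nonneg _)))
    1 ⟨zero_le_one, le_rfl⟩
  simpa using this

/-- the projection onto `ker (p y)` along `range (p y₀)`. -/
theorem Frob1_R {p : E → E →L[ℂ] E} {y₀ : E}
    (hp : ∀ᶠ y in 𝓝 y₀, DifferentiableAt ℂ p y ∧ ∀ v, p y (p y v) = p y v) :
    ∃ R : E → E →L[ℂ] E, ∀ᶠ y in 𝓝 y₀, DifferentiableAt ℂ R y ∧ (∀ v, p y (R y v) = 0) ∧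
      (∀ v, R y v - p y₀ (R y v) = v - p y₀ v) ∧
      (∀ w, p y₀ w = w → p y w = 0 → w = 0) := by
  have := FiniteDimensional.complete ℂ E
  set J : E → E →L[ℂ] E := fun y => p y * p y₀ + (1 - p y) * (1 - p y₀) with hJ
  have h0 := hp.self_of_nhds
  have hpp : p y₀ * p y₀ = p y₀ := by ext v; exact h0.2 v
  have hJ0 : J y₀ = 1 := by
    simp only [hJ, sub_mul, mul_sub, one_mul, mul_one, hpp]; abel
  have hJd : ∀ y, DifferentiableAt ℂ p y → DifferentiableAt ℂ J y := by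
    intro y hy
    exact (hy.mul_const _).add (((differentiableAt_const _).sub hy).mul_const _)
  have hU : ∀ᶠ y in 𝓝 y₀, IsUnit (J y) := by
    have : IsUnit (J y₀) := hJ0 ▸ isUnit_one
    exact (hJd y₀ h0.1).continuousAt.eventually (Units.isOpen.mem_nhds this)
  refine ⟨fun y => 1 - Ring.inverse (J y) * p y, ?_⟩
  filter_upwards [hp, hU] with y hy hu
  have hyy : p y * p y = p y := by ext v; exact hy.2 v
  have e1 : p y * J y = p y * p y₀ := by
    simp only [hJ, mul_add, ← mul_assoc, hyy, mul_sub, mul_one, sub_self, zero_mul]; abel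
  have e2 : J y * p y₀ = p y * p y₀ := by
    simp only [hJ, add_mul, mul_assoc, hpp, sub_mul, one_mul, sub_self, mul_zero]; abel
  have e3 : Ring.inverse (J y) * p y = p y₀ * Ring.inverse (J y) := by
    calc Ring.inverse (J y) * p y
        = Ring.inverse (J y) * (p y * J y) * Ring.inverse (J y) := by
          rw [mul_assoc, mul_assoc, Ring.mul_inverse_cancel _ hu, mul_one]
      _ = p y₀ * Ring.inverse (J y) := by
          rw [e1, ← e2, ← mul_assoc, Ring.inverse_mul_cancel _ hu, one_mul]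
  have e4 : p y * (1 - Ring.inverse (J y) * p y) = 0 := by
    rw [e3, mul_sub, mul_one, ← mul_assoc, ← e1, mul_assoc, Ring.mul_inverse_cancel _ hu, mul_one,
      sub_self]
  have e5 : (1 - p y₀) * (1 - Ring.inverse (J y) * p y) = 1 - p y₀ := by
    rw [e3, mul_sub, mul_one, ← mul_assoc, sub_mul, one_mul, hpp, sub_self, zero_mul, sub_zero]
  refine ⟨?_, fun v => ?_, fun v => ?_, fun w h1 h2 => ?_⟩
  · refine (differentiableAt_const _).sub (DifferentiableAt.mul ?_ hy.1)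
    exact (differentiableAt_inverse hu).comp y (hJd y hy.1)
  · exact congrArg (fun L : E →L[ℂ] E => L v) e4
  · exact congrArg (fun L : E →L[ℂ] E => L v) e5
  · have h3 : J y w = 0 := by
      have := congrArg (fun L : E →L[ℂ] E => L w) e2
      simpa [h1, h2] using this
    have h4 := congrArg (fun L : E →L[ℂ] E => L w) (Ring.inverse_mul_cancel _ hu)
    simpa [h3] using h4.symm

/-- symmetry of the derivative of `R`. -/
theorem Frob1_symm {p R : E → E →L[ℂ] E} {p₀ : E →L[ℂ] E} {y : E} (hp : DifferentiableAt ℂ p y)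
    (hR : DifferentiableAt ℂ R y)
    (hs : ∀ a b, p y a = 0 → p y b = 0 → fderiv ℂ p y a b = fderiv ℂ p y b a)
    (h1 : ∀ᶠ z in 𝓝 y, ∀ v, p z (R z v) = 0) (h2 : ∀ᶠ z in 𝓝 y, ∀ v, R z v - p₀ (R z v) = v - p₀ v)
    (h3 : ∀ w, p₀ w = w → p y w = 0 → w = 0) (b c : E) :
    fderiv ℂ R y (R y c) b = fderiv ℂ R y (R y b) c := by
  have hb : ∀ b, HasFDerivAt (fun z => R z b) ((fderiv ℂ R y).flip b) y := by
    intro b
    simpa using hR.hasFDerivAt.clm_apply (hasFDerivAt_const b y)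
  have k1 : ∀ a b, fderiv ℂ p y a (R y b) + p y (fderiv ℂ R y a b) = 0 := by
    intro a b
    have d1 := hp.hasFDerivAt.clm_apply (hb b)
    have he : (fun z => p z (R z b)) =ᶠ[𝓝 y] fun _ => (0 : E) := h1.mono fun z hz => hz b
    have d2 := (d1.congr_of_eventuallyEq he.symm).unique (hasFDerivAt_const (0 : E) y)
    have d3 := congrArg (fun L : E →L[ℂ] E => L a) d2
    simp only [add_apply, ContinuousLinearMap.comp_apply,
      ContinuousLinearMap.flip_apply, zero_apply] at d3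
    rw [add_comm]; exact d3
  have k2 : ∀ a b, p₀ (fderiv ℂ R y a b) = fderiv ℂ R y a b := by
    intro a b
    have d1 := (hb b).sub (p₀.hasFDerivAt.comp y (hb b))
    have he : (fun z => R z b - p₀ (R z b)) =ᶠ[𝓝 y] fun _ => b - p₀ b := h2.mono fun z hz => hz b
    have d2 := (d1.congr_of_eventuallyEq he.symm).unique (hasFDerivAt_const (b - p₀ b) y)
    have d3 := congrArg (fun L : E →L[ℂ] E => L a) d2
    simp only [sub_apply, ContinuousLinearMap.comp_apply,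
      ContinuousLinearMap.flip_apply, zero_apply] at d3
    exact (sub_eq_zero.1 d3).symm
  rw [← sub_eq_zero]
  refine h3 _ (by rw [map_sub, k2, k2]) ?_
  have e1 := k1 (R y c) b
  have e2 := k1 (R y b) c
  rw [hs _ _ (h1.self_of_nhds c) (h1.self_of_nhds b)] at e1
  rw [map_sub, eq_neg_of_add_eq_zero_right e1, eq_neg_of_add_eq_zero_right e2, sub_self]

/-- the ray flow. -/
theorem Frob1_flow {R : E → E →L[ℂ] E} {U : Set E} (hU : IsOpen U) (hR : DifferentiableOn ℂ R U)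
    {y₀ : E} (hy : y₀ ∈ U) (p₀ : E →L[ℂ] E) :
    ∃ ε > 0, ∃ (V : Set E) (Λ : ℂ × E → E), IsOpen V ∧ (0 : E) ∈ V ∧
      DifferentiableOn ℂ Λ (ball 0 ε ×ˢ V) ∧ MapsTo Λ (ball 0 ε ×ˢ V) U ∧
      ∀ v ∈ V, Λ (0, v) = y₀ + p₀ v ∧
        ∀ t ∈ ball (0 : ℂ) ε, HasDerivAt (fun s => Λ (s, v)) (R (Λ (t, v)) v) t := by
  have hX : DifferentiableOn ℂ (fun q : E × E => (R q.1 q.2, (0 : E))) (U ×ˢ univ) := by
    refine DifferentiableOn.prodMk ?_ (differentiableOn_const _)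
    exact (hR.comp differentiableOn_fst fun q hq => hq.1).clm_apply differentiableOn_snd
  obtain ⟨ε, hε, Φ, hΦ, hm, hf⟩ :=
    R264.exists_local_flow (hU.prod isOpen_univ) hX (a := (y₀, 0)) ⟨hy, mem_univ _⟩
  refine ⟨ε, hε, (fun v => (y₀ + p₀ v, v)) ⁻¹' ball (y₀, 0) ε,
    fun z => (Φ (z.1, (y₀ + p₀ z.2, z.2))).1, isOpen_ball.preimage (by fun_prop),
    by simpa using hε, ?_, fun z hz => (hm (x := (z.1, (y₀ + p₀ z.2, z.2))) ⟨hz.1, hz.2⟩).1, ?_⟩
  · refine DifferentiableOn.fst (hΦ.comp (f := fun z : ℂ × E => (z.1, (y₀ + p₀ z.2, z.2)))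
      (by fun_prop) fun z hz => ⟨hz.1, hz.2⟩)
  · intro v hv
    obtain ⟨h0, hd⟩ := hf _ hv
    refine ⟨by simp only [h0], fun t ht => ?_⟩
    have h2 : ∀ t ∈ ball (0 : ℂ) ε, (Φ (t, (y₀ + p₀ v, v))).2 - v = 0 := by
      refine lin_zero (L := fun _ => 0) continuousOn_const (fun t ht => ?_) (mem_ball_self hε)
        (by simp only [h0, sub_self])
      simpa using ((ContinuousLinearMap.snd ℂ E E).hasFDerivAt.comp_hasDerivAt t
        (hd t ht)).sub_const v
    have h3 := (ContinuousLinearMap.fst ℂ E E).hasFDerivAt.comp_hasDerivAt t (hd t ht)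
    rw [sub_eq_zero.1 (h2 t ht)] at h3
    exact h3

/-- the variational equation. -/
theorem Frob1_var {R : E → E →L[ℂ] E} {U : Set E} (hU : IsOpen U) (hR : DifferentiableOn ℂ R U)
    {ε : ℝ} {V : Set E} {Λ : ℂ × E → E} (hV : IsOpen V)
    (hΛ : DifferentiableOn ℂ Λ (ball 0 ε ×ˢ V)) (hm : MapsTo Λ (ball 0 ε ×ˢ V) U)
    (hd : ∀ v ∈ V, ∀ t ∈ ball (0 : ℂ) ε, HasDerivAt (fun s => Λ (s, v)) (R (Λ (t, v)) v) t)
    {v : E} (hv : v ∈ V) {t : ℂ} (ht : t ∈ ball (0 : ℂ) ε) (c : E) :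
    HasDerivAt (fun s => fderiv ℂ Λ (s, v) (0, c))
      (fderiv ℂ R (Λ (t, v)) (fderiv ℂ Λ (t, v) (0, c)) v + R (Λ (t, v)) c) t := by
  have := FiniteDimensional.complete ℂ E
  have hD : IsOpen (ball (0 : ℂ) ε ×ˢ V) := isOpen_ball.prod hV
  have hz : (t, v) ∈ ball (0 : ℂ) ε ×ˢ V := ⟨ht, hv⟩
  have han : AnalyticAt ℂ Λ (t, v) := R264.SCV.analyticOnNhd hD hΛ _ hz
  have h2 : HasFDerivAt (fderiv ℂ Λ) (fderiv ℂ (fderiv ℂ Λ) (t, v)) (t, v) :=
    han.fderiv.differentiableAt.hasFDerivAt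
  have hsym : fderiv ℂ (fderiv ℂ Λ) (t, v) (1, 0) (0, c) =
      fderiv ℂ (fderiv ℂ Λ) (t, v) (0, c) (1, 0) :=
    (han.contDiffAt (n := 2)).isSymmSndFDerivAt (by simp) _ _
  have hι : ∀ (t : ℂ) (v : E), HasDerivAt (fun s : ℂ => (s, v)) ((1 : ℂ), (0 : E)) t :=
    fun t v => (hasDerivAt_id t).prodMk (hasDerivAt_const t v)
  have he : (fun z : ℂ × E => fderiv ℂ Λ z (1, 0)) =ᶠ[𝓝 (t, v)] fun z => R (Λ z) z.2 := by
    filter_upwards [hD.mem_nhds hz] with z hz'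
    have d1 := (hΛ.differentiableAt (hD.mem_nhds hz')).hasFDerivAt.comp_hasDerivAt_of_eq z.1
      (hι z.1 z.2) rfl
    exact d1.unique (hd z.2 hz'.2 z.1 hz'.1)
  have d1 : HasFDerivAt (fun z : ℂ × E => fderiv ℂ Λ z (1, 0))
      ((fderiv ℂ (fderiv ℂ Λ) (t, v)).flip (1, 0)) (t, v) := by
    simpa using h2.clm_apply (hasFDerivAt_const ((1 : ℂ), (0 : E)) (t, v))
  have d2 := (((hR.differentiableAt (hU.mem_nhds (hm hz))).hasFDerivAt.comp (t, v)
    han.differentiableAt.hasFDerivAt).clm_apply (hasFDerivAt_snd (𝕜 := ℂ) (p := (t, v))))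
  have d3 := congrArg (fun L : ℂ × E →L[ℂ] E => L (0, c))
    ((d1.congr_of_eventuallyEq he.symm).unique d2)
  simp only [add_apply, ContinuousLinearMap.comp_apply,
    ContinuousLinearMap.flip_apply, Function.comp_apply, ContinuousLinearMap.coe_snd'] at d3
  have d4 := (h2.comp_hasDerivAt_of_eq t (hι t v) rfl).clm_apply
    (hasDerivAt_const t ((0 : ℂ), c))
  simp only [Function.comp_apply, map_zero, add_zero] at d4
  rw [hsym, d3, add_comm] at d4
  exact d4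

/-- first integrals of an involutive holomorphic distribution `ker p`. -/
theorem frobenius {p : E → E →L[ℂ] E} {y₀ : E}
    (hp : ∀ᶠ y in 𝓝 y₀, DifferentiableAt ℂ p y ∧ (∀ v, p y (p y v) = p y v) ∧
      ∀ a b, p y a = 0 → p y b = 0 → fderiv ℂ p y a b = fderiv ℂ p y b a) :
    ∃ f : E → E, (∀ᶠ y in 𝓝 y₀, DifferentiableAt ℂ f y ∧ ∀ v, p y v = 0 → fderiv ℂ f y v = 0) ∧
      fderiv ℂ f y₀ = p y₀ := by
  have := FiniteDimensional.complete ℂ E
  obtain ⟨R, hR⟩ := Frob1_R (hp.mono fun y hy => ⟨hy.1, hy.2.1⟩)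
  obtain ⟨U, hU1, hU, hy₀⟩ := _root_.eventually_nhds_iff.1 (hp.and hR)
  have hRd : DifferentiableOn ℂ R U := fun y hy => (hU1 y hy).2.1.differentiableWithinAt
  set p₀ := p y₀ with hp₀
  have hpp : ∀ v, p₀ (p₀ v) = p₀ v := (hU1 y₀ hy₀).1.2.1
  have hsymm : ∀ y ∈ U, ∀ b c, fderiv ℂ R y (R y c) b = fderiv ℂ R y (R y b) c := by
    intro y hy
    refine Frob1_symm (p₀ := p₀) (hU1 y hy).1.1 (hU1 y hy).2.1 (hU1 y hy).1.2.2 ?_ ?_
      (hU1 y hy).2.2.2.2
    · filter_upwards [hU.mem_nhds hy] with z hz using (hU1 z hz).2.2.1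
    · filter_upwards [hU.mem_nhds hy] with z hz using (hU1 z hz).2.2.2.1
  have hker : ∀ y ∈ U, ∀ u, p y u = 0 → R y (u - p₀ u) = u := by
    intro y hy u hu
    rw [← sub_eq_zero]
    refine (hU1 y hy).2.2.2.2 _ ?_ (by rw [map_sub, (hU1 y hy).2.2.1, hu, sub_self])
    have := (hU1 y hy).2.2.2.1 (u - p₀ u)
    rw [map_sub p₀ u, hpp, sub_self, sub_zero] at this
    rw [map_sub, sub_eq_sub_iff_sub_eq_sub, ← neg_sub (R y _), this, neg_sub, ← neg_sub u]
  have hR0 : ∀ c, R y₀ c = c - p₀ c := by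
    intro c
    have := (hU1 y₀ hy₀).2.2.2.1 c
    rwa [(hU1 y₀ hy₀).2.2.1, sub_zero] at this
  obtain ⟨ε, hε, V, Λ, hV, h0V, hΛ, hm, hf⟩ := Frob1_flow hU hRd hy₀ p₀
  have hD : IsOpen (ball (0 : ℂ) ε ×ˢ V) := isOpen_ball.prod hV
  have hvar := fun {v} hv {t} ht c => Frob1_var hU hRd hV hΛ hm (fun v hv => (hf v hv).2)
    (v := v) hv (t := t) ht c
  have hfd : ∀ t ∈ ball (0 : ℂ) ε, ∀ v ∈ V, HasFDerivAt (fun v => Λ (t, v))
      ((fderiv ℂ Λ (t, v)).comp (ContinuousLinearMap.inr ℂ ℂ E)) v := by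
    intro t ht v hv
    exact (hΛ.differentiableAt (hD.mem_nhds (show (t, v) ∈ _ from ⟨ht, hv⟩))).hasFDerivAt.comp v
      (hasFDerivAt_prodMk_right t v)
  have hinit : ∀ v ∈ V, ∀ c, fderiv ℂ Λ (0, v) (0, c) = p₀ c := by
    intro v hv c
    have he : (fun v => Λ (0, v)) =ᶠ[𝓝 v] fun v => y₀ + p₀ v := by
      filter_upwards [hV.mem_nhds hv] with w hw using (hf w hw).1
    have := ((hfd 0 (mem_ball_self hε) v hv).congr_of_eventuallyEq he.symm).unique
      (p₀.hasFDerivAt.const_add y₀)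
    exact congrArg (fun L : E →L[ℂ] E => L c) this
  have hW : ∀ v ∈ V, ∀ c, p₀ c = 0 → ∀ t ∈ ball (0 : ℂ) ε,
      fderiv ℂ Λ (t, v) (0, c) - t • R (Λ (t, v)) c = 0 := by
    intro v hv c hc
    refine lin_zero (L := fun t => (fderiv ℂ R (Λ (t, v))).flip v) ?_ (fun t ht => ?_)
      (mem_ball_self hε) (by rw [hinit v hv, hc, zero_smul, sub_self])
    · have c1 : ContinuousOn (fderiv ℂ R) U :=
        (R264.SCV.differentiableOn_fderiv hU hRd).continuousOn
      have c2 : ContinuousOn (fun t => fderiv ℂ R (Λ (t, v))) (ball (0 : ℂ) ε) :=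
        c1.comp (fun t ht => ((hf v hv).2 t ht).continuousAt.continuousWithinAt)
          fun t ht => hm (show (t, v) ∈ _ from ⟨ht, hv⟩)
      exact ((ContinuousLinearMap.flipₗᵢ ℂ E E E).continuous.comp_continuousOn c2).clm_apply
        continuousOn_const
    · have hy : Λ (t, v) ∈ U := hm (show (t, v) ∈ _ from ⟨ht, hv⟩)
      have d1 := (((hRd.differentiableAt (hU.mem_nhds hy)).hasFDerivAt.comp_hasDerivAt t
        ((hf v hv).2 t ht)).clm_apply (hasDerivAt_const t c))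
      have d2 := (hvar hv ht c).fun_sub ((hasDerivAt_id' t).fun_smul d1)
      refine d2.congr_deriv ?_
      simp only [ContinuousLinearMap.flip_apply, map_sub, map_smul, sub_apply,
        smul_apply, Function.comp_apply, map_zero, add_zero, one_smul]
      rw [hsymm _ hy v c]
      abel
  have hΛ0 : ∀ t ∈ ball (0 : ℂ) ε, Λ (t, 0) - y₀ = 0 := by
    refine lin_zero (L := fun _ => 0) continuousOn_const (fun t ht => ?_) (mem_ball_self hε)
      (by rw [(hf 0 h0V).1, map_zero, add_zero, sub_self])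
    simpa using ((hf 0 h0V).2 t ht).sub_const y₀
  have hD0 : ∀ c, ∀ t ∈ ball (0 : ℂ) ε,
      fderiv ℂ Λ (t, 0) (0, c) - (p₀ c + t • (c - p₀ c)) = 0 := by
    intro c
    refine lin_zero (L := fun _ => 0) continuousOn_const (fun t ht => ?_) (mem_ball_self hε)
      (by rw [hinit 0 h0V, zero_smul, add_zero, sub_self])
    have d1 := (hvar h0V ht c).fun_sub
      (((hasDerivAt_id' t).smul_const (c - p₀ c)).const_add (p₀ c))
    rw [sub_eq_zero.1 (hΛ0 t ht), hR0] at d1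
    simpa using d1
  set t₀ : ℂ := ((ε / 2 : ℝ) : ℂ) with ht₀
  have ht : t₀ ∈ ball (0 : ℂ) ε := by
    rw [mem_ball_zero_iff, ht₀, Complex.norm_real, Real.norm_eq_abs, abs_of_pos (half_pos hε)]
    exact half_lt_self hε
  have ht0 : t₀ ≠ 0 := by
    rw [ht₀]; exact_mod_cast (half_pos hε).ne'
  set Θ : E → E := fun v => Λ (t₀, v) with hΘ
  have hΘd : DifferentiableOn ℂ Θ V :=
    fun v hv => (hfd t₀ ht v hv).differentiableAt.differentiableWithinAt
  have hΘf : ∀ v ∈ V, ∀ c, fderiv ℂ Θ v c = fderiv ℂ Λ (t₀, v) (0, c) := by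
    intro v hv c
    rw [(hfd t₀ ht v hv).fderiv]; rfl
  have hΘ0 : ∀ u, fderiv ℂ Θ 0 (p₀ u + t₀⁻¹ • (u - p₀ u)) = u := by
    intro u
    rw [hΘf 0 h0V, sub_eq_zero.1 (hD0 _ t₀ ht)]
    simp only [map_add, map_smul, map_sub, hpp, sub_self, smul_zero, add_zero, add_sub_cancel_left,
      smul_smul, mul_inv_cancel₀ ht0, one_smul]
    abel
  have hbij : Function.Bijective (fderiv ℂ Θ 0) := by
    have hs : Function.Surjective (fderiv ℂ Θ 0) := fun u => ⟨_, hΘ0 u⟩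
    exact ⟨(LinearMap.injective_iff_surjective (f := (fderiv ℂ Θ 0 : E →ₗ[ℂ] E))).2 hs, hs⟩
  obtain ⟨A, B, g, hA, h0A, hAV, hB, hg, hAB, hBA, hgΘ, hΘg⟩ :=
    R264.exists_local_inverse hV hΘd h0V hbij
  have hΘy : Θ 0 = y₀ := sub_eq_zero.1 (hΛ0 t₀ ht)
  have hyB : y₀ ∈ B := hΘy ▸ hAB h0A
  have hinv : ∀ v ∈ A, ∀ c, fderiv ℂ g (Θ v) (fderiv ℂ Θ v c) = c := by
    intro v hv c
    have d1 := (hg.differentiableAt (hB.mem_nhds (hAB hv))).hasFDerivAt.comp v
      (hΘd.differentiableAt (hV.mem_nhds (hAV hv))).hasFDerivAt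
    have he : (g ∘ Θ) =ᶠ[𝓝 v] id := by
      filter_upwards [hA.mem_nhds hv] with w hw using hgΘ w hw
    exact congrArg (fun L : E →L[ℂ] E => L c)
      ((d1.congr_of_eventuallyEq he.symm).unique (hasFDerivAt_id v))
  have hfg : ∀ y ∈ B, HasFDerivAt (fun y => p₀ (g y)) (p₀.comp (fderiv ℂ g y)) y :=
    fun y hy => p₀.hasFDerivAt.comp y (hg.differentiableAt (hB.mem_nhds hy)).hasFDerivAt
  refine ⟨fun y => p₀ (g y), ?_, ?_⟩
  · filter_upwards [hB.mem_nhds hyB, hU.mem_nhds hy₀] with y hy hyU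
    refine ⟨(hfg y hy).differentiableAt, fun u hu => ?_⟩
    have hc : p₀ (t₀⁻¹ • (u - p₀ u)) = 0 := by rw [map_smul, map_sub, hpp, sub_self, smul_zero]
    have e1 := hinv (g y) (hBA hy) (t₀⁻¹ • (u - p₀ u))
    have e2 : Λ (t₀, g y) = y := hΘg y hy
    rw [hΘf _ (hAV (hBA hy)), sub_eq_zero.1 (hW _ (hAV (hBA hy)) _ hc t₀ ht), hΘg y hy, e2,
      map_smul (R y), smul_smul, mul_inv_cancel₀ ht0, one_smul, hker y hyU u hu] at e1
    rw [(hfg y hy).fderiv, ContinuousLinearMap.comp_apply, e1, hc]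
  · ext u
    have e1 := hinv 0 h0A (p₀ u + t₀⁻¹ • (u - p₀ u))
    rw [hΘ0, hΘy] at e1
    rw [(hfg y₀ hyB).fderiv, ContinuousLinearMap.comp_apply, e1, map_add, map_smul, map_sub, hpp,
      sub_self, smul_zero, add_zero]

end Crest.Agent.R266
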