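import Crest.Agent.R266.CKDefs
import Crest.Agent.R266.Frob1
import Crest.Agent.R266.GPicard
import Crest.Agent.R266.CK0

/-! Row 266 (S0404): the Cauchy problem for bifoliated maps along the diagonal.

With `q = 1 - p`, `Γ (y, U, V) = q y (Dp y V (p y U)) - p y (Dp y U (q y V))`.  Unknown
`(φ, U, V)` on a bidisc `D × D` centred at `(s₀, s₀)`:
`U (z,w) = p (f z) (f' z) + ∫_z^w Γ (z, ·)`, `V (z,w) = q (f w) (f' w) + ∫_w^z Γ (·, w)`,
`φ (z,w) = f w + ∫_w^z U (·, w)` (integrals along segments,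
`∫_z^w h = ∫ s in 0..1, (w - z) • h (z + s (w - z))`).  Existence:
`Crest.Agent.R266G.picard` applied to the difference with the constant
`(f s₀, p f' s₀, q f' s₀)` (`Γ` is bounded and Lipschitz on a closed ball; small radius),
`Crest.Agent.R266G.differentiableOn_integral`.  Then `U_w = Γ = V_z`, `φ_z = U`
(derivative of a segment integral of a holomorphic function of one variable on a disc, cf.
`Crest.Agent.R264.SCV3_deriv` or `DifferentiableOn.isExactOn_ball`), and `φ_w = V` since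
`(φ_w - V)_z = U_w - Γ = 0` and on the diagonal `φ_w = f' - U = q f' = V`.  `α = q(φ) U` satisfies
`α_w = - Dp[V] α` and `β = p(φ) V` satisfies `β_z = Dp[U] β` (`fderiv_idem`: `p Dp p = 0`,
`q Dp q = 0`), both vanish on the diagonal, so they vanish (`lin_zero`).
Uniqueness: a bifoliated `φ` has `U = φ_z`, `V = φ_w` with `U_w = V_z = Dp[V] U - Dp[U] V`,
`U = p f'`, `V = q f'` on the diagonal; on a small closed bidisc of radius `r` the sup `d` of the
norms of the differences of `(φ, U, V)` satisfies `d ≤ C r d` (mean value inequality on segments). -/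

set_option autoImplicit false
set_option linter.unusedSectionVars false

open Set Filter Topology Metric
open scoped Manifold ContDiff

noncomputable section
namespace Crest.Agent.R266

variable {E : Type} [NormedAddCommGroup E] [NormedSpace ℂ E] [FiniteDimensional ℂ E]

/-- a function with zero derivative on a disc which vanishes at a point vanishes. -/
theorem ck_zero {W : ℂ → E} {c : ℂ} {r : ℝ} (hW : ∀ t ∈ ball c r, HasDerivAt W 0 t) {t₁ : ℂ}
    (h₁ : t₁ ∈ ball c r) (h0 : W t₁ = 0) : ∀ t ∈ ball c r, W t = 0 :=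
  lin_zero (L := fun _ => (0 : E →L[ℂ] E)) continuousOn_const
    (fun t ht => by simpa using hW t ht) h₁ h0

theorem ck_fst {F G : Type} [NormedAddCommGroup F] [NormedSpace ℂ F] [NormedAddCommGroup G]
    [NormedSpace ℂ G] {g : ℂ → F × G} {g' : F × G} {t : ℂ} (h : HasDerivAt g g' t) :
    HasDerivAt (fun u => (g u).1) g'.1 t :=
  (ContinuousLinearMap.fst ℂ F G).hasFDerivAt.comp_hasDerivAt t h

theorem ck_snd {F G : Type} [NormedAddCommGroup F] [NormedSpace ℂ F] [NormedAddCommGroup G]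
    [NormedSpace ℂ G] {g : ℂ → F × G} {g' : F × G} {t : ℂ} (h : HasDerivAt g g' t) :
    HasDerivAt (fun u => (g u).2) g'.2 t :=
  (ContinuousLinearMap.snd ℂ F G).hasFDerivAt.comp_hasDerivAt t h

/-- the right-hand side of the Goursat system. -/
def ckΓ (p : E → E →L[ℂ] E) (x : E × E × E) : E :=
  fderiv ℂ p x.1 x.2.2 (p x.1 x.2.1) - fderiv ℂ p x.1 x.2.1 (x.2.2 - p x.1 x.2.2)

theorem ckΓ_analytic {p : E → E →L[ℂ] E} {x : E × E × E} (hp : AnalyticAt ℂ p x.1) :
    AnalyticAt ℂ (ckΓ p) x := by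
  have := FiniteDimensional.complete ℂ E
  refine R264.SCV.analyticAt_of_eventually ?_
  filter_upwards [continuous_fst.continuousAt.eventually hp.eventually_analyticAt] with y hy
  have h1 : DifferentiableAt ℂ (fun x : E × E × E => p x.1) y :=
    hy.differentiableAt.comp y differentiableAt_fst
  have h2 : DifferentiableAt ℂ (fun x : E × E × E => fderiv ℂ p x.1) y :=
    hy.fderiv.differentiableAt.comp y differentiableAt_fst
  have h3 : DifferentiableAt ℂ (fun x : E × E × E => x.2.1) y := by fun_prop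
  have h4 : DifferentiableAt ℂ (fun x : E × E × E => x.2.2) y := by fun_prop
  exact ((h2.clm_apply h4).clm_apply (h1.clm_apply h3)).sub
    ((h2.clm_apply h3).clm_apply (h4.sub (h1.clm_apply h4)))

/-- solution of the Goursat system. -/
theorem ck_system {p : E → E →L[ℂ] E} {f a b : ℂ → E} {s₀ : ℂ} (hp : AnalyticAt ℂ p (f s₀))
    (hf : ∀ᶠ s in 𝓝 s₀, DifferentiableAt ℂ f s) (ha : ∀ᶠ s in 𝓝 s₀, DifferentiableAt ℂ a s)
    (hb : ∀ᶠ s in 𝓝 s₀, DifferentiableAt ℂ b s) {N : Set E} (hN : N ∈ 𝓝 (f s₀)) :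
    ∃ r > 0, ∃ φ U V : ℂ × ℂ → E, DifferentiableOn ℂ φ (ball (s₀, s₀) r) ∧
      DifferentiableOn ℂ U (ball (s₀, s₀) r) ∧ DifferentiableOn ℂ V (ball (s₀, s₀) r) ∧
      (∀ y ∈ ball (s₀, s₀) r, φ y ∈ N) ∧
      (∀ s ∈ ball s₀ r, φ (s, s) = f s ∧ U (s, s) = a s ∧ V (s, s) = b s) ∧
      ∀ z ∈ ball s₀ r, ∀ w ∈ ball s₀ r, HasDerivAt (fun t => φ (t, w)) (U (z, w)) z ∧
        HasDerivAt (fun t => U (z, t)) (ckΓ p (φ (z, w), U (z, w), V (z, w))) w ∧
        HasDerivAt (fun t => V (t, w)) (ckΓ p (φ (z, w), U (z, w), V (z, w))) z := by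
  have := FiniteDimensional.complete ℂ E
  have hΓ : AnalyticAt ℂ (ckΓ p) (f s₀, a s₀, b s₀) := ckΓ_analytic hp
  have hfst : Tendsto (Prod.fst : ℂ × ℂ → ℂ) (𝓝 (s₀, s₀)) (𝓝 s₀) := continuous_fst.continuousAt
  have hsnd : Tendsto (Prod.snd : ℂ × ℂ → ℂ) (𝓝 (s₀, s₀)) (𝓝 s₀) := continuous_snd.continuousAt
  obtain ⟨r, hr, X, P, Q, hX, hXN, hXe, hP0, hQ0, hP, hQ⟩ := ck0_goursat (F := E × E × E)
    (A := fun x => (0, ckΓ p x, 0)) (B := fun x => (x.2.1, 0, ckΓ p x))
    (x₀ := (f s₀, a s₀, b s₀)) (c := fun y => (f y.2, a y.1, b y.2)) (s₀ := s₀)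
    (analyticAt_const.prod (hΓ.prod analyticAt_const))
    ((analyticAt_fst.comp analyticAt_snd).prod (analyticAt_const.prod hΓ))
    (by
      filter_upwards [hsnd.eventually hf, hfst.eventually ha, hsnd.eventually hb] with y h1 h2 h3
      exact (h1.comp y differentiableAt_snd).prodMk ((h2.comp y differentiableAt_fst).prodMk
        (h3.comp y differentiableAt_snd))) rfl
    (N := Prod.fst ⁻¹' N) (continuous_fst.continuousAt.preimage_mem_nhds hN)
  have hP1 : ∀ z ∈ ball s₀ r, ∀ w ∈ ball s₀ r, (P (z, w)).1 = 0 := fun z hz =>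
    ck_zero (W := fun t => (P (z, t)).1) (fun t ht => ck_fst (hP z hz t ht)) hz (by simp [hP0])
  have hP3 : ∀ z ∈ ball s₀ r, ∀ w ∈ ball s₀ r, (P (z, w)).2.2 = 0 := fun z hz =>
    ck_zero (W := fun t => (P (z, t)).2.2) (fun t ht => ck_snd (ck_snd (hP z hz t ht))) hz (by simp [hP0])
  have hQ2 : ∀ w ∈ ball s₀ r, ∀ z ∈ ball s₀ r, (Q (z, w)).2.1 = 0 := fun w hw =>
    ck_zero (W := fun t => (Q (t, w)).2.1) (fun t ht => ck_fst (ck_snd (hQ t ht w hw))) hw (by simp [hQ0])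
  refine ⟨r, hr, fun y => (X y).1, fun y => (X y).2.1, fun y => (X y).2.2, hX.fst, hX.snd.fst,
    hX.snd.snd, hXN, fun s hs => ?_, fun z hz w hw => ⟨?_, ?_, ?_⟩⟩
  · have := hXe (s, s) (ck0_mem_ball.2 ⟨hs, hs⟩)
    simp only [this, hP0, hQ0, add_zero, and_self]
  · refine ((ck_fst (hQ z hz w hw)).const_add (f w)).congr_of_eventuallyEq ?_
    filter_upwards [isOpen_ball.mem_nhds hz] with t ht
    rw [hXe (t, w) (ck0_mem_ball.2 ⟨ht, hw⟩)]
    simp [hP1 t ht w hw]
  · refine ((ck_fst (ck_snd (hP z hz w hw))).const_add (a z)).congr_of_eventuallyEq ?_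
    filter_upwards [isOpen_ball.mem_nhds hw] with t ht
    rw [hXe (z, t) (ck0_mem_ball.2 ⟨hz, ht⟩)]
    simp [hQ2 t ht z hz]
  · refine ((ck_snd (ck_snd (hQ z hz w hw))).const_add (b w)).congr_of_eventuallyEq ?_
    filter_upwards [isOpen_ball.mem_nhds hz] with t ht
    rw [hXe (t, w) (ck0_mem_ball.2 ⟨ht, hw⟩)]
    simp [hP3 t ht w hw]

theorem ck_slice₁ {g : ℂ × ℂ → E} {z w : ℂ} (hg : DifferentiableAt ℂ g (z, w)) :
    HasDerivAt (fun t => g (t, w)) (fderiv ℂ g (z, w) (1, 0)) z :=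
  hg.hasFDerivAt.comp_hasDerivAt_of_eq z ((hasDerivAt_id z).prodMk (hasDerivAt_const z w)) rfl

theorem ck_slice₂ {g : ℂ × ℂ → E} {z w : ℂ} (hg : DifferentiableAt ℂ g (z, w)) :
    HasDerivAt (fun t => g (z, t)) (fderiv ℂ g (z, w) (0, 1)) w :=
  hg.hasFDerivAt.comp_hasDerivAt_of_eq w ((hasDerivAt_const w z).prodMk (hasDerivAt_id w)) rfl

theorem ck_exists {p : E → E →L[ℂ] E} {f : ℂ → E} {s₀ : ℂ}
    (hp : ∀ᶠ y in 𝓝 (f s₀), DifferentiableAt ℂ p y ∧ ∀ v, p y (p y v) = p y v)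
    (hf : ∀ᶠ s in 𝓝 s₀, DifferentiableAt ℂ f s) :
    ∃ φ : ℂ × ℂ → E, (∀ᶠ y in 𝓝 (s₀, s₀), BifE p φ y) ∧ ∀ᶠ s in 𝓝 s₀, φ (s, s) = f s := by
  have := FiniteDimensional.complete ℂ E
  have hpa : AnalyticAt ℂ p (f s₀) := R264.SCV.analyticAt_of_eventually (hp.mono fun y hy => hy.1)
  have hfa : AnalyticAt ℂ f s₀ := R264.SCV.analyticAt_of_eventually hf
  have hfc : Tendsto f (𝓝 s₀) (𝓝 (f s₀)) := hfa.continuousAt
  have ha : ∀ᶠ s in 𝓝 s₀, DifferentiableAt ℂ (fun s => p (f s) (deriv f s)) s := by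
    filter_upwards [hfa.eventually_analyticAt, hfc.eventually hp] with s h1 h2
    exact (h2.1.comp s h1.differentiableAt).clm_apply h1.deriv.differentiableAt
  have hb : ∀ᶠ s in 𝓝 s₀, DifferentiableAt ℂ (fun s => deriv f s - p (f s) (deriv f s)) s := by
    filter_upwards [hfa.eventually_analyticAt, ha] with s h1 h2
    exact h1.deriv.differentiableAt.sub h2
  obtain ⟨r, hr, φ, U, V, hφ, hU, hV, hN, hdiag, hd⟩ := ck_system hpa hf ha hb
    (N := {y | AnalyticAt ℂ p y ∧ ∀ᶠ z in 𝓝 y, ∀ v, p z (p z v) = p z v})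
    (hpa.eventually_analyticAt.and (hp.mono fun y hy => hy.2).eventually_nhds)
  obtain ⟨r₁, hr₁, hf₁⟩ := nhds_basis_ball.mem_iff.1 hf
  have hmem : ∀ {z w : ℂ}, z ∈ ball s₀ r → w ∈ ball s₀ r → (z, w) ∈ ball (s₀, s₀) r :=
    fun hz hw => ck0_mem_ball.2 ⟨hz, hw⟩
  have hφa : ∀ y ∈ ball (s₀, s₀) r, AnalyticAt ℂ φ y := R264.SCV.analyticOnNhd isOpen_ball hφ
  have hφz : ∀ y ∈ ball (s₀, s₀) r, fderiv ℂ φ y (1, 0) = U y := by
    rintro ⟨z, w⟩ hy
    have hy' := ck0_mem_ball.1 hy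
    exact (ck_slice₁ (hφa _ hy).differentiableAt).unique (hd z hy'.1 w hy'.2).1
  have hφw : ∀ w ∈ ball s₀ r, w ∈ ball s₀ r₁ → ∀ z ∈ ball s₀ r,
      fderiv ℂ φ (z, w) (0, 1) = V (z, w) := by
    intro w hw hw₁ z hz
    refine sub_eq_zero.1 (ck_zero (W := fun t => fderiv ℂ φ (t, w) (0, 1) - V (t, w))
      (fun t ht => ?_) hw ?_ z hz)
    · have han := hφa _ (hmem ht hw)
      have h2 : HasFDerivAt (fderiv ℂ φ) (fderiv ℂ (fderiv ℂ φ) (t, w)) (t, w) :=
        han.fderiv.differentiableAt.hasFDerivAt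
      have hsym : fderiv ℂ (fderiv ℂ φ) (t, w) (1, 0) (0, 1) =
          fderiv ℂ (fderiv ℂ φ) (t, w) (0, 1) (1, 0) :=
        (han.contDiffAt (n := 2)).isSymmSndFDerivAt (by simp) _ _
      have d1 := (h2.comp_hasDerivAt_of_eq t ((hasDerivAt_id t).prodMk (hasDerivAt_const t w))
        rfl).clm_apply (hasDerivAt_const t ((0 : ℂ), (1 : ℂ)))
      have d2 := (h2.comp_hasDerivAt_of_eq w ((hasDerivAt_const w t).prodMk (hasDerivAt_id w))
        rfl).clm_apply (hasDerivAt_const w ((1 : ℂ), (0 : ℂ)))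
      simp only [Function.comp_apply, map_zero, add_zero, id] at d1 d2
      have d3 : HasDerivAt (fun u => U (t, u)) (fderiv ℂ (fderiv ℂ φ) (t, w) (0, 1) (1, 0)) w := by
        refine d2.congr_of_eventuallyEq ?_
        filter_upwards [isOpen_ball.mem_nhds hw] with u hu
        exact (hφz _ (hmem ht hu)).symm
      have e := d3.unique (hd t ht w hw).2.1
      have d4 := d1.sub (hd t ht w hw).2.2
      rw [hsym, e, sub_self] at d4
      exact d4
    · have d1 : HasDerivAt (fun s => φ (s, s)) (fderiv ℂ φ (w, w) (1, 1)) w :=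
        (hφa _ (hmem hw hw)).differentiableAt.hasFDerivAt.comp_hasDerivAt_of_eq w
          ((hasDerivAt_id w).prodMk (hasDerivAt_id w)) rfl
      have d2 : HasDerivAt f (fderiv ℂ φ (w, w) (1, 1)) w := by
        refine d1.congr_of_eventuallyEq ?_
        filter_upwards [isOpen_ball.mem_nhds hw] with u hu
        exact (hdiag u hu).1.symm
      have e : ((1 : ℂ), (1 : ℂ)) = (1, 0) + (0, 1) := by simp
      have d3 := d2.deriv
      rw [e, map_add, hφz _ (hmem hw hw), (hdiag w hw).2.1] at d3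
      rw [(hdiag w hw).2.2, sub_eq_zero, eq_sub_iff_add_eq, add_comm]
      exact d3.symm
  set r' := min r r₁ with hr'
  have h1 : ∀ {z : ℂ}, z ∈ ball s₀ r' → z ∈ ball s₀ r := fun hz =>
    ball_subset_ball (min_le_left _ _) hz
  have h2 : ∀ {z : ℂ}, z ∈ ball s₀ r' → z ∈ ball s₀ r₁ := fun hz =>
    ball_subset_ball (min_le_right _ _) hz
  have hDp : ContinuousOn (fun y => fderiv ℂ p (φ y)) (ball (s₀, s₀) r) := fun y hy =>
    (hN y hy).1.fderiv.continuousAt.comp_continuousWithinAt (hφ.continuousOn y hy)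
  have hpΓ : ∀ y ∈ ball (s₀, s₀) r, p (φ y) (ckΓ p (φ y, U y, V y)) =
      -fderiv ℂ p (φ y) (U y) (V y - p (φ y) (V y)) := by
    intro y hy
    have hi := (hN y hy).2.self_of_nhds
    have e1 := fderiv_idem (hN y hy).1.differentiableAt (hN y hy).2 (V y) (p (φ y) (U y))
    have e2 := fderiv_idem (hN y hy).1.differentiableAt (hN y hy).2 (U y) (V y - p (φ y) (V y))
    rw [hi, add_eq_left] at e1
    rw [map_sub (p (φ y)), hi, sub_self, map_zero, zero_add] at e2
    simp only [ckΓ]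
    rw [map_sub (p (φ y)), e1, e2, zero_sub]
  have hα : ∀ z ∈ ball s₀ r', ∀ w ∈ ball s₀ r', U (z, w) - p (φ (z, w)) (U (z, w)) = 0 := by
    intro z hz
    refine lin_zero (W := fun t => U (z, t) - p (φ (z, t)) (U (z, t)))
      (L := fun t => -fderiv ℂ p (φ (z, t)) (V (z, t))) ?_ (fun t ht => ?_) hz ?_
    · have hι : ContinuousOn (fun t : ℂ => (z, t)) (ball s₀ r') := by fun_prop
      have hm : MapsTo (fun t : ℂ => (z, t)) (ball s₀ r') (ball (s₀, s₀) r) := fun t ht =>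
        hmem (h1 hz) (h1 ht)
      exact ((hDp.comp hι hm).clm_apply (hV.continuousOn.comp hι hm)).neg
    · have hy := hmem (h1 hz) (h1 ht)
      have d1 := ck_slice₂ (hφa _ hy).differentiableAt
      rw [hφw t (h1 ht) (h2 ht) z (h1 hz)] at d1
      have d2 := (hN _ hy).1.differentiableAt.hasFDerivAt.comp_hasDerivAt_of_eq t d1 rfl
      have d3 := (hd z (h1 hz) t (h1 ht)).2.1
      have d4 := d3.sub (d2.clm_apply d3)
      simp only [Function.comp_apply] at d4
      rw [hpΓ _ hy] at d4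
      refine d4.congr_deriv ?_
      simp only [ckΓ, neg_apply, map_sub]
      abel
    · have hi := (hN _ (hmem (h1 hz) (h1 hz))).2.self_of_nhds
      obtain ⟨e1, e2, -⟩ := hdiag z (h1 hz)
      rw [e1] at hi
      rw [e1, e2, hi, sub_self]
  have hβ : ∀ w ∈ ball s₀ r', ∀ z ∈ ball s₀ r', p (φ (z, w)) (V (z, w)) = 0 := by
    intro w hw
    refine lin_zero (W := fun t => p (φ (t, w)) (V (t, w)))
      (L := fun t => fderiv ℂ p (φ (t, w)) (U (t, w))) ?_ (fun t ht => ?_) hw ?_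
    · have hι : ContinuousOn (fun t : ℂ => (t, w)) (ball s₀ r') := by fun_prop
      have hm : MapsTo (fun t : ℂ => (t, w)) (ball s₀ r') (ball (s₀, s₀) r) := fun t ht =>
        hmem (h1 ht) (h1 hw)
      exact (hDp.comp hι hm).clm_apply (hU.continuousOn.comp hι hm)
    · have hy := hmem (h1 ht) (h1 hw)
      have d1 := (hd t (h1 ht) w (h1 hw)).1
      have d2 := (hN _ hy).1.differentiableAt.hasFDerivAt.comp_hasDerivAt_of_eq t d1 rfl
      have d3 := (hd t (h1 ht) w (h1 hw)).2.2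
      have d4 := d2.clm_apply d3
      simp only [Function.comp_apply] at d4
      rw [hpΓ _ hy] at d4
      convert d4 using 1
      simp only [map_sub]
      abel
    · have hi := (hN _ (hmem (h1 hw) (h1 hw))).2.self_of_nhds
      obtain ⟨e1, -, e2⟩ := hdiag w (h1 hw)
      rw [e1] at hi
      rw [e1, e2, map_sub, hi, sub_self]
  have hr'0 : 0 < r' := lt_min hr hr₁
  refine ⟨φ, ?_, ?_⟩
  · filter_upwards [ball_mem_nhds (s₀, s₀) hr'0] with y hy
    obtain ⟨z, w⟩ := y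
    have hy' := ck0_mem_ball.1 hy
    have hy2 := hmem (h1 hy'.1) (h1 hy'.2)
    refine ⟨(hφa _ hy2).differentiableAt, ?_, ?_⟩
    · rw [hφz _ hy2]
      exact (sub_eq_zero.1 (hα z hy'.1 w hy'.2)).symm
    · rw [hφw w (h1 hy'.2) (h2 hy'.2) z (h1 hy'.1)]
      exact hβ w hy'.2 z hy'.1
  · filter_upwards [ball_mem_nhds s₀ hr] with s hs using (hdiag s hs).1

end Crest.Agent.R266
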