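import Crest.Agent.R266.Basic3

/-! Row 266 (S0404): definitions for bifoliated maps near the diagonal, families of rational
curves and parallel forms. -/

set_option autoImplicit false
set_option linter.unusedSectionVars false

open Set Filter Topology Metric
open scoped Manifold ContDiff

noncomputable section
namespace Crest.Agent.R266

variable {E : Type} [NormedAddCommGroup E] [NormedSpace ℂ E]

/-- bifoliated at `y`, in a vector space. -/
def BifE (p : E → E →L[ℂ] E) (φ : ℂ × ℂ → E) (y : ℂ × ℂ) : Prop :=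
  DifferentiableAt ℂ φ y ∧ p (φ y) (fderiv ℂ φ y (1, 0)) = fderiv ℂ φ y (1, 0) ∧
    p (φ y) (fderiv ℂ φ y (0, 1)) = 0

variable {X : Type} [TopologicalSpace X] [ChartedSpace E X]

/-- a bifoliated map near the diagonal, whose restrictions to two pencils of lines are rational
curves. -/
structure DiagData (P : X → E →L[ℂ] E) (g₀ : ℂ → X) (φ : ℂ × ℂ → X) (W : Set (ℂ × ℂ))
    (t₀ : ℝ) : Prop where
  isOpen : IsOpen W
  bifOn : BifOn P φ W
  diag_mem : ∀ s, (s, s) ∈ W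
  diag_eq : ∀ s, φ (s, s) = g₀ s
  pos : 0 < t₀
  line₁ : ∀ t : ℂ, ‖t‖ < t₀ → ∃ c₁, RC E (fun w => φ (w + t, w)) c₁
  line₂ : ∀ l : ℂ, ‖l - 1‖ < t₀ → ∃ c₁, RC E (fun w => φ (l * w, w)) c₁

/-- a holomorphic family of rational curves over `B`. -/
structure Fam (E : Type) [NormedAddCommGroup E] [NormedSpace ℂ E] {X : Type} [TopologicalSpace X]
    [ChartedSpace E X] {Θ : Type} [NormedAddCommGroup Θ] [NormedSpace ℂ Θ] (B : Set Θ)
    (α₀ α₁ : Θ × ℂ → X) : Prop where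
  hol₀ : ∀ θ ∈ B, ∀ u, HolAt (Θ × ℂ) E α₀ (θ, u)
  hol₁ : ∀ θ ∈ B, ∀ u, HolAt (Θ × ℂ) E α₁ (θ, u)
  glue : ∀ θ ∈ B, ∀ v, v ≠ 0 → α₁ (θ, v) = α₀ (θ, v⁻¹)

/-- coefficient of the equation of parallel forms along `β` in the chart at `c`:
`v ↦ DP[P v] β' + DP[β'] (v - P v)`. -/
def Ac (P : X → E →L[ℂ] E) (β : ℂ → X) (c : X) (u : ℂ) : E →L[ℂ] E :=
  ((fderiv ℂ (Pc P c) (chartAt E c (β u))).flip (deriv (chartAt E c ∘ β) u)).comp
      (Pc P c (chartAt E c (β u))) +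
    (fderiv ℂ (Pc P c) (chartAt E c (β u)) (deriv (chartAt E c ∘ β) u)).comp
      (ContinuousLinearMap.id ℂ E - Pc P c (chartAt E c (β u)))

/-- a field of linear forms along `β`, written in the chart at `c`. -/
def lc (β : ℂ → X) (ℓ : ℂ → E →L[ℂ] ℂ) (c : X) (t : ℂ) : E →L[ℂ] ℂ :=
  (ℓ t).comp (ti E c (chartAt E c (β t)))

/-- `ℓ` is parallel at `u` (tested in the chart at `c`) and kills `ker P`. -/
def ParC (P : X → E →L[ℂ] E) (β : ℂ → X) (ℓ : ℂ → E →L[ℂ] ℂ) (c : X) (u : ℂ) : Prop :=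
  HasDerivAt (lc β ℓ c) ((lc β ℓ c u).comp (Ac P β c u)) u ∧ ∀ v, ℓ u (P (β u) v) = ℓ u v

end Crest.Agent.R266
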