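import Crest.Agent.R266.CKDefs

/-! Row 266 (S0404): uniqueness for the Cauchy problem along the diagonal.

A bifoliated `φ` (analytic near `(s₀, s₀)`) has `U = φ_z`, `V = φ_w` with
`U_w = V_z = Dp[V] U - Dp[U] V` (differentiate `p U = U` in `w` and `p V = 0` in `z`:
`q U_w = Dp[V] U`, `p V_z = - Dp[U] V`), and `U = p f'`, `V = f' - p f'` on the diagonal, where
`f s = φ (s, s)`.  On a small closed bidisc of radius `r` the sup `d` of the norm of the difference of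
the triples `(φ, U, V)` satisfies `d ≤ C r d` (mean value inequality on the segments from `(z, z)` to
`(z, w)` and from `(w, w)` to `(z, w)`; `(y, U, V) ↦ Dp y V U - Dp y U V` is Lipschitz near the base
point since it is analytic). -/

set_option autoImplicit false
set_option linter.unusedSectionVars false

open Set Filter Topology Metric
open scoped Manifold ContDiff

noncomputable section
namespace Crest.Agent.R266

variable {E : Type} [NormedAddCommGroup E] [NormedSpace ℂ E] [FiniteDimensional ℂ E]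

/-- the 1-jet. -/
private def ckuT (φ : ℂ × ℂ → E) (y : ℂ × ℂ) : E × E × E :=
  (φ y, fderiv ℂ φ y (1, 0), fderiv ℂ φ y (0, 1))

/-- the right-hand side of the equation for the mixed derivative. -/
private def ckuG (p : E → E →L[ℂ] E) (x : E × E × E) : E :=
  fderiv ℂ p x.1 x.2.2 x.2.1 - fderiv ℂ p x.1 x.2.1 x.2.2

private theorem cku_seg {h : ℂ × ℂ → E} {h' : ℂ × ℂ → ℂ × ℂ →L[ℂ] E} {S : Set (ℂ × ℂ)}
    (hS : Convex ℝ S) {e a : ℂ × ℂ} {M : ℝ} {t : ℂ}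
    (hd : ∀ y ∈ S, HasFDerivAt h (h' y) y ∧ ‖h' y e‖ ≤ M) (ha : a ∈ S) (hb : a + t • e ∈ S)
    (h0 : h a = 0) : ‖h (a + t • e)‖ ≤ M * ‖t‖ := by
  have hc : Convex ℝ {τ : ℂ | a + τ • e ∈ S} := fun x hx y hy α β hα hβ hαβ => by
    have := hS hx hy hα hβ hαβ
    rwa [smul_add, smul_add, add_add_add_comm, ← add_smul, hαβ, one_smul, ← smul_assoc,
      ← smul_assoc, ← add_smul] at this
  have := hc.norm_image_sub_le_of_norm_hasDerivWithin_le (f := fun τ => h (a + τ • e))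
    (f' := fun τ => h' (a + τ • e) e) (C := M) (fun τ hτ => by
      have h1 : HasDerivAt (fun τ : ℂ => a + τ • e) e τ := by
        simpa using ((hasDerivAt_id τ).smul_const e).const_add a
      exact ((hd _ hτ).1.comp_hasDerivAt τ h1).hasDerivWithinAt) (fun τ hτ => (hd _ hτ).2)
    (x := 0) (y := t) (show a + (0 : ℂ) • e ∈ S by rwa [zero_smul, add_zero]) hb
  simpa [h0] using this

private theorem cku_diag {p : E → E →L[ℂ] E} {φ ψ : ℂ × ℂ → E} {s : ℂ} (hφ : BifE p φ (s, s))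
    (hψ : BifE p ψ (s, s)) (h : ∀ᶠ s in 𝓝 s, φ (s, s) = ψ (s, s)) :
    ckuT φ (s, s) = ckuT ψ (s, s) := by
  have h0 : φ (s, s) = ψ (s, s) := h.self_of_nhds
  have hd : HasDerivAt (fun s : ℂ => (s, s)) ((1, 0) + (0, 1)) s := by
    simpa using (hasDerivAt_id s).prodMk (hasDerivAt_id s)
  have h1 := ((hφ.1.hasFDerivAt.comp_hasDerivAt (f := fun s : ℂ => (s, s)) s hd).congr_of_eventuallyEq
    (h.mono fun _ h => h.symm)).unique
    (hψ.1.hasFDerivAt.comp_hasDerivAt (f := fun s : ℂ => (s, s)) s hd)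
  rw [map_add, map_add] at h1
  have h2 := congrArg (p (φ (s, s))) h1
  rw [map_add, map_add, hφ.2.1, hφ.2.2, h0, hψ.2.1, hψ.2.2, add_zero, add_zero] at h2
  rw [h2, add_right_inj] at h1
  rw [ckuT, ckuT, h0, h1, h2]

variable [CompleteSpace E]

private theorem cku_d2 {φ : ℂ × ℂ → E} {y : ℂ × ℂ} (hφ : AnalyticAt ℂ φ y) (v : ℂ × ℂ) :
    HasFDerivAt (fun z => fderiv ℂ φ z v) ((fderiv ℂ (fderiv ℂ φ) y).flip v) y := by
  simpa using hφ.fderiv.differentiableAt.hasFDerivAt.clm_apply (hasFDerivAt_const v y)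

private theorem cku_cont {φ : ℂ × ℂ → E} {y : ℂ × ℂ} (hφ : AnalyticAt ℂ φ y) :
    ContinuousAt (ckuT φ) y :=
  hφ.continuousAt.prodMk ((cku_d2 hφ _).continuousAt.prodMk (cku_d2 hφ _).continuousAt)

private theorem cku_eq {p : E → E →L[ℂ] E} {φ : ℂ × ℂ → E} {y : ℂ × ℂ} (hφ : AnalyticAt ℂ φ y)
    (hp : DifferentiableAt ℂ p (φ y)) (hb : ∀ᶠ z in 𝓝 y, BifE p φ z) :
    fderiv ℂ (fderiv ℂ φ) y (0, 1) (1, 0) = ckuG p (ckuT φ y) ∧
      fderiv ℂ (fderiv ℂ φ) y (1, 0) (0, 1) = ckuG p (ckuT φ y) := by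
  have hs : fderiv ℂ (fderiv ℂ φ) y (1, 0) (0, 1) = fderiv ℂ (fderiv ℂ φ) y (0, 1) (1, 0) :=
    (hφ.contDiffAt (n := ω)).isSymmSndFDerivAt (by simp) _ _
  have hq := hp.hasFDerivAt.comp y hφ.differentiableAt.hasFDerivAt
  have h1 := ((hq.clm_apply (cku_d2 hφ (1, 0))).congr_of_eventuallyEq
    (hb.mono fun z hz => hz.2.1.symm)).unique (cku_d2 hφ (1, 0))
  have h2 := ((hq.clm_apply (cku_d2 hφ (0, 1))).congr_of_eventuallyEq
    (hb.mono fun z hz => hz.2.2.symm)).unique (hasFDerivAt_const 0 y)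
  have h3 := DFunLike.congr_fun h1 (0, 1)
  have h4 := DFunLike.congr_fun h2 (1, 0)
  simp only [add_apply, ContinuousLinearMap.comp_apply, ContinuousLinearMap.flip_apply,
    zero_apply, Function.comp_apply] at h3 h4
  rw [hs] at h4 ⊢
  rw [and_self, ← h3, ckuG, ckuT, eq_neg_of_add_eq_zero_left h4]
  abel

omit [CompleteSpace E] in
theorem ck_unique {p : E → E →L[ℂ] E} {φ ψ : ℂ × ℂ → E} {s₀ : ℂ}
    (hp : ∀ᶠ y in 𝓝 (φ (s₀, s₀)), DifferentiableAt ℂ p y ∧ ∀ v, p y (p y v) = p y v)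
    (hφ : ∀ᶠ y in 𝓝 (s₀, s₀), BifE p φ y) (hψ : ∀ᶠ y in 𝓝 (s₀, s₀), BifE p ψ y)
    (h : ∀ᶠ s in 𝓝 s₀, φ (s, s) = ψ (s, s)) : φ =ᶠ[𝓝 (s₀, s₀)] ψ := by
  have : CompleteSpace E := FiniteDimensional.complete ℂ E
  have h0 : φ (s₀, s₀) = ψ (s₀, s₀) := h.self_of_nhds
  have hpa : AnalyticAt ℂ p (φ (s₀, s₀)) := R264.SCV.analyticAt_of_eventually (hp.mono fun _ h => h.1)
  have hφa : AnalyticAt ℂ φ (s₀, s₀) := R264.SCV.analyticAt_of_eventually (hφ.mono fun _ h => h.1)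
  have hψa : AnalyticAt ℂ ψ (s₀, s₀) := R264.SCV.analyticAt_of_eventually (hψ.mono fun _ h => h.1)
  have hdiag : Tendsto (fun s : ℂ => (s, s)) (𝓝 s₀) (𝓝 (s₀, s₀)) :=
    (continuous_id.prodMk continuous_id).tendsto s₀
  have hT : ∀ᶠ s in 𝓝 s₀, ckuT φ (s, s) = ckuT ψ (s, s) := by
    filter_upwards [h.eventually_nhds, hdiag.eventually hφ, hdiag.eventually hψ] with s h1 h2 h3
    exact cku_diag h2 h3 h1
  have hG : AnalyticAt ℂ (ckuG p) (ckuT φ (s₀, s₀)) := by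
    have h1 : AnalyticAt ℂ (fun x : E × E × E => fderiv ℂ p x.1) (ckuT φ (s₀, s₀)) :=
      AnalyticAt.comp (g := fderiv ℂ p) (f := Prod.fst) hpa.fderiv analyticAt_fst
    have h2 : ContDiffAt ℂ ω (fun x : E × E × E => fderiv ℂ p x.1) (ckuT φ (s₀, s₀)) :=
      h1.contDiffAt
    refine ContDiffAt.analyticAt ?_
    exact ((h2.clm_apply (by fun_prop)).clm_apply (by fun_prop)).sub
      ((h2.clm_apply (by fun_prop)).clm_apply (by fun_prop))
  obtain ⟨K, t, ht, hK⟩ := (hG.contDiffAt (n := 1)).exists_lipschitzOnWith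
  have hφt : ∀ᶠ y in 𝓝 (s₀, s₀), ckuT φ y ∈ t := (cku_cont hφa).eventually ht
  have hψt : ∀ᶠ y in 𝓝 (s₀, s₀), ckuT ψ y ∈ t := by
    refine (cku_cont hψa).eventually ?_
    rwa [← hT.self_of_nhds]
  have hpφ : ∀ᶠ y in 𝓝 (s₀, s₀), DifferentiableAt ℂ p (φ y) :=
    hφa.continuousAt.eventually (hp.mono fun _ h => h.1)
  have hpψ : ∀ᶠ y in 𝓝 (s₀, s₀), DifferentiableAt ℂ p (ψ y) := by
    refine hψa.continuousAt.eventually ?_
    rw [← h0]
    exact hp.mono fun _ h => h.1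
  have hall := (((((((hφa.eventually_analyticAt.and hψa.eventually_analyticAt).and hφt).and hψt).and
    hpφ).and hpψ).and hφ.eventually_nhds).and hψ.eventually_nhds).and
    ((continuous_fst.tendsto (s₀, s₀)).eventually hT)
  obtain ⟨r₁, hr₁, hS₁⟩ := nhds_basis_closedBall.eventually_iff.1 hall
  set r : ℝ := min r₁ (1 / (4 * (K + 1))) with hr
  have hr0 : 0 < r := lt_min hr₁ (by positivity)
  have hrK : r * (4 * (K + 1)) ≤ 1 := by
    rw [← le_div_iff₀ (by positivity)]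
    exact min_le_right _ _
  have hS := fun y (hy : y ∈ closedBall (s₀, s₀) r) =>
    hS₁ (closedBall_subset_closedBall (min_le_left _ _) hy)
  obtain ⟨m, hm, hmax⟩ := (isCompact_closedBall (s₀, s₀) r).exists_isMaxOn
    (nonempty_closedBall.2 hr0.le) (f := fun y => ‖ckuT φ y - ckuT ψ y‖) fun y hy =>
      (((cku_cont (hS y hy).1.1.1.1.1.1.1.1).sub
        (cku_cont (hS y hy).1.1.1.1.1.1.1.2)).norm).continuousWithinAt
  set d := ‖ckuT φ m - ckuT ψ m‖ with hd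
  have hd0 : 0 ≤ d := norm_nonneg _
  have hle : ∀ y ∈ closedBall (s₀, s₀) r, ‖ckuT φ y - ckuT ψ y‖ ≤ d := fun y hy => hmax hy
  have hGle : ∀ y ∈ closedBall (s₀, s₀) r, ‖ckuG p (ckuT φ y) - ckuG p (ckuT ψ y)‖ ≤ K * d :=
    fun y hy => (hK.norm_sub_le (hS y hy).1.1.1.1.1.1.2 (hS y hy).1.1.1.1.1.2).trans
      (mul_le_mul_of_nonneg_left (hle y hy) K.2)
  obtain ⟨z, w⟩ := m
  have hzw : dist z s₀ ≤ r ∧ dist w s₀ ≤ r := by
    simpa only [mem_closedBall, Prod.dist_eq, max_le_iff] using hm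
  have hz : (z, z) ∈ closedBall (s₀, s₀) r := by
    simpa only [mem_closedBall, Prod.dist_eq, max_self] using hzw.1
  have hw : (w, w) ∈ closedBall (s₀, s₀) r := by
    simpa only [mem_closedBall, Prod.dist_eq, max_self] using hzw.2
  have hn : ‖w - z‖ ≤ 2 * r := by
    rw [← dist_eq_norm]
    linarith [dist_triangle_right w z s₀, hzw.1, hzw.2]
  have hn' : ‖z - w‖ ≤ 2 * r := by rwa [norm_sub_rev]
  have e1 : ((z, z) : ℂ × ℂ) + (w - z) • ((0, 1) : ℂ × ℂ) = (z, w) := by simp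
  have e2 : ((w, w) : ℂ × ℂ) + (z - w) • ((1, 0) : ℂ × ℂ) = (z, w) := by simp
  have hTz : ckuT φ (z, z) = ckuT ψ (z, z) := (hS _ hz).2
  have hTw : ckuT φ (w, w) = ckuT ψ (w, w) := (hS _ hw).2
  have b1 := cku_seg (h := fun y => φ y - ψ y) (h' := fun y => fderiv ℂ φ y - fderiv ℂ ψ y)
    (convex_closedBall (s₀, s₀) r) (e := (0, 1)) (M := d) (t := w - z) (fun y hy =>
      ⟨(hS y hy).1.1.1.1.1.1.1.1.differentiableAt.hasFDerivAt.sub
        (hS y hy).1.1.1.1.1.1.1.2.differentiableAt.hasFDerivAt,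
        ((norm_snd_le _).trans (norm_snd_le (ckuT φ y - ckuT ψ y))).trans (hle y hy)⟩) hz
      (e1 ▸ hm) (sub_eq_zero.2 (congrArg Prod.fst hTz))
  have b2 := cku_seg (h := fun y => fderiv ℂ φ y (1, 0) - fderiv ℂ ψ y (1, 0))
    (h' := fun y => (fderiv ℂ (fderiv ℂ φ) y).flip (1, 0) - (fderiv ℂ (fderiv ℂ ψ) y).flip (1, 0))
    (convex_closedBall (s₀, s₀) r) (e := (0, 1)) (M := K * d) (t := w - z) (fun y hy =>
      ⟨(cku_d2 (hS y hy).1.1.1.1.1.1.1.1 _).sub (cku_d2 (hS y hy).1.1.1.1.1.1.1.2 _), by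
        obtain ⟨⟨⟨⟨⟨⟨⟨⟨a1, a2⟩, -⟩, -⟩, a3⟩, a4⟩, a5⟩, a6⟩, -⟩ := hS y hy
        have := hGle y hy
        rwa [← (cku_eq a1 a3 a5).1, ← (cku_eq a2 a4 a6).1] at this⟩) hz
      (e1 ▸ hm) (sub_eq_zero.2 (congrArg (fun x => x.2.1) hTz))
  have b3 := cku_seg (h := fun y => fderiv ℂ φ y (0, 1) - fderiv ℂ ψ y (0, 1))
    (h' := fun y => (fderiv ℂ (fderiv ℂ φ) y).flip (0, 1) - (fderiv ℂ (fderiv ℂ ψ) y).flip (0, 1))
    (convex_closedBall (s₀, s₀) r) (e := (1, 0)) (M := K * d) (t := z - w) (fun y hy =>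
      ⟨(cku_d2 (hS y hy).1.1.1.1.1.1.1.1 _).sub (cku_d2 (hS y hy).1.1.1.1.1.1.1.2 _), by
        obtain ⟨⟨⟨⟨⟨⟨⟨⟨a1, a2⟩, -⟩, -⟩, a3⟩, a4⟩, a5⟩, a6⟩, -⟩ := hS y hy
        have := hGle y hy
        rwa [← (cku_eq a1 a3 a5).2, ← (cku_eq a2 a4 a6).2] at this⟩) hw
      (e2 ▸ hm) (sub_eq_zero.2 (congrArg (fun x => x.2.2) hTw))
  rw [e1] at b1 b2
  rw [e2] at b3
  have hK0 : (0 : ℝ) ≤ K := K.2
  have hKd : 0 ≤ K * d := mul_nonneg hK0 hd0
  have hfin : d ≤ (K + 1) * d * (2 * r) := by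
    conv_lhs => rw [hd, Prod.norm_def, Prod.norm_def]
    refine max_le (b1.trans ?_) (max_le (b2.trans ?_) (b3.trans ?_)) <;>
      exact mul_le_mul (by nlinarith) ‹_› (norm_nonneg _) (by positivity)
  have hd1 : d ≤ 0 := by nlinarith
  filter_upwards [closedBall_mem_nhds (s₀, s₀) hr0] with y hy
  exact congrArg Prod.fst (sub_eq_zero.1 (norm_le_zero_iff.1 ((hle y hy).trans hd1)))

end Crest.Agent.R266
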