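import Crest.Agent.R266.Proj

/-! Row 266 (S0404): curves defined by tuples of binary forms. -/

set_option autoImplicit false
set_option linter.unusedSectionVars false

open Set Filter Topology Metric
open scoped Manifold ContDiff

noncomputable section
namespace Crest.Agent.R266

open Crest.AlgGeometry.HolSplit

variable {n N : ℕ} {X : Type} [TopologicalSpace X] [ChartedSpace (Model n) X]
  [IsManifold (mI n) ω X] [T2Space X] [CompactSpace X] [Nonempty X] {ι : ProjEmbedding n X N}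

theorem holAt_pt {F : Type} [NormedAddCommGroup F] [NormedSpace ℂ F] {q : F → Fin (N + 1) → ℂ}
    {y : F} (hq : DifferentiableAt ℂ q y) (h : ∀ᶠ y' in 𝓝 y, ∃ x, Over ι (q y') x) :
    HolAt F (Model n) (fun y' => pt ι (q y')) y := by
  obtain ⟨x, hx⟩ := h.self_of_nhds
  obtain ⟨r, -, hr⟩ := exists_retr hx
  refine holAt_congr (MDifferentiableAt.comp y hr.self_of_nhds.1 (holAt_self.2 hq)) ?_
  filter_upwards [hq.continuousAt.eventually hr, h] with y' h1 ⟨x', h2⟩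
  rw [h2.pt_eq]
  exact (h1.2 x' h2).symm

/-- the set of `z` near which `q` lies in the cone is open and closed: at a limit point `z₁`,
`q z₁` lies over some `x` (`isClosed_cone`), and with `r` from `exists_retr` the holomorphic
functions `q i * coords x (r q) j - q j * coords x (r q) i` vanish on an open subset of a small
disc around `z₁`. -/
theorem over_of_eventually {q : ℂ → Fin (N + 1) → ℂ} (hq : Differentiable ℂ q)
    (h0 : ∀ z, q z ≠ 0) {z₀ : ℂ} (h : ∀ᶠ z in 𝓝 z₀, ∃ x, Over ι (q z) x) (z : ℂ) :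
    ∃ x, Over ι (q z) x := by
  have hS : IsClopen {z : ℂ | ∀ᶠ w in 𝓝 z, ∃ x, Over ι (q w) x} := by
    refine ⟨isClosed_of_closure_subset fun z₁ hz₁ => ?_, isOpen_setOf_eventually_nhds⟩
    by_contra hn
    have hfr : ∃ᶠ w in 𝓝[≠] z₁, w ∈ {z : ℂ | ∀ᶠ w in 𝓝 z, ∃ x, Over ι (q w) x} := by
      rw [← mem_closure_ne_iff_frequently_within, diff_singleton_eq_self hn]
      exact hz₁
    obtain ⟨x, -, hx⟩ : z₁ ∈ q ⁻¹' {v | ∃ x ∈ univ, Prop2 ι v x} := by
      refine (((isClosed_cone isClosed_univ).1.preimage hq.continuous).closure_subset_iff.2 ?_) hz₁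
      intro w hw
      obtain ⟨x, hx⟩ := Filter.Eventually.self_of_nhds hw
      exact ⟨x, trivial, (over_iff_prop2.1 hx).2⟩
    obtain ⟨r, r0, hr⟩ := exists_retr (over_iff_prop2.2 ⟨h0 z₁, hx⟩)
    have h1 := hq.continuous.continuousAt.eventually hr
    have h2 : ∀ᶠ w in 𝓝 z₁, r (q w) ∈ ι.nbhd x := by
      have hc : ContinuousAt (r ∘ q) z₁ :=
        hr.self_of_nhds.1.continuousAt.comp hq.continuous.continuousAt
      refine hc.eventually_mem ((ι.isOpen_nbhd x).mem_nhds ?_)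
      rw [Function.comp_apply, r0]
      exact ι.mem_nbhd x
    have h3 : ∀ᶠ w in 𝓝 z₁, DifferentiableAt ℂ (fun w => ι.coords x (r (q w))) w := by
      filter_upwards [h1, h2] with w a1 a2
      exact holAt_self.1 (MDifferentiableAt.comp w (holAt_coords a2)
        (MDifferentiableAt.comp w a1.1 (holAt_self.2 (hq w))))
    have h4 : ∀ i j, ∀ᶠ w in 𝓝 z₁,
        q w i * ι.coords x (r (q w)) j - q w j * ι.coords x (r (q w)) i = 0 := fun i j => by
      have a1 : AnalyticAt ℂ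
          (fun w => q w i * ι.coords x (r (q w)) j - q w j * ι.coords x (r (q w)) i) z₁ := by
        rw [Complex.analyticAt_iff_eventually_differentiableAt]
        filter_upwards [h3] with w hw
        exact ((differentiableAt_pi.1 (hq w) i).mul (differentiableAt_pi.1 hw j)).sub
          ((differentiableAt_pi.1 (hq w) j).mul (differentiableAt_pi.1 hw i))
      refine a1.frequently_zero_iff_eventually_zero.1 ?_
      refine (hfr.and_eventually ((h1.and h2).filter_mono nhdsWithin_le_nhds)).mono ?_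
      rintro w ⟨b1, b2, b3⟩
      obtain ⟨x', hx'⟩ := Filter.Eventually.self_of_nhds b1
      rw [← b2.2 x' hx'] at hx'
      exact sub_eq_zero.2 ((prop2_iff b3).1 (over_iff_prop2.1 hx').2 i j)
    apply hn
    filter_upwards [h2, eventually_all.2 fun i => eventually_all.2 (h4 i)] with w b1 b2
    exact ⟨_, over_iff_prop2.2 ⟨h0 w, (prop2_iff b1).2 fun i j => sub_eq_zero.1 (b2 i j)⟩⟩
  have hz : z ∈ {z : ℂ | ∀ᶠ w in 𝓝 z, ∃ x, Over ι (q w) x} := by
    rw [hS.eq_univ ⟨z₀, h⟩]; trivial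
  have hz' : ∀ᶠ w in 𝓝 z, ∃ x, Over ι (q w) x := hz
  exact hz'.self_of_nhds

theorem Hev_smul {d : ℕ} (p : Fin (d + 1) → Fin (N + 1) → ℂ) (c u v : ℂ) :
    Hev p (c * u) (c * v) = c ^ d • Hev p u v := by
  unfold Hev
  rw [Finset.smul_sum]
  refine Finset.sum_congr rfl fun k _ => ?_
  rw [smul_smul]
  congr 1
  have hk : (k : ℕ) + (d - (k : ℕ)) = d := by have := k.2; omega
  rw [mul_pow, mul_pow, mul_mul_mul_comm, ← pow_add, hk]

theorem differentiable_Hev {d : ℕ} :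
    Differentiable ℂ fun q : (Fin (d + 1) → Fin (N + 1) → ℂ) × ℂ × ℂ => Hev q.1 q.2.1 q.2.2 := by
  unfold Hev
  fun_prop

/-- tube lemma on the sphere of `ℂ × ℂ` and `Hev_smul`. -/
theorem isOpen_Hev_ne {d : ℕ} : IsOpen {p : Fin (d + 1) → Fin (N + 1) → ℂ |
    ∀ u v : ℂ, (u ≠ 0 ∨ v ≠ 0) → Hev p u v ≠ 0} := by
  rw [isOpen_iff_eventually]
  intro p hp
  have h1 : ∀ᶠ p' in 𝓝 p, ∀ y ∈ sphere (0 : ℂ × ℂ) 1, Hev p' y.1 y.2 ≠ 0 := by
    refine (isCompact_sphere (0 : ℂ × ℂ) 1).eventually_forall_of_forall_eventually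
      (P := fun p' (y : ℂ × ℂ) => Hev p' y.1 y.2 ≠ 0) fun y hy => ?_
    refine differentiable_Hev.continuous.continuousAt.eventually_ne (hp y.1 y.2 ?_)
    by_contra hc
    push Not at hc
    have : y = 0 := Prod.ext hc.1 hc.2
    simp [this] at hy
  filter_upwards [h1] with p' hp' u v huv h0
  have hn : ‖(u, v)‖ ≠ 0 := by
    rw [norm_ne_zero_iff]
    intro hc
    rcases huv with h | h
    · exact h (congrArg Prod.fst hc)
    · exact h (congrArg Prod.snd hc)
  refine hp' (((‖(u, v)‖ : ℝ) : ℂ)⁻¹ • (u, v)) ?_ ?_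
  · rw [mem_sphere_zero_iff_norm, norm_smul, norm_inv, Complex.norm_real, norm_norm,
      inv_mul_cancel₀ hn]
  · show Hev p' (_ * u) (_ * v) = 0
    rw [Hev_smul, h0, smul_zero]

theorem Proj2_diff₀ {d : ℕ} (p : Fin (d + 1) → Fin (N + 1) → ℂ) (v : ℂ) :
    Differentiable ℂ fun u => Hev p u v := by
  unfold Hev
  fun_prop

theorem Proj2_diff₁ {d : ℕ} (p : Fin (d + 1) → Fin (N + 1) → ℂ) (u : ℂ) :
    Differentiable ℂ fun v => Hev p u v := by
  unfold Hev
  fun_prop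

/-- `over_of_eventually`, `Hev_smul`, and closedness of the cone at `v = 0`. -/
theorem goodC_of_eventually {d : ℕ} {p : Fin (d + 1) → Fin (N + 1) → ℂ}
    (h0 : ∀ u v : ℂ, (u ≠ 0 ∨ v ≠ 0) → Hev p u v ≠ 0) {u₀ : ℂ}
    (h : ∀ᶠ u in 𝓝 u₀, ∃ x, Over ι (Hev p u 1) x) : GoodC ι p := by
  have h1 := over_of_eventually (Proj2_diff₀ p 1) (fun u => h0 u 1 (Or.inr one_ne_zero)) h
  have h2 : ∀ u v : ℂ, v ≠ 0 → ∃ x, Over ι (Hev p u v) x := fun u v hv => by
    obtain ⟨x, hx⟩ := h1 (v⁻¹ * u)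
    have := hx.smul (pow_ne_zero d hv)
    rw [← Hev_smul, mul_inv_cancel_left₀ hv, mul_one] at this
    exact ⟨x, this⟩
  rintro u v (hu | hv)
  · exact over_of_eventually (Proj2_diff₁ p u) (fun v => h0 u v (Or.inl hu)) (z₀ := 1)
      ((eventually_ne_nhds one_ne_zero).mono (h2 u)) v
  · exact h2 u v hv

theorem GoodC.rc {d : ℕ} {p : Fin (d + 1) → Fin (N + 1) → ℂ} (h : GoodC ι p) :
    RC (Model n) (cv ι p) (cv' ι p) := by
  refine ⟨fun z => holAt_pt (Proj2_diff₀ p 1 z)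
      (Eventually.of_forall fun u => h u 1 (Or.inr one_ne_zero)),
    fun z => holAt_pt (Proj2_diff₁ p 1 z)
      (Eventually.of_forall fun v => h 1 v (Or.inl one_ne_zero)), fun z hz => ?_⟩
  have := (over_pt (h z⁻¹ 1 (Or.inr one_ne_zero))).smul (pow_ne_zero d hz)
  rw [← Hev_smul, mul_inv_cancel₀ hz, mul_one] at this
  exact this.pt_eq

theorem fam_cv {d : ℕ} {Θ : Type} [NormedAddCommGroup Θ] [NormedSpace ℂ Θ] {B : Set Θ}
    (hB : IsOpen B) {h : Θ → Fin (d + 1) → Fin (N + 1) → ℂ} (hh : DifferentiableOn ℂ h B)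
    (hg : ∀ θ ∈ B, GoodC ι (h θ)) :
    Fam (Model n) B (fun q : Θ × ℂ => cv ι (h q.1) q.2) (fun q : Θ × ℂ => cv' ι (h q.1) q.2) := by
  have h1 : ∀ θ ∈ B, ∀ u : ℂ, DifferentiableAt ℂ (fun q : Θ × ℂ => h q.1) (θ, u) := fun θ hθ u =>
    (hh.differentiableAt (hB.mem_nhds hθ)).comp (θ, u) differentiableAt_fst
  have h2 : ∀ θ ∈ B, ∀ u : ℂ, ∀ᶠ q : Θ × ℂ in 𝓝 (θ, u), q.1 ∈ B := fun θ hθ u =>
    continuousAt_fst.eventually_mem (hB.mem_nhds hθ)
  refine ⟨fun θ hθ u => holAt_pt (q := fun q : Θ × ℂ => Hev (h q.1) q.2 1) ?_ ?_,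
    fun θ hθ u => holAt_pt (q := fun q : Θ × ℂ => Hev (h q.1) 1 q.2) ?_ ?_,
    fun θ hθ v hv => (hg θ hθ).rc.glue v hv⟩
  · exact (differentiable_Hev _).comp (θ, u) (f := fun q : Θ × ℂ => (h q.1, q.2, (1 : ℂ)))
      ((h1 θ hθ u).prodMk (differentiableAt_snd.prodMk (differentiableAt_const _)))
  · exact (h2 θ hθ u).mono fun q hq => hg _ hq _ _ (Or.inr one_ne_zero)
  · exact (differentiable_Hev _).comp (θ, u) (f := fun q : Θ × ℂ => (h q.1, (1 : ℂ), q.2))
      ((h1 θ hθ u).prodMk ((differentiableAt_const _).prodMk differentiableAt_snd))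
  · exact (h2 θ hθ u).mono fun q hq => hg _ hq _ _ (Or.inl one_ne_zero)

/-- local holomorphic extension of the evaluation map. -/
theorem GoodC.exists_ext {d : ℕ} {p : Fin (d + 1) → Fin (N + 1) → ℂ} (h : GoodC ι p) (u : ℂ) :
    ∃ R : (Fin (d + 1) → Fin (N + 1) → ℂ) × ℂ → X, R (p, u) = cv ι p u ∧
      ∀ᶠ q in 𝓝 (p, u), HolAt ((Fin (d + 1) → Fin (N + 1) → ℂ) × ℂ) (Model n) R q ∧
        ∀ x, Over ι (Hev q.1 q.2 1) x → R q = x := by
  obtain ⟨r, r0, hr⟩ := exists_retr (over_pt (h u 1 (Or.inr one_ne_zero)))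
  have hd : Differentiable ℂ
      fun q : (Fin (d + 1) → Fin (N + 1) → ℂ) × ℂ => Hev q.1 q.2 1 := by
    unfold Hev
    fun_prop
  refine ⟨fun q => r (Hev q.1 q.2 1), r0, ?_⟩
  filter_upwards [(hd.continuous.continuousAt (x := (p, u))).eventually hr] with q hq
  exact ⟨MDifferentiableAt.comp q hq.1 (holAt_self.2 (hd q)), hq.2⟩

open Polynomial in
theorem tc_Hev_one {d : ℕ} {q : Fin (N + 1) → ℂ[X]} (hd : ∀ i, (q i).natDegree ≤ d) (u : ℂ) :
    Hev (fun (k : Fin (d + 1)) i => (q i).coeff k) u 1 = fun i => (q i).eval u := by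
  funext i
  rw [Hev, Finset.sum_apply, eval_eq_sum_range' (Nat.lt_succ_of_le (hd i)), Finset.sum_range]
  refine Finset.sum_congr rfl fun k _ => ?_
  simp [mul_comm]

theorem tc_Hev_zero {d : ℕ} (p : Fin (d + 1) → Fin (N + 1) → ℂ) (u : ℂ) :
    Hev p u 0 = u ^ d • p (Fin.last d) := by
  rw [Hev, Fin.sum_univ_castSucc, Finset.sum_eq_zero, zero_add]
  · simp
  · intro k _
    have : d - (k : ℕ) ≠ 0 := by have := k.2; omega
    simp [this]

open Polynomial in
/-- divide by the gcd `g` (`q i = g * q' i`, `Finset.univ.gcd`, the `q' i` have no common root),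
`d = sup natDegree (q' i)`, `p k i = (q' i).coeff k`, `Hev p u 1 = q' (u)`, `Hev p u 0 = u ^ d • p d`.
Near `u₀`: `Prop2 (q' u) (h u)` where `g u ≠ 0`, and at `u₀` by the second part of
`isClosed_cone`. -/
theorem tuple_curve {q : Fin (N + 1) → ℂ[X]} (hq : ∃ i, q i ≠ 0) {h : ℂ → X} {u₀ : ℂ}
    (hh : ContinuousAt h u₀) (hrel : ∀ᶠ u in 𝓝 u₀, Prop2 ι (fun i => (q i).eval u) (h u)) :
    ∃ (d : ℕ) (p : Fin (d + 1) → Fin (N + 1) → ℂ), GoodC ι p ∧ cv ι p =ᶠ[𝓝 u₀] h ∧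
      ∀ u, (fun i => (q i).eval u) ≠ 0 → Over ι (fun i => (q i).eval u) (cv ι p u) := by
  classical
  obtain ⟨q', hq', hg1⟩ := Finset.extract_gcd (s := Finset.univ) q Finset.univ_nonempty
  obtain ⟨g, hg⟩ : ∃ g, g = Finset.univ.gcd q := ⟨_, rfl⟩
  rw [← hg] at hq'
  have hg0 : g ≠ 0 := by
    rintro rfl
    obtain ⟨i, hi⟩ := hq
    exact hi (by rw [hq' i (Finset.mem_univ _), zero_mul])
  have hroot : ∀ u : ℂ, (fun i => (q' i).eval u) ≠ 0 := by
    intro u hu
    have h1 : Polynomial.X - C u ∣ Finset.univ.gcd q' :=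
      Finset.dvd_gcd fun i _ => dvd_iff_isRoot.2 (congrFun hu i)
    rw [hg1] at h1
    exact not_isUnit_X_sub_C u (isUnit_of_dvd_one h1)
  have hsm : ∀ u : ℂ, (fun i => (q i).eval u) = g.eval u • fun i => (q' i).eval u := by
    intro u
    funext i
    rw [hq' i (Finset.mem_univ _), eval_mul]
    rfl
  obtain ⟨d, hd, i₀, hi₀, hi₁⟩ : ∃ d : ℕ, (∀ i, (q' i).natDegree ≤ d) ∧
      ∃ i₀, q' i₀ ≠ 0 ∧ (q' i₀).natDegree = d := by
    obtain ⟨i, -, hi⟩ := Finset.exists_mem_eq_sup (Finset.univ : Finset (Fin (N + 1)))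
      Finset.univ_nonempty (fun i => (q' i).natDegree)
    have hle : ∀ j, (q' j).natDegree ≤ (q' i).natDegree := fun j =>
      hi ▸ Finset.le_sup (f := fun i => (q' i).natDegree) (Finset.mem_univ j)
    refine ⟨_, hle, ?_⟩
    by_cases h0 : q' i = 0
    · obtain ⟨j, hj⟩ := Function.ne_iff.1 (hroot 0)
      refine ⟨j, fun h => hj (by simp [h]), le_antisymm (hle j) ?_⟩
      rw [h0, natDegree_zero]
      exact Nat.zero_le _
    · exact ⟨i, h0, rfl⟩
  have hone := tc_Hev_one hd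
  obtain ⟨p, hp⟩ : ∃ p : Fin (d + 1) → Fin (N + 1) → ℂ, p = fun (k : Fin (d + 1)) i => (q' i).coeff k :=
    ⟨_, rfl⟩
  rw [← hp] at hone
  have hne : ∀ u v : ℂ, (u ≠ 0 ∨ v ≠ 0) → Hev p u v ≠ 0 := by
    intro u v huv
    by_cases hv : v = 0
    · subst hv
      have hu : u ≠ 0 := huv.resolve_right (fun h => h rfl)
      rw [tc_Hev_zero]
      refine smul_ne_zero (pow_ne_zero _ hu) (Function.ne_iff.2 ⟨i₀, ?_⟩)
      rw [hp]
      simp only [Fin.val_last, Pi.zero_apply]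
      rw [← hi₁]
      exact leadingCoeff_ne_zero.2 hi₀
    · have := Hev_smul p v (u / v) 1
      rw [mul_div_cancel₀ _ hv, mul_one, hone] at this
      rw [this]
      exact smul_ne_zero (pow_ne_zero _ hv) (hroot _)
  have h1 : ∀ᶠ u in 𝓝[≠] u₀, Prop2 ι (fun i => (q' i).eval u) (h u) := by
    filter_upwards [hrel.filter_mono nhdsWithin_le_nhds,
      (g.eventually_cofinite_not_isRoot hg0).filter_mono (nhdsNE_le_cofinite u₀)] with u hu hgu i j
    have := hu i j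
    rw [hsm] at this
    simp only [Pi.smul_apply, smul_eq_mul, mul_assoc] at this
    exact mul_left_cancel₀ hgu this
  have h2 : Prop2 ι (fun i => (q' i).eval u₀) (h u₀) := by
    have hc : ContinuousAt (fun u : ℂ => ((fun i => (q' i).eval u), h u)) u₀ :=
      (continuous_pi fun i => (q' i).continuous).continuousAt.prodMk hh
    exact (isClosed_cone (ι := ι) isClosed_univ).2.mem_of_tendsto
      (hc.tendsto.mono_left (nhdsWithin_le_nhds (s := {u₀}ᶜ))) h1
  have h3 : ∀ᶠ u in 𝓝 u₀, Over ι (Hev p u 1) (h u) := by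
    filter_upwards [eventually_nhdsWithin_iff.1 h1] with u hu
    rw [hone, over_iff_prop2]
    refine ⟨hroot u, ?_⟩
    by_cases hu0 : u = u₀
    · rw [hu0]; exact h2
    · exact hu hu0
  have hG : GoodC ι p := goodC_of_eventually hne (h3.mono fun u hu => ⟨_, hu⟩)
  refine ⟨d, p, hG, h3.mono fun u hu => hu.pt_eq, fun u hu => ?_⟩
  have h4 : Over ι (Hev p u 1) (cv ι p u) := over_pt (hG u 1 (Or.inr one_ne_zero))
  rw [hone] at h4
  rw [hsm] at hu ⊢
  exact h4.smul (left_ne_zero_of_smul hu)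

end Crest.Agent.R266
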