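import Crest.Agent.R266.Defs

/-! Row 266 (S0404): a separately rational function is rational.

For some `d` the set `S` of `x` with `natDegree p, natDegree q ≤ d` in `h₁` is infinite (the ball is
uncountable).  Let `K = RatFunc ℂ`, `R y ∈ K` the quotient given by `h₂`, and consider the `2d + 2`
vectors `y ↦ C (y^k)`, `y ↦ C (y^k) * R y` (`k ≤ d`) of the `K`-vector space `ball y₀ r → K`.  If they
were independent, some square matrix of values at points `y_j` would have non-zero determinant
(rank of rows = rank of columns: the evaluations span the dual; e.g.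
`LinearIndependent` + `exists_linearIndependent` of the rows, `Matrix.rank_transpose`); multiply
row `j` by the denominator `q_{y_j}` to get a matrix of polynomials with non-zero determinant, which
vanishes at every `x ∈ S` (non-trivial kernel vector: the coefficients of `p_x, q_x`):
contradiction.  So there is a relation `∑ a_k y^k = (∑ b_k y^k) R y` for all `y` in the ball, with
polynomial `a_k, b_k` not all zero; the `b_k` are not all zero (a polynomial over `ℂ[X]` with
infinitely many roots `C y` is zero).  Multiply by `q_y`, evaluate at `x`, cancel `q_y (x)` off a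
finite set and use continuity in `x`. -/

set_option autoImplicit false
set_option linter.unusedSectionVars false

open Set Filter Topology Metric
open scoped Manifold ContDiff

noncomputable section
namespace Crest.Agent.R266

open Polynomial in
theorem sr_kernel {ι Y : Type*} [Fintype ι] [DecidableEq ι] (w : Y → ι → ℂ[X]) {S : Set ℂ}
    (hS : S.Infinite)
    (h : ∀ x ∈ S, ∃ c : ι → ℂ, c ≠ 0 ∧ ∀ y, ∑ i, (w y i).eval x * c i = 0) :
    ∃ c : ι → ℂ[X], c ≠ 0 ∧ ∀ y, ∑ i, w y i * c i = 0 := by
  classical
  let K := FractionRing ℂ[X]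
  let v : Y → ι → K := fun y i => algebraMap ℂ[X] K (w y i)
  have hinj : Function.Injective (algebraMap ℂ[X] K) := IsFractionRing.injective _ _
  by_cases hW : Submodule.span K (range v) = ⊤
  · exfalso
    obtain ⟨b, hb, hsp, hli⟩ := exists_linearIndependent K (range v)
    let B : Module.Basis b K (ι → K) := Module.Basis.mk hli (by
      rw [Subtype.range_coe_subtype, ofPred_mem_eq, hsp, hW])
    let e : ι ≃ b := (Pi.basisFun K ι).indexEquiv B
    have hy : ∀ j : ι, ∃ y, v y = (e j : ι → K) := fun j => hb (e j).2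
    choose y hy using hy
    let M : Matrix ι ι ℂ[X] := Matrix.of fun j i => w (y j) i
    have hM : M.det = 0 := by
      refine Polynomial.eq_zero_of_infinite_isRoot _ (hS.mono fun x hx => ?_)
      obtain ⟨c, hc, hc0⟩ := h x hx
      have h1 : ((evalRingHom x).mapMatrix M).det = 0 :=
        Matrix.exists_mulVec_eq_zero_iff.1 ⟨c, hc, funext fun j => by
          simpa [Matrix.mulVec, dotProduct, M] using hc0 (y j)⟩
      rw [← RingHom.map_det] at h1
      exact h1
    have hli' : LinearIndependent K ((algebraMap ℂ[X] K).mapMatrix M).row := by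
      have := hli.comp e e.injective
      have he : ((algebraMap ℂ[X] K).mapMatrix M).row = Subtype.val ∘ e := by
        funext j
        rw [Function.comp_apply, ← hy j]
        rfl
      rw [he]
      exact this
    have hu := Matrix.linearIndependent_rows_iff_isUnit.1 hli'
    rw [Matrix.isUnit_iff_isUnit_det, ← RingHom.map_det, hM, map_zero] at hu
    exact not_isUnit_zero hu
  · obtain ⟨f, hf0, hf⟩ := Submodule.exists_le_ker_of_lt_top _ (lt_top_iff_ne_top.2 hW)
    have hfe : ∀ u : ι → K, f u = ∑ i, u i * f (Pi.single i 1) := fun u => by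
      conv_lhs => rw [← Finset.univ_sum_single u]
      rw [map_sum]
      refine Finset.sum_congr rfl fun i _ => ?_
      rw [← smul_eq_mul, ← map_smul]
      congr 1
      funext j
      by_cases hj : j = i
      · subst hj; simp
      · simp [hj]
    obtain ⟨b, hb⟩ := IsLocalization.exist_integer_multiples_of_finite (nonZeroDivisors ℂ[X])
      (fun i => f (Pi.single i 1))
    choose c hc using hb
    have hb0 : algebraMap ℂ[X] K b ≠ 0 := fun h0 =>
      nonZeroDivisors.ne_zero b.2 (hinj (by rw [h0, map_zero]))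
    refine ⟨c, fun h0 => hf0 ?_, fun y => hinj ?_⟩
    · refine LinearMap.ext fun u => ?_
      rw [hfe u]
      refine Finset.sum_eq_zero fun i _ => ?_
      have := hc i
      rw [h0, Pi.zero_apply, map_zero, Algebra.smul_def] at this
      rw [(mul_eq_zero.1 this.symm).resolve_left hb0, mul_zero]
    · have h1 : f (v y) = 0 := hf (Submodule.subset_span ⟨y, rfl⟩)
      rw [hfe] at h1
      rw [map_sum, map_zero]
      have : ∀ i, algebraMap ℂ[X] K (w y i * c i) =
          algebraMap ℂ[X] K b * (v y i * f (Pi.single i 1)) := fun i => by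
        rw [map_mul, hc i, Algebra.smul_def]; ring
      simp only [this, ← Finset.mul_sum, h1, mul_zero]

theorem sr_ball_uncountable (x₀ : ℂ) {r : ℝ} (hr : 0 < r) : ¬ (ball x₀ r).Countable := fun h => by
  have := h.measure_zero MeasureTheory.volume
  exact (measure_ball_pos MeasureTheory.volume x₀ hr).ne' this

open Polynomial in
theorem sr_eval_fin {p : ℂ[X]} {d : ℕ} (hp : p.natDegree ≤ d) (y : ℂ) :
    p.eval y = ∑ k : Fin (d + 1), y ^ (k : ℕ) * p.coeff k := by
  rw [eval_eq_sum_range' (Nat.lt_succ_of_le hp), Finset.sum_range]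
  exact Finset.sum_congr rfl fun k _ => mul_comm _ _

open Polynomial in
theorem sep_rational {F : ℂ × ℂ → ℂ} {x₀ y₀ : ℂ} {r : ℝ} (hr : 0 < r)
    (hF : ContinuousOn F (ball x₀ r ×ˢ ball y₀ r))
    (h₁ : ∀ x ∈ ball x₀ r, ∃ p q : ℂ[X], q ≠ 0 ∧ ∀ y ∈ ball y₀ r, q.eval y * F (x, y) = p.eval y)
    (h₂ : ∀ y ∈ ball y₀ r, ∃ p q : ℂ[X], q ≠ 0 ∧ ∀ x ∈ ball x₀ r, q.eval x * F (x, y) = p.eval x) :
    ∃ p q : ℂ[X][X], q ≠ 0 ∧ ∀ x ∈ ball x₀ r, ∀ y ∈ ball y₀ r,
      q.evalEval x y * F (x, y) = p.evalEval x y := by
  classical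
  choose! p₁ q₁ hq₁ e₁ using h₁
  choose! p₂ q₂ hq₂ e₂ using h₂
  obtain ⟨d, hd⟩ : ∃ d : ℕ,
      {x ∈ ball x₀ r | (p₁ x).natDegree ≤ d ∧ (q₁ x).natDegree ≤ d}.Infinite := by
    by_contra hcon
    push Not at hcon
    refine sr_ball_uncountable x₀ hr ((countable_iUnion fun d => (hcon d).countable).mono ?_)
    intro x hx
    exact mem_iUnion.2 ⟨max (p₁ x).natDegree (q₁ x).natDegree, hx, le_max_left _ _, le_max_right _ _⟩
  let w : ball y₀ r → Fin (d + 1) ⊕ Fin (d + 1) → ℂ[X] := fun y i =>
    Sum.elim (fun k : Fin (d + 1) => -(C (y.1 ^ (k : ℕ)) * q₂ y))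
      (fun k : Fin (d + 1) => C (y.1 ^ (k : ℕ)) * p₂ y) i
  obtain ⟨c, hc0, hc⟩ := sr_kernel w hd (fun x hx => by
    obtain ⟨hx, hp, hq⟩ := hx
    refine ⟨Sum.elim (fun k => (p₁ x).coeff k) (fun k => (q₁ x).coeff k), fun h0 => hq₁ x hx ?_,
      fun y => ?_⟩
    · ext k
      by_cases hk : k ≤ d
      · simpa using congrFun h0 (Sum.inr ⟨k, Nat.lt_succ_of_le hk⟩)
      · exact coeff_eq_zero_of_natDegree_lt (by omega)
    · have a1 := e₁ x hx y y.2
      have a2 := e₂ y y.2 x hx
      rw [sr_eval_fin hp, sr_eval_fin hq] at a1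
      simp only [Fintype.sum_sum_type, w, Sum.elim_inl, Sum.elim_inr, eval_neg, eval_mul, eval_C]
      have b1 : ∑ k : Fin (d + 1), -(y.1 ^ (k : ℕ) * (q₂ y).eval x) * (p₁ x).coeff k =
          -((q₂ y).eval x) * ∑ k : Fin (d + 1), y.1 ^ (k : ℕ) * (p₁ x).coeff k := by
        rw [Finset.mul_sum]; exact Finset.sum_congr rfl fun k _ => by ring
      have b2 : ∑ k : Fin (d + 1), (y.1 ^ (k : ℕ) * (p₂ y).eval x) * (q₁ x).coeff k =
          ((p₂ y).eval x) * ∑ k : Fin (d + 1), y.1 ^ (k : ℕ) * (q₁ x).coeff k := by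
        rw [Finset.mul_sum]; exact Finset.sum_congr rfl fun k _ => by ring
      rw [b1, b2, ← a1, ← a2]
      ring)
  let P : ℂ[X][X] := ∑ k : Fin (d + 1), monomial k (c (Sum.inl k))
  let Q : ℂ[X][X] := ∑ k : Fin (d + 1), monomial k (c (Sum.inr k))
  have hco : ∀ (a : Fin (d + 1) → ℂ[X]) (k : Fin (d + 1)),
      (∑ j : Fin (d + 1), monomial j (a j) : ℂ[X][X]).coeff k = a k := fun a k => by
    rw [finsetSum_coeff, Finset.sum_eq_single k]
    · simp
    · intro j _ hj
      rw [coeff_monomial, if_neg fun h => hj (Fin.ext h)]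
    · simp
  have key : ∀ y ∈ ball y₀ r, Q.eval (C y) * p₂ y = P.eval (C y) * q₂ y := fun y hy => by
    have := hc ⟨y, hy⟩
    simp only [Fintype.sum_sum_type, w, Sum.elim_inl, Sum.elim_inr] at this
    simp only [P, Q, eval_finsetSum, eval_monomial, Finset.sum_mul]
    rw [← sub_eq_zero, ← this, ← Finset.sum_sub_distrib, ← Finset.sum_add_distrib]
    exact Finset.sum_congr rfl fun k _ => by rw [C_pow]; ring
  refine ⟨P, Q, fun hQ => hc0 ?_, fun x hx y hy => ?_⟩
  · have hP : P = 0 := by
      have hinf : (C '' ball y₀ r : Set ℂ[X]).Infinite :=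
        (Set.infinite_image_iff C_injective.injOn).2 fun hf =>
          sr_ball_uncountable y₀ hr hf.countable
      refine Polynomial.eq_zero_of_infinite_isRoot _ (hinf.mono ?_)
      rintro _ ⟨y, hy, rfl⟩
      have := key y hy
      rw [hQ, eval_zero, zero_mul] at this
      exact (mul_eq_zero.1 this.symm).resolve_right (hq₂ y hy)
    funext i
    rcases i with k | k
    · have := hco (fun k => c (Sum.inl k)) k
      rw [show (∑ j : Fin (d + 1), monomial j (c (Sum.inl j)) : ℂ[X][X]) = P from rfl, hP] at this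
      simpa using this.symm
    · have := hco (fun k => c (Sum.inr k)) k
      rw [show (∑ j : Fin (d + 1), monomial j (c (Sum.inr j)) : ℂ[X][X]) = Q from rfl, hQ] at this
      simpa using this.symm
  · let g : ℂ → ℂ := fun t => (Q.eval (C y)).eval t * F (t, y) - (P.eval (C y)).eval t
    have hFc : ContinuousAt (fun t => F (t, y)) x := by
      have h1 : ContinuousAt F (x, y) :=
        hF.continuousAt ((isOpen_ball.prod isOpen_ball).mem_nhds ⟨hx, hy⟩)
      exact ContinuousAt.comp (f := fun t => (t, y)) h1 (by fun_prop)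
    have hg : ContinuousAt g x :=
      ((Polynomial.continuous _).continuousAt.mul hFc).sub (Polynomial.continuous _).continuousAt
    have hev : ∀ᶠ t in 𝓝[≠] x, g t = 0 := by
      filter_upwards [nhdsNE_le_cofinite x
          (Polynomial.finite_setOfPred_isRoot (hq₂ y hy)).compl_mem_cofinite,
        nhdsWithin_le_nhds (isOpen_ball.mem_nhds hx)] with t ht ht'
      have a1 := congrArg (eval t) (key y hy)
      rw [eval_mul, eval_mul, ← e₂ y hy t ht'] at a1
      have : (q₂ y).eval t * g t = 0 := by
        simp only [g]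
        linear_combination a1
      exact (mul_eq_zero.1 this).resolve_left ht
    have h0 : g x = 0 :=
      tendsto_nhds_unique (hg.tendsto.mono_left nhdsWithin_le_nhds)
        (tendsto_const_nhds.congr' (hev.mono fun t ht => ht.symm))
    exact sub_eq_zero.1 h0

end Crest.Agent.R266
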