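import Crest.Agent.R266.Rat
import Crest.Agent.R266.SepRat

/-! Row 266 (S0404): the bifoliated map is given by a tuple of polynomials. -/

set_option autoImplicit false
set_option linter.unusedSectionVars false

open Set Filter Topology Metric
open scoped Manifold ContDiff

noncomputable section
namespace Crest.Agent.R266

open Polynomial in
theorem Psi_sum (q : ℂ[X][X]) (x y : ℂ) :
    q.evalEval x y = ∑ k ∈ Finset.range (q.natDegree + 1), (q.coeff k).eval x * y ^ k := by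
  rw [evalEval, eval_eq_sum_range (p := q), eval_finsetSum]
  simp

open Polynomial in
theorem Psi_diff (q : ℂ[X][X]) : Differentiable ℂ fun y : ℂ × ℂ => q.evalEval y.1 y.2 := by
  simp only [Psi_sum]
  exact Differentiable.fun_sum fun k _ =>
    ((q.coeff k).differentiable.comp differentiable_fst).mul (differentiable_snd.pow k)

open Polynomial in
/-- the substitution `x = z - w`, `y = z / w`, cleared of denominators: with `m ≥ natDegree`,
`q' = ∑_k (q.coeff k)(z - w) z^k w^(m-k)`.  It is non-zero if `q` is (a polynomial vanishing for all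
`(x, y)` with `x ≠ 0`, `y ≠ 1` is zero; `z = x y / (y - 1)`, `w = x / (y - 1)`). -/
theorem exists_subst (q : ℂ[X][X]) : ∃ m₀ : ℕ, ∀ m ≥ m₀, ∃ q' : ℂ[X][X], (q ≠ 0 → q' ≠ 0) ∧
    ∀ z w : ℂ, w ≠ 0 → q'.evalEval z w = w ^ m * q.evalEval (z - w) (z / w) := by
  refine ⟨q.natDegree, fun m hm => ?_⟩
  have key : ∀ z w : ℂ, w ≠ 0 → (∑ k ∈ Finset.range (q.natDegree + 1),
      aeval (C X - X : ℂ[X][X]) (q.coeff k) * (C X) ^ k * X ^ (m - k)).evalEval z w =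
      w ^ m * q.evalEval (z - w) (z / w) := fun z w hw => by
    rw [evalEval_finsetSum, Psi_sum, Finset.mul_sum]
    refine Finset.sum_congr rfl fun k hk => ?_
    have hk' : k ≤ m := (Nat.lt_succ_iff.1 (Finset.mem_range.1 hk)).trans hm
    have e : (aeval (C X - X : ℂ[X][X]) (q.coeff k)).evalEval z w = (q.coeff k).eval (z - w) := by
      rw [← coe_aevalAeval_eq_evalEval, ← aeval_algHom_apply]
      simp
    rw [evalEval_mul, evalEval_mul, e, evalEval_pow, evalEval_pow, evalEval_C, eval_X, evalEval_X,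
      pow_sub₀ _ hw hk', div_pow]
    field_simp
  refine ⟨_, fun hq h0 => hq ?_, key⟩
  refine q.eq_zero_of_infinite_isRoot
    (((Set.finite_singleton (1 : ℂ)).infinite_compl.image C_injective.injOn).mono ?_)
  rintro _ ⟨y, hy, rfl⟩
  refine Polynomial.eq_zero_of_infinite_isRoot _
    ((Set.finite_singleton (0 : ℂ)).infinite_compl.mono fun x hx => ?_)
  have hy' : y - 1 ≠ 0 := sub_ne_zero.2 hy
  have hw : x / (y - 1) ≠ 0 := div_ne_zero hx hy'
  have := key (y * (x / (y - 1))) _ hw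
  rw [h0, evalEval_zero, mul_div_cancel_right₀ _ hw,
    show y * (x / (y - 1)) - x / (y - 1) = x by field_simp] at this
  exact (mul_eq_zero.1 this.symm).resolve_left (pow_ne_zero _ hw)

open Polynomial in
/-- `w = x / (y - 1)` as a function of `y`. -/
theorem exists_subst₁ (q : ℂ[X]) {x : ℂ} (hx : x ≠ 0) : ∃ m₀ : ℕ, ∀ m ≥ m₀, ∃ q' : ℂ[X],
    (q ≠ 0 → q' ≠ 0) ∧ ∀ y : ℂ, y ≠ 1 → q'.eval y = (y - 1) ^ m * q.eval (x / (y - 1)) := by
  refine ⟨q.natDegree, fun m hm => ?_⟩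
  have key : ∀ y : ℂ, y ≠ 1 → (∑ k ∈ Finset.range (q.natDegree + 1),
      C (q.coeff k * x ^ k) * (X - 1) ^ (m - k)).eval y =
      (y - 1) ^ m * q.eval (x / (y - 1)) := fun y hy => by
    have hy' : y - 1 ≠ 0 := sub_ne_zero.2 hy
    rw [eval_finsetSum, eval_eq_sum_range (p := q), Finset.mul_sum]
    refine Finset.sum_congr rfl fun k hk => ?_
    have hk' : k ≤ m := (Nat.lt_succ_iff.1 (Finset.mem_range.1 hk)).trans hm
    rw [eval_mul, eval_C, eval_pow, eval_sub, eval_X, eval_one, pow_sub₀ _ hy' hk', div_pow]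
    field_simp
  refine ⟨_, fun hq h0 => hq ?_, key⟩
  refine q.eq_zero_of_infinite_isRoot
    ((Set.finite_singleton (0 : ℂ)).infinite_compl.mono fun u hu => ?_)
  have hu' : u ≠ 0 := hu
  have hw : x / u ≠ 0 := div_ne_zero hx hu
  have := key (x / u + 1) (by simpa using ⟨hx, hu'⟩)
  rw [h0, eval_zero, add_sub_cancel_right, show x / (x / u) = u by field_simp] at this
  exact (mul_eq_zero.1 this.symm).resolve_left (pow_ne_zero _ hw)

open Crest.AlgGeometry.HolSplit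

variable {n N : ℕ} {X : Type} [TopologicalSpace X] [ChartedSpace (Model n) X]
  [IsManifold (mI n) ω X] [T2Space X] [CompactSpace X] [Nonempty X] {ι : ProjEmbedding n X N}

variable {P : X → Model n →L[ℂ] Model n} {g₀ : ℂ → X} {φ : ℂ × ℂ → X} {W : Set (ℂ × ℂ)} {t₀ : ℝ}

open Polynomial in
theorem Psi_ball (hD : DiagData P g₀ φ W t₀) {Ψ : Fin (N + 1) → ℂ[X][X]} {c : ℂ × ℂ} {r : ℝ} {p : X}
    (hW : ball c r ⊆ W) (hn : MapsTo φ (ball c r) (ι.nbhd p)) {y₀ : ℂ × ℂ} (hy₀ : y₀ ∈ ball c r)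
    (h : ∀ᶠ y in 𝓝 y₀, Prop2 ι (fun i => (Ψ i).evalEval y.1 y.2) (φ y)) :
    ∀ y ∈ ball c r, Prop2 ι (fun i => (Ψ i).evalEval y.1 y.2) (φ y) := by
  intro y hy
  have hc : ∀ j, DifferentiableOn ℂ (fun y => ι.coords p (φ y) j) (ball c r) := fun j y hy =>
    (differentiableAt_pi.1 (holAt_self.1 ((holAt_coords (hn hy)).comp y (hD.bifOn y (hW hy)).1))
      j).differentiableWithinAt
  refine (prop2_iff (hn hy)).2 fun i j => ?_
  refine Crest.Agent.R264.SCV.eqOn_of_eventuallyEq isOpen_ball (convex_ball c r).isPreconnected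
    ((Psi_diff (Ψ i)).differentiableOn.mul (hc j)) ((Psi_diff (Ψ j)).differentiableOn.mul (hc i))
    hy₀ ?_ hy
  filter_upwards [h, isOpen_ball.mem_nhds hy₀] with z h1 h2
  exact (prop2_iff (hn h2)).1 h1 i j

open Polynomial in
/-- the set of `s` where the relation holds near `(s, s)` is clopen: on a small ball around
`(s₁, s₁)` contained in `W` and mapped into `nbhd (φ (s₁, s₁))` the relation is the vanishing of
holomorphic functions (`prop2_iff`).  The same argument starts from the point `y₀`. -/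
theorem prop2_diag (hD : DiagData P g₀ φ W t₀) {Ψ : Fin (N + 1) → ℂ[X][X]} {s₀ : ℂ} {r : ℝ}
    (hW : ball (s₀, s₀) r ⊆ W) (hn : MapsTo φ (ball (s₀, s₀) r) (ι.nbhd (φ (s₀, s₀))))
    {y₀ : ℂ × ℂ} (hy₀ : y₀ ∈ ball (s₀, s₀) r)
    (h : ∀ᶠ y in 𝓝 y₀, Prop2 ι (fun i => (Ψ i).evalEval y.1 y.2) (φ y)) (s : ℂ) :
    ∀ᶠ y in 𝓝 (s, s), Prop2 ι (fun i => (Ψ i).evalEval y.1 y.2) (φ y) := by
  have hcl : IsClopen {s : ℂ | ∀ᶠ y in 𝓝 (s, s),
      Prop2 ι (fun i => (Ψ i).evalEval y.1 y.2) (φ y)} := by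
    refine ⟨isClosed_of_closure_subset fun s hs => ?_, isOpen_iff_mem_nhds.2 fun s hs => ?_⟩
    · have h1 : ∀ᶠ y in 𝓝 (s, s), y ∈ W ∧ φ y ∈ ι.nbhd (φ (s, s)) :=
        Filter.Eventually.and (hD.isOpen.mem_nhds (hD.diag_mem s))
          ((hD.bifOn _ (hD.diag_mem s)).1.continuousAt ((ι.isOpen_nbhd _).mem_nhds (ι.mem_nbhd _)))
      obtain ⟨ρ, hρ, hb⟩ := Metric.eventually_nhds_iff_ball.1 h1
      obtain ⟨t, ht, hd⟩ := Metric.mem_closure_iff.1 hs ρ hρ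
      refine mem_of_superset (ball_mem_nhds _ hρ) (Psi_ball hD (fun y hy => (hb y hy).1)
        (fun y hy => (hb y hy).2) (y₀ := (t, t)) ?_ ht)
      rwa [mem_ball, Prod.dist_eq, max_self, dist_comm]
    · exact (continuous_id.prodMk continuous_id).continuousAt.tendsto.eventually
        (Filter.Eventually.eventually_nhds hs)
  have := hcl.eq_univ ⟨s₀, mem_of_superset (ball_mem_nhds _ (pos_of_mem_ball hy₀))
    (Psi_ball hD hW hn hy₀ h)⟩
  exact (this.symm ▸ mem_univ s : s ∈ {s : ℂ | ∀ᶠ y in 𝓝 (s, s),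
      Prop2 ι (fun i => (Ψ i).evalEval y.1 y.2) (φ y)})

omit [T2Space X] [CompactSpace X] [Nonempty X] in
theorem psi_ratio {p x : X} (hx : x ∈ ι.nbhd p) {i j : Fin (N + 1)} (hj : ι.coords p x j ≠ 0)
    (hc : ∃ c : ℂ, c ≠ 0 ∧ ι.coords p x = c • ι.coords x x) :
    ι.coords x x j ≠ 0 ∧ ∀ a b : ℂ, a * ι.coords x x i = b * ι.coords x x j →
      a * (ι.coords p x i / ι.coords p x j) = b := by
  obtain ⟨c, hc0, hc⟩ := hc
  have hj' : ι.coords x x j ≠ 0 := by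
    intro h
    apply hj
    rw [hc]; simp [h]
  refine ⟨hj', fun a b hab => ?_⟩
  rw [hc]
  simp only [Pi.smul_apply, smul_eq_mul]
  field_simp
  rw [hab, mul_comm]

open Polynomial in
/-- `p = φ (1, 1)`, `j` with `coords p p j ≠ 0`, `r` with `ball (1,1) r ⊆ W` mapped into `nbhd p` and
`coords p (φ ·) j ≠ 0` there; `t` real, `0 < t < min r t₀`; `σ (x, y) = (x y / (y - 1), x / (y - 1))`
maps a small box around `(t, 1 + t)` into the ball; `F i = (coords p (φ ·) i / coords p (φ ·) j) ∘ σ`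
is separately rational (`rc_ratio` on the lines `z = w + x`, `z = y w`; `exists_subst₁`,
`Polynomial.comp` with `C (y-1)⁻¹ * X`), so `q i * F i = p i` (`sep_rational`); substitute back
(`exists_subst`, same `m` for `p i` and `q i`); `Ψ i = p' i * ∏_{l ≠ i} q' l`.  `Ψ j ≠ 0`: for `i = j`,
`F j = 1`, take `p j = q j = 1` (or note `p' j = q' j` on an open set). -/
theorem exists_Psi (hD : DiagData P g₀ φ W t₀) :
    ∃ Ψ : Fin (N + 1) → ℂ[X][X], (∃ i, Ψ i ≠ 0) ∧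
      ∀ s : ℂ, ∀ᶠ y in 𝓝 (s, s), Prop2 ι (fun i => (Ψ i).evalEval y.1 y.2) (φ y) := by
  classical
  obtain ⟨p, hp⟩ : ∃ p, p = φ (1, 1) := ⟨_, rfl⟩
  obtain ⟨j, hj⟩ : ∃ j, ι.coords p p j ≠ 0 := by
    by_contra h
    push Not at h
    exact ι.ne_zero p p (ι.mem_nbhd p) (funext h)
  have hφc : ∀ y ∈ W, ContinuousAt φ y := fun y hy => (hD.bifOn y hy).1.continuousAt
  have hcc : ∀ y ∈ W, φ y ∈ ι.nbhd p → ContinuousAt (fun y => ι.coords p (φ y)) y :=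
    fun y hy hn => ContinuousAt.comp (f := φ) (holAt_coords hn).continuousAt (hφc y hy)
  have hpm : φ (1, 1) ∈ ι.nbhd p := hp ▸ ι.mem_nbhd p
  obtain ⟨r, hr, hball⟩ : ∃ r > 0, ∀ y ∈ ball ((1 : ℂ), (1 : ℂ)) r,
      y ∈ W ∧ φ y ∈ ι.nbhd p ∧ ι.coords p (φ y) j ≠ 0 := by
    have h1 : ∀ᶠ y in 𝓝 ((1 : ℂ), (1 : ℂ)), y ∈ W := hD.isOpen.mem_nhds (hD.diag_mem 1)
    have h2 : ∀ᶠ y in 𝓝 ((1 : ℂ), (1 : ℂ)), φ y ∈ ι.nbhd p :=
      (hφc _ (hD.diag_mem 1)).eventually_mem ((ι.isOpen_nbhd p).mem_nhds hpm)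
    have h3 : ∀ᶠ y in 𝓝 ((1 : ℂ), (1 : ℂ)), ι.coords p (φ y) j ≠ 0 := by
      have hc : ContinuousAt (fun y => ι.coords p (φ y) j) ((1 : ℂ), (1 : ℂ)) :=
        (continuous_apply j).continuousAt.comp (hcc _ (hD.diag_mem 1) hpm)
      exact hc.eventually_ne (by rw [← hp]; exact hj)
    exact Metric.eventually_nhds_iff_ball.1 (h1.and (h2.and h3))
  obtain ⟨t, ht0, htr, htt⟩ : ∃ t : ℝ, 0 < t ∧ t < r ∧ t < t₀ := by
    refine ⟨min r t₀ / 2, by have := lt_min hr hD.pos; linarith, ?_, ?_⟩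
    · have := min_le_left r t₀; have := lt_min hr hD.pos; linarith
    · have := min_le_right r t₀; have := lt_min hr hD.pos; linarith
  have htc : (t : ℂ) ≠ 0 := by exact_mod_cast ht0.ne'
  have hnt : ‖(t : ℂ)‖ = t := by rw [Complex.norm_real, Real.norm_eq_abs, abs_of_pos ht0]
  have hy₀ : ((1 + t : ℂ), (1 : ℂ)) ∈ ball ((1 : ℂ), (1 : ℂ)) r := by
    rw [mem_ball, Prod.dist_eq, dist_self, dist_eq_norm]
    simp only [add_sub_cancel_left, hnt]
    exact max_lt htr hr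
  obtain ⟨σ, hσ⟩ : ∃ σ : ℂ × ℂ → ℂ × ℂ,
      σ = fun y => (y.1 * y.2 / (y.2 - 1), y.1 / (y.2 - 1)) := ⟨_, rfl⟩
  have hσc : ∀ y : ℂ × ℂ, y.2 ≠ 1 → ContinuousAt σ y := by
    intro y hy
    have : y.2 - 1 ≠ 0 := sub_ne_zero.2 hy
    rw [hσ]
    fun_prop (disch := exact this)
  have h1t : (1 + t : ℂ) ≠ 1 := by simpa using htc
  have hσ0 : σ ((t : ℂ), (1 + t : ℂ)) = ((1 + t : ℂ), (1 : ℂ)) := by
    rw [hσ]
    simp only [add_sub_cancel_left]
    ext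
    · simp only; field_simp
    · simp only; field_simp
  obtain ⟨ρ, hρ, hbox⟩ : ∃ ρ > 0, ∀ y ∈ ball ((t : ℂ), (1 + t : ℂ)) ρ,
      y.1 ≠ 0 ∧ y.2 ≠ 1 ∧ σ y ∈ ball ((1 : ℂ), (1 : ℂ)) r ∧ ‖y.1‖ < t₀ ∧ ‖y.2 - 1‖ < t₀ := by
    have h1 : ∀ᶠ y in 𝓝 ((t : ℂ), (1 + t : ℂ)), y.1 ≠ 0 :=
      continuous_fst.continuousAt.eventually_ne htc
    have h2 : ∀ᶠ y in 𝓝 ((t : ℂ), (1 + t : ℂ)), y.2 ≠ 1 :=
      continuous_snd.continuousAt.eventually_ne h1t
    have h3 : ∀ᶠ y in 𝓝 ((t : ℂ), (1 + t : ℂ)), σ y ∈ ball ((1 : ℂ), (1 : ℂ)) r :=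
      (hσc _ h1t).eventually_mem (isOpen_ball.mem_nhds (by rw [hσ0]; exact hy₀))
    have h4 : ∀ᶠ y in 𝓝 ((t : ℂ), (1 + t : ℂ)), ‖y.1‖ < t₀ := by
      have hc : Continuous fun y : ℂ × ℂ => ‖y.1‖ := by fun_prop
      exact hc.continuousAt.eventually_lt continuousAt_const (by simpa only [hnt] using htt)
    have h5 : ∀ᶠ y in 𝓝 ((t : ℂ), (1 + t : ℂ)), ‖y.2 - 1‖ < t₀ := by
      have hc : Continuous fun y : ℂ × ℂ => ‖y.2 - 1‖ := by fun_prop
      exact hc.continuousAt.eventually_lt continuousAt_const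
        (by simpa only [add_sub_cancel_left, hnt] using htt)
    exact Metric.eventually_nhds_iff_ball.1 (h1.and (h2.and (h3.and (h4.and h5))))
  have hbox' : ∀ x ∈ ball (t : ℂ) ρ, ∀ y ∈ ball (1 + t : ℂ) ρ,
      x ≠ 0 ∧ y ≠ 1 ∧ σ (x, y) ∈ ball ((1 : ℂ), (1 : ℂ)) r ∧ ‖x‖ < t₀ ∧ ‖y - 1‖ < t₀ := by
    intro x hx y hy
    exact hbox (x, y) (by rw [← ball_prod_same]; exact ⟨hx, hy⟩)
  have hrat : ∀ i, ∃ a b : ℂ[X][X], b ≠ 0 ∧ ∀ x ∈ ball (t : ℂ) ρ, ∀ y ∈ ball (1 + t : ℂ) ρ,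
      b.evalEval x y * (ι.coords p (φ (σ (x, y))) i / ι.coords p (φ (σ (x, y))) j) =
        a.evalEval x y := by
    intro i
    refine sep_rational
      (F := fun y => ι.coords p (φ (σ y)) i / ι.coords p (φ (σ y)) j) hρ ?_ ?_ ?_
    · rintro ⟨x, y⟩ ⟨hx, hy⟩
      obtain ⟨-, hy1, hs, -, -⟩ := hbox' x hx y hy
      obtain ⟨hW, hn, hjj⟩ := hball _ hs
      have hc : ContinuousAt (fun y => ι.coords p (φ (σ y))) (x, y) :=
        ContinuousAt.comp (f := σ) (hcc _ hW hn) (hσc _ hy1)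
      exact (ContinuousAt.div ((continuous_apply i).continuousAt.comp hc)
        ((continuous_apply j).continuousAt.comp hc) hjj).continuousWithinAt
    · intro x hx
      have hσx : ∀ y, y ≠ 1 → σ (x, y) = (x / (y - 1) + x, x / (y - 1)) := by
        intro y hy
        have : y - 1 ≠ 0 := sub_ne_zero.2 hy
        rw [hσ]
        ext
        · simp only; field_simp; ring
        · rfl
      obtain ⟨hx0, hy1, hs, hxt, -⟩ := hbox' x hx _ (mem_ball_self hρ)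
      obtain ⟨c₁, hc₁⟩ := hD.line₁ x hxt
      obtain ⟨a, b, hb, hab⟩ := rc_ratio (ι := ι) hc₁ i j ⟨x / (1 + t - 1), by
        obtain ⟨-, hn, hjj⟩ := hball _ hs
        rw [hσx _ hy1] at hn hjj
        exact (psi_ratio (i := i) hn hjj (coords_eq_smul hn)).1⟩
      obtain ⟨m₁, hm₁⟩ := exists_subst₁ a hx0
      obtain ⟨m₂, hm₂⟩ := exists_subst₁ b hx0
      obtain ⟨a', -, ha'⟩ := hm₁ (max m₁ m₂) (le_max_left _ _)
      obtain ⟨b', hb0, hb'⟩ := hm₂ (max m₁ m₂) (le_max_right _ _)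
      refine ⟨a', b', hb0 hb, fun y hy => ?_⟩
      obtain ⟨-, hy1, hs, -, -⟩ := hbox' x hx y hy
      obtain ⟨-, hn, hjj⟩ := hball _ hs
      rw [hσx _ hy1] at hn hjj ⊢
      rw [ha' y hy1, hb' y hy1, mul_assoc,
        (psi_ratio (i := i) hn hjj (coords_eq_smul hn)).2 _ _ (hab (x / (y - 1)))]
    · intro y hy
      obtain ⟨-, hy1, hs, -, hyt⟩ := hbox' _ (mem_ball_self hρ) y hy
      have hy1' : y - 1 ≠ 0 := sub_ne_zero.2 hy1
      have hσy : ∀ x, σ (x, y) = (y * (x / (y - 1)), x / (y - 1)) := by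
        intro x
        rw [hσ]
        ext
        · simp only; field_simp
        · rfl
      obtain ⟨c₁, hc₁⟩ := hD.line₂ y hyt
      obtain ⟨a, b, hb, hab⟩ := rc_ratio (ι := ι) hc₁ i j ⟨t / (y - 1), by
        obtain ⟨-, hn, hjj⟩ := hball _ hs
        rw [hσy] at hn hjj
        exact (psi_ratio (i := i) hn hjj (coords_eq_smul hn)).1⟩
      refine ⟨a.comp (C (y - 1)⁻¹ * Polynomial.X), b.comp (C (y - 1)⁻¹ * Polynomial.X), ?_,
        fun x hx => ?_⟩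
      · rw [Ne, Polynomial.comp_C_mul_X_eq_zero_iff
          (mem_nonZeroDivisors_of_ne_zero (inv_ne_zero hy1'))]
        exact hb
      · obtain ⟨-, -, hs, -, -⟩ := hbox' x hx y hy
        obtain ⟨-, hn, hjj⟩ := hball _ hs
        rw [hσy] at hn hjj ⊢
        have he : (y - 1)⁻¹ * x = x / (y - 1) := by field_simp
        simp only [eval_comp, eval_mul, eval_C, eval_X, he]
        exact (psi_ratio (i := i) hn hjj (coords_eq_smul hn)).2 _ _ (hab (x / (y - 1)))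
  have hrat' : ∀ i, ∃ a b : ℂ[X][X], b ≠ 0 ∧ ∀ z w : ℂ, w ≠ 0 → z - w ∈ ball (t : ℂ) ρ →
      z / w ∈ ball (1 + t : ℂ) ρ →
      b.evalEval z w * (ι.coords p (φ (z, w)) i / ι.coords p (φ (z, w)) j) = a.evalEval z w := by
    intro i
    obtain ⟨a, b, hb, hab⟩ := hrat i
    obtain ⟨m₁, hm₁⟩ := exists_subst a
    obtain ⟨m₂, hm₂⟩ := exists_subst b
    obtain ⟨a', -, ha'⟩ := hm₁ (max m₁ m₂) (le_max_left _ _)
    obtain ⟨b', hb0, hb'⟩ := hm₂ (max m₁ m₂) (le_max_right _ _)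
    refine ⟨a', b', hb0 hb, fun z w hw hx hy => ?_⟩
    obtain ⟨hx0, hy1, -, -, -⟩ := hbox' _ hx _ hy
    have hs : σ (z - w, z / w) = (z, w) := by
      have h1 : z / w - 1 = (z - w) / w := by field_simp
      rw [hσ]
      simp only [h1]
      ext
      · simp only; field_simp
      · simp only; field_simp
    have := hab _ hx _ hy
    rw [hs] at this
    rw [ha' z w hw, hb' z w hw, mul_assoc, this]
  choose a b hb hab using hrat'
  refine ⟨fun i => if i = j then ∏ l, b l else a i * ∏ l ∈ Finset.univ.erase i, b l,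
    ⟨j, by simp only [if_true]; exact Finset.prod_ne_zero_iff.2 fun l _ => hb l⟩, ?_⟩
  refine prop2_diag hD (s₀ := 1) (r := r) (fun y hy => (hball y hy).1)
    (fun y hy => hp ▸ (hball y hy).2.1) hy₀ ?_
  have h1 : ∀ᶠ y in 𝓝 ((1 + t : ℂ), (1 : ℂ)), y.2 ≠ 0 :=
    continuous_snd.continuousAt.eventually_ne one_ne_zero
  have h2 : ∀ᶠ y in 𝓝 ((1 + t : ℂ), (1 : ℂ)), y.1 - y.2 ∈ ball (t : ℂ) ρ := by
    have hc : Continuous fun y : ℂ × ℂ => y.1 - y.2 := by fun_prop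
    exact hc.continuousAt.eventually_mem (isOpen_ball.mem_nhds (by simpa using hρ))
  have h3 : ∀ᶠ y in 𝓝 ((1 + t : ℂ), (1 : ℂ)), y.1 / y.2 ∈ ball (1 + t : ℂ) ρ := by
    have hc : ContinuousAt (fun y : ℂ × ℂ => y.1 / y.2) ((1 + t : ℂ), (1 : ℂ)) :=
      continuous_fst.continuousAt.div continuous_snd.continuousAt one_ne_zero
    exact hc.eventually_mem (isOpen_ball.mem_nhds (by simpa using hρ))
  have h4 : ∀ᶠ y in 𝓝 ((1 + t : ℂ), (1 : ℂ)), y ∈ ball ((1 : ℂ), (1 : ℂ)) r :=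
    isOpen_ball.mem_nhds hy₀
  filter_upwards [h1, h2, h3, h4] with y hy1 hy2 hy3 hy4
  obtain ⟨-, hn, hjj⟩ := hball _ hy4
  rw [prop2_iff hn]
  have key : ∀ i, (if i = j then ∏ l, b l else a i * ∏ l ∈ Finset.univ.erase i, b l).evalEval
      y.1 y.2 = (∏ l, b l).evalEval y.1 y.2 * (ι.coords p (φ y) i / ι.coords p (φ y) j) := by
    intro i
    split_ifs with hij
    · rw [hij, div_self hjj, mul_one]
    · rw [← Finset.mul_prod_erase Finset.univ b (Finset.mem_univ i), evalEval_mul, evalEval_mul,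
        ← hab i y.1 y.2 hy1 hy2 hy3]
      ring
  intro i k
  simp only [key]
  field_simp


open Polynomial in
theorem Psi_div (hD : DiagData P g₀ φ W t₀) (a : ℂ) (i₀ : Fin (N + 1)) (d : ℕ) :
    ∀ Ψ : Fin (N + 1) → ℂ[X][X], (Ψ i₀).natDegree = d → Ψ i₀ ≠ 0 →
      (∀ s : ℂ, ∀ᶠ y in 𝓝 (s, s), Prop2 ι (fun i => (Ψ i).evalEval y.1 y.2) (φ y)) →
      ∃ Ψ' : Fin (N + 1) → ℂ[X][X], (∃ i, (Ψ' i).eval (C a) ≠ 0) ∧ (∀ i, Ψ' i ∣ Ψ i) ∧
        ∀ s : ℂ, ∀ᶠ y in 𝓝 (s, s), Prop2 ι (fun i => (Ψ' i).evalEval y.1 y.2) (φ y) := by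
  induction d using Nat.strong_induction_on with
  | _ d ih =>
  intro Ψ hd h0 h
  by_cases hx : ∃ i, (Ψ i).eval (C a) ≠ 0
  · exact ⟨Ψ, hx, fun i => dvd_rfl, h⟩
  push Not at hx
  choose Ψ' hΨ' using fun i => dvd_iff_isRoot.2 (hx i)
  have h1 : Ψ' i₀ ≠ 0 := fun e => h0 (by rw [hΨ', e, mul_zero])
  have h2 : (Ψ' i₀).natDegree < d := by
    rw [← hd, hΨ' i₀, natDegree_mul (X_sub_C_ne_zero _) h1, natDegree_X_sub_C]
    omega
  obtain ⟨Ψ'', t1, t2, t3⟩ := ih _ h2 Ψ' rfl h1 fun s => by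
    filter_upwards [(h s).eventually_nhds, hD.isOpen.mem_nhds (hD.diag_mem s)] with y hy hW
    have hc : ContinuousAt (fun y : ℂ × ℂ => ((fun i => (Ψ' i).evalEval y.1 y.2), φ y)) y :=
      (continuous_pi fun i => (Psi_diff (Ψ' i)).continuous).continuousAt.prodMk
        (hD.bifOn y hW).1.continuousAt
    have hf : ∃ᶠ z in 𝓝 y, z ∈ Prod.snd ⁻¹' ({a}ᶜ : Set ℂ) :=
      mem_closure_iff_frequently.1 ((dense_compl_singleton a).preimage isOpenMap_snd y)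
    refine (isClosed_cone (ι := ι) isClosed_univ).2.mem_of_frequently_of_tendsto
      ((hf.and_eventually hy).mono fun z hz i j => ?_) hc
    have t := hz.2 i j
    simp only [hΨ' i, hΨ' j, evalEval_mul, evalEval_sub, evalEval_X, evalEval_CC, mul_assoc] at t
    exact mul_left_cancel₀ (sub_ne_zero.2 hz.1) t
  exact ⟨Ψ'', t1, fun i => (t2 i).trans (Dvd.intro_left _ (hΨ' i).symm), t3⟩

open Polynomial in
/-- divide by the largest common powers of `w` and `w - 1` (induction on the degree: if all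
`(Ψ i).eval (C a) = 0` then `Ψ i = (X - C (C a)) * Ψ' i`; the relation for `Ψ'` holds off the line
`w = a`, and on it by the second part of `isClosed_cone` and continuity of `φ` on `W`). -/
theorem exists_Psi' (hD : DiagData P g₀ φ W t₀) :
    ∃ Ψ : Fin (N + 1) → ℂ[X][X], (∃ i, (Ψ i).eval 0 ≠ 0) ∧ (∃ i, (Ψ i).eval 1 ≠ 0) ∧
      ∀ s : ℂ, ∀ᶠ y in 𝓝 (s, s), Prop2 ι (fun i => (Ψ i).evalEval y.1 y.2) (φ y) := by
  obtain ⟨Ψ, ⟨i, hi⟩, h⟩ := exists_Psi (ι := ι) hD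
  obtain ⟨Ψ₁, ⟨i₁, h₁⟩, -, r₁⟩ := Psi_div hD 0 i _ Ψ rfl hi h
  obtain ⟨Ψ₂, h₂, d₂, r₂⟩ := Psi_div hD 1 i₁ _ Ψ₁ rfl (fun h0 => h₁ (by rw [h0, eval_zero])) r₁
  refine ⟨Ψ₂, ⟨i₁, fun h0 => h₁ ?_⟩, by simpa using h₂, r₂⟩
  obtain ⟨u, hu⟩ := d₂ i₁
  rw [hu, eval_mul, C_0, h0, zero_mul]

end Crest.Agent.R266
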