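import Crest.Agent.R266.Diag
import Crest.Agent.R266.Proj2
import Crest.Agent.R266.Psi

/-! Row 266 (S0404): two points on a rational curve are joined by a chain
horizontal–vertical–horizontal. -/

set_option autoImplicit false
set_option linter.unusedSectionVars false

open Set Filter Topology Metric
open scoped Manifold ContDiff

noncomputable section
namespace Crest.Agent.R266

open Crest.AlgGeometry.HolSplit

variable {n N : ℕ} {X : Type} [TopologicalSpace X] [ChartedSpace (Model n) X]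
  [IsManifold (mI n) ω X] [T2Space X] [CompactSpace X] [Nonempty X] {ι : ProjEmbedding n X N}
  {P : X → Model n →L[ℂ] Model n}

/-- reparametrisation by an affine map: `g₁' v = g₀ (a + b / v)` for `v ≠ 0`, which equals
`g₁ (v / (a v + b))` near `v = 0`. -/
theorem RC.affine {g₀ g₁ : ℂ → X} (hg : RC (Model n) g₀ g₁) (a : ℂ) {b : ℂ} (hb : b ≠ 0) :
    ∃ g₁', RC (Model n) (fun u => g₀ (a + b * u)) g₁' ∧ g₁' 0 = g₁ 0 := by
  classical
  have hc : ∀ {g : ℂ → X} {h : ℂ → ℂ} {z : ℂ}, HolAt ℂ (Model n) g (h z) →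
      DifferentiableAt ℂ h z → HolAt ℂ (Model n) (fun u => g (h u)) z := fun hg hh =>
    MDifferentiableAt.comp _ hg hh.mdifferentiableAt
  refine ⟨fun v => if v = 0 then g₁ 0 else g₀ (a + b * v⁻¹), ⟨fun z => ?_, fun z => ?_,
    fun z hz => by simp [hz]⟩, by simp⟩
  · exact hc (hg.hol₀ _) (by fun_prop)
  · by_cases hz : z = 0
    · subst hz
      have h1 : ∀ᶠ v in 𝓝 (0 : ℂ), a * v + b ≠ 0 := by
        refine ContinuousAt.eventually_ne (by fun_prop) (by simpa using hb)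
      have h2 : HolAt ℂ (Model n) (fun v : ℂ => g₁ (v / (a * v + b))) 0 :=
        hc (hg.hol₁ _) (DifferentiableAt.div (by fun_prop) (by fun_prop) (by simpa using hb))
      refine holAt_congr h2 (h1.mono fun v hv => ?_)
      by_cases hv0 : v = 0
      · simp [hv0]
      · simp only [hv0, if_false]
        rw [hg.glue _ (div_ne_zero hv0 hv)]
        congr 1
        field_simp
    · have h2 : HolAt ℂ (Model n) (fun v : ℂ => g₀ (a + b * v⁻¹)) z :=
        hc (hg.hol₀ _) (((differentiableAt_inv hz).const_mul b).const_add a)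
      refine holAt_congr h2 ((eventually_ne_nhds hz).mono fun v hv => ?_)
      simp only [hv, if_false]

theorem RC.symm {g₀ g₁ : ℂ → X} (hg : RC (Model n) g₀ g₁) : RC (Model n) g₁ g₀ := by
  refine ⟨hg.hol₁, hg.hol₀, fun z hz => ?_⟩
  rw [hg.glue _ (inv_ne_zero hz), inv_inv]

/-- if `x = y` take a constant curve.  Otherwise use `RC.affine` and `RC.symm`: both parameters
finite: one affine map; `x = g₀ a`, `y = g₁ 0`: first translate so that `a = 1` (an affine change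
keeps the value at infinity), then both points are in the range of the second chart. -/
theorem rc_normalise {x y : X} (h : OnRationalCurve (n := n) x y) :
    ∃ g₀ g₁ : ℂ → X, RC (Model n) g₀ g₁ ∧ g₀ 0 = x ∧ g₀ 1 = y := by
  obtain ⟨g₀, g₁, h₀, h₁, hgl, hx, hy⟩ := h
  have hg : RC (Model n) g₀ g₁ := ⟨fun z => (h₀ z).mdifferentiableAt (by simp),
    fun z => (h₁ z).mdifferentiableAt (by simp), hgl⟩
  by_cases hxy : x = y
  · subst hxy
    exact ⟨fun _ => x, fun _ => x, ⟨fun _ => mdifferentiableAt_const,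
      fun _ => mdifferentiableAt_const, fun _ _ => rfl⟩, rfl, rfl⟩
  have key : ∀ {k₀ k₁ : ℂ → X}, RC (Model n) k₀ k₁ → ∀ a c : ℂ, k₀ a = x → k₀ c = y →
      ∃ g₀ g₁ : ℂ → X, RC (Model n) g₀ g₁ ∧ g₀ 0 = x ∧ g₀ 1 = y := by
    intro k₀ k₁ hk a c ha hc
    have hac : c - a ≠ 0 := fun h => hxy (by rw [← ha, ← hc, sub_eq_zero.1 h])
    obtain ⟨k', hk', -⟩ := hk.affine a hac
    exact ⟨_, k', hk', by simpa using ha, by simpa using hc⟩
  have key2 : ∀ a : ℂ, ∃ k₀ k₁ : ℂ → X, RC (Model n) k₀ k₁ ∧ k₀ 1 = g₀ a ∧ k₀ 0 = g₁ 0 := by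
    intro a
    obtain ⟨k', hk', h0⟩ := hg.affine (a - 1) one_ne_zero
    exact ⟨k', _, hk'.symm, by rw [hk'.glue 1 one_ne_zero]; simp, h0⟩
  rcases hx with ⟨a, ha⟩ | hx <;> rcases hy with ⟨c, hc⟩ | hy
  · exact key hg a c ha hc
  · obtain ⟨k₀, k₁, hk, h1, h0⟩ := key2 a
    exact key hk 1 0 (h1.trans ha) (h0.trans (Set.mem_singleton_iff.1 hy).symm)
  · obtain ⟨k₀, k₁, hk, h1, h0⟩ := key2 c
    exact key hk 0 1 (h0.trans (Set.mem_singleton_iff.1 hx).symm) (h1.trans hc)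
  · exact absurd ((Set.mem_singleton_iff.1 hx).trans (Set.mem_singleton_iff.1 hy).symm) hxy

theorem H2_ht (hP : IsPF P) {g₀ : ℂ → X} {φ : ℂ × ℂ → X} {W : Set (ℂ × ℂ)} {t₀ : ℝ}
    (hD : DiagData P g₀ φ W t₀) {f : ℂ → X} (hf : ∀ u, HolAt ℂ (Model n) f u) {a : ℂ → ℂ}
    (ha : Differentiable ℂ a) {u₀ b : ℂ} (hab : a u₀ = b)
    (he : f =ᶠ[𝓝 u₀] fun u => φ (a u, b)) (u : ℂ) : HT ℂ P f u := by
  rw [HT_iff_sw]
  refine hP.sw.vt_of_eventually isOpen_univ isPreconnected_univ (fun y _ => hf y) (mem_univ u₀)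
    ?_ u (mem_univ u)
  have hc : ContinuousAt (fun u => (a u, b)) u₀ :=
    ha.continuous.continuousAt.prodMk continuousAt_const
  have hW : ∀ᶠ y in 𝓝 u₀, (a y, b) ∈ W :=
    hc.eventually_mem (hD.isOpen.mem_nhds (by rw [hab]; exact hD.diag_mem b))
  filter_upwards [hW, he.eventually_nhds] with y h1 h2
  rw [← HT_iff_sw]
  obtain ⟨h3, h4⟩ := Bif.ht (hD.bifOn _ h1).2 (hφ := (hD.bifOn _ h1).1)
  exact (HT.comp (h := a) h3 h4 (holAt_self.2 (ha y))).congr h2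

theorem H2_vt (hP : IsPF P) {g₀ : ℂ → X} {φ : ℂ × ℂ → X} {W : Set (ℂ × ℂ)} {t₀ : ℝ}
    (hD : DiagData P g₀ φ W t₀) {f : ℂ → X} (hf : ∀ u, HolAt ℂ (Model n) f u) {s : ℂ}
    (he : f =ᶠ[𝓝 s] fun u => φ (s, u)) (u : ℂ) : VT ℂ P f u := by
  refine hP.vt_of_eventually isOpen_univ isPreconnected_univ (fun y _ => hf y) (mem_univ s)
    ?_ u (mem_univ u)
  have hc : ContinuousAt (fun u : ℂ => (s, u)) s := continuousAt_const.prodMk continuousAt_id
  have hW : ∀ᶠ y in 𝓝 s, (s, y) ∈ W := hc.eventually_mem (hD.isOpen.mem_nhds (hD.diag_mem s))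
  filter_upwards [hW, he.eventually_nhds] with y h1 h2
  exact (Bif.vt (hD.bifOn _ h1).2 (hφ := (hD.bifOn _ h1).1)).2.congr h2

open Polynomial in
theorem H2_curve {g₀ : ℂ → X} {φ : ℂ × ℂ → X} {W : Set (ℂ × ℂ)} {t₀ : ℝ}
    (hD : DiagData P g₀ φ W t₀) {Ψ : Fin (N + 1) → ℂ[X][X]}
    (hΨ : ∀ s : ℂ, ∀ᶠ y in 𝓝 (s, s), Prop2 ι (fun i => (Ψ i).evalEval y.1 y.2) (φ y))
    {a b : ℂ → ℂ} (ha : Continuous a) (hb : Continuous b) {u₀ u₁ : ℂ} (hab : a u₀ = b u₀)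
    {q : Fin (N + 1) → ℂ[X]} (hq : ∀ i u, (q i).eval u = (Ψ i).evalEval (a u) (b u))
    (h₁ : ∃ i, (Ψ i).evalEval (a u₁) (b u₁) ≠ 0) :
    ∃ (d : ℕ) (p : Fin (d + 1) → Fin (N + 1) → ℂ), GoodC ι p ∧
      (cv ι p =ᶠ[𝓝 u₀] fun u => φ (a u, b u)) ∧
      ∀ u, (∃ i, (Ψ i).evalEval (a u) (b u) ≠ 0) →
        Over ι (fun i => (Ψ i).evalEval (a u) (b u)) (cv ι p u) := by
  have hc : ContinuousAt (fun u => (a u, b u)) u₀ := (ha.prodMk hb).continuousAt
  have hW : (a u₀, b u₀) ∈ W := by rw [hab]; exact hD.diag_mem _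
  obtain ⟨d, p, h1, h2, h3⟩ := tuple_curve (ι := ι) (q := q) (h := fun u => φ (a u, b u))
    (u₀ := u₀)
    (by
      obtain ⟨i, hi⟩ := h₁
      exact ⟨i, fun h0 => hi (by rw [← hq, h0, eval_zero])⟩)
    (ContinuousAt.comp (f := fun u => (a u, b u)) (hD.bifOn _ hW).1.continuousAt hc)
    (by
      have h4 := hΨ (b u₀)
      have h5 : (b u₀, b u₀) = (fun u => (a u, b u)) u₀ := by simp only [hab]
      rw [h5] at h4
      filter_upwards [hc.eventually h4] with u hu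
      simpa only [hq] using hu)
  refine ⟨d, p, h1, h2, fun u hu => ?_⟩
  obtain ⟨i, hi⟩ := hu
  have h6 := h3 u (Function.ne_iff.2 ⟨i, by rw [hq]; exact hi⟩)
  simpa only [hq] using h6

/-- `φ, Ψ` from `exists_diagData`, `exists_Psi'`; `s` with `g₀ s ∈ U`, `Ψ (s, 0) ≠ 0`,
`Ψ (s, 1) ≠ 0` (a neighbourhood of `0` is infinite).  `tuple_curve` for
`u ↦ Ψ (s u, 0)` with `h u = φ (s u, 0)`, `u₀ = 0`; `u ↦ Ψ (s, u)` with `h u = φ (s, u)`, `u₀ = s`;
`u ↦ Ψ (s + (1 - s) u, 1)` with `h u = φ (s + (1 - s) u, 1)`, `u₀ = 1`.  Tangency near `u₀` by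
`Bif.ht`, `Bif.vt`, `HT.comp`, `HT.congr`, everywhere by `IsPF.vt_of_eventually` (for `sw P`:
`HT_iff_sw`); matching by `Over.unique`. -/
theorem exists_chain (ι : ProjEmbedding n X N) (hP : IsPF P) {g₀ g₁ : ℂ → X}
    (hg : RC (Model n) g₀ g₁) {U : Set X} (hU : IsOpen U) (h0 : g₀ 0 ∈ U) :
    ∃ d₁ d₂ d₃ : ℕ, ∃ θ ∈ Chains ι P (g₀ 0) U d₁ d₂ d₃, cv ι θ.2.2 1 = g₀ 1 := by
  obtain ⟨φ, W, t₀, hD⟩ := exists_diagData hP hg
  obtain ⟨Ψ, ⟨i₀, hi₀⟩, ⟨i₁, hi₁⟩, hΨ⟩ := exists_Psi' (ι := ι) hD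
  obtain ⟨s, hsU, hs₀, hs₁⟩ : ∃ s, g₀ s ∈ U ∧ (Ψ i₀).evalEval s 0 ≠ 0 ∧
      (Ψ i₁).evalEval s 1 ≠ 0 := by
    have h1 : ∀ᶠ s in 𝓝[≠] (0 : ℂ), g₀ s ∈ U :=
      ((hg.hol₀ 0).continuousAt.eventually_mem (hU.mem_nhds h0)).filter_mono nhdsWithin_le_nhds
    have h2 := (Polynomial.eventually_cofinite_not_isRoot hi₀).filter_mono
      (nhdsNE_le_cofinite (0 : ℂ))
    have h3 := (Polynomial.eventually_cofinite_not_isRoot hi₁).filter_mono
      (nhdsNE_le_cofinite (0 : ℂ))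
    obtain ⟨s, a1, a2, a3⟩ := (h1.and (h2.and h3)).exists
    refine ⟨s, a1, ?_, ?_⟩
    · simpa only [Polynomial.evalEval, Polynomial.C_0, Polynomial.IsRoot] using a2
    · simpa only [Polynomial.evalEval, Polynomial.C_1, Polynomial.IsRoot] using a3
  obtain ⟨d₁, p₁, g1, e1, o1⟩ := H2_curve (ι := ι) hD hΨ (a := fun u => s * u) (b := fun _ => 0)
    (by fun_prop) continuous_const (u₀ := 0) (u₁ := 1) (by simp)
    (q := fun i => ((Ψ i).eval (Polynomial.C 0)).comp (Polynomial.C s * Polynomial.X))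
    (fun i u => by simp [Polynomial.eval_comp, Polynomial.evalEval])
    ⟨i₀, by simpa only [mul_one] using hs₀⟩
  obtain ⟨d₂, p₂, g2, e2, o2⟩ := H2_curve (ι := ι) hD hΨ (a := fun _ => s) (b := fun u => u)
    continuous_const continuous_id (u₀ := s) (u₁ := 0) rfl
    (q := fun i => (Ψ i).map (Polynomial.evalRingHom s))
    (fun i u => Polynomial.map_evalRingHom_eval _ _ _) ⟨i₀, hs₀⟩
  obtain ⟨d₃, p₃, g3, e3, o3⟩ := H2_curve (ι := ι) hD hΨ (a := fun u => s + (1 - s) * u)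
    (b := fun _ => 1) (by fun_prop) continuous_const (u₀ := 1) (u₁ := 0) (by simp)
    (q := fun i => ((Ψ i).eval (Polynomial.C 1)).comp
      (Polynomial.C s + Polynomial.C (1 - s) * Polynomial.X))
    (fun i u => by simp [Polynomial.eval_comp, Polynomial.evalEval])
    ⟨i₁, by simpa only [mul_zero, add_zero] using hs₁⟩
  refine ⟨d₁, d₂, d₃, (p₁, p₂, p₃), ⟨g1, g2, g3, ?_, ?_, ?_, ?_, ?_, ?_, s, ?_⟩, ?_⟩
  · exact H2_ht hP hD g1.rc.hol₀ (a := fun u => s * u) (by fun_prop) (by simp) e1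
  · exact H2_vt hP hD g2.rc.hol₀ e2
  · exact H2_ht hP hD g3.rc.hol₀ (a := fun u => s + (1 - s) * u) (by fun_prop) (by simp) e3
  · have := e1.self_of_nhds
    simp only [mul_zero] at this
    rw [← hD.diag_eq 0]
    exact this
  · have a1 := o1 1 ⟨i₀, by simpa only [mul_one] using hs₀⟩
    simp only [mul_one] at a1
    exact a1.unique (o2 0 ⟨i₀, hs₀⟩)
  · have a3 := o3 0 ⟨i₁, by simpa only [mul_zero, add_zero] using hs₁⟩
    simp only [mul_zero, add_zero] at a3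
    exact (o2 1 ⟨i₁, hs₁⟩).unique a3
  · have := e2.self_of_nhds
    show cv ι p₂ s ∈ U
    rw [this]
    show φ (s, s) ∈ U
    rw [hD.diag_eq s]
    exact hsU
  · have := e3.self_of_nhds
    simp only [mul_one, add_sub_cancel] at this
    rw [← hD.diag_eq 1]
    exact this

end Crest.Agent.R266
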