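import Crest.Prelude.Def_TangentSplitting
import Crest.Agent.R264.SCV3
import Crest.Agent.R264.SCV1b
import Crest.Agent.R264.SCV2a

/-! Row 266 (S0404, S0405): definitions.

`X` is a complex manifold charted on `E`; tangent vectors at `x` are elements of `E` (Mathlib's
representation in the preferred chart at `x`).  A splitting is recorded by a field of projections
`P : X → E →L[ℂ] E` (`E₁ = range P`, "horizontal"; `E₂ = ker P`, "vertical"). -/

set_option autoImplicit false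
set_option linter.unusedSectionVars false

open Set Filter Topology Metric
open scoped Manifold ContDiff

noncomputable section
namespace Crest.Agent.R266

/-- differential of a map between manifolds, as a plain continuous linear map between models. -/
def md (F E : Type) [NormedAddCommGroup F] [NormedSpace ℂ F] [NormedAddCommGroup E]
    [NormedSpace ℂ E] {M X : Type} [TopologicalSpace M] [ChartedSpace F M] [TopologicalSpace X]
    [ChartedSpace E X] (f : M → X) (y : M) : F →L[ℂ] E :=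
  mfderiv 𝓘(ℂ, F) 𝓘(ℂ, E) f y

/-- complex differentiable at a point (manifold sense). -/
abbrev HolAt (F E : Type) [NormedAddCommGroup F] [NormedSpace ℂ F] [NormedAddCommGroup E]
    [NormedSpace ℂ E] {M X : Type} [TopologicalSpace M] [ChartedSpace F M] [TopologicalSpace X]
    [ChartedSpace E X] (f : M → X) (y : M) : Prop :=
  MDifferentiableAt 𝓘(ℂ, F) 𝓘(ℂ, E) f y

/-- holomorphic at every point of a set (used for open sets). -/
def HolOn (F E : Type) [NormedAddCommGroup F] [NormedSpace ℂ F] [NormedAddCommGroup E]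
    [NormedSpace ℂ E] {M X : Type} [TopologicalSpace M] [ChartedSpace F M] [TopologicalSpace X]
    [ChartedSpace E X] (f : M → X) (U : Set M) : Prop :=
  ∀ y ∈ U, HolAt F E f y

section Fields

variable {E : Type} [NormedAddCommGroup E] [NormedSpace ℂ E]
  {X : Type} [TopologicalSpace X] [ChartedSpace E X]

/-- differential at `x` of the preferred chart at `c`. -/
def tc (E : Type) [NormedAddCommGroup E] [NormedSpace ℂ E] {X : Type} [TopologicalSpace X]
    [ChartedSpace E X] (c x : X) : E →L[ℂ] E :=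
  md E E (chartAt E c) x

/-- differential at `y` of the inverse of the preferred chart at `c`. -/
def ti (E : Type) [NormedAddCommGroup E] [NormedSpace ℂ E] {X : Type} [TopologicalSpace X]
    [ChartedSpace E X] (c : X) (y : E) : E →L[ℂ] E :=
  md E E (chartAt E c).symm y

/-- the field `P` written in the chart at `c`. -/
def Pc (P : X → E →L[ℂ] E) (c : X) (y : E) : E →L[ℂ] E :=
  (tc E c ((chartAt E c).symm y)).comp ((P ((chartAt E c).symm y)).comp (ti E c y))

/-- the complementary field of projections. -/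
def sw (P : X → E →L[ℂ] E) (x : X) : E →L[ℂ] E := ContinuousLinearMap.id ℂ E - P x

/-- a holomorphic field of projections. -/
structure IsPF (P : X → E →L[ℂ] E) : Prop where
  idem : ∀ x v, P x (P x v) = P x v
  hol : ∀ c, DifferentiableOn ℂ (Pc P c) (chartAt E c).target

/-- the torsion of `ker P` vanishes at the point with coordinate `y` in the chart at `c`. -/
def NzC (P : X → E →L[ℂ] E) (c : X) (y : E) : Prop :=
  ∀ a b, Pc P c y a = 0 → Pc P c y b = 0 → fderiv ℂ (Pc P c) y a b = fderiv ℂ (Pc P c) y b a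

/-- the torsion of `ker P` vanishes at `x`. -/
def Nzero (P : X → E →L[ℂ] E) (x : X) : Prop := NzC P x (chartAt E x x)

/-- the torsion tensor of `ker P` at `x` (meaningful for `a, b ∈ ker (P x)`). -/
def Nt (P : X → E →L[ℂ] E) (x : X) (a b : E) : E :=
  fderiv ℂ (Pc P x) (chartAt E x x) a b - fderiv ℂ (Pc P x) (chartAt E x x) b a

/-- `f` is tangent to `range P` at `y`. -/
def HT (F : Type) [NormedAddCommGroup F] [NormedSpace ℂ F] {M : Type} [TopologicalSpace M]
    [ChartedSpace F M] (P : X → E →L[ℂ] E) (f : M → X) (y : M) : Prop :=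
  ∀ a, P (f y) (md F E f y a) = md F E f y a

/-- `f` is tangent to `ker P` at `y`. -/
def VT (F : Type) [NormedAddCommGroup F] [NormedSpace ℂ F] {M : Type} [TopologicalSpace M]
    [ChartedSpace F M] (P : X → E →L[ℂ] E) (f : M → X) (y : M) : Prop :=
  ∀ a, P (f y) (md F E f y a) = 0

variable {A B : Type} [NormedAddCommGroup A] [NormedSpace ℂ A] [NormedAddCommGroup B]
  [NormedSpace ℂ B]

/-- `φ` is bifoliated at `y`: first variable tangent to `range P`, second to `ker P`. -/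
def Bif (P : X → E →L[ℂ] E) (φ : A × B → X) (y : A × B) : Prop :=
  (∀ a : A, P (φ y) (md (A × B) E φ y (a, 0)) = md (A × B) E φ y (a, 0)) ∧
    ∀ b : B, P (φ y) (md (A × B) E φ y (0, b)) = 0

/-- holomorphic and bifoliated at every point of `G`. -/
def BifOn (P : X → E →L[ℂ] E) (φ : A × B → X) (G : Set (A × B)) : Prop :=
  ∀ y ∈ G, HolAt (A × B) E φ y ∧ Bif P φ y

/-- a product chart: biholomorphic onto the unit ball (sup norm: product of the unit balls), with
differential carrying `P` to the projection onto the first factor. -/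
structure IsPC (P : X → E →L[ℂ] E) (e : OpenPartialHomeomorph X (A × B)) : Prop where
  target_eq : e.target = ball 0 1
  hol : HolOn E (A × B) e e.source
  hol_symm : HolOn (A × B) E e.symm e.target
  compat : ∀ x ∈ e.source, ∀ v, md E (A × B) e x (P x v) = ((md E (A × B) e x v).1, 0)

/-- every point is the centre of a product chart. -/
def HasPC (A B : Type) [NormedAddCommGroup A] [NormedSpace ℂ A] [NormedAddCommGroup B]
    [NormedSpace ℂ B] (P : X → E →L[ℂ] E) : Prop :=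
  ∀ x, ∃ e : OpenPartialHomeomorph X (A × B), IsPC P e ∧ x ∈ e.source ∧ e x = 0

/-- the cross property: a horizontal ball and a vertical ball with the same centre span a
bifoliated map on the product of the balls. -/
def Cross (A B : Type) [NormedAddCommGroup A] [NormedSpace ℂ A] [NormedAddCommGroup B]
    [NormedSpace ℂ B] (P : X → E →L[ℂ] E) : Prop :=
  ∀ (G₁ : A → X) (G₂ : B → X) (a₀ : A) (b₀ : B) (r s : ℝ), 0 < r → 0 < s →
    (∀ z ∈ ball a₀ r, HolAt A E G₁ z ∧ HT A P G₁ z) →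
    (∀ w ∈ ball b₀ s, HolAt B E G₂ w ∧ VT B P G₂ w) → G₁ a₀ = G₂ b₀ →
    ∃ φ : A × B → X, BifOn P φ (ball a₀ r ×ˢ ball b₀ s) ∧
      (∀ z ∈ ball a₀ r, φ (z, b₀) = G₁ z) ∧ ∀ w ∈ ball b₀ s, φ (a₀, w) = G₂ w

/-- `σ` is a holomorphic section of the tangent bundle along `β` at the parameter `u`. -/
def HolSec (E : Type) [NormedAddCommGroup E] [NormedSpace ℂ E] {X : Type} [TopologicalSpace X]
    [ChartedSpace E X] {F : Type} [NormedAddCommGroup F] [NormedSpace ℂ F] (β : F → X)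
    (σ : F → E) (u : F) : Prop :=
  HolAt F E β u ∧ DifferentiableAt ℂ (fun t => tc E (β u) (β t) (σ t)) u

/-- a rational curve, in the two charts of the projective line. -/
structure RC (E : Type) [NormedAddCommGroup E] [NormedSpace ℂ E] {X : Type} [TopologicalSpace X]
    [ChartedSpace E X] (g₀ g₁ : ℂ → X) : Prop where
  hol₀ : ∀ z, HolAt ℂ E g₀ z
  hol₁ : ∀ z, HolAt ℂ E g₁ z
  glue : ∀ z, z ≠ 0 → g₁ z = g₀ z⁻¹

/-! ### Metric data -/

/-- pull-back of a field of real bilinear forms by `φ`. -/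
def pb {F : Type} [NormedAddCommGroup F] [NormedSpace ℂ F] (g : X → E →L[ℝ] E →L[ℝ] ℝ)
    (φ : F → X) (y u v : F) : ℝ :=
  g (φ y) (md F E φ y u) (md F E φ y v)

/-- a field `H` of forms on `G` is `C¹` and its associated 2-form `(u, v) ↦ H (i u) v` is closed. -/
def ClosedOn {F : Type} [NormedAddCommGroup F] [NormedSpace ℂ F] (H : F → F → F → ℝ)
    (G : Set F) : Prop :=
  (∀ u v, ContDiffOn ℝ 1 (fun y => H y u v) G) ∧ ∀ y ∈ G, ∀ u v w,
    fderiv ℝ (fun z => H z (Complex.I • v) w) y u - fderiv ℝ (fun z => H z (Complex.I • u) w) y v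
      + fderiv ℝ (fun z => H z (Complex.I • u) v) y w = 0

/-- what is used of a Kähler metric. -/
structure KData (g : X → E →L[ℝ] E →L[ℝ] ℝ) : Prop where
  symm : ∀ x u v, g x u v = g x v u
  nonneg : ∀ x u, 0 ≤ g x u u
  herm : ∀ x u v, g x (Complex.I • u) (Complex.I • v) = g x u v
  pull : ∀ (φ : ℂ × ℂ → X) (G : Set (ℂ × ℂ)), IsOpen G → HolOn (ℂ × ℂ) E φ G →
    ClosedOn (pb g φ) G

/-- on the part `‖e x‖ ≤ 3/4` of the chart the metric is comparable with the chart norm. -/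
def Cmp (g : X → E →L[ℝ] E →L[ℝ] ℝ) (c C : ℝ) (e : OpenPartialHomeomorph X (A × B)) : Prop :=
  ∀ x ∈ e.source, ‖e x‖ ≤ 3 / 4 → ∀ v,
    c * ‖md E (A × B) e x v‖ ^ 2 ≤ g x v v ∧ g x v v ≤ C * ‖md E (A × B) e x v‖ ^ 2

/-- uniform product charts. -/
def UC (A B : Type) [NormedAddCommGroup A] [NormedSpace ℂ A] [NormedAddCommGroup B]
    [NormedSpace ℂ B] (P : X → E →L[ℂ] E) (g : X → E →L[ℝ] E →L[ℝ] ℝ) (c C : ℝ) : Prop :=
  ∀ x, ∃ e : OpenPartialHomeomorph X (A × B), IsPC P e ∧ Cmp g c C e ∧ x ∈ e.source ∧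
    ‖e x‖ < 1 / 4

/-- energy density of a map of two variables. -/
def en (g : X → E →L[ℝ] E →L[ℝ] ℝ) (φ : ℂ × ℂ → X) (y : ℂ × ℂ) : ℝ :=
  pb g φ y (1, 0) (1, 0) + pb g φ y (0, 1) (0, 1)

/-- truncated convex cone with a mixed normal. -/
def cone (ε δ : ℝ) : Set (ℂ × ℂ) :=
  {y | ε * (‖y.1‖ + ‖y.2‖) < (y.1 + y.2).re ∧ ‖y.1‖ < δ ∧ ‖y.2‖ < δ}

/-- the conclusion of the local lemma. -/
def LocP (A B : Type) [NormedAddCommGroup A] [NormedSpace ℂ A] [NormedAddCommGroup B]
    [NormedSpace ℂ B] (P : X → E →L[ℂ] E) : Prop :=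
  ∃ ε, 0 < ε ∧ ε < 1 ∧ ∀ δ, 0 < δ → ∀ φ : ℂ × ℂ → X, BifOn P φ (cone ε δ) →
    ∃ r, 0 < r ∧ r ≤ δ ∧ ∃ e : OpenPartialHomeomorph X (A × B), IsPC P e ∧
      MapsTo φ (cone ε r) e.source

/-- logarithmic coordinates. -/
def lg (y : ℂ × ℂ) : ℂ × ℂ := (Complex.exp y.1 * y.2, Complex.exp y.1 * (1 - y.2))

/-- the strip in logarithmic coordinates. -/
def strip (x₀ Λ : ℝ) : Set (ℂ × ℂ) := {y | y.1.re < x₀ ∧ |y.1.im| < 1 ∧ ‖y.2‖ < Λ}

/-! ### Leaves -/

/-- one vertical step: from the centre of a vertical disc to a point of the disc. -/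
def VS (P : X → E →L[ℂ] E) (x y : X) : Prop :=
  ∃ g : ℂ → X, (∀ t ∈ ball (0 : ℂ) 1, HolAt ℂ E g t ∧ VT ℂ P g t) ∧ g 0 = x ∧
    ∃ t ∈ ball (0 : ℂ) 1, g t = y

/-- same vertical leaf (`RV (sw P)`: same horizontal leaf). -/
def RV (P : X → E →L[ℂ] E) : X → X → Prop := Relation.ReflTransGen (VS P)

end Fields

/-! ### Analytic sets -/

/-- `Z` is near each of its points the common zero set of a family of holomorphic functions. -/
def LocAn {T : Type} [NormedAddCommGroup T] [NormedSpace ℂ T] (Z : Set T) : Prop :=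
  ∀ θ ∈ Z, ∃ W : Set T, IsOpen W ∧ θ ∈ W ∧ ∃ 𝓕 : Set (T → ℂ),
    (∀ f ∈ 𝓕, DifferentiableOn ℂ f W) ∧ ∀ θ' ∈ W, θ' ∈ Z ↔ ∀ f ∈ 𝓕, f θ' = 0

/-! ### Projective embeddings -/

section Proj
open Crest.AlgGeometry.HolSplit

variable {n N : ℕ} {X : Type} [TopologicalSpace X] [ChartedSpace (Model n) X]
  [IsManifold (mI n) ω X]

/-- the vector `v` is a homogeneous coordinate vector of the point `x`. -/
def Over (ι : ProjEmbedding n X N) (v : Fin (N + 1) → ℂ) (x : X) : Prop :=
  v ≠ 0 ∧ ∃ c : ℂ, v = c • ι.coords x x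

open Classical in
/-- the point with homogeneous coordinates `v`. -/
def pt [Nonempty X] (ι : ProjEmbedding n X N) (v : Fin (N + 1) → ℂ) : X :=
  if h : ∃ x, Over ι v x then h.choose else Classical.arbitrary X

/-- `v` is proportional to the homogeneous coordinates of `x` (possibly `v = 0`). -/
def Prop2 (ι : ProjEmbedding n X N) (v : Fin (N + 1) → ℂ) (x : X) : Prop :=
  ∀ i j, v i * ι.coords x x j = v j * ι.coords x x i

/-- a tuple of binary forms of degree `d`. -/
def Hev {d : ℕ} (p : Fin (d + 1) → Fin (N + 1) → ℂ) (u v : ℂ) : Fin (N + 1) → ℂ :=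
  ∑ k : Fin (d + 1), (u ^ (k : ℕ) * v ^ (d - (k : ℕ))) • p k

/-- the tuple of forms defines a map from the projective line to `X`. -/
def GoodC (ι : ProjEmbedding n X N) {d : ℕ} (p : Fin (d + 1) → Fin (N + 1) → ℂ) : Prop :=
  ∀ u v : ℂ, (u ≠ 0 ∨ v ≠ 0) → ∃ x, Over ι (Hev p u v) x

/-- the curve defined by a tuple of forms, first chart. -/
def cv [Nonempty X] (ι : ProjEmbedding n X N) {d : ℕ} (p : Fin (d + 1) → Fin (N + 1) → ℂ)
    (u : ℂ) : X :=
  pt ι (Hev p u 1)

/-- the curve defined by a tuple of forms, second chart. -/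
def cv' [Nonempty X] (ι : ProjEmbedding n X N) {d : ℕ} (p : Fin (d + 1) → Fin (N + 1) → ℂ)
    (v : ℂ) : X :=
  pt ι (Hev p 1 v)

/-- parameters of chains. -/
abbrev Par (N d₁ d₂ d₃ : ℕ) : Type :=
  (Fin (d₁ + 1) → Fin (N + 1) → ℂ) × (Fin (d₂ + 1) → Fin (N + 1) → ℂ) ×
    (Fin (d₃ + 1) → Fin (N + 1) → ℂ)

/-- chains horizontal–vertical–horizontal of rational curves starting at `x`, the middle curve
meeting `U`. -/
def Chains [Nonempty X] (ι : ProjEmbedding n X N) (P : X → Model n →L[ℂ] Model n) (x : X)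
    (U : Set X) (d₁ d₂ d₃ : ℕ) : Set (Par N d₁ d₂ d₃) :=
  {θ | GoodC ι θ.1 ∧ GoodC ι θ.2.1 ∧ GoodC ι θ.2.2 ∧ (∀ u, HT ℂ P (cv ι θ.1) u) ∧
    (∀ u, VT ℂ P (cv ι θ.2.1) u) ∧ (∀ u, HT ℂ P (cv ι θ.2.2) u) ∧ cv ι θ.1 0 = x ∧
    cv ι θ.1 1 = cv ι θ.2.1 0 ∧ cv ι θ.2.1 1 = cv ι θ.2.2 0 ∧ ∃ c, cv ι θ.2.1 c ∈ U}

end Proj

end Crest.Agent.R266
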