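import Crest.Agent.R266.CK
import Crest.Agent.R266.CKU

/-! Row 266 (S0404): the bifoliated map near the diagonal of `ℙ¹ × ℙ¹`. -/

set_option autoImplicit false
set_option linter.unusedSectionVars false

open Set Filter Topology Metric
open scoped Manifold ContDiff

noncomputable section
namespace Crest.Agent.R266

variable {E : Type} [NormedAddCommGroup E] [NormedSpace ℂ E] [FiniteDimensional ℂ E]
  {X : Type} [TopologicalSpace X] [ChartedSpace E X] [IsManifold 𝓘(ℂ, E) ω X] [T2Space X]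
  {P : X → E →L[ℂ] E}

theorem glue_bif {ι : Type} [Nonempty X] {G : ι → Set (ℂ × ℂ)} {φ : ι → ℂ × ℂ → X}
    (hG : ∀ i, IsOpen (G i)) (hφ : ∀ i, BifOn P (φ i) (G i))
    (hc : ∀ i j, EqOn (φ i) (φ j) (G i ∩ G j)) :
    ∃ ψ : ℂ × ℂ → X, BifOn P ψ (⋃ i, G i) ∧ ∀ i, EqOn ψ (φ i) (G i) := by
  classical
  let ψ : ℂ × ℂ → X := fun y =>
    if h : ∃ i, y ∈ G i then φ h.choose y else Classical.arbitrary X
  have hψ : ∀ i, EqOn ψ (φ i) (G i) := by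
    intro i y hy
    have h : ∃ i, y ∈ G i := ⟨i, hy⟩
    simp only [ψ, dif_pos h]
    exact hc _ _ ⟨h.choose_spec, hy⟩
  refine ⟨ψ, fun y hy => ?_, hψ⟩
  obtain ⟨i, hi⟩ := mem_iUnion.1 hy
  have he : ψ =ᶠ[𝓝 y] φ i := (hψ i).eventuallyEq_of_mem ((hG i).mem_nhds hi)
  exact ⟨holAt_congr (hφ i y hi).1 he, (hφ i y hi).2.congr he⟩

/-- `holAt_iff_chart`, `hasFDerivAt_chart`, `Pc_tc`, injectivity of `tc`, `(a, 0) = a • (1, 0)`. -/
theorem bif_iff_chart {φ : ℂ × ℂ → X} {y : ℂ × ℂ} {c : X} (hφ : ContinuousAt φ y)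
    (hc : φ y ∈ (chartAt E c).source) :
    (HolAt (ℂ × ℂ) E φ y ∧ Bif P φ y) ↔ BifE (Pc P c) (chartAt E c ∘ φ) y := by
  have inj : Function.Injective (tc E c (φ y)) := fun u v huv => by
    rw [← ti_tc hc u, huv, ti_tc hc v]
  have key : HolAt (ℂ × ℂ) E φ y → (Bif P φ y ↔
      (Pc P c ((chartAt E c ∘ φ) y) (fderiv ℂ (chartAt E c ∘ φ) y (1, 0)) =
        fderiv ℂ (chartAt E c ∘ φ) y (1, 0) ∧
      Pc P c ((chartAt E c ∘ φ) y) (fderiv ℂ (chartAt E c ∘ φ) y (0, 1)) = 0)) := by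
    intro h
    rw [(hasFDerivAt_chart h hc).fderiv]
    simp only [Function.comp_apply, ContinuousLinearMap.comp_apply, Pc_tc P hc]
    constructor
    · rintro ⟨h1, h2⟩
      exact ⟨by rw [h1 1], by rw [h2 1, map_zero]⟩
    · rintro ⟨h1, h2⟩
      have h1' := inj h1
      have h2' : P (φ y) (md (ℂ × ℂ) E φ y (0, 1)) = 0 := inj (by rw [h2, map_zero])
      refine ⟨fun a => ?_, fun b => ?_⟩
      · have e : ((a, 0) : ℂ × ℂ) = a • ((1 : ℂ), (0 : ℂ)) := by ext <;> simp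
        rw [e, map_smul, map_smul, h1']
      · have e : ((0, b) : ℂ × ℂ) = b • ((0 : ℂ), (1 : ℂ)) := by ext <;> simp
        rw [e, map_smul, map_smul, h2', smul_zero]
  constructor
  · rintro ⟨h, hb⟩
    exact ⟨(hasFDerivAt_chart h hc).differentiableAt, (key h).1 hb⟩
  · rintro ⟨h, hb⟩
    have h' : HolAt (ℂ × ℂ) E φ y := (holAt_iff_chart hc).2 ⟨hφ, holAt_self.2 h⟩
    exact ⟨h', (key h').2 hb⟩

theorem Diag_pc (hP : IsPF P) {c x : X} (hx : x ∈ (chartAt E c).source) :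
    ∀ᶠ y in 𝓝 (chartAt E c x), DifferentiableAt ℂ (Pc P c) y ∧
      ∀ v, Pc P c y (Pc P c y v) = Pc P c y v := by
  filter_upwards [(chartAt E c).open_target.mem_nhds ((chartAt E c).map_source hx)] with y hy
  exact ⟨(hP.hol c).differentiableAt ((chartAt E c).open_target.mem_nhds hy), hP.Pc_idem hy⟩

theorem diag_exists (hP : IsPF P) {f : ℂ → X} {s₀ : ℂ} (hf : ∀ᶠ s in 𝓝 s₀, HolAt ℂ E f s) :
    ∃ φ : ℂ × ℂ → X, (∀ᶠ y in 𝓝 (s₀, s₀), HolAt (ℂ × ℂ) E φ y ∧ Bif P φ y) ∧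
      ∀ᶠ s in 𝓝 s₀, φ (s, s) = f s := by
  set c := f s₀ with hcdef
  have hc : f s₀ ∈ (chartAt E c).source := mem_chart_source E c
  have hsrc : ∀ᶠ s in 𝓝 s₀, f s ∈ (chartAt E c).source :=
    hf.self_of_nhds.continuousAt.eventually ((chartAt E c).open_source.mem_nhds hc)
  obtain ⟨ψ, hψ, hψf⟩ := ck_exists (p := Pc P c) (f := chartAt E c ∘ f) (s₀ := s₀)
    (Diag_pc hP hc) (by
      filter_upwards [hf, hsrc] with s h1 h2
      exact (hasFDerivAt_chart h1 h2).differentiableAt)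
  have h0 : ψ (s₀, s₀) ∈ (chartAt E c).target := by
    rw [hψf.self_of_nhds]
    exact (chartAt E c).map_source hc
  have htgt : ∀ᶠ y in 𝓝 (s₀, s₀), ψ y ∈ (chartAt E c).target :=
    hψ.self_of_nhds.1.continuousAt.eventually ((chartAt E c).open_target.mem_nhds h0)
  refine ⟨(chartAt E c).symm ∘ ψ, ?_, ?_⟩
  · filter_upwards [hψ, htgt.eventually_nhds] with y h1 h2
    have h3 : ψ y ∈ (chartAt E c).target := h2.self_of_nhds
    have hcont : ContinuousAt ((chartAt E c).symm ∘ ψ) y :=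
      ((chartAt E c).continuousAt_symm h3).comp h1.1.continuousAt
    refine (bif_iff_chart hcont ((chartAt E c).map_target h3)).2 ?_
    have he : (chartAt E c ∘ (chartAt E c).symm ∘ ψ) =ᶠ[𝓝 y] ψ :=
      h2.mono fun z hz => (chartAt E c).right_inv hz
    refine ⟨h1.1.congr_of_eventuallyEq he, ?_⟩
    rw [he.fderiv_eq, he.self_of_nhds]
    exact h1.2
  · filter_upwards [hψf, hsrc] with s h1 h2
    rw [Function.comp_apply, h1]
    exact (chartAt E c).left_inv h2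

theorem diag_unique (hP : IsPF P) {φ ψ : ℂ × ℂ → X} {s₀ : ℂ}
    (hφ : ∀ᶠ y in 𝓝 (s₀, s₀), HolAt (ℂ × ℂ) E φ y ∧ Bif P φ y)
    (hψ : ∀ᶠ y in 𝓝 (s₀, s₀), HolAt (ℂ × ℂ) E ψ y ∧ Bif P ψ y)
    (h : ∀ᶠ s in 𝓝 s₀, φ (s, s) = ψ (s, s)) : φ =ᶠ[𝓝 (s₀, s₀)] ψ := by
  set c := φ (s₀, s₀) with hcdef
  have hc : φ (s₀, s₀) ∈ (chartAt E c).source := mem_chart_source E c
  have hc' : ψ (s₀, s₀) ∈ (chartAt E c).source := by
    rw [← h.self_of_nhds]; exact hc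
  have s1 : ∀ᶠ y in 𝓝 (s₀, s₀), φ y ∈ (chartAt E c).source :=
    hφ.self_of_nhds.1.continuousAt.eventually ((chartAt E c).open_source.mem_nhds hc)
  have s2 : ∀ᶠ y in 𝓝 (s₀, s₀), ψ y ∈ (chartAt E c).source :=
    hψ.self_of_nhds.1.continuousAt.eventually ((chartAt E c).open_source.mem_nhds hc')
  have key := ck_unique (p := Pc P c) (φ := chartAt E c ∘ φ) (ψ := chartAt E c ∘ ψ) (s₀ := s₀)
    (Diag_pc hP hc)
    (by
      filter_upwards [hφ, s1] with y h1 h2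
      exact (bif_iff_chart h1.1.continuousAt h2).1 h1)
    (by
      filter_upwards [hψ, s2] with y h1 h2
      exact (bif_iff_chart h1.1.continuousAt h2).1 h1)
    (h.mono fun s hs => by simp only [Function.comp_apply, hs])
  filter_upwards [key, s1, s2] with y h1 h2 h3
  exact (chartAt E c).injOn h2 h3 h1

/-- two solutions on a common bidisc-like set `D × D` (`D` open convex) with the same diagonal
values on `D` agree (`diag_unique`, `hol_eqOn`). -/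
theorem diag_eqOn (hP : IsPF P) {φ ψ : ℂ × ℂ → X} {D : Set ℂ} (hD : IsOpen D) (hc : Convex ℝ D)
    (hφ : BifOn P φ (D ×ˢ D)) (hψ : BifOn P ψ (D ×ˢ D)) (h : ∀ s ∈ D, φ (s, s) = ψ (s, s)) :
    EqOn φ ψ (D ×ˢ D) := by
  rcases D.eq_empty_or_nonempty with rfl | ⟨s₀, hs₀⟩
  · intro y hy
    exact absurd hy.1 (notMem_empty _)
  have hO : IsOpen (D ×ˢ D) := hD.prod hD
  have hm : (s₀, s₀) ∈ D ×ˢ D := ⟨hs₀, hs₀⟩
  refine hol_eqOn (F := ℂ × ℂ) (E := E) hO (hc.prod hc).isPreconnected (fun y hy => (hφ y hy).1)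
    (fun y hy => (hψ y hy).1) hm (diag_unique hP ?_ ?_ ?_)
  · filter_upwards [hO.mem_nhds hm] with y hy using hφ y hy
  · filter_upwards [hO.mem_nhds hm] with y hy using hψ y hy
  · filter_upwards [hD.mem_nhds hs₀] with s hs using h s hs

theorem D2_ball (hP : IsPF P) {f : ℂ → X} (hf : ∀ s, HolAt ℂ E f s) (s₀ : ℂ) {R : ℝ} (hR : 0 < R) :
    ∃ (φ : ℂ × ℂ → X) (r : ℝ), 0 < r ∧ r ≤ R ∧ BifOn P φ (ball s₀ r ×ˢ ball s₀ r) ∧
      ∀ s ∈ ball s₀ r, φ (s, s) = f s := by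
  obtain ⟨φ, h1, h2⟩ := diag_exists hP (s₀ := s₀) (Eventually.of_forall hf)
  obtain ⟨r₁, hr₁, h3⟩ := Metric.eventually_nhds_iff_ball.1 h1
  obtain ⟨r₂, hr₂, h4⟩ := Metric.eventually_nhds_iff_ball.1 h2
  refine ⟨φ, min R (min r₁ r₂), lt_min hR (lt_min hr₁ hr₂), min_le_left _ _, fun y hy => h3 y ?_,
    fun s hs => h4 s (ball_subset_ball ((min_le_right _ _).trans (min_le_right _ _)) hs)⟩
  rw [ball_prod_same] at hy
  exact ball_subset_ball ((min_le_right _ _).trans (min_le_left _ _)) hy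

/-- `φ₁` solves the problem for `g₁` on `ball 0 ρ₁ ×ˢ ball 0 ρ₁`; `R = ρ₁⁻¹`.  For each `s` a solution
`φ_s` for `g₀` on `ball s r_s ×ˢ ball s r_s` with `r_s ≤ R / 2`.  Glue them (index `Option ℂ`) with
`(z, w) ↦ φ₁ (z⁻¹, w⁻¹)` on `{2R < ‖z‖} ×ˢ {2R < ‖w‖}` (`Bif.comp_prod`): if `ball s r_s` meets
`{2R < ‖z‖}` then it lies in `{R < ‖z‖}` and `diag_eqOn` applies.  Take `ρ = ρ₁ / 2`. -/
theorem bif_P1 (hP : IsPF P) {g₀ g₁ : ℂ → X} (hg : RC E g₀ g₁) :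
    ∃ (φ φ₁ : ℂ × ℂ → X) (W : Set (ℂ × ℂ)) (ρ : ℝ), 0 < ρ ∧ IsOpen W ∧ BifOn P φ W ∧
      (∀ s, (s, s) ∈ W ∧ φ (s, s) = g₀ s) ∧
      HolOn (ℂ × ℂ) E φ₁ (ball 0 ρ ×ˢ ball 0 ρ) ∧
      ∀ z w : ℂ, ρ⁻¹ < ‖z‖ → ρ⁻¹ < ‖w‖ → (z, w) ∈ W ∧ φ (z, w) = φ₁ (z⁻¹, w⁻¹) := by
  have : Nonempty X := ⟨g₀ 0⟩
  obtain ⟨φ₁, ρ₁, hρ₁, -, hφ₁, hd₁⟩ := D2_ball hP hg.hol₁ 0 one_pos
  have hR : 0 < ρ₁⁻¹ := inv_pos.2 hρ₁
  choose φs r hr hrR hφs hds using fun s => D2_ball hP hg.hol₀ s (half_pos hR)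
  have hinv : ∀ z : ℂ, ρ₁⁻¹ < ‖z‖ → z ≠ 0 ∧ z⁻¹ ∈ ball (0 : ℂ) ρ₁ := by
    intro z hz
    refine ⟨norm_pos_iff.1 (hR.trans hz), ?_⟩
    rw [mem_ball_zero_iff, norm_inv]
    exact inv_lt_of_inv_lt₀ hρ₁ hz
  have hψ : BifOn P (fun q : ℂ × ℂ => φ₁ (q.1⁻¹, q.2⁻¹))
      ({z : ℂ | ρ₁⁻¹ < ‖z‖} ×ˢ {z : ℂ | ρ₁⁻¹ < ‖z‖}) := by
    intro y hy
    have h := hφ₁ (y.1⁻¹, y.2⁻¹) ⟨(hinv _ hy.1).2, (hinv _ hy.2).2⟩
    exact Bif.comp_prod (α := fun z : ℂ => z⁻¹) (β := fun z : ℂ => z⁻¹) h.1 h.2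
      (differentiableAt_inv (hinv _ hy.1).1) (differentiableAt_inv (hinv _ hy.2).1)
  let D : Option ℂ → Set ℂ := fun i => i.elim {z : ℂ | 2 * ρ₁⁻¹ < ‖z‖} fun s => ball s (r s)
  let Φ : Option ℂ → ℂ × ℂ → X := fun i => i.elim (fun q : ℂ × ℂ => φ₁ (q.1⁻¹, q.2⁻¹)) φs
  have hD : ∀ i, IsOpen (D i) := by
    rintro (_ | s)
    · exact isOpen_lt continuous_const continuous_norm
    · exact isOpen_ball
  have hmix : ∀ s, EqOn (Φ none) (Φ (some s)) (D none ×ˢ D none ∩ D (some s) ×ˢ D (some s)) := by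
    intro s y hy
    have hsub : ball s (r s) ⊆ {z : ℂ | ρ₁⁻¹ < ‖z‖} := by
      intro z hz
      have h1 : 2 * ρ₁⁻¹ < ‖y.1‖ := hy.1.1
      have h2 : ‖y.1 - s‖ < r s := mem_ball_iff_norm.1 hy.2.1
      have h3 : ‖z - s‖ < r s := mem_ball_iff_norm.1 hz
      have h4 : ‖y.1‖ ≤ ‖z‖ + (‖y.1 - s‖ + ‖z - s‖) := by
        calc ‖y.1‖ = ‖z + ((y.1 - s) - (z - s))‖ := by congr 1; ring
          _ ≤ _ := (norm_add_le _ _).trans (add_le_add le_rfl (norm_sub_le _ _))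
      show ρ₁⁻¹ < ‖z‖
      linarith [hrR s]
    refine diag_eqOn hP isOpen_ball (convex_ball s (r s))
      (fun q hq => hψ q ⟨hsub hq.1, hsub hq.2⟩) (hφs s) (fun z hz => ?_) hy.2
    obtain ⟨h1, h2⟩ := hinv z (hsub hz)
    rw [hds s z hz, hd₁ _ h2, hg.glue _ (inv_ne_zero h1), inv_inv]
  obtain ⟨φ, hφ, hφe⟩ := glue_bif (P := P) (G := fun i => D i ×ˢ D i) (φ := Φ)
    (fun i => (hD i).prod (hD i)) (by
      rintro (_ | s)
      · intro y hy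
        have h1 : 2 * ρ₁⁻¹ < ‖y.1‖ := hy.1
        have h2 : 2 * ρ₁⁻¹ < ‖y.2‖ := hy.2
        exact hψ y ⟨show ρ₁⁻¹ < ‖y.1‖ by linarith, show ρ₁⁻¹ < ‖y.2‖ by linarith⟩
      · exact hφs s) (by
      rintro (_ | s) (_ | s')
      · exact fun _ _ => rfl
      · exact hmix s'
      · rw [inter_comm]
        exact (hmix s).symm
      · rw [prod_inter_prod]
        exact diag_eqOn hP (isOpen_ball.inter isOpen_ball)
          ((convex_ball _ _).inter (convex_ball _ _))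
          (fun q hq => hφs s q ⟨hq.1.1, hq.2.1⟩) (fun q hq => hφs s' q ⟨hq.1.2, hq.2.2⟩)
          (fun z hz => (hds s z hz.1).trans (hds s' z hz.2).symm))
  refine ⟨φ, φ₁, ⋃ i, D i ×ˢ D i, ρ₁ / 2, half_pos hρ₁, isOpen_iUnion fun i => (hD i).prod (hD i),
    hφ, fun s => ?_, fun y hy => (hφ₁ y ⟨ball_subset_ball (half_le_self hρ₁.le) hy.1,
      ball_subset_ball (half_le_self hρ₁.le) hy.2⟩).1, fun z w hz hw => ?_⟩
  · have hs : (s, s) ∈ D (some s) ×ˢ D (some s) := ⟨mem_ball_self (hr s), mem_ball_self (hr s)⟩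
    exact ⟨mem_iUnion.2 ⟨some s, hs⟩, (hφe _ hs).trans (hds s s (mem_ball_self (hr s)))⟩
  · rw [inv_div, div_eq_mul_inv] at hz hw
    have hs : (z, w) ∈ D none ×ˢ D none := ⟨hz, hw⟩
    exact ⟨mem_iUnion.2 ⟨none, hs⟩, hφe _ hs⟩

theorem D2_rc {φ φ₁ : ℂ × ℂ → X} {W : Set (ℂ × ℂ)} {ρ : ℝ} (hρ : 0 < ρ)
    (hφ : HolOn (ℂ × ℂ) E φ W) (hφ₁ : HolOn (ℂ × ℂ) E φ₁ (ball 0 ρ ×ˢ ball 0 ρ))
    (hinf : ∀ z w : ℂ, ρ⁻¹ < ‖z‖ → ρ⁻¹ < ‖w‖ → φ (z, w) = φ₁ (z⁻¹, w⁻¹)) {m m' : ℂ → ℂ}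
    (hW : ∀ w, (m w, w) ∈ W) (hm : Differentiable ℂ m) (hm' : DifferentiableAt ℂ m' 0)
    (h0 : m' 0 = 0) (hmm : ∀ᶠ v in 𝓝 (0 : ℂ), v ≠ 0 → m v⁻¹ * m' v = 1) :
    ∃ c₁, RC E (fun w => φ (m w, w)) c₁ := by
  classical
  have hol₀ : ∀ w, HolAt ℂ E (fun w => φ (m w, w)) w := fun w =>
    MDifferentiableAt.comp (f := fun w : ℂ => (m w, w)) w (hφ _ (hW w))
      (holAt_self.2 ((hm w).prodMk differentiableAt_id))
  refine ⟨fun v => if v = 0 then φ₁ (0, 0) else φ (m v⁻¹, v⁻¹), hol₀, fun v => ?_,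
    fun v hv => if_neg hv⟩
  by_cases hv : v = 0
  · subst hv
    have h1 : HolAt ℂ E (fun v => φ₁ (m' v, v)) 0 :=
      MDifferentiableAt.comp (f := fun v : ℂ => (m' v, v)) 0
        (hφ₁ _ ⟨by rw [h0]; exact mem_ball_self hρ, mem_ball_self hρ⟩)
        (holAt_self.2 (hm'.prodMk differentiableAt_id))
    refine holAt_congr h1 ?_
    have h2 : ∀ᶠ v in 𝓝 (0 : ℂ), m' v ∈ ball (0 : ℂ) ρ :=
      hm'.continuousAt.eventually (by rw [h0]; exact ball_mem_nhds _ hρ)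
    filter_upwards [hmm, h2, ball_mem_nhds (0 : ℂ) hρ] with v h3 h4 h5
    by_cases hv : v = 0
    · rw [if_pos hv, hv, h0]
    · have h6 := h3 hv
      have h7 : (m v⁻¹)⁻¹ = m' v := inv_eq_of_mul_eq_one_right h6
      have h8 : m' v ≠ 0 := right_ne_zero_of_mul_eq_one h6
      rw [mem_ball_zero_iff] at h4 h5
      rw [if_neg hv, hinf, inv_inv, h7]
      · rw [← inv_inv (m v⁻¹), h7, norm_inv]
        exact inv_strictAnti₀ (norm_pos_iff.2 h8) h4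
      · rw [norm_inv]
        exact inv_strictAnti₀ (norm_pos_iff.2 hv) h5
  · have h1 : HolAt ℂ E (fun v : ℂ => φ (m v⁻¹, v⁻¹)) v :=
      MDifferentiableAt.comp (g := fun w => φ (m w, w)) (f := fun v : ℂ => v⁻¹) v (hol₀ _)
        (holAt_self.2 (differentiableAt_inv hv))
    refine holAt_congr h1 ?_
    filter_upwards [eventually_ne_nhds hv] with v' hv'
    rw [if_neg hv']

/-- tube lemma on the compact part `‖w‖ ≤ 2 / ρ` of the diagonal; at infinity the curves are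
`v ↦ φ₁ (v / (1 + t v), v)` and `v ↦ φ₁ (v / l, v)` near `v = 0`. -/
theorem exists_diagData (hP : IsPF P) {g₀ g₁ : ℂ → X} (hg : RC E g₀ g₁) :
    ∃ (φ : ℂ × ℂ → X) (W : Set (ℂ × ℂ)) (t₀ : ℝ), DiagData P g₀ φ W t₀ := by
  obtain ⟨φ, φ₁, W, ρ, hρ, hW, hφ, hd, hφ₁, hinf⟩ := bif_P1 hP hg
  have hR : 0 < ρ⁻¹ := inv_pos.2 hρ
  have h1 : ∀ᶠ t in 𝓝 (0 : ℂ), ∀ w ∈ closedBall (0 : ℂ) (2 * ρ⁻¹), (w + t, w) ∈ W := by
    refine (isCompact_closedBall _ _).eventually_forall_of_forall_eventually fun w _ => ?_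
    have hc : Continuous fun z : ℂ × ℂ => (z.2 + z.1, z.2) := by fun_prop
    exact hc.continuousAt.eventually (hW.mem_nhds (by simpa using (hd w).1))
  have h2 : ∀ᶠ l in 𝓝 (1 : ℂ), ∀ w ∈ closedBall (0 : ℂ) (2 * ρ⁻¹), (l * w, w) ∈ W := by
    refine (isCompact_closedBall _ _).eventually_forall_of_forall_eventually fun w _ => ?_
    have hc : Continuous fun z : ℂ × ℂ => (z.1 * z.2, z.2) := by fun_prop
    exact hc.continuousAt.eventually (hW.mem_nhds (by simpa using (hd w).1))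
  obtain ⟨t₁, ht₁, h3⟩ := Metric.eventually_nhds_iff_ball.1 h1
  obtain ⟨t₂, ht₂, h4⟩ := Metric.eventually_nhds_iff_ball.1 h2
  refine ⟨φ, W, min (min t₁ t₂) (min ρ⁻¹ (1 / 2)), hW, hφ, fun s => (hd s).1, fun s => (hd s).2,
    lt_min (lt_min ht₁ ht₂) (lt_min hR one_half_pos), fun t ht => ?_, fun l hl => ?_⟩
  · simp only [lt_min_iff] at ht
    refine D2_rc hρ (fun y hy => (hφ y hy).1) hφ₁ (fun z w hz hw => (hinf z w hz hw).2)
      (m := fun w => w + t) (m' := fun v => v / (1 + t * v)) (fun w => ?_) (by fun_prop)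
      (differentiableAt_id.div (by fun_prop) (by simp)) (by simp) ?_
    · by_cases hw : ‖w‖ ≤ 2 * ρ⁻¹
      · exact h3 t (mem_ball_zero_iff.2 ht.1.1) w (mem_closedBall_zero_iff.2 hw)
      · have h5 : ‖w‖ ≤ ‖w + t‖ + ‖t‖ := by
          simpa using norm_sub_le (w + t) t
        exact (hinf _ _ (by linarith [ht.2.1]) (by linarith)).1
    · have hc : Continuous fun v : ℂ => 1 + t * v := by fun_prop
      have h5 : ∀ᶠ v in 𝓝 (0 : ℂ), 1 + t * v ≠ 0 := hc.continuousAt.eventually_ne (by simp)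
      filter_upwards [h5] with v hv hv0
      rw [← mul_div_assoc, add_mul, inv_mul_cancel₀ hv0, div_self hv]
  · simp only [lt_min_iff] at hl
    have h6 : 1 / 2 < ‖l‖ := by
      have h5 : ‖(1 : ℂ)‖ ≤ ‖l‖ + ‖l - 1‖ := by
        simpa using norm_sub_le l (l - 1)
      rw [norm_one] at h5
      linarith [hl.2.2]
    have hl0 : l ≠ 0 := norm_pos_iff.1 (one_half_pos.trans h6)
    refine D2_rc hρ (fun y hy => (hφ y hy).1) hφ₁ (fun z w hz hw => (hinf z w hz hw).2)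
      (m := fun w => l * w) (m' := fun v => v / l) (fun w => ?_) (by fun_prop)
      (by fun_prop) (by simp) (Eventually.of_forall fun v hv => by field_simp)
    by_cases hw : ‖w‖ ≤ 2 * ρ⁻¹
    · exact h4 l (mem_ball_iff_norm.2 hl.1.2) w (mem_closedBall_zero_iff.2 hw)
    · refine (hinf _ _ ?_ (by linarith)).1
      rw [norm_mul]
      nlinarith

end Crest.Agent.R266
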