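import Crest.Agent.R266.Weak

/-! Row 266: finiteness of the lateral energy.

Coordinates `(t, η)`, `t = x + iθ`; `H = pb g Φ y`, `u = (1,0)`, `v = (0,1)`, `w = (0,i)`,
`Ã = H v v`, `N = (1, -η) = u - η v`.  Then `H (iv) w = Ã`, `H (iu) w = H N v + Re η Ã`,
`H (iu) v = H (iN) v - Im η Ã`, `|H N v|, |H (iN) v| ≤ √K Ã`.  `weak_closed` with
`f = h x * k θ * χ (|η|²)` gives
`∫ h' k χ Ã = ∫ 2 h k χ' [|η|² Ã + Re η H N v - Im η H (iN) v] ≤ ∫ h k χ' |η|² Ã`
as `χ' ≤ 0` is supported in `[(lam-2)², (lam+2)²]`, where `|η| ≥ 4 √K`.  Take `k ≥ 0` a bump, `1` on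
`[-1/2, 1/2]`, supported in `[-3/4, 3/4]`; `χ' ≤ -m < 0` on `[(lam-3/2)², (lam+3/2)²]`, `χ = 0`
beyond `(lam+2)²`; `h = h_j x = s (x + j) * s' x` with `s` increasing from 0 to 1, `s'`
decreasing, `1` for `x ≤ x₀ - 1`, `0` for `x ≥ x₀ - 1/2`, so that
`-h_j' ≤ |ds'|`, supported in `[x₀ - 1, x₀ - 1/2]`.  The bound is uniform in `j`; monotone
convergence (`setLIntegral_iUnion_of_directed`, or `lintegral_iSup`). -/

set_option autoImplicit false
set_option linter.unusedSectionVars false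

open Set Filter Topology Metric MeasureTheory
open scoped Manifold ContDiff

noncomputable section
namespace Crest.Agent.R266

variable {E A B : Type} [NormedAddCommGroup E] [NormedSpace ℂ E] [FiniteDimensional ℂ E]
  [NormedAddCommGroup A] [NormedSpace ℂ A] [FiniteDimensional ℂ A]
  [NormedAddCommGroup B] [NormedSpace ℂ B] [FiniteDimensional ℂ B]
  {X : Type} [TopologicalSpace X] [ChartedSpace E X] [IsManifold 𝓘(ℂ, E) ω X] [T2Space X]
  {P : X → E →L[ℂ] E} {g : X → E →L[ℝ] E →L[ℝ] ℝ} {c C : ℝ}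

theorem En_step {a b : ℝ} (hab : a < b) : ∃ s : ℝ → ℝ, ContDiff ℝ 1 s ∧ Monotone s ∧
    (∀ x, 0 ≤ s x) ∧ (∀ x, s x ≤ 1) ∧ (∀ x, x ≤ a → s x = 0) ∧ ∀ x, b ≤ x → s x = 1 := by
  have hba : 0 < b - a := sub_pos.2 hab
  refine ⟨fun x => Real.smoothTransition ((x - a) / (b - a)), ?_, ?_, fun x => Real.smoothTransition.nonneg _,
    fun x => Real.smoothTransition.le_one _, fun x hx => Real.smoothTransition.zero_of_nonpos ?_,
    fun x hx => Real.smoothTransition.one_of_one_le ?_⟩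
  · exact (Real.smoothTransition.contDiff (n := 1)).comp (by fun_prop)
  · intro x y hxy
    exact Real.smoothTransition.monotone (div_le_div_of_nonneg_right (by linarith) hba.le)
  · exact div_nonpos_of_nonpos_of_nonneg (by linarith) hba.le
  · rw [le_div_iff₀ hba]; linarith

theorem En_bump {a b c d : ℝ} (hab : a < b) (hcd : c < d) : ∃ s : ℝ → ℝ, ContDiff ℝ 1 s ∧
    (∀ x, 0 ≤ s x) ∧ (∀ x, x ≤ a → s x = 0) ∧ (∀ x, d ≤ x → s x = 0) ∧
    ∀ x, b ≤ x → x ≤ c → s x = 1 := by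
  obtain ⟨s, hs, -, s0, -, sa, sb⟩ := En_step hab
  obtain ⟨t, ht, -, -, t1, tc, td⟩ := En_step hcd
  refine ⟨fun x => s x * (1 - t x), hs.mul (contDiff_const.sub ht),
    fun x => mul_nonneg (s0 x) (sub_nonneg.2 (t1 x)), fun x hx => by simp [sa x hx],
    fun x hx => by simp [td x hx], fun x hx hx' => by simp [sb x hx, tc x hx']⟩

theorem En_prim {ψ : ℝ → ℝ} {b : ℝ} (hψ : Continuous ψ) (h0 : ∀ x, 0 ≤ ψ x)
    (hb : ∀ x, b ≤ x → ψ x = 0) : ∃ χ : ℝ → ℝ, ContDiff ℝ 1 χ ∧ (∀ x, HasDerivAt χ (-ψ x) x) ∧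
    (∀ x, 0 ≤ χ x) ∧ ∀ x, b ≤ x → χ x = 0 := by
  have hd : ∀ x, HasDerivAt (fun u => -∫ s in b..u, ψ s) (-ψ x) x := fun x =>
    (hψ.integral_hasStrictDerivAt b x).hasDerivAt.neg
  have hz : ∀ x, b ≤ x → -∫ s in b..x, ψ s = 0 := by
    intro x hx
    rw [neg_eq_zero, intervalIntegral.integral_congr (g := fun _ => 0), intervalIntegral.integral_zero]
    intro s hs
    rw [uIcc_of_le hx] at hs
    exact hb s hs.1
  refine ⟨fun u => -∫ s in b..u, ψ s, ?_, hd, fun x => ?_, hz⟩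
  · rw [contDiff_one_iff_deriv]
    refine ⟨fun x => (hd x).differentiableAt, ?_⟩
    have : deriv (fun u => -∫ s in b..u, ψ s) = fun x => -ψ x := funext fun x => (hd x).deriv
    rw [this]
    exact hψ.neg
  · rcases le_total b x with hx | hx
    · exact (hz x hx).ge
    · change 0 ≤ -∫ s in b..x, ψ s
      rw [← intervalIntegral.integral_symm]
      exact intervalIntegral.integral_nonneg hx fun s _ => h0 s

theorem En_fderiv {h k χ : ℝ → ℝ} {h' k' χ' : ℝ} {y : ℂ × ℂ} (hh : HasDerivAt h h' y.1.re)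
    (hk : HasDerivAt k k' y.1.im) (hχ : HasDerivAt χ χ' (y.2.re * y.2.re + y.2.im * y.2.im)) :
    fderiv ℝ (fun y : ℂ × ℂ => h y.1.re * k y.1.im * χ (y.2.re * y.2.re + y.2.im * y.2.im)) y
        (1, 0) = h' * k y.1.im * χ (y.2.re * y.2.re + y.2.im * y.2.im) ∧
      fderiv ℝ (fun y : ℂ × ℂ => h y.1.re * k y.1.im * χ (y.2.re * y.2.re + y.2.im * y.2.im)) y
        (0, 1) = h y.1.re * k y.1.im * χ' * (2 * y.2.re) ∧
      fderiv ℝ (fun y : ℂ × ℂ => h y.1.re * k y.1.im * χ (y.2.re * y.2.re + y.2.im * y.2.im)) y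
        (0, Complex.I) = h y.1.re * k y.1.im * χ' * (2 * y.2.im) := by
  have l1 := (Complex.reCLM.comp (ContinuousLinearMap.fst ℝ ℂ ℂ)).hasFDerivAt (x := y)
  have l2 := (Complex.imCLM.comp (ContinuousLinearMap.fst ℝ ℂ ℂ)).hasFDerivAt (x := y)
  have l3 := (Complex.reCLM.comp (ContinuousLinearMap.snd ℝ ℂ ℂ)).hasFDerivAt (x := y)
  have l4 := (Complex.imCLM.comp (ContinuousLinearMap.snd ℝ ℂ ℂ)).hasFDerivAt (x := y)
  have d1 := hh.comp_hasFDerivAt y l1
  have d2 := hk.comp_hasFDerivAt y l2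
  have d3 := hχ.comp_hasFDerivAt y ((l3.mul l3).add (l4.mul l4))
  have d := ((d1.mul d2).mul d3).fderiv
  have e : (fun y : ℂ × ℂ => h y.1.re * k y.1.im * χ (y.2.re * y.2.re + y.2.im * y.2.im)) =
      (h ∘ ⇑(Complex.reCLM.comp (ContinuousLinearMap.fst ℝ ℂ ℂ))) *
        (k ∘ ⇑(Complex.imCLM.comp (ContinuousLinearMap.fst ℝ ℂ ℂ))) *
        (χ ∘ (⇑(Complex.reCLM.comp (ContinuousLinearMap.snd ℝ ℂ ℂ)) *
          ⇑(Complex.reCLM.comp (ContinuousLinearMap.snd ℝ ℂ ℂ)) +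
          ⇑(Complex.imCLM.comp (ContinuousLinearMap.snd ℝ ℂ ℂ)) *
          ⇑(Complex.imCLM.comp (ContinuousLinearMap.snd ℝ ℂ ℂ)))) := rfl
  rw [e, d]
  refine ⟨?_, ?_, ?_⟩
  · simp
    ring
  · simp
    ring
  · simp
    ring

/-- the compact box carrying the cut-offs -/
def En_box (a x₀ lam : ℝ) : Set (ℂ × ℂ) :=
  {y | a ≤ y.1.re ∧ y.1.re ≤ x₀ - 1 / 2 ∧ |y.1.im| ≤ 3 / 4 ∧ ‖y.2‖ ≤ lam + 2}

theorem En_box_compact (a x₀ lam : ℝ) : IsCompact (En_box a x₀ lam) := by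
  refine Metric.isCompact_of_isClosed_isBounded ?_ ?_
  · unfold En_box
    simp only [ofPred_and]
    exact (isClosed_le (by fun_prop) (by fun_prop)).inter
      ((isClosed_le (by fun_prop) (by fun_prop)).inter
      ((isClosed_le (by fun_prop) (by fun_prop)).inter (isClosed_le (by fun_prop) (by fun_prop))))
  · refine (isBounded_closedBall (x := (0 : ℂ × ℂ))
      (r := max (|a| + |x₀ - 1 / 2| + 3 / 4) (lam + 2))).subset ?_
    rintro y ⟨h1, h2, h3, h4⟩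
    rw [mem_closedBall_zero_iff, Prod.norm_def]
    refine max_le_max ((Complex.norm_le_abs_re_add_abs_im _).trans ?_) h4
    have : |y.1.re| ≤ |a| + |x₀ - 1 / 2| := by
      rw [abs_le]
      constructor
      · linarith [neg_abs_le a, abs_nonneg (x₀ - 1 / 2)]
      · linarith [le_abs_self (x₀ - 1 / 2), abs_nonneg a]
    linarith

theorem En_supp {a x₀ lam : ℝ} {F : ℂ × ℂ → ℝ} (hF : ∀ y, y ∉ En_box a x₀ lam → F y = 0) :
    HasCompactSupport F ∧ tsupport F ⊆ strip x₀ (lam + 3) := by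
  refine ⟨HasCompactSupport.intro (En_box_compact a x₀ lam) hF, ?_⟩
  have h1 : tsupport F ⊆ En_box a x₀ lam := by
    refine closure_minimal (fun y hy => ?_) (En_box_compact a x₀ lam).isClosed
    by_contra h
    exact hy (hF y h)
  refine h1.trans ?_
  rintro y ⟨-, h2, h3, h4⟩
  exact ⟨by linarith, by linarith, by linarith⟩

theorem En_vanish {a x₀ lam : ℝ} (hlam : 0 ≤ lam) {p k χ : ℝ → ℝ} (hp : ∀ x, x < a → p x = 0)
    (hp' : ∀ x, x₀ - 1 / 2 < x → p x = 0) (hk : ∀ x, x ≤ -(3 / 4) → k x = 0)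
    (hk' : ∀ x, 3 / 4 ≤ x → k x = 0) (hχ : ∀ x, (lam + 2) ^ 2 ≤ x → χ x = 0) (y : ℂ × ℂ)
    (hy : y ∉ En_box a x₀ lam) :
    p y.1.re * k y.1.im * χ (y.2.re * y.2.re + y.2.im * y.2.im) = 0 := by
  by_cases h1 : a ≤ y.1.re
  · by_cases h2 : y.1.re ≤ x₀ - 1 / 2
    · by_cases h3 : |y.1.im| ≤ 3 / 4
      · have h4 : lam + 2 < ‖y.2‖ := by
          by_contra h4
          exact hy ⟨h1, h2, h3, not_lt.1 h4⟩
        rw [hχ, mul_zero]
        rw [← Complex.normSq_apply, Complex.normSq_eq_norm_sq]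
        exact pow_le_pow_left₀ (by linarith) h4.le 2
      · rcases lt_abs.1 (not_le.1 h3) with h | h
        · rw [hk' _ h.le, mul_zero, zero_mul]
        · rw [hk _ (by linarith), mul_zero, zero_mul]
    · rw [hp' _ (not_le.1 h2), zero_mul, zero_mul]
  · rw [hp _ (not_le.1 h1), zero_mul, zero_mul]

theorem En_point (hK : KData g) {Φ : ℂ × ℂ → X} {K : ℝ} (hK0 : 0 ≤ K) {y : ℂ × ℂ}
    (hdom : pb g Φ y (1, -y.2) (1, -y.2) ≤ K * pb g Φ y (0, 1) (0, 1))
    (hy : 4 * Real.sqrt K ≤ ‖y.2‖) :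
    ‖y.2‖ ^ 2 * pb g Φ y (0, 1) (0, 1) ≤
      2 * y.2.re * pb g Φ y (Complex.I • ((1 : ℂ), (0 : ℂ))) (0, Complex.I) -
        2 * y.2.im * pb g Φ y (Complex.I • ((1 : ℂ), (0 : ℂ))) (0, 1) := by
  unfold pb at *
  set L := md (ℂ × ℂ) E Φ y
  set N := L (1, -y.2)
  set V := L (0, 1)
  have e1 : L (Complex.I • ((1 : ℂ), (0 : ℂ))) = Complex.I • (N + y.2 • V) := by
    rw [map_smul, ← map_smul L y.2, ← map_add]
    congr 2
    ext <;> simp
  have e2 : L (0, Complex.I) = Complex.I • V := by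
    rw [← map_smul]
    congr 1
    ext <;> simp
  have e3 : g (Φ y) (y.2 • V) V = y.2.re * g (Φ y) V V := by
    have := hK.smul_smul (Φ y) y.2 1 V V
    rw [one_smul, hK.I_self] at this
    simpa using this
  have e4 : g (Φ y) (Complex.I • y.2 • V) V = -y.2.im * g (Φ y) V V := by
    have := hK.smul_smul (Φ y) (Complex.I * y.2) 1 V V
    rw [one_smul, hK.I_self, mul_smul] at this
    simpa using this
  rw [e1, e2, hK.herm, smul_add, map_add, map_add, add_apply, add_apply, e3, e4]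
  set T := g (Φ y) V V
  have hT : 0 ≤ T := hK.nonneg _ _
  have hs : Real.sqrt K * Real.sqrt K = K := Real.mul_self_sqrt hK0
  have hs0 : 0 ≤ Real.sqrt K := Real.sqrt_nonneg K
  have bd : ∀ Z : E, g (Φ y) Z Z ≤ K * T → |g (Φ y) Z V| ≤ Real.sqrt K * T := by
    intro Z hZ
    refine abs_le_of_sq_le_sq' ?_ (by positivity) |> abs_le.2
    refine (hK.cs _ _ _).trans ?_
    calc g (Φ y) Z Z * T ≤ K * T * T := mul_le_mul_of_nonneg_right hZ hT
      _ = (Real.sqrt K * T) ^ 2 := by rw [mul_pow, Real.sq_sqrt hK0]; ring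
  have b1 := bd N hdom
  have b2 := bd (Complex.I • N) (by rw [hK.herm]; exact hdom)
  have c1 : |y.2.re * g (Φ y) N V| ≤ ‖y.2‖ * (Real.sqrt K * T) := by
    rw [abs_mul]
    exact mul_le_mul (Complex.abs_re_le_norm _) b1 (abs_nonneg _) (norm_nonneg _)
  have c2 : |y.2.im * g (Φ y) (Complex.I • N) V| ≤ ‖y.2‖ * (Real.sqrt K * T) := by
    rw [abs_mul]
    exact mul_le_mul (Complex.abs_im_le_norm _) b2 (abs_nonneg _) (norm_nonneg _)
  have n2 : ‖y.2‖ ^ 2 = y.2.re * y.2.re + y.2.im * y.2.im := by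
    rw [← Complex.normSq_apply, Complex.normSq_eq_norm_sq]
  have c3 : 4 * Real.sqrt K * (‖y.2‖ * T) ≤ ‖y.2‖ * (‖y.2‖ * T) :=
    mul_le_mul_of_nonneg_right hy (by positivity)
  have c4 := (abs_le.1 c1).1
  have c5 := (abs_le.1 c2).2
  have c6 : ‖y.2‖ * (‖y.2‖ * T) = (y.2.re * y.2.re + y.2.im * y.2.im) * T := by
    rw [← n2]; ring
  rw [n2]
  nlinarith

theorem energy_finite (hK : KData g) {Φ : ℂ × ℂ → X} {x₀ lam K : ℝ} (hK0 : 0 ≤ K)
    (hlam : 4 * Real.sqrt K + 2 ≤ lam) (hΦ : HolOn (ℂ × ℂ) E Φ (strip x₀ (lam + 3)))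
    (hdom : ∀ y ∈ strip x₀ (lam + 3), pb g Φ y (1, -y.2) (1, -y.2) ≤ K * pb g Φ y (0, 1) (0, 1)) :
    ∫⁻ y in {y : ℂ × ℂ | y.1.re < x₀ - 1 ∧ |y.1.im| ≤ 1 / 2 ∧ lam - 3 / 2 ≤ ‖y.2‖ ∧
      ‖y.2‖ ≤ lam + 3 / 2}, ENNReal.ofReal (pb g Φ y (0, 1) (0, 1)) < ⊤ := by
  have hG : IsOpen (strip x₀ (lam + 3)) := by
    unfold strip
    simp only [ofPred_and]
    exact (isOpen_lt (by fun_prop) (by fun_prop)).inter
      ((isOpen_lt (by fun_prop) (by fun_prop)).inter (isOpen_lt (by fun_prop) (by fun_prop)))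
  have hH := hK.pull Φ _ hG hΦ
  have hs0 : 0 ≤ Real.sqrt K := Real.sqrt_nonneg K
  have hlam2 : 2 ≤ lam := by linarith
  have hT : ∀ y, 0 ≤ pb g Φ y (0, 1) (0, 1) := fun y => hK.nonneg _ _
  obtain ⟨k, hk, k0, ka, kd, k1⟩ := En_bump (a := -(3 / 4)) (b := -(1 / 2)) (c := 1 / 2)
    (d := 3 / 4) (by norm_num) (by norm_num)
  obtain ⟨ψ, hψ, ψ0, ψa, ψd, ψ1⟩ := En_bump (a := (lam - 2) ^ 2) (b := (lam - 3 / 2) ^ 2)
    (c := (lam + 3 / 2) ^ 2) (d := (lam + 2) ^ 2) (by nlinarith) (by nlinarith)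
  obtain ⟨χ, hχ, χd, χ0, χb⟩ := En_prim hψ.continuous ψ0 ψd
  obtain ⟨s, hs, sm, s0, s1, sa, sb⟩ := En_step (a := x₀ - 1) (b := x₀ - 1 / 2) (by linarith)
  have hsd : ∀ x, HasDerivAt s (deriv s x) x := fun x =>
    (hs.differentiable one_ne_zero x).hasDerivAt
  have n2 : ∀ η : ℂ, η.re * η.re + η.im * η.im = ‖η‖ ^ 2 := fun η => by
    rw [← Complex.normSq_apply, Complex.normSq_eq_norm_sq]
  -- the `j`-independent bound
  set b : ℂ × ℂ → ℝ := fun y => deriv s y.1.re * k y.1.im * χ (y.2.re * y.2.re + y.2.im * y.2.im)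
    with hb
  have hbs := En_supp (a := x₀ - 1) (x₀ := x₀) (lam := lam) (F := b)
    (En_vanish (by linarith) (p := deriv s) (fun x hx => by
        have : s =ᶠ[𝓝 x] fun _ => 0 := by
          filter_upwards [Iio_mem_nhds hx] with z hz using sa z (le_of_lt hz)
        rw [this.deriv_eq, deriv_const])
      (fun x hx => by
        have : s =ᶠ[𝓝 x] fun _ => 1 := by
          filter_upwards [Ioi_mem_nhds hx] with z hz using sb z (le_of_lt hz)
        rw [this.deriv_eq, deriv_const]) ka kd χb)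
  have hbc : Continuous b := by
    have h1 : Continuous (deriv s) := hs.continuous_deriv le_rfl
    have h2 := hk.continuous
    have h3 := hχ.continuous
    rw [hb]
    fun_prop
  have hbi : Integrable fun y => b y * pb g Φ y (0, 1) (0, 1) :=
    integrable_mul_of_tsupport hG (hH.1 _ _).continuousOn hbc hbs.1 hbs.2
  have key : ∀ j : ℕ, ∫⁻ y in {y : ℂ × ℂ | y.1.re < x₀ - 1 ∧ |y.1.im| ≤ 1 / 2 ∧
      lam - 3 / 2 ≤ ‖y.2‖ ∧ ‖y.2‖ ≤ lam + 3 / 2} ∩ {y | -(j : ℝ) ≤ y.1.re},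
      ENNReal.ofReal (pb g Φ y (0, 1) (0, 1)) ≤
        ENNReal.ofReal (4 * ∫ y, b y * pb g Φ y (0, 1) (0, 1)) := by
    intro j
    obtain ⟨t, ht, tm, t0, t1, ta, tb⟩ := En_step (a := -(j : ℝ) - 1) (b := -(j : ℝ)) (by linarith)
    have htd : ∀ x, HasDerivAt t (deriv t x) x := fun x =>
      (ht.differentiable one_ne_zero x).hasDerivAt
    set h : ℝ → ℝ := fun x => t x * (1 - s x) with hh
    have hhc : ContDiff ℝ 1 h := ht.mul (contDiff_const.sub hs)
    have h0 : ∀ x, 0 ≤ h x := fun x => mul_nonneg (t0 x) (sub_nonneg.2 (s1 x))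
    have hd : ∀ x, HasDerivAt h (deriv t x * (1 - s x) + t x * (-deriv s x)) x := fun x =>
      (htd x).mul ((hsd x).const_sub 1)
    have ha : ∀ x, x < -(j : ℝ) - 1 → h x = 0 := fun x hx => by simp [hh, ta x hx.le]
    have ha' : ∀ x, x₀ - 1 / 2 < x → h x = 0 := fun x hx => by simp [hh, sb x hx.le]
    set f : ℂ × ℂ → ℝ := fun y => h y.1.re * k y.1.im * χ (y.2.re * y.2.re + y.2.im * y.2.im)
      with hf
    have hfs := En_supp (a := -(j : ℝ) - 1) (x₀ := x₀) (lam := lam) (F := f)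
      (En_vanish (by linarith) ha ha' ka kd χb)
    have hfc : ContDiff ℝ 1 f := by
      have l1 : ContDiff ℝ 1 fun y : ℂ × ℂ => y.1.re := Complex.reCLM.contDiff.comp contDiff_fst
      have l2 : ContDiff ℝ 1 fun y : ℂ × ℂ => y.1.im := Complex.imCLM.contDiff.comp contDiff_fst
      have l3 : ContDiff ℝ 1 fun y : ℂ × ℂ => y.2.re := Complex.reCLM.contDiff.comp contDiff_snd
      have l4 : ContDiff ℝ 1 fun y : ℂ × ℂ => y.2.im := Complex.imCLM.contDiff.comp contDiff_snd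
      exact ((hhc.comp l1).mul (hk.comp l2)).mul (hχ.comp ((l3.mul l3).add (l4.mul l4)))
    set cc : ℂ × ℂ → ℝ := fun y => h y.1.re * k y.1.im * ψ (y.2.re * y.2.re + y.2.im * y.2.im)
      with hcc
    have cc0 : ∀ y, 0 ≤ cc y := fun y => mul_nonneg (mul_nonneg (h0 _) (k0 _)) (ψ0 _)
    have hcv := En_vanish (x₀ := x₀) (by linarith : 0 ≤ lam) ha ha' ka kd ψd
    have hcs := En_supp (a := -(j : ℝ) - 1) (x₀ := x₀) (lam := lam)
      (F := fun y => cc y * ‖y.2‖ ^ 2) (fun y hy => by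
        change _ * _ * _ * _ = 0
        rw [hcv y hy, zero_mul])
    have hcont : Continuous fun y : ℂ × ℂ => cc y * ‖y.2‖ ^ 2 := by
      have h1 := hhc.continuous
      have h2 := hk.continuous
      have h3 := hψ.continuous
      rw [hcc]
      fun_prop
    have hci : Integrable fun y => cc y * ‖y.2‖ ^ 2 * pb g Φ y (0, 1) (0, 1) :=
      integrable_mul_of_tsupport hG (hH.1 _ _).continuousOn hcont hcs.1 hcs.2
    have hw := weak_closed hG hH hfc hfs.1 hfs.2 (1, 0) (0, 1) (0, Complex.I)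
    have i1 := (weak_parts hG (hH.1 (Complex.I • ((0 : ℂ), (1 : ℂ))) (0, Complex.I)) hfc hfs.1 hfs.2
      (1, 0)).1
    have i2 := (weak_parts hG (hH.1 (Complex.I • ((1 : ℂ), (0 : ℂ))) (0, Complex.I)) hfc hfs.1 hfs.2
      (0, 1)).1
    have i3 := (weak_parts hG (hH.1 (Complex.I • ((1 : ℂ), (0 : ℂ))) (0, 1)) hfc hfs.1 hfs.2
      (0, Complex.I)).1
    have i4 := (i1.sub i2).add i3
    have hle : ∫ y, cc y * ‖y.2‖ ^ 2 * pb g Φ y (0, 1) (0, 1) ≤
        ∫ y, b y * pb g Φ y (0, 1) (0, 1) := by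
      have e := integral_add i4 hbi
      simp only [Pi.add_apply, Pi.sub_apply] at e
      rw [hw, zero_add] at e
      rw [← e]
      refine integral_mono hci (i4.add hbi) fun y => ?_
      obtain ⟨d1, d2, d3⟩ := En_fderiv (hd y.1.re)
        ((hk.differentiable one_ne_zero y.1.im).hasDerivAt) (χd (y.2.re * y.2.re + y.2.im * y.2.im))
      simp only
      rw [hf, d1, d2, d3]
      have e1 : pb g Φ y (Complex.I • ((0 : ℂ), (1 : ℂ))) (0, Complex.I) =
          pb g Φ y (0, 1) (0, 1) := by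
        have : ((0 : ℂ), Complex.I) = Complex.I • ((0 : ℂ), (1 : ℂ)) := by ext <;> simp
        unfold pb
        rw [this, map_smul, hK.herm]
      rw [e1]
      have p1 : 0 ≤ (deriv t y.1.re * (1 - s y.1.re) + (1 - t y.1.re) * deriv s y.1.re) *
          (k y.1.im * χ (y.2.re * y.2.re + y.2.im * y.2.im)) * pb g Φ y (0, 1) (0, 1) :=
        mul_nonneg (mul_nonneg (add_nonneg (mul_nonneg tm.deriv_nonneg (sub_nonneg.2 (s1 _)))
          (mul_nonneg (sub_nonneg.2 (t1 _)) sm.deriv_nonneg)) (mul_nonneg (k0 _) (χ0 _))) (hT y)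
      have p2 : cc y * (‖y.2‖ ^ 2 * pb g Φ y (0, 1) (0, 1)) ≤ cc y *
          (2 * y.2.re * pb g Φ y (Complex.I • ((1 : ℂ), (0 : ℂ))) (0, Complex.I) -
            2 * y.2.im * pb g Φ y (Complex.I • ((1 : ℂ), (0 : ℂ))) (0, 1)) := by
        by_cases hc : cc y = 0
        · rw [hc, zero_mul, zero_mul]
        refine mul_le_mul_of_nonneg_left (En_point hK hK0 (hdom y ?_) ?_) (cc0 y)
        · have hy : y ∈ En_box (-(j : ℝ) - 1) x₀ lam := by
            by_contra hy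
            exact hc (hcv y hy)
          obtain ⟨-, h2, h3, h4⟩ := hy
          exact ⟨by linarith, by linarith, by linarith⟩
        · by_contra hlt
          refine hc ?_
          change _ * _ * ψ _ = 0
          rw [ψa, mul_zero]
          rw [n2]
          exact pow_le_pow_left₀ (norm_nonneg _) (by linarith) 2
      simp only [hb, hcc] at p2 ⊢
      linarith
    have hmeas : MeasurableSet ({y : ℂ × ℂ | y.1.re < x₀ - 1 ∧ |y.1.im| ≤ 1 / 2 ∧
        lam - 3 / 2 ≤ ‖y.2‖ ∧ ‖y.2‖ ≤ lam + 3 / 2} ∩ {y | -(j : ℝ) ≤ y.1.re}) := by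
      simp only [ofPred_and]
      exact ((isOpen_lt (by fun_prop) (by fun_prop)).measurableSet.inter
        ((isClosed_le (by fun_prop) (by fun_prop)).measurableSet.inter
        ((isClosed_le (by fun_prop) (by fun_prop)).measurableSet.inter
          (isClosed_le (by fun_prop) (by fun_prop)).measurableSet))).inter
        (isClosed_le (by fun_prop) (by fun_prop)).measurableSet
    calc _ ≤ ∫⁻ y in {y : ℂ × ℂ | y.1.re < x₀ - 1 ∧ |y.1.im| ≤ 1 / 2 ∧
          lam - 3 / 2 ≤ ‖y.2‖ ∧ ‖y.2‖ ≤ lam + 3 / 2} ∩ {y | -(j : ℝ) ≤ y.1.re},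
          ENNReal.ofReal (4 * (cc y * ‖y.2‖ ^ 2 * pb g Φ y (0, 1) (0, 1))) := by
          refine setLIntegral_mono' hmeas fun y hy => ENNReal.ofReal_le_ofReal ?_
          obtain ⟨⟨y1, y2, y3, y4⟩, y5⟩ := hy
          have c1 : cc y = 1 := by
            have q1 : h y.1.re = 1 := by simp [hh, tb _ y5, sa _ y1.le]
            have q2 : k y.1.im = 1 := k1 _ (abs_le.1 y2).1 (abs_le.1 y2).2
            have q3 : ψ (y.2.re * y.2.re + y.2.im * y.2.im) = 1 := by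
              rw [n2]
              exact ψ1 _ (pow_le_pow_left₀ (by linarith) y3 2)
                (pow_le_pow_left₀ (norm_nonneg _) y4 2)
            simp only [hcc, q1, q2, q3, mul_one]
          have c2 : (1 / 2 : ℝ) ^ 2 ≤ ‖y.2‖ ^ 2 := pow_le_pow_left₀ (by norm_num) (by linarith) 2
          rw [c1]
          nlinarith [hT y]
      _ ≤ ∫⁻ y, ENNReal.ofReal (4 * (cc y * ‖y.2‖ ^ 2 * pb g Φ y (0, 1) (0, 1))) :=
          setLIntegral_le_lintegral _ _
      _ = ENNReal.ofReal (∫ y, 4 * (cc y * ‖y.2‖ ^ 2 * pb g Φ y (0, 1) (0, 1))) :=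
          (ofReal_integral_eq_lintegral_ofReal (hci.const_mul 4) (Eventually.of_forall fun y =>
            mul_nonneg (by norm_num) (mul_nonneg (mul_nonneg (cc0 y) (by positivity)) (hT y)))).symm
      _ ≤ _ := by
          rw [integral_const_mul]
          exact ENNReal.ofReal_le_ofReal (by linarith)
  have hU : {y : ℂ × ℂ | y.1.re < x₀ - 1 ∧ |y.1.im| ≤ 1 / 2 ∧ lam - 3 / 2 ≤ ‖y.2‖ ∧
      ‖y.2‖ ≤ lam + 3 / 2} = ⋃ j : ℕ, {y : ℂ × ℂ | y.1.re < x₀ - 1 ∧ |y.1.im| ≤ 1 / 2 ∧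
        lam - 3 / 2 ≤ ‖y.2‖ ∧ ‖y.2‖ ≤ lam + 3 / 2} ∩ {y | -(j : ℝ) ≤ y.1.re} := by
    rw [← inter_iUnion]
    refine (inter_eq_left.2 fun y _ => ?_).symm
    obtain ⟨j, hj⟩ := exists_nat_ge (-y.1.re)
    exact mem_iUnion.2 ⟨j, by change -(j : ℝ) ≤ y.1.re; linarith⟩
  rw [hU, setLIntegral_iUnion_of_directed]
  · exact (iSup_le key).trans_lt ENNReal.ofReal_lt_top
  · refine Monotone.directed_le fun i j hij => inter_subset_inter_right _ fun y hy => ?_
    have : (i : ℝ) ≤ j := Nat.cast_le.2 hij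
    change -(j : ℝ) ≤ y.1.re
    have hy' : -(i : ℝ) ≤ y.1.re := hy
    linarith

end Crest.Agent.R266
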