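import Crest.Agent.R266.Lelong
import Crest.Agent.R271.HMean

/-! Row 266: ε-regularity.

`en` is continuous on the ball (`hK.pull`).  Let `z₀` maximise `(β/2 - dist z y)² * en z` on
`closedBall y (β/2)`, `M² = en z₀`, `ρ = (β/2 - dist z₀ y) / 2`; so `(β/2)² en y ≤ 4 ρ² M²` and
`en ≤ 4 M²` on `ball z₀ ρ`.  If `ρ M ≠ 0` let `ρ' = min ρ (√c / (8 M))` and `e` the uniform chart at
`Φ z₀`.  By `escape` along segments (`pb_le_en`, `L = √8 M ρ' / √c < 1/2`), `Φ` maps `ball z₀ ρ'` to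
`{‖e ·‖ < 3/4}`.  `Crest.Agent.R271.Hmean_sq` on `closedBall z₀ (ρ'/2)` for
`ℓ (D(e ∘ Φ) e_j)` (`ℓ` from `exists_dual_vector''`), `Cmp` and `lelong` (`R = β/2`) give
`vol(ball 0 1) (ρ'/2)⁴ M² ≤ (2C/c) C₀ (ρ'/2)² ε₁`, i.e. `(ρ' M)² ≤ C₁ ε₁`.  For `ε₁` small this
excludes `ρ' = √c / (8M)`, and gives `en y ≤ 16 C₁ ε₁ / β²`. -/

set_option autoImplicit false
set_option linter.unusedSectionVars false

open Set Filter Topology Metric MeasureTheory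
open scoped Manifold ContDiff

noncomputable section
namespace Crest.Agent.R266

variable {E A B : Type} [NormedAddCommGroup E] [NormedSpace ℂ E] [FiniteDimensional ℂ E]
  [NormedAddCommGroup A] [NormedSpace ℂ A] [FiniteDimensional ℂ A]
  [NormedAddCommGroup B] [NormedSpace ℂ B] [FiniteDimensional ℂ B]
  {X : Type} [TopologicalSpace X] [ChartedSpace E X] [IsManifold 𝓘(ℂ, E) ω X] [T2Space X]
  {P : X → E →L[ℂ] E} {g : X → E →L[ℝ] E →L[ℝ] ℝ} {c C : ℝ}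

theorem ER_haar : (volume : Measure (ℂ × ℂ)).IsAddHaarMeasure :=
  inferInstanceAs (((volume : Measure ℂ).prod (volume : Measure ℂ)).IsAddHaarMeasure)

theorem ER_mean {e : OpenPartialHomeomorph X (A × B)} (he : IsPC P e)
    (hcmp : Cmp g c C e) (hc : 0 < c) (hC : 0 < C) {Φ : ℂ × ℂ → X} {z₀ : ℂ × ℂ} {r ρ : ℝ}
    (hr0 : 0 < r) (hr : r < ρ) (hΦ : ∀ z ∈ ball z₀ ρ, HolAt (ℂ × ℂ) E Φ z)
    (hs : ∀ z ∈ ball z₀ ρ, Φ z ∈ e.source ∧ ‖e (Φ z)‖ ≤ 3 / 4) (u : ℂ × ℂ) :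
    volume (ball (0 : ℂ × ℂ) r) * ENNReal.ofReal (pb g Φ z₀ u u) ≤
      ENNReal.ofReal (C / c) * ∫⁻ z in ball z₀ r, ENNReal.ofReal (pb g Φ z u u) := by
  have := FiniteDimensional.complete ℂ (A × B)
  have := ER_haar
  have hψ : ∀ z ∈ ball z₀ ρ, HolAt (ℂ × ℂ) (A × B) (e ∘ Φ) z := fun z hz =>
    (he.hol _ (hs z hz).1).comp z (hΦ z hz)
  have hD : ∀ z ∈ ball z₀ ρ, fderiv ℂ (e ∘ Φ) z u = md E (A × B) e (Φ z) (md (ℂ × ℂ) E Φ z u) :=
    fun z hz => by rw [← md_self, md_comp_apply (he.hol _ (hs z hz).1) (hΦ z hz)]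
  have hd := Crest.Agent.R264.SCV.differentiableOn_fderiv_apply isOpen_ball
    (fun z hz => (holAt_self.1 (hψ z hz)).differentiableWithinAt) u
  obtain ⟨l, hl1, hl2⟩ := exists_dual_vector'' ℂ (fderiv ℂ (e ∘ Φ) z₀ u)
  have hm := Crest.Agent.R271.Hmean_sq (μ := volume) isOpen_ball
    (l.differentiable.comp_differentiableOn hd) (closedBall_subset_ball hr)
  have hz₀ : z₀ ∈ ball z₀ ρ := mem_ball_self (hr0.trans hr)
  have sq : ∀ w : ℂ, ‖w‖ₑ ^ 2 = ENNReal.ofReal (‖w‖ ^ 2) := fun w => by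
    rw [ENNReal.ofReal_pow (norm_nonneg _), ofReal_norm]
  have h1 : ENNReal.ofReal (pb g Φ z₀ u u) ≤
      ENNReal.ofReal C * ‖l (fderiv ℂ (e ∘ Φ) z₀ u)‖ₑ ^ 2 := by
    rw [sq, ← ENNReal.ofReal_mul hC.le, hl2, RCLike.norm_ofReal, abs_norm, hD z₀ hz₀]
    exact ENNReal.ofReal_le_ofReal (hcmp _ (hs z₀ hz₀).1 (hs z₀ hz₀).2 _).2
  have h2 : ∫⁻ z in ball z₀ r, ‖l (fderiv ℂ (e ∘ Φ) z u)‖ₑ ^ 2 ≤
      ENNReal.ofReal c⁻¹ * ∫⁻ z in ball z₀ r, ENNReal.ofReal (pb g Φ z u u) := by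
    rw [← lintegral_const_mul' _ _ ENNReal.ofReal_ne_top]
    refine setLIntegral_mono' measurableSet_ball fun z hz => ?_
    have hz' := ball_subset_ball hr.le hz
    rw [sq, ← ENNReal.ofReal_mul (inv_pos.2 hc).le]
    refine ENNReal.ofReal_le_ofReal ?_
    have t1 := (hcmp _ (hs z hz').1 (hs z hz').2 (md (ℂ × ℂ) E Φ z u)).1
    have t2 : ‖l (fderiv ℂ (e ∘ Φ) z u)‖ ≤ ‖fderiv ℂ (e ∘ Φ) z u‖ := l.le_of_opNorm_le hl1 _ |>.trans_eq
      (one_mul _)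
    rw [← hD z hz'] at t1
    rw [le_inv_mul_iff₀ hc]
    exact (mul_le_mul_of_nonneg_left (pow_le_pow_left₀ (norm_nonneg _) t2 2) hc.le).trans t1
  calc _ ≤ ENNReal.ofReal C * (volume (ball (0 : ℂ × ℂ) r) * ‖l (fderiv ℂ (e ∘ Φ) z₀ u)‖ₑ ^ 2) := by
        rw [mul_left_comm]
        gcongr
    _ ≤ ENNReal.ofReal C * (ENNReal.ofReal c⁻¹ *
          ∫⁻ z in ball z₀ r, ENNReal.ofReal (pb g Φ z u u)) := mul_le_mul_right (hm.trans h2) _
    _ = _ := by rw [← mul_assoc, ← ENNReal.ofReal_mul hC.le, div_eq_mul_inv]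

theorem ER_bound (hK : KData g) (hc : 0 < c) (hC : 0 < C) {R : ℝ} (hR : 0 < R) :
    ∃ K : ℝ, 0 < K ∧ ∀ (Φ : ℂ × ℂ → X) (z₀ : ℂ × ℂ) (ρ ε : ℝ) (e : OpenPartialHomeomorph X (A × B)),
      0 < ρ → ρ ≤ R → 0 ≤ ε → HolOn (ℂ × ℂ) E Φ (ball z₀ R) →
      ∫⁻ z in ball z₀ R, ENNReal.ofReal (en g Φ z) ≤ ENNReal.ofReal ε → IsPC P e → Cmp g c C e →
      (∀ z ∈ ball z₀ ρ, Φ z ∈ e.source ∧ ‖e (Φ z)‖ ≤ 3 / 4) → ρ ^ 2 * en g Φ z₀ ≤ K * ε := by
  have := ER_haar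
  obtain ⟨C₀, hC₀, hL⟩ := lelong hK hR
  obtain ⟨V, hV0, hV⟩ : ∃ V : ℝ, 0 < V ∧ volume (ball (0 : ℂ × ℂ) 1) = ENNReal.ofReal V :=
    ⟨_, ENNReal.toReal_pos (measure_ball_pos _ _ one_pos).ne' measure_ball_lt_top.ne,
      (ENNReal.ofReal_toReal measure_ball_lt_top.ne).symm⟩
  refine ⟨8 * (C / c * C₀ / V), by positivity, fun Φ z₀ ρ ε e hρ hρR hε hΦ hI he hcmp hs => ?_⟩
  have hr := half_pos hρ
  have key : ∀ u, (∀ z, pb g Φ z u u ≤ en g Φ z) →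
      ρ ^ 2 * pb g Φ z₀ u u ≤ 4 * (C / c * C₀ / V) * ε := fun u hu => by
    have h1 := ER_mean he hcmp hc hC hr (half_lt_self hρ)
      (fun z hz => hΦ z (ball_subset_ball hρR hz)) hs u
    have h2 : ∫⁻ z in ball z₀ (ρ / 2), ENNReal.ofReal (pb g Φ z u u) ≤
        ENNReal.ofReal (C₀ * (ρ / 2) ^ 2) * ENNReal.ofReal ε :=
      ((lintegral_mono fun z => ENNReal.ofReal_le_ofReal (hu z)).trans
        (hL Φ z₀ _ hr (by linarith) hΦ)).trans (by gcongr)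
    have h3 := h1.trans (mul_le_mul_right h2 _)
    have f4 : Module.finrank ℝ (ℂ × ℂ) = 4 := by simp
    rw [Measure.addHaar_ball _ _ hr.le, hV, f4, ← ENNReal.ofReal_mul (by positivity),
      ← ENNReal.ofReal_mul (by positivity), ← ENNReal.ofReal_mul (by positivity),
      ← ENNReal.ofReal_mul (by positivity), ENNReal.ofReal_le_ofReal_iff (by positivity)] at h3
    refine le_of_mul_le_mul_left (a := ρ ^ 2 * V / 16) ?_ (by positivity)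
    have e1 : ρ ^ 2 * V / 16 * (4 * (C / c * C₀ / V) * ε) = C / c * (C₀ * (ρ / 2) ^ 2 * ε) := by
      field_simp
      ring
    rw [e1]
    linarith
  have k1 := key (1, 0) fun z => le_add_of_nonneg_right (hK.nonneg _ _)
  have k2 := key (0, 1) fun z => le_add_of_nonneg_left (hK.nonneg _ _)
  rw [en]
  linarith

theorem ER_escape (hK : KData g) {e : OpenPartialHomeomorph X (A × B)} (he : IsPC P e)
    (hcmp : Cmp g c C e) (hc : 0 < c) {Φ : ℂ × ℂ → X} {z₀ : ℂ × ℂ} {ρ m : ℝ}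
    (hΦ : ∀ z ∈ ball z₀ ρ, HolAt (ℂ × ℂ) E Φ z ∧ en g Φ z ≤ 4 * m) (hs : Φ z₀ ∈ e.source)
    (hn : ‖e (Φ z₀)‖ < 1 / 4) (h32 : 32 * (ρ ^ 2 * m) ≤ c) :
    ∀ z ∈ ball z₀ ρ, Φ z ∈ e.source ∧ ‖e (Φ z)‖ ≤ 3 / 4 := by
  intro z hz
  have := escape he hcmp hc (Φ := Φ) (γ := fun t : ℝ => z₀ + t • (z - z₀)) (γ' := fun _ => z - z₀)
    (a := 0) (b := 1) (L := 1 / 2) (by norm_num) (fun t ht => by
      have hm : z₀ + t • (z - z₀) ∈ ball z₀ ρ :=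
        (convex_ball z₀ ρ).add_smul_sub_mem (mem_ball_self (pos_of_mem_ball hz)) hz ht
      refine ⟨by simpa using ((hasDerivAt_id t).smul_const (z - z₀)).const_add z₀, (hΦ _ hm).1,
        (hK.pb_le_en Φ _ _).trans ?_⟩
      have n0 : 0 ≤ en g Φ (z₀ + t • (z - z₀)) := add_nonneg (hK.nonneg _ _) (hK.nonneg _ _)
      have t1 := pow_le_pow_left₀ (norm_nonneg _) (mem_ball_iff_norm.1 hz).le 2
      have t2 := mul_le_mul t1 (hΦ _ hm).2 n0 (sq_nonneg _)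
      linarith) (by simpa using hs) (by simp only [zero_smul, add_zero]; linarith) 1
    ⟨zero_le_one, le_rfl⟩
  simp only [one_smul, add_sub_cancel, zero_smul, add_zero] at this
  refine ⟨this.1, ?_⟩
  linarith [this.2, norm_le_insert' (e (Φ z)) (e (Φ z₀))]

theorem eps_reg (hK : KData g) (hU : UC A B P g c C) (hc : 0 < c) (hC : 0 < C) {β η₀ : ℝ}
    (hβ : 0 < β) (hη : 0 < η₀) : ∃ ε₁ : ℝ, 0 < ε₁ ∧ ∀ (Φ : ℂ × ℂ → X) (y : ℂ × ℂ),
      HolOn (ℂ × ℂ) E Φ (ball y β) →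
      ∫⁻ z in ball y β, ENNReal.ofReal (en g Φ z) < ENNReal.ofReal ε₁ → en g Φ y ≤ η₀ := by
  obtain ⟨K, hK0, hKb⟩ := ER_bound (A := A) (B := B) (P := P) hK hc hC (half_pos hβ)
  refine ⟨min (η₀ * β ^ 2 / (16 * K)) (c / (64 * K)), by positivity, fun Φ y hΦ hI => ?_⟩
  have e1 := min_le_left (η₀ * β ^ 2 / (16 * K)) (c / (64 * K))
  have e2 := min_le_right (η₀ * β ^ 2 / (16 * K)) (c / (64 * K))
  have e0 : 0 < min (η₀ * β ^ 2 / (16 * K)) (c / (64 * K)) := by positivity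
  generalize min (η₀ * β ^ 2 / (16 * K)) (c / (64 * K)) = ε at e0 e1 e2 hI
  rw [le_div_iff₀ (by positivity)] at e1 e2
  have n0 : ∀ z, 0 ≤ en g Φ z := fun z => add_nonneg (hK.nonneg _ _) (hK.nonneg _ _)
  have hcont : ContinuousOn (en g Φ) (ball y β) :=
    ((hK.pull Φ _ isOpen_ball hΦ).1 _ _).continuousOn.add
      ((hK.pull Φ _ isOpen_ball hΦ).1 _ _).continuousOn
  obtain ⟨z₀, hz₀, hmax⟩ := (isCompact_closedBall y (β / 2)).exists_isMaxOn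
    (f := fun z => (β / 2 - dist z y) ^ 2 * en g Φ z) ⟨y, mem_closedBall_self (half_pos hβ).le⟩
    (ContinuousOn.mul (by fun_prop) (hcont.mono (closedBall_subset_ball (half_lt_self hβ))))
  rw [mem_closedBall] at hz₀
  obtain ⟨ρ, hρ⟩ : ∃ ρ, β / 2 - dist z₀ y = 2 * ρ := ⟨(β / 2 - dist z₀ y) / 2, by ring⟩
  have hmax' : ∀ z, dist z y ≤ β / 2 →
      (β / 2 - dist z y) ^ 2 * en g Φ z ≤ 4 * (ρ ^ 2 * en g Φ z₀) := fun z hz => by
    have : (β / 2 - dist z y) ^ 2 * en g Φ z ≤ (β / 2 - dist z₀ y) ^ 2 * en g Φ z₀ := hmax hz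
    rw [hρ] at this
    linarith
  have hy := hmax' y (by simpa using (half_pos hβ).le)
  rw [dist_self, sub_zero] at hy
  suffices h : ρ ^ 2 * en g Φ z₀ ≤ K * ε by
    have : β ^ 2 * en g Φ y ≤ β ^ 2 * η₀ := by linarith
    exact le_of_mul_le_mul_left this (by positivity)
  rcases (by linarith : 0 ≤ ρ).eq_or_lt with h0 | h0
  · rw [← h0]
    simpa using (mul_pos hK0 e0).le
  have hsub : ball z₀ (β / 2) ⊆ ball y β := ball_subset_ball' (by linarith)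
  obtain ⟨e, he, hcmp, hs, hn⟩ := hU (Φ z₀)
  have key : ∀ r, 0 < r → r ≤ ρ → 32 * (r ^ 2 * en g Φ z₀) ≤ c → r ^ 2 * en g Φ z₀ ≤ K * ε := by
    intro r hr hrρ h32
    have hrβ : r ≤ β / 2 := by linarith [dist_nonneg (x := z₀) (y := y)]
    refine hKb Φ z₀ r ε e hr hrβ e0.le (fun z hz => hΦ z (hsub hz))
      ((lintegral_mono_set hsub).trans hI.le) he hcmp
      (ER_escape hK he hcmp hc (fun z hz => ⟨hΦ z (hsub (ball_subset_ball hrβ hz)), ?_⟩) hs hn h32)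
    have d1 : ρ ≤ β / 2 - dist z y := by
      have := mem_ball.1 hz
      linarith [dist_triangle z z₀ y]
    have d2 := (mul_le_mul_of_nonneg_right (pow_le_pow_left₀ h0.le d1 2) (n0 z)).trans
      (hmax' z (by linarith))
    exact le_of_mul_le_mul_left (a := ρ ^ 2) (by linarith) (by positivity)
  by_cases h32 : 32 * (ρ ^ 2 * en g Φ z₀) ≤ c
  · exact key ρ h0 le_rfl h32
  · exfalso
    rw [not_le] at h32
    have hm : 0 < en g Φ z₀ := by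
      by_contra hx
      rw [le_antisymm (not_lt.1 hx) (n0 z₀)] at h32
      linarith
    have hq : 0 < c / (32 * en g Φ z₀) := by positivity
    have hs : √(c / (32 * en g Φ z₀)) ^ 2 * en g Φ z₀ = c / 32 := by
      rw [Real.sq_sqrt hq.le]
      field_simp
    have := key √(c / (32 * en g Φ z₀)) (Real.sqrt_pos.2 hq)
      (Real.sqrt_le_iff.2 ⟨h0.le, by rw [div_le_iff₀ (by positivity)]; linarith⟩) (by linarith)
    linarith

end Crest.Agent.R266
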