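import Crest.Agent.R266.Frob1
import Crest.Agent.R266.Basic3

/-! Row 266: product charts. -/

set_option autoImplicit false
set_option linter.unusedSectionVars false

open Set Filter Topology Metric
open scoped Manifold ContDiff

noncomputable section
namespace Crest.Agent.R266

open Crest.AlgGeometry.HolSplit

variable {E : Type} [NormedAddCommGroup E] [NormedSpace ℂ E] [FiniteDimensional ℂ E]
  {X : Type} [TopologicalSpace X] [ChartedSpace E X] [IsManifold 𝓘(ℂ, E) ω X] [T2Space X]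
  {P : X → E →L[ℂ] E}

private theorem frob_chart {P : X → E →L[ℂ] E} (hP : IsPF P) (h₂ : ∀ x, Nzero P x) (x : X) :
    ∃ g : X → E, (∀ᶠ z in 𝓝 x, HolAt E E g z ∧ ∀ v, P z v = 0 → md E E g z v = 0) ∧
      md E E g x = P x := by
  have hx : x ∈ (chartAt E x).source := mem_chart_source E x
  have ht : ∀ᶠ y in 𝓝 (chartAt E x x), y ∈ (chartAt E x).target :=
    (chartAt E x).open_target.mem_nhds ((chartAt E x).map_source hx)
  obtain ⟨f, hf, hf0⟩ := frobenius (p := Pc P x) (y₀ := chartAt E x x) (by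
    filter_upwards [ht] with y hy
    refine ⟨(hP.hol x).differentiableAt ((chartAt E x).open_target.mem_nhds hy),
      hP.Pc_idem hy, ?_⟩
    have h1 := (hP.nzC_iff ((chartAt E x).map_target hy)).2 (h₂ _)
    rw [(chartAt E x).right_inv hy] at h1
    exact h1)
  have hs : ∀ᶠ z in 𝓝 x, z ∈ (chartAt E x).source := (chartAt E x).open_source.mem_nhds hx
  have hf' := ((chartAt E x).continuousAt hx).eventually hf
  have hm : ∀ z ∈ (chartAt E x).source, DifferentiableAt ℂ f (chartAt E x z) → ∀ v,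
      md E E (f ∘ chartAt E x) z v = fderiv ℂ f (chartAt E x z) (tc E x z v) := by
    intro z hz hd v
    rw [md_comp_apply (holAt_self.2 hd) (holAt_chart hz), md_self]
    rfl
  refine ⟨f ∘ chartAt E x, ?_, ?_⟩
  · filter_upwards [hs, hf'] with z hz hfz
    refine ⟨MDifferentiableAt.comp z (holAt_self.2 hfz.1) (holAt_chart hz), fun v hv => ?_⟩
    rw [hm z hz hfz.1]
    apply hfz.2
    rw [Pc_tc P hz, hv, map_zero]
  · ext v
    rw [hm x hx hf.self_of_nhds.1, hf0, Pc_self, tc_self]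
    rfl

private theorem exists_lin {Q : E →L[ℂ] E} {n : ℕ}
    (hQ : ∀ v, Q (Q v) = Q v) {K : Submodule ℂ E} (hK : ∀ v, v ∈ K ↔ Q v = v)
    (hn : Module.finrank ℂ K = n) :
    ∃ (L : E →L[ℂ] Model n) (J : Model n → E), (∀ v, L v = 0 → Q v = 0) ∧
      ∀ a, Q (J a) = J a ∧ L (J a) = a := by
  have hfr : Module.finrank ℂ K = Module.finrank ℂ (Model n) := by
    rw [hn]; simp
  let ι : K ≃L[ℂ] Model n := ContinuousLinearEquiv.ofFinrankEq hfr
  let R : E →L[ℂ] K := Q.codRestrict K (fun v => (hK _).2 (hQ v))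
  refine ⟨(ι : K →L[ℂ] Model n).comp R, fun a => (ι.symm a : E), fun v hv => ?_, fun a => ?_⟩
  · have h1 : ι (R v) = 0 := hv
    have h2 : R v = 0 := by simpa using h1
    exact congrArg Subtype.val h2
  · have h1 : Q (ι.symm a : E) = ι.symm a := (hK _).1 (ι.symm a).2
    refine ⟨h1, ?_⟩
    have h2 : R (ι.symm a : E) = ι.symm a := Subtype.ext h1
    change ι (R (ι.symm a : E)) = a
    rw [h2, ι.apply_symm_apply]

/-- `n₁ = finrank ker (sw P x)`, `n₂ = finrank ker (P x)` (constant).  At `x`: `f₁, f₂` from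
`frobenius` for `Pc P x` and `Pc (sw P) x` (`nzC_iff`); linear maps `L₁ : E → Model n₁`,
`L₂ : E → Model n₂`, `L₁ = iso ∘ P x`, `L₂ = iso ∘ (1 - P x)`, `(L₁, L₂)` bijective;
`exists_isPC_of_germ` for `z ↦ (L₁ (f₁ (chart z)), L₂ (f₂ (chart z)))`. -/
theorem exists_hasPC [PreconnectedSpace X] [Nonempty X] (hP : IsPF P) (h₂ : ∀ x, Nzero P x)
    (h₁ : ∀ x, Nzero (sw P) x) : ∃ n₁ n₂ : ℕ, HasPC (Model n₁) (Model n₂) P := by
  obtain ⟨x₀⟩ := ‹Nonempty X›
  obtain ⟨n₁, hn₁⟩ : ∃ n, Module.finrank ℂ (LinearMap.ker (sw P x₀ : E →ₗ[ℂ] E)) = n := ⟨_, rfl⟩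
  obtain ⟨n₂, hn₂⟩ : ∃ n, Module.finrank ℂ (LinearMap.ker (P x₀ : E →ₗ[ℂ] E)) = n := ⟨_, rfl⟩
  refine ⟨n₁, n₂, fun x => ?_⟩
  obtain ⟨g₁, hg₁, e₁⟩ := frob_chart hP h₂ x
  obtain ⟨g₂, hg₂, e₂⟩ := frob_chart hP.sw h₁ x
  obtain ⟨L₁, J₁, hL₁, hJ₁⟩ := exists_lin (Q := P x) (hP.idem x)
    (K := LinearMap.ker (sw P x : E →ₗ[ℂ] E)) (fun v => by
      rw [LinearMap.mem_ker]
      change v - P x v = 0 ↔ _
      rw [sub_eq_zero, eq_comm]) ((hP.sw.finrank_ker_eq x x₀).trans hn₁)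
  obtain ⟨L₂, J₂, hL₂, hJ₂⟩ := exists_lin (Q := sw P x) (hP.sw.idem x)
    (K := LinearMap.ker (P x : E →ₗ[ℂ] E)) (fun v => by
      rw [LinearMap.mem_ker, sw_apply, sub_eq_self]
      rfl) ((hP.finrank_ker_eq x x₀).trans hn₂)
  have key : ∀ z, HolAt E E g₁ z → HolAt E E g₂ z →
      HolAt E (Model n₁ × Model n₂) (fun z => (L₁ (g₁ z), L₂ (g₂ z))) z ∧
      ∀ v, md E (Model n₁ × Model n₂) (fun z => (L₁ (g₁ z), L₂ (g₂ z))) z v =
        (L₁ (md E E g₁ z v), L₂ (md E E g₂ z v)) := by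
    intro z h1 h2
    have a1 := (L₁.hasMFDerivAt (x := g₁ z)).comp z h1.hasMFDerivAt
    have a2 := (L₂.hasMFDerivAt (x := g₂ z)).comp z h2.hasMFDerivAt
    have a3 : HasMFDerivAt 𝓘(ℂ, E) 𝓘(ℂ, Model n₁ × Model n₂)
        (fun z => (L₁ (g₁ z), L₂ (g₂ z))) z
        ((L₁.comp (md E E g₁ z)).prod (L₂.comp (md E E g₂ z))) :=
      ⟨a1.1.prodMk a2.1, a1.2.prodMk a2.2⟩
    refine ⟨a3.mdifferentiableAt, fun v => ?_⟩
    have a4 := a3.mfderiv
    unfold md
    erw [a4]
    rfl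
  apply exists_isPC_of_germ (f := fun z => (L₁ (g₁ z), L₂ (g₂ z)))
  · filter_upwards [hg₁, hg₂] with z hz₁ hz₂
    obtain ⟨k1, k2⟩ := key z hz₁.1 hz₂.1
    refine ⟨k1, fun v => ?_⟩
    rw [k2, k2]
    have b1 : md E E g₁ z (P z v) = md E E g₁ z v := by
      have := hz₁.2 (v - P z v) (by rw [map_sub, hP.idem, sub_self])
      rw [map_sub, sub_eq_zero] at this
      exact this.symm
    have b2 : md E E g₂ z (P z v) = 0 := hz₂.2 _ (by rw [sw_apply, hP.idem, sub_self])
    rw [b1, b2, map_zero]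
  · obtain ⟨-, k2⟩ := key x hg₁.self_of_nhds.1 hg₂.self_of_nhds.1
    rw [e₁, e₂] at k2
    constructor
    · rw [injective_iff_map_eq_zero]
      intro v hv
      rw [k2, Prod.mk_eq_zero] at hv
      have c1 := hL₁ _ hv.1
      have c2 := hL₂ _ hv.2
      rw [hP.idem] at c1
      rw [hP.sw.idem, sw_apply, c1, sub_zero] at c2
      exact c2
    · rintro ⟨a, b⟩
      refine ⟨J₁ a + J₂ b, ?_⟩
      have c1 : P x (J₂ b) = 0 := by
        have := (hJ₂ b).1
        rwa [sw_apply, sub_eq_self] at this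
      have c2 : sw P x (J₁ a) = 0 := by rw [sw_apply, (hJ₁ a).1, sub_self]
      rw [k2, (P x).map_add, (sw P x).map_add, c1, c2, add_zero, zero_add, (hJ₁ a).1, (hJ₂ b).1,
        (hJ₁ a).2, (hJ₂ b).2]

/-- lift of the projection field along a local biholomorphism. -/
def liftP {X' : Type} [TopologicalSpace X'] [ChartedSpace E X'] (P : X → E →L[ℂ] E) (π : X' → X)
    (p : X') : E →L[ℂ] E :=
  (md E E π p).inverse.comp ((P (π p)).comp (md E E π p))

theorem md_liftP {X' : Type} [TopologicalSpace X'] [ChartedSpace E X'] {π : X' → X} {p : X'}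
    (hb : Function.Bijective (md E E π p)) (v : E) :
    md E E π p (liftP P π p v) = P (π p) (md E E π p v) := by
  haveI : CompleteSpace E := FiniteDimensional.complete ℂ E
  have hi : (md E E π p).IsInvertible :=
    ⟨ContinuousLinearEquiv.ofBijective (md E E π p) (LinearMap.ker_eq_bot.2 hb.1)
      (LinearMap.range_eq_top.2 hb.2), rfl⟩
  simp only [liftP, ContinuousLinearMap.comp_apply]
  exact hi.self_apply_inverse _

/-- `exists_isPC_of_germ` for `e ∘ π`. -/
theorem HasPC.lift {A B : Type} [NormedAddCommGroup A] [NormedSpace ℂ A] [NormedAddCommGroup B]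
    [NormedSpace ℂ B] [FiniteDimensional ℂ A] [FiniteDimensional ℂ B] (h : HasPC A B P)
    {X' : Type} [TopologicalSpace X'] [ChartedSpace E X'] [IsManifold 𝓘(ℂ, E) ω X'] [T2Space X']
    {π : X' → X} (hπ : ∀ p, HolAt E E π p) (hb : ∀ p, Function.Bijective (md E E π p)) :
    HasPC A B (liftP P π) := by
  intro p
  obtain ⟨e, he, hx, -⟩ := h (π p)
  have hs : ∀ᶠ z in 𝓝 p, π z ∈ e.source :=
    (hπ p).continuousAt.eventually (e.open_source.mem_nhds hx)
  apply exists_isPC_of_germ (f := e ∘ π)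
  · filter_upwards [hs] with z hz
    refine ⟨MDifferentiableAt.comp z (he.hol _ hz) (hπ z), fun v => ?_⟩
    rw [md_comp_apply (he.hol _ hz) (hπ z), md_comp_apply (he.hol _ hz) (hπ z), md_liftP (hb z),
      he.compat _ hz]
  · rw [md_comp (he.hol _ hx) (hπ p)]
    refine Function.Bijective.comp (g := md E (A × B) e (π p)) (f := md E E π p)
      ⟨he.md_injective hx, fun v => ?_⟩ (hb p)
    have hy : e (π p) ∈ e.target := e.map_source hx
    have h1 : (e ∘ e.symm : A × B → A × B) =ᶠ[𝓝 (e (π p))] id := by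
      filter_upwards [e.open_target.mem_nhds hy] with z hz
      exact e.right_inv hz
    have h2 : md E (A × B) e (e.symm (e (π p))) (md (A × B) E e.symm (e (π p)) v) = v := by
      rw [← md_comp_apply (he.hol _ (e.map_target hy)) (he.hol_symm _ hy), md_congr h1, md_id]
      rfl
    rw [e.left_inv hx] at h2
    exact ⟨_, h2⟩

/-- a continuous lift of a holomorphic map through a local biholomorphism is holomorphic. -/
theorem Cross_lift_hol {F : Type} [NormedAddCommGroup F] [NormedSpace ℂ F]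
    {X' : Type} [TopologicalSpace X'] [ChartedSpace E X'] [IsManifold 𝓘(ℂ, E) ω X']
    {π : X' → X} (hπ : ∀ p, HolAt E E π p) (hb : ∀ p, Function.Bijective (md E E π p))
    {Φ : F → X'} {y : F} (hc : ContinuousAt Φ y) (h : HolAt F E (π ∘ Φ) y) : HolAt F E Φ y := by
  have hs := mem_chart_source E (π (Φ y))
  have h1 : ∀ᶠ z in 𝓝 (Φ y), HolAt E E (chartAt E (π (Φ y)) ∘ π) z := by
    filter_upwards [(hπ (Φ y)).continuousAt.preimage_mem_nhds
      ((chartAt E (π (Φ y))).open_source.mem_nhds hs)] with z hz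
    exact MDifferentiableAt.comp z (holAt_chart hz) (hπ z)
  have h2 : Function.Bijective (md E E (chartAt E (π (Φ y)) ∘ π) (Φ y)) := by
    rw [md_comp (holAt_chart hs) (hπ _)]
    have h3 : md E E (chartAt E (π (Φ y))) (π (Φ y)) = ContinuousLinearMap.id ℂ E := tc_self _
    rw [h3, ContinuousLinearMap.id_comp]
    exact hb _
  obtain ⟨e, e1, -, e2, -, e3⟩ := exists_local_inv h1 h2 univ_mem
  have h4 : HolAt F E (chartAt E (π (Φ y)) ∘ (π ∘ Φ)) y :=
    MDifferentiableAt.comp y (holAt_chart hs) h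
  have h5 : HolAt E E e.symm ((chartAt E (π (Φ y)) ∘ (π ∘ Φ)) y) := by
    refine e3 _ ?_
    have := e.map_source e1
    rwa [e2] at this
  refine holAt_congr (MDifferentiableAt.comp y h5 h4) ?_
  filter_upwards [hc.preimage_mem_nhds (e.open_source.mem_nhds e1)] with z hz
  have := e.left_inv hz
  rw [e2] at this
  exact this.symm

/-- lifting on a convex open set. -/
theorem Cross_lift_ex {F : Type} [NormedAddCommGroup F] [NormedSpace ℂ F] {X' : Type}
    [TopologicalSpace X'] {π : X' → X} (hcov : IsCoveringMap π) {S : Set F} (hS : IsOpen S)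
    (hc : Convex ℝ S) {φ : F → X} (hφ : ContinuousOn φ S) {y : F} (hy : y ∈ S) {p : X'}
    (hp : π p = φ y) : ∃ Φ : F → X', ContinuousOn Φ S ∧ Φ y = p ∧ ∀ z ∈ S, π (Φ z) = φ z := by
  classical
  have := hc.contractibleSpace ⟨y, hy⟩
  have := hS.locallyPathConnectedSpace
  obtain ⟨Φ, ⟨h1, h2⟩, -⟩ := hcov.existsUnique_continuousMap_lifts
    ⟨fun z : S => φ z, continuousOn_iff_continuous_domRestrict.1 hφ⟩ ⟨y, hy⟩ p hp
  refine ⟨fun z => if h : z ∈ S then Φ ⟨z, h⟩ else p, ?_, ?_, fun z hz => ?_⟩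
  · rw [continuousOn_iff_continuous_domRestrict]
    refine Φ.continuous.congr fun z => ?_
    show Φ z = if h : (z : F) ∈ S then Φ ⟨z, h⟩ else p
    rw [dif_pos z.2]
  · exact (dif_pos hy).trans h1
  · show π (if h : z ∈ S then Φ ⟨z, h⟩ else p) = φ z
    rw [dif_pos hz]
    exact congrFun h2 ⟨z, hz⟩

/-- the cross property lifts to coverings: project the cross, fill it in `X`, lift the filling on
the (convex, hence simply connected and locally path connected) product of balls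
(`IsCoveringMap.existsUnique_continuousMap_lifts`); the lift is holomorphic since locally it is
`(chart ∘ π)⁻¹ ∘ chart ∘ φ` (`exists_local_inv`); it agrees with the cross by uniqueness of lifts
(`IsCoveringMap.eqOn_of_comp_eqOn`). -/
theorem Cross.lift {A B : Type} [NormedAddCommGroup A] [NormedSpace ℂ A] [NormedAddCommGroup B]
    [NormedSpace ℂ B] [FiniteDimensional ℂ A] [FiniteDimensional ℂ B] (h : Cross A B P)
    {X' : Type} [TopologicalSpace X'] [ChartedSpace E X'] [IsManifold 𝓘(ℂ, E) ω X'] [T2Space X']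
    {π : X' → X} (hcov : IsCoveringMap π) (hπ : ∀ p, HolAt E E π p)
    (hb : ∀ p, Function.Bijective (md E E π p)) : Cross A B (liftP P π) := by
  intro G₁ G₂ a₀ b₀ r s hr hs h₁ h₂ h₀
  obtain ⟨φ, hφ, e₁, e₂⟩ := h (π ∘ G₁) (π ∘ G₂) a₀ b₀ r s hr hs
    (fun z hz => ⟨MDifferentiableAt.comp z (hπ _) (h₁ z hz).1, fun a => by
      rw [md_comp_apply (hπ _) (h₁ z hz).1, Function.comp_apply, ← md_liftP (hb _), (h₁ z hz).2]⟩)
    (fun w hw => ⟨MDifferentiableAt.comp w (hπ _) (h₂ w hw).1, fun a => by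
      rw [md_comp_apply (hπ _) (h₂ w hw).1, Function.comp_apply, ← md_liftP (hb _), (h₂ w hw).2,
        map_zero]⟩) (congrArg π h₀)
  have hS : IsOpen (ball a₀ r ×ˢ ball b₀ s) := isOpen_ball.prod isOpen_ball
  have ha : a₀ ∈ ball a₀ r := mem_ball_self hr
  have hb' : b₀ ∈ ball b₀ s := mem_ball_self hs
  obtain ⟨Φ, c, p0, hl⟩ := Cross_lift_ex hcov hS ((convex_ball a₀ r).prod (convex_ball b₀ s))
    (fun y hy => (hφ y hy).1.continuousAt.continuousWithinAt) (y := (a₀, b₀)) ⟨ha, hb'⟩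
    (p := G₁ a₀) (e₁ a₀ ha).symm
  refine ⟨Φ, fun y hy => ?_, ?_, ?_⟩
  · have hev : (π ∘ Φ) =ᶠ[𝓝 y] φ := by
      filter_upwards [hS.mem_nhds hy] with z hz
      exact hl z hz
    have k1 : HolAt (A × B) E Φ y :=
      Cross_lift_hol hπ hb (c.continuousAt (hS.mem_nhds hy)) (holAt_congr (hφ y hy).1 hev)
    have k2 := (hφ y hy).2.congr hev
    refine ⟨k1, fun a => (hb (Φ y)).1 ?_, fun b => (hb (Φ y)).1 ?_⟩
    · rw [md_liftP (hb _), ← md_comp_apply (hπ _) k1]
      exact k2.1 a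
    · rw [md_liftP (hb _), ← md_comp_apply (hπ _) k1, map_zero]
      exact k2.2 b
  · refine hcov.eqOn_of_comp_eqOn (g₁ := fun z => Φ (z, b₀)) (convex_ball a₀ r).isPreconnected
      (c.comp (f := fun z => (z, b₀)) (by fun_prop) fun z hz => ⟨hz, hb'⟩)
      (fun z hz => (h₁ z hz).1.continuousAt.continuousWithinAt)
      (fun z hz => (hl _ ⟨hz, hb'⟩).trans (e₁ z hz)) ha p0
  · refine hcov.eqOn_of_comp_eqOn (g₁ := fun w => Φ (a₀, w)) (convex_ball b₀ s).isPreconnected
      (c.comp (f := fun w => (a₀, w)) (by fun_prop) fun w hw => ⟨ha, hw⟩)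
      (fun w hw => (h₂ w hw).1.continuousAt.continuousWithinAt)
      (fun w hw => (hl _ ⟨ha, hw⟩).trans (e₂ w hw)) hb' (p0.trans h₀)

end Crest.Agent.R266
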