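import Crest.Agent.R266.GAtlas2

/-!
# Row 266 G: product atlas from local adapted submersions; lifting limits through coverings

* `prod_of_fderiv`: on a ball (= box) `ball u₀ r` where everything holds, `z ↦ (τ (z, w)).2` has zero derivative on the
  convex set `ball u₀.1 r` (`Convex.is_const_of_fderivWithin_eq_zero` / `IsOpen.is_const_of_fderiv_eq_zero`), and
  symmetrically.
* `exists_patlas`: for each `p` take `f` from `hloc`, an open `U ∋ p` on which the implications hold, and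
  `e p` from `exists_locDiffeo`.  On the source `mfderiv (e p) m` is injective (left inverse `mfderiv (e p).symm`,
  chain rule with `(e p).symm ∘ e p =ᶠ id`), and with `hdec` the implications become equivalences: if `(D v).2 = 0`,
  `v = h + k`, then `(D k).2 = 0 = (D k).1`, so `k = 0` and `v = h`.  Compatibility: `τ = e y ∘ (e x).symm` is
  differentiable near `e x m`, `fderiv τ u (ξ, 0) = D(e y) (D(e x).symm (ξ, 0))`, and `v = D(e x).symm (ξ, 0)` has
  `D(e x) v = (ξ, 0)`, so `H v`, so `(D(e y) v).2 = 0`; apply `prod_of_fderiv`.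
* `tendsto_lift`: if the filter is `⊥` use any point.  Otherwise take the trivialisation `t` of `π` at `y`
  (`IsEvenlyCovered.toTrivialization` needs a nonempty fibre; or unfold `IsEvenlyCovered`), `ε` with
  `π (Φ q) ∈ baseSet` for `q ∈ B ∩ ball p ε` (convex, so preconnected); the fibre coordinate `(t (Φ q)).2` is continuous
  into a discrete space, hence a constant `i`; `Φ q = t.symm (π (Φ q), i) → t.symm (y, i)`.
-/

set_option autoImplicit false
open scoped Manifold ContDiff Topology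
open Set Filter Metric
open Crest.AlgGeometry.HolSplit

namespace Crest.Agent.R266G

theorem GAdapt_const {E F G : Type} [NormedAddCommGroup E] [NormedSpace ℂ E]
    [NormedAddCommGroup F] [NormedSpace ℂ F] [NormedAddCommGroup G] [NormedSpace ℂ G]
    {g : E → G} {c : E} {r : ℝ}
    (h : ∀ z ∈ ball c r, HasFDerivAt g (0 : E →L[ℂ] G) z) {z : E} (hz : z ∈ ball c r) :
    g z = g c := by
  have hr : 0 < r := lt_of_le_of_lt dist_nonneg (mem_ball.1 hz)
  refine isOpen_ball.is_const_of_fderiv_eq_zero (𝕜 := ℂ) (convex_ball c r).isPreconnected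
    (fun w hw => (h w hw).differentiableAt.differentiableWithinAt)
    (fun w hw => (h w hw).fderiv) hz (mem_ball_self hr)

theorem prod_of_fderiv {E₁ E₂ F₁ F₂ : Type} [NormedAddCommGroup E₁] [NormedSpace ℂ E₁]
    [NormedAddCommGroup E₂] [NormedSpace ℂ E₂] [NormedAddCommGroup F₁] [NormedSpace ℂ F₁]
    [NormedAddCommGroup F₂] [NormedSpace ℂ F₂] {τ : E₁ × E₂ → F₁ × F₂} {u₀ : E₁ × E₂}
    (h : ∀ᶠ u in 𝓝 u₀, DifferentiableAt ℂ τ u ∧ (∀ ξ, (fderiv ℂ τ u (ξ, 0)).2 = 0) ∧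
      ∀ ζ, (fderiv ℂ τ u (0, ζ)).1 = 0) :
    ∀ᶠ u in 𝓝 u₀, τ u = ((τ (u.1, u₀.2)).1, (τ (u₀.1, u.2)).2) := by
  obtain ⟨r, hr, hb⟩ := Metric.eventually_nhds_iff_ball.1 h
  filter_upwards [ball_mem_nhds u₀ hr] with u hu
  have hu' : u.1 ∈ ball u₀.1 r ∧ u.2 ∈ ball u₀.2 r := by
    have : u ∈ ball u₀.1 r ×ˢ ball u₀.2 r := by rw [ball_prod_same]; exact hu
    exact this
  have hmem : ∀ z ∈ ball u₀.1 r, ∀ w ∈ ball u₀.2 r, (z, w) ∈ ball u₀ r := by
    intro z hz w hw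
    have : (z, w) ∈ ball u₀.1 r ×ˢ ball u₀.2 r := ⟨hz, hw⟩
    rw [ball_prod_same] at this
    exact this
  refine Prod.ext ?_ ?_
  · refine GAdapt_const (F := E₂) (g := fun w => (τ (u.1, w)).1) (c := u₀.2) (r := r) ?_ hu'.2
    intro w hw
    obtain ⟨h1, -, h3⟩ := hb _ (hmem _ hu'.1 _ hw)
    have h4 := (h1.hasFDerivAt.comp w (hasFDerivAt_prodMk_right (𝕜 := ℂ) u.1 w)).fst
    refine h4.congr_fderiv ?_
    ext ζ
    exact h3 ζ
  · refine GAdapt_const (F := E₂) (g := fun z => (τ (z, u.2)).2) (c := u₀.1) (r := r) ?_ hu'.1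
    intro z hz
    obtain ⟨h1, h2, -⟩ := hb _ (hmem _ hz _ hu'.2)
    have h4 := (h1.hasFDerivAt.comp z (hasFDerivAt_prodMk_left (𝕜 := ℂ) z u.2)).snd
    refine h4.congr_fderiv ?_
    ext ξ
    exact h2 ξ

theorem GAdapt_left {n : ℕ} {M F : Type} [TopologicalSpace M] [ChartedSpace (Model n) M]
    [NormedAddCommGroup F] [NormedSpace ℂ F] (e : OpenPartialHomeomorph M F)
    (he : ContMDiffOn (mI n) 𝓘(ℂ, F) ω e e.source)
    (he' : ContMDiffOn 𝓘(ℂ, F) (mI n) ω e.symm e.target) {m : M} (hm : m ∈ e.source)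
    (v : Model n) :
    mfderiv 𝓘(ℂ, F) (mI n) e.symm (e m) (mfderiv (mI n) 𝓘(ℂ, F) e m v) = v := by
  have h1 : MDifferentiableAt (mI n) 𝓘(ℂ, F) e m :=
    (he.contMDiffAt (e.open_source.mem_nhds hm)).mdifferentiableAt (by simp)
  have h2 : MDifferentiableAt 𝓘(ℂ, F) (mI n) e.symm (e m) :=
    (he'.contMDiffAt (e.open_target.mem_nhds (e.map_source hm))).mdifferentiableAt (by simp)
  have h3 : (e.symm ∘ e : M → M) =ᶠ[𝓝 m] id := by
    filter_upwards [e.open_source.mem_nhds hm] with x hx using e.left_inv hx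
  have h4 := mfderiv_comp m h2 h1
  rw [h3.mfderiv_eq, mfderiv_id] at h4
  exact (congrArg (fun L => L v) h4).symm

theorem GAdapt_comp {n : ℕ} {M F : Type} [TopologicalSpace M] [ChartedSpace (Model n) M]
    [NormedAddCommGroup F] [NormedSpace ℂ F] (e : OpenPartialHomeomorph M F)
    (he' : ContMDiffOn 𝓘(ℂ, F) (mI n) ω e.symm e.target) {g : M → F} {u : F} (hu : u ∈ e.target)
    (hg : MDifferentiableAt (mI n) 𝓘(ℂ, F) g (e.symm u)) :
    DifferentiableAt ℂ (g ∘ e.symm) u ∧ ∀ w : F, fderiv ℂ (g ∘ e.symm) u w =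
      mfderiv (mI n) 𝓘(ℂ, F) g (e.symm u) (mfderiv 𝓘(ℂ, F) (mI n) e.symm u w) := by
  have h2 : MDifferentiableAt 𝓘(ℂ, F) (mI n) e.symm u :=
    (he'.contMDiffAt (e.open_target.mem_nhds hu)).mdifferentiableAt (by simp)
  refine ⟨mdifferentiableAt_iff_differentiableAt.1 (hg.comp u h2), fun w => ?_⟩
  have h4 := mfderiv_comp u hg h2
  rw [mfderiv_eq_fderiv] at h4
  exact congrArg (fun L => L w) h4

theorem GAdapt_right {n : ℕ} {M F : Type} [TopologicalSpace M] [ChartedSpace (Model n) M]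
    [NormedAddCommGroup F] [NormedSpace ℂ F] (e : OpenPartialHomeomorph M F)
    (he : ContMDiffOn (mI n) 𝓘(ℂ, F) ω e e.source)
    (he' : ContMDiffOn 𝓘(ℂ, F) (mI n) ω e.symm e.target) {u : F} (hu : u ∈ e.target) (w : F) :
    mfderiv (mI n) 𝓘(ℂ, F) e (e.symm u) (mfderiv 𝓘(ℂ, F) (mI n) e.symm u w) = w := by
  have h1 : MDifferentiableAt (mI n) 𝓘(ℂ, F) e (e.symm u) :=
    (he.contMDiffAt (e.open_source.mem_nhds (e.map_target hu))).mdifferentiableAt (by simp)
  rw [← (GAdapt_comp e he' hu h1).2 w]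
  have h3 : (e ∘ e.symm : F → F) =ᶠ[𝓝 u] id := by
    filter_upwards [e.open_target.mem_nhds hu] with x hx using e.right_inv hx
  rw [h3.fderiv_eq, fderiv_id]
  rfl

theorem exists_patlas {n n₁ n₂ : ℕ} {M : Type} [TopologicalSpace M] [ChartedSpace (Model n) M]
    [IsManifold (mI n) ω M] (H V : M → Model n → Prop)
    (hdec : ∀ m v, ∃ h k, H m h ∧ V m k ∧ v = h + k)
    (hloc : ∀ p : M, ∃ f : M → FF n₁ n₂, ContMDiffAt (mI n) 𝓘(ℂ, FF n₁ n₂) ω f p ∧
      Function.Bijective (mfderiv (mI n) 𝓘(ℂ, FF n₁ n₂) f p) ∧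
      ∀ᶠ m in 𝓝 p, ∀ v : Model n, (H m v → (mfderiv (mI n) 𝓘(ℂ, FF n₁ n₂) f m v).2 = 0) ∧
        (V m v → (mfderiv (mI n) 𝓘(ℂ, FF n₁ n₂) f m v).1 = 0)) :
    ∃ A : PAtlas n n₁ n₂ M, ∀ x, ∀ m ∈ (A.e x).source, ∀ v : Model n,
      (H m v ↔ (mfderiv (mI n) 𝓘(ℂ, FF n₁ n₂) (A.e x) m v).2 = 0) ∧
      (V m v ↔ (mfderiv (mI n) 𝓘(ℂ, FF n₁ n₂) (A.e x) m v).1 = 0) := by
  choose f hf hd hev using hloc
  choose e hpe hsub hef he he' using fun p => exists_locDiffeo (hf p) (hd p) (hev p)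
  have key : ∀ x, ∀ m ∈ (e x).source, ∀ v : Model n,
      (H m v ↔ (mfderiv (mI n) 𝓘(ℂ, FF n₁ n₂) (e x) m v).2 = 0) ∧
      (V m v ↔ (mfderiv (mI n) 𝓘(ℂ, FF n₁ n₂) (e x) m v).1 = 0) := by
    intro x m hm v
    have himp : ∀ v : Model n, (H m v → (mfderiv (mI n) 𝓘(ℂ, FF n₁ n₂) (e x) m v).2 = 0) ∧
        (V m v → (mfderiv (mI n) 𝓘(ℂ, FF n₁ n₂) (e x) m v).1 = 0) := by
      rw [hef x]
      exact hsub x hm
    obtain ⟨D, hD⟩ : ∃ D : Model n →L[ℂ] FF n₁ n₂, D = mfderiv (mI n) 𝓘(ℂ, FF n₁ n₂) (e x) m :=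
      ⟨_, rfl⟩
    have hinj : ∀ k : Model n, D k = 0 → k = 0 := by
      intro k hk
      have h1 := GAdapt_left (e x) (he x) (he' x) hm k
      have h2 : mfderiv (mI n) 𝓘(ℂ, FF n₁ n₂) (e x) m k = 0 := by
        rw [← hD]
        exact hk
      rw [h2] at h1
      exact h1.symm.trans (map_zero _)
    rw [← hD] at himp ⊢
    obtain ⟨h, k, hh, hk, rfl⟩ := hdec m v
    have e1 : D (h + k) = D h + D k := map_add D h k
    refine ⟨⟨(himp _).1, fun h0 => ?_⟩, ⟨(himp _).2, fun h0 => ?_⟩⟩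
    · have h2 : (D (h + k)).2 = 0 := h0
      have h3 : (D h).2 = 0 := (himp h).1 hh
      have h4 : (D k).1 = 0 := (himp k).2 hk
      rw [e1, Prod.snd_add, h3, zero_add] at h2
      rw [hinj k (Prod.ext h4 h2), add_zero]
      exact hh
    · have h2 : (D (h + k)).1 = 0 := h0
      have h3 : (D h).2 = 0 := (himp h).1 hh
      have h4 : (D k).1 = 0 := (himp k).2 hk
      rw [e1, Prod.fst_add, h4, add_zero] at h2
      rw [hinj h (Prod.ext h2 h3), zero_add]
      exact hk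
  refine ⟨⟨e, hpe, he, he', ?_⟩, key⟩
  intro x y m hx hy
  have hc : ContinuousAt (e x).symm (e x m) := (e x).continuousAt_symm ((e x).map_source hx)
  have hy' : ∀ᶠ u in 𝓝 (e x m), (e x).symm u ∈ (e y).source := by
    apply hc.eventually
    rw [(e x).left_inv hx]
    exact (e y).open_source.mem_nhds hy
  have hτ := prod_of_fderiv (τ := (e y) ∘ (e x).symm) (u₀ := e x m) (by
    filter_upwards [hy', (e x).open_target.mem_nhds ((e x).map_source hx)] with u hu1 hu2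
    have h1 : MDifferentiableAt (mI n) 𝓘(ℂ, FF n₁ n₂) (e y) ((e x).symm u) :=
      ((he y).contMDiffAt ((e y).open_source.mem_nhds hu1)).mdifferentiableAt (by simp)
    obtain ⟨h2, h3⟩ := GAdapt_comp (e x) (he' x) hu2 h1
    refine ⟨h2, fun ξ => ?_, fun ζ => ?_⟩
    · rw [h3]
      refine ((key y _ hu1 _).1).1 (((key x _ ((e x).map_target hu2) _).1).2 ?_)
      rw [GAdapt_right (e x) (he x) (he' x) hu2]
    · rw [h3]
      refine ((key y _ hu1 _).2).1 (((key x _ ((e x).map_target hu2) _).2).2 ?_)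
      rw [GAdapt_right (e x) (he x) (he' x) hu2])
  refine ⟨fun z => (((e y) ∘ (e x).symm) (z, (e x m).2)).1,
    fun w => (((e y) ∘ (e x).symm) ((e x m).1, w)).2, ?_⟩
  filter_upwards [((e x).continuousAt hx).eventually hτ, (e x).open_source.mem_nhds hx]
    with m' h1 h2
  rw [← h1]
  simp only [Function.comp_apply, (e x).left_inv h2]

theorem tendsto_lift {X X' G : Type} [TopologicalSpace X] [TopologicalSpace X'] [Nonempty X']
    [NormedAddCommGroup G] [NormedSpace ℝ G] {π : X' → X} (hcov : IsCoveringMap π) {B : Set G}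
    (hB : Convex ℝ B) {Φ : G → X'} (hΦ : ContinuousOn Φ B) {p : G} {y : X}
    (h : Tendsto (fun q => π (Φ q)) (𝓝[B] p) (𝓝 y)) : ∃ m : X', Tendsto Φ (𝓝[B] p) (𝓝 m) := by
  rcases (𝓝[B] p).eq_or_neBot with hb | hb
  · exact ⟨Classical.arbitrary X', by rw [hb]; exact tendsto_bot⟩
  obtain ⟨hdisc, U, hyU, hU, hπU, Hm, hH⟩ := hcov y
  have hev : ∀ᶠ q in 𝓝[B] p, π (Φ q) ∈ U := h.eventually (hU.mem_nhds hyU)
  obtain ⟨q₀, hq₀⟩ := hev.exists
  have : Nonempty (π ⁻¹' {y}) := ⟨(Hm ⟨Φ q₀, hq₀⟩).2⟩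
  let t := (hcov y).toTrivialization
  have hyt : y ∈ t.baseSet := (hcov y).mem_toTrivialization_baseSet
  have hev' : ∀ᶠ q in 𝓝[B] p, π (Φ q) ∈ t.baseSet := h.eventually (t.open_baseSet.mem_nhds hyt)
  obtain ⟨ε, hε, hball⟩ := Metric.mem_nhdsWithin_iff.1 hev'
  have hS : ball p ε ∩ B ∈ 𝓝[B] p := inter_mem (mem_nhdsWithin_of_mem_nhds (ball_mem_nhds p hε))
    self_mem_nhdsWithin
  have hsrc : ∀ q ∈ ball p ε ∩ B, Φ q ∈ t.source := fun q hq => t.mem_source.2 (hball hq)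
  have hcont : ContinuousOn (fun q => (t (Φ q)).2) (ball p ε ∩ B) :=
    continuous_snd.comp_continuousOn (f := fun q => t (Φ q))
      (ContinuousOn.comp (g := t) (f := Φ) t.continuousOn_toFun (hΦ.mono inter_subset_right)
        (fun q hq => hsrc q hq))
  obtain ⟨q₁, hq₁⟩ := hb.nonempty_of_mem hS
  have hconst : ∀ q ∈ ball p ε ∩ B, (t (Φ q)).2 = (t (Φ q₁)).2 := fun q hq =>
    ((convex_ball p ε).inter hB).isPreconnected.constant hcont hq hq₁
  have hcs : ContinuousAt t.toOpenPartialHomeomorph.symm (y, (t (Φ q₁)).2) :=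
    t.toOpenPartialHomeomorph.continuousAt_symm (t.mem_target.2 hyt)
  refine ⟨_, (hcs.tendsto.comp (h.prodMk_nhds tendsto_const_nhds)).congr' ?_⟩
  filter_upwards [hS] with q hq
  simp only [Function.comp_apply]
  rw [← hconst q hq]
  exact t.symm_apply_mk_proj (hsrc q hq)

end Crest.Agent.R266G
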