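import Crest.Agent.R266.GHol

/-!
# Row 266 G: calculus of product / horizontal / vertical maps (part 1)

Everything follows from `A.compat` (transition maps are locally products), continuity of
holomorphic maps at the point (`ContMDiffAt.continuousAt`, so that "eventually near `Φ p`" pulls back to
"eventually near `p`"), openness of sources/targets and `contMDiffAt_iff_contMDiffAt_nhds`.
* `ProdAt.eventually`: near `p`, `Φ q ∈ (A.e (Φ p)).source`, `HolAt n Φ q` and the product formula in the chart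
  at `Φ p` holds near `q` (`eventually_eventually_nhds`); conclude with `prodAt_of_chart`.
* `ProdAt.eq_br`: if `e y (Φ q) = (a q.1, b q.2)` on a neighbourhood of `p`, then for `q` near `p` also
  `(q.1, p.2)` and `(p.1, q.2)` lie in it, and `Φ q ∈ (e y).source`, so `Φ q = (e y).symm (a q.1, b q.2)`.
* `prodAt_br`: holomorphy by composition (`ContMDiffAt.prodMk_space`, `A.hol`, `A.hol_symm`; `contDiff_fst.contMDiff` for
  the projections of normed spaces), then `prodAt_of_chart` with the chart `y` (`right_inv` near the point).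
-/

set_option autoImplicit false
set_option linter.unusedSectionVars false
open scoped Manifold ContDiff Topology
open Set Filter Metric
open Crest.AlgGeometry.HolSplit

namespace Crest.Agent.R266G

namespace PAtlas

variable {n n₁ n₂ : ℕ} {M : Type} [TopologicalSpace M] [ChartedSpace (Model n) M]
  [IsManifold (mI n) ω M] {A : PAtlas n n₁ n₂ M}
  {G G' G₁ G₂ G₁' G₂' : Type} [NormedAddCommGroup G] [NormedSpace ℂ G]
  [NormedAddCommGroup G'] [NormedSpace ℂ G']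
  [NormedAddCommGroup G₁] [NormedSpace ℂ G₁] [NormedAddCommGroup G₂] [NormedSpace ℂ G₂]
  [NormedAddCommGroup G₁'] [NormedSpace ℂ G₁'] [NormedAddCommGroup G₂'] [NormedSpace ℂ G₂']

theorem ProdAt.chart {Φ : G₁ × G₂ → M} {p : G₁ × G₂} (h : A.ProdAt Φ p) {y : M}
    (hy : Φ p ∈ (A.e y).source) : ∃ (a : G₁ → Model n₁) (b : G₂ → Model n₂),
      ∀ᶠ q in 𝓝 p, A.e y (Φ q) = (a q.1, b q.2) := by
  obtain ⟨hh, a, b, hab⟩ := h
  obtain ⟨a', b', h'⟩ := A.compat (Φ p) y (Φ p) (A.mem _) hy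
  refine ⟨fun z => a' (a z), fun w => b' (b w), ?_⟩
  filter_upwards [hab, hh.continuousAt.eventually h'] with q h1 h2
  rw [h2, h1]

theorem prodAt_of_chart {Φ : G₁ × G₂ → M} {p : G₁ × G₂} (h : HolAt n Φ p) {y : M}
    (hy : Φ p ∈ (A.e y).source) {a : G₁ → Model n₁} {b : G₂ → Model n₂}
    (hab : ∀ᶠ q in 𝓝 p, A.e y (Φ q) = (a q.1, b q.2)) : A.ProdAt Φ p := by
  obtain ⟨a', b', h'⟩ := A.compat y (Φ p) (Φ p) hy (A.mem _)
  refine ⟨h, fun z => a' (a z), fun w => b' (b w), ?_⟩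
  filter_upwards [hab, h.continuousAt.eventually h'] with q h1 h2
  rw [h2, h1]

theorem ProdAt.congr {Φ Φ' : G₁ × G₂ → M} {p : G₁ × G₂} (h : A.ProdAt Φ p) (h' : Φ =ᶠ[𝓝 p] Φ') :
    A.ProdAt Φ' p := by
  obtain ⟨hh, a, b, hab⟩ := h
  refine ⟨hh.congr_of_eventuallyEq h'.symm, a, b, ?_⟩
  filter_upwards [hab, h'] with q h1 h2
  rw [← h'.self_of_nhds, ← h2, h1]

theorem ProdAt.eventually {Φ : G₁ × G₂ → M} {p : G₁ × G₂} (h : A.ProdAt Φ p) :
    ∀ᶠ q in 𝓝 p, A.ProdAt Φ q := by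
  obtain ⟨hh, a, b, hab⟩ := h
  have h1 : ∀ᶠ q in 𝓝 p, Φ q ∈ (A.e (Φ p)).source :=
    hh.continuousAt.eventually ((A.e (Φ p)).open_source.mem_nhds (A.mem _))
  have h2 : ∀ᶠ q in 𝓝 p, HolAt n Φ q :=
    (contMDiffAt_iff_contMDiffAt_nhds (by simp)).1 hh
  filter_upwards [h1, h2, eventually_eventually_nhds.2 hab] with q h1 h2 h3
  exact prodAt_of_chart h2 h1 h3

variable (A G₁ G₂) in
/-- Product maps form a germ class. -/
def prodClass [T2Space M] : GermClass (G₁ × G₂) M where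
  Good := A.ProdAt
  congr h h' := h.congr h'
  eventually h := h.eventually
  ident h h' hh := hol_ident h.1 h'.1 hh

theorem ProdAt.eq_br {Φ : G₁ × G₂ → M} {p : G₁ × G₂} (h : A.ProdAt Φ p) {y : M}
    (hy : Φ p ∈ (A.e y).source) :
    Φ =ᶠ[𝓝 p] fun q => A.br y (Φ (q.1, p.2)) (Φ (p.1, q.2)) := by
  obtain ⟨a, b, hab⟩ := h.chart hy
  have h1 : ∀ᶠ q in 𝓝 p, Φ q ∈ (A.e y).source :=
    h.1.continuousAt.eventually ((A.e y).open_source.mem_nhds hy)
  have t1 : Tendsto (fun q : G₁ × G₂ => (q.1, p.2)) (𝓝 p) (𝓝 p) :=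
    (by fun_prop : Continuous fun q : G₁ × G₂ => (q.1, p.2)).tendsto' p p rfl
  have t2 : Tendsto (fun q : G₁ × G₂ => (p.1, q.2)) (𝓝 p) (𝓝 p) :=
    (by fun_prop : Continuous fun q : G₁ × G₂ => (p.1, q.2)).tendsto' p p rfl
  filter_upwards [hab, h1, t1.eventually hab, t2.eventually hab] with q e0 e1 e2 e3
  unfold br
  rw [e2, e3, ← e0, (A.e y).left_inv e1]

theorem prodAt_br {α : G₁ → M} {v : G₂ → M} {z : G₁} {w : G₂} {y : M} (hα : HolAt n α z)
    (hv : HolAt n v w) (hz : α z ∈ (A.e y).source) (hw : v w ∈ (A.e y).source)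
    (ht : ((A.e y (α z)).1, (A.e y (v w)).2) ∈ (A.e y).target) :
    A.ProdAt (fun q : G₁ × G₂ => A.br y (α q.1) (v q.2)) (z, w) := by
  have c1 : ContMDiffAt 𝓘(ℂ, G₁ × G₂) 𝓘(ℂ, Model n₁) ω
      (fun q : G₁ × G₂ => (A.e y (α q.1)).1) (z, w) := by
    have e1 : ContMDiffAt 𝓘(ℂ, G₁ × G₂) (mI n) ω (fun q : G₁ × G₂ => α q.1) (z, w) :=
      ContMDiffAt.comp (g := α) (f := fun q : G₁ × G₂ => q.1) (z, w) hα
        contDiff_fst.contMDiff.contMDiffAt
    have e2 : ContMDiffAt (mI n) 𝓘(ℂ, FF n₁ n₂) ω (A.e y) (α z) :=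
      (A.hol y).contMDiffAt ((A.e y).open_source.mem_nhds hz)
    have e3 := ContMDiffAt.comp (g := A.e y) (f := fun q : G₁ × G₂ => α q.1) (z, w) e2 e1
    exact ContMDiffAt.comp (g := fun u : FF n₁ n₂ => u.1) (z, w)
      contDiff_fst.contMDiff.contMDiffAt e3
  have c2 : ContMDiffAt 𝓘(ℂ, G₁ × G₂) 𝓘(ℂ, Model n₂) ω
      (fun q : G₁ × G₂ => (A.e y (v q.2)).2) (z, w) := by
    have e1 : ContMDiffAt 𝓘(ℂ, G₁ × G₂) (mI n) ω (fun q : G₁ × G₂ => v q.2) (z, w) :=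
      ContMDiffAt.comp (g := v) (f := fun q : G₁ × G₂ => q.2) (z, w) hv
        contDiff_snd.contMDiff.contMDiffAt
    have e2 : ContMDiffAt (mI n) 𝓘(ℂ, FF n₁ n₂) ω (A.e y) (v w) :=
      (A.hol y).contMDiffAt ((A.e y).open_source.mem_nhds hw)
    have e3 := ContMDiffAt.comp (g := A.e y) (f := fun q : G₁ × G₂ => v q.2) (z, w) e2 e1
    exact ContMDiffAt.comp (g := fun u : FF n₁ n₂ => u.2) (z, w)
      contDiff_snd.contMDiff.contMDiffAt e3
  have c3 : ContMDiffAt 𝓘(ℂ, G₁ × G₂) 𝓘(ℂ, FF n₁ n₂) ω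
      (fun q : G₁ × G₂ => (((A.e y (α q.1)).1, (A.e y (v q.2)).2) : FF n₁ n₂)) (z, w) :=
    c1.prodMk_space c2
  have c4 : ContMDiffAt 𝓘(ℂ, FF n₁ n₂) (mI n) ω (A.e y).symm
      ((A.e y (α z)).1, (A.e y (v w)).2) :=
    (A.hol_symm y).contMDiffAt ((A.e y).open_target.mem_nhds ht)
  have c5 : HolAt n (fun q : G₁ × G₂ => A.br y (α q.1) (v q.2)) (z, w) :=
    ContMDiffAt.comp (g := (A.e y).symm) (z, w) c4 c3
  refine prodAt_of_chart c5 (y := y) ((A.e y).map_target ht)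
    (a := fun z => (A.e y (α z)).1) (b := fun w => (A.e y (v w)).2) ?_
  filter_upwards [c3.continuousAt.eventually ((A.e y).open_target.mem_nhds ht)] with q hq
  exact (A.e y).right_inv hq

theorem ProdAt.comp {Φ : G₁ × G₂ → M} {a : G₁' → G₁} {b : G₂' → G₂} {z : G₁'} {w : G₂'}
    (h : A.ProdAt Φ (a z, b w)) (ha : AnalyticAt ℂ a z) (hb : AnalyticAt ℂ b w) :
    A.ProdAt (fun q : G₁' × G₂' => Φ (a q.1, b q.2)) (z, w) := by
  obtain ⟨hh, a', b', hab⟩ := h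
  have c1 : AnalyticAt ℂ (fun q : G₁' × G₂' => (a q.1, b q.2)) (z, w) :=
    (AnalyticAt.comp (g := a) (f := fun q : G₁' × G₂' => q.1) ha analyticAt_fst).prod
      (AnalyticAt.comp (g := b) (f := fun q : G₁' × G₂' => q.2) hb analyticAt_snd)
  obtain ⟨d1, d2⟩ := (holAt_iff_chart (A.e (Φ (a z, b w))) (A.hol _) (A.hol_symm _) (A.mem _)).1 hh
  refine ⟨(holAt_iff_chart (A.e (Φ (a z, b w))) (A.hol _) (A.hol_symm _)
    (f := fun q : G₁' × G₂' => Φ (a q.1, b q.2)) (p := (z, w)) (A.mem _)).2 ⟨?_, ?_⟩,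
    fun z => a' (a z), fun w => b' (b w), c1.continuousAt.eventually hab⟩
  · exact ContinuousAt.comp (g := Φ) (f := fun q : G₁' × G₂' => (a q.1, b q.2)) d1 c1.continuousAt
  · exact AnalyticAt.comp (g := fun q => A.e (Φ (a z, b w)) (Φ q))
      (f := fun q : G₁' × G₂' => (a q.1, b q.2)) d2 c1

theorem ProdAt.unique {Φ Φ' : G₁ × G₂ → M} {p : G₁ × G₂} (h : A.ProdAt Φ p) (h' : A.ProdAt Φ' p)
    (h₁ : ∀ᶠ z in 𝓝 p.1, Φ (z, p.2) = Φ' (z, p.2)) (h₂ : ∀ᶠ w in 𝓝 p.2, Φ (p.1, w) = Φ' (p.1, w)) :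
    Φ =ᶠ[𝓝 p] Φ' := by
  have e0 : Φ p = Φ' p := h₁.self_of_nhds
  have e1 := h.eq_br (A.mem (Φ p))
  have e2 := h'.eq_br (y := Φ p) (e0 ▸ A.mem (Φ p))
  filter_upwards [e1, e2, continuous_fst.continuousAt.eventually h₁,
    continuous_snd.continuousAt.eventually h₂] with q a1 a2 a3 a4
  rw [a1, a2, a3, a4]

/-- The inverse chart is a product map. -/
theorem prodAt_symm (A : PAtlas n n₁ n₂ M) {y : M} {u : FF n₁ n₂} (hu : u ∈ (A.e y).target) :
    A.ProdAt (fun q : Model n₁ × Model n₂ => (A.e y).symm q) u := by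
  refine prodAt_of_chart ((A.hol_symm y).contMDiffAt ((A.e y).open_target.mem_nhds hu)) (y := y)
    ((A.e y).map_target hu) (a := fun z => z) (b := fun w => w) ?_
  filter_upwards [(A.e y).open_target.mem_nhds hu] with q hq
  exact (A.e y).right_inv hq

/-- The transition maps are analytic. -/
theorem analyticAt_trans (A : PAtlas n n₁ n₂ M) {x y m : M} (hx : m ∈ (A.e x).source)
    (hy : m ∈ (A.e y).source) : AnalyticAt ℂ (fun u => A.e y ((A.e x).symm u)) (A.e x m) := by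
  have c1 : ContMDiffAt 𝓘(ℂ, FF n₁ n₂) (mI n) ω (A.e x).symm (A.e x m) :=
    (A.hol_symm x).contMDiffAt ((A.e x).open_target.mem_nhds ((A.e x).map_source hx))
  have c2 : ContMDiffAt (mI n) 𝓘(ℂ, FF n₁ n₂) ω (A.e y) ((A.e x).symm (A.e x m)) := by
    rw [(A.e x).left_inv hx]
    exact (A.hol y).contMDiffAt ((A.e y).open_source.mem_nhds hy)
  exact (ContMDiffAt.comp (g := A.e y) (A.e x m) c2 c1).contDiffAt.analyticAt

end PAtlas

end Crest.Agent.R266G
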