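import Crest.Agent.R266.GAtlas

/-!
# Row 266 G: calculus of product / horizontal / vertical maps (part 2)

The `VerAt` statements are the `HorAt` statements for `A.swap` (`swap_horAt` is `Iff.rfl`).
* `br_chart`: take `a, b, W` from `A.compat x y m`.  For `q` near `(m, m)`: `q.1, q.2 ∈ W`,
  `k = br x q.1 q.2 ∈ W ∩ (e y).source` (continuity, `br x m m = m`) and
  `e x k = ((e x q.1).1, (e x q.2).2)`, hence `e y k = ((e y q.1).1, (e y q.2).2)`.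
* `ProdAt.mfderiv_fst`: the chain rule gives `mfderiv e (Φ p) (mfderiv Φ p (ξ, 0)) = fderiv ℂ (e ∘ Φ) p (ξ, 0)`
  (`mfderiv_comp`, `mfderiv_eq_fderiv`); the second component of `t ↦ e (Φ (p + t • (ξ, 0)))` is constant near `0`.
* `kill`: `mfderiv ψ p = mfderiv ψ p ∘ mfderiv (fun m => br p m p) p` (`br p p p = p`), and
  `mfderiv (fun m => br p m p) p v = mfderiv (e p).symm _ ((mfderiv (e p) p v).1, 0) = 0`.
-/

set_option autoImplicit false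
open scoped Manifold ContDiff Topology
open Set Filter Metric
open Crest.AlgGeometry.HolSplit

namespace Crest.Agent.R266G

namespace PAtlas

variable {n n₁ n₂ : ℕ} {M : Type} [TopologicalSpace M] [ChartedSpace (Model n) M]
  [IsManifold (mI n) ω M] {A : PAtlas n n₁ n₂ M}
  {G G' G₁ G₂ G₁' G₂' : Type} [NormedAddCommGroup G] [NormedSpace ℂ G]
  [NormedAddCommGroup G'] [NormedSpace ℂ G']
  [NormedAddCommGroup G₁] [NormedSpace ℂ G₁] [NormedAddCommGroup G₂] [NormedSpace ℂ G₂]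
  [NormedAddCommGroup G₁'] [NormedSpace ℂ G₁'] [NormedAddCommGroup G₂'] [NormedSpace ℂ G₂']

omit [IsManifold (mI n) ω M] in
theorem swap_horAt {α : G → M} {z : G} : A.swap.HorAt α z ↔ A.VerAt α z := Iff.rfl

omit [IsManifold (mI n) ω M] in
theorem swap_verAt {α : G → M} {z : G} : A.swap.VerAt α z ↔ A.HorAt α z := Iff.rfl

theorem ProdAt.swap {Φ : G₁ × G₂ → M} {p : G₁ × G₂} (h : A.ProdAt Φ p) :
    A.swap.ProdAt (fun q : G₂ × G₁ => Φ (q.2, q.1)) (p.2, p.1) := by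
  obtain ⟨hh, a, b, hab⟩ := h
  have hs : ContMDiff 𝓘(ℂ, G₂ × G₁) 𝓘(ℂ, G₁ × G₂) ω
      (ContinuousLinearEquiv.prodComm ℂ G₂ G₁) :=
    (ContinuousLinearEquiv.prodComm ℂ G₂ G₁).contDiff.contMDiff
  refine ⟨?_, b, a, ?_⟩
  · exact ContMDiffAt.comp (f := ContinuousLinearEquiv.prodComm ℂ G₂ G₁) (g := Φ) (p.2, p.1)
      hh (hs _)
  · have ht : Tendsto (fun q : G₂ × G₁ => (q.2, q.1)) (𝓝 (p.2, p.1)) (𝓝 p) :=
      (continuous_swap.tendsto (p.2, p.1))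
    filter_upwards [ht.eventually hab] with q hq
    have hq' : A.e (Φ p) (Φ (q.2, q.1)) = (a q.2, b q.1) := hq
    change ((A.e (Φ p) (Φ (q.2, q.1))).2, (A.e (Φ p) (Φ (q.2, q.1))).1) = (b q.1, a q.2)
    rw [hq']

theorem HorAt.chart {α : G → M} {z : G} (h : A.HorAt α z) {y : M} (hy : α z ∈ (A.e y).source) :
    ∀ᶠ q in 𝓝 z, (A.e y (α q)).2 = (A.e y (α z)).2 := by
  obtain ⟨hh, hc⟩ := h
  obtain ⟨a, b, hab⟩ := A.compat (α z) y (α z) (A.mem _) hy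
  have h0 := hab.self_of_nhds
  filter_upwards [hh.continuousAt.eventually hab, hc] with q hq hq'
  rw [hq, h0]
  simp only [hq']

theorem horAt_of_chart {α : G → M} {z : G} (h : HolAt n α z) {y : M} (hy : α z ∈ (A.e y).source)
    (hc : ∀ᶠ q in 𝓝 z, (A.e y (α q)).2 = (A.e y (α z)).2) : A.HorAt α z := by
  refine ⟨h, ?_⟩
  obtain ⟨a, b, hab⟩ := A.compat y (α z) (α z) hy (A.mem _)
  have h0 := hab.self_of_nhds
  filter_upwards [h.continuousAt.eventually hab, hc] with q hq hq'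
  rw [hq, h0]
  simp only [hq']

theorem HorAt.congr {α α' : G → M} {z : G} (h : A.HorAt α z) (h' : α =ᶠ[𝓝 z] α') :
    A.HorAt α' z := by
  obtain ⟨hh, hc⟩ := h
  have h0 : α z = α' z := h'.self_of_nhds
  refine ⟨hh.congr_of_eventuallyEq h'.symm, ?_⟩
  filter_upwards [hc, h'] with q hq hq'
  rw [← h0, ← hq']
  exact hq

theorem HorAt.comp {α : G → M} {a : G' → G} {z : G'} (h : A.HorAt α (a z))
    (ha : AnalyticAt ℂ a z) : A.HorAt (fun q => α (a q)) z := by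
  obtain ⟨hh, hc⟩ := h
  refine ⟨?_, ha.continuousAt.eventually hc⟩
  have h1 := (holAt_iff_chart (A.e (α (a z))) (A.hol _) (A.hol_symm _) (A.mem _)).1 hh
  exact (holAt_iff_chart (f := fun q => α (a q)) (p := z) (A.e (α (a z))) (A.hol _)
    (A.hol_symm _) (A.mem _)).2
    ⟨ContinuousAt.comp (f := a) (g := α) h1.1 ha.continuousAt,
      AnalyticAt.comp (f := a) (g := fun q => A.e (α (a z)) (α q)) h1.2 ha⟩

theorem ProdAt.horAt {Φ : G₁ × G₂ → M} {z : G₁} {w : G₂} (h : A.ProdAt Φ (z, w)) :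
    A.HorAt (fun z' => Φ (z', w)) z := by
  obtain ⟨hh, a, b, hab⟩ := h
  have hs : ContMDiffAt 𝓘(ℂ, G₁) 𝓘(ℂ, G₁ × G₂) ω (fun z' : G₁ => (z', w)) z :=
    (contDiffAt_id.prodMk contDiffAt_const).contMDiffAt
  refine ⟨ContMDiffAt.comp (f := fun z' : G₁ => (z', w)) (g := Φ) z hh hs, ?_⟩
  have h0 := hab.self_of_nhds
  filter_upwards [hs.continuousAt.eventually hab] with q hq
  have hq' : A.e (Φ (z, w)) (Φ (q, w)) = (a q, b w) := hq
  have h0' : A.e (Φ (z, w)) (Φ (z, w)) = (a z, b w) := h0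
  simp only [hq', h0']

theorem VerAt.chart {α : G → M} {z : G} (h : A.VerAt α z) {y : M} (hy : α z ∈ (A.e y).source) :
    ∀ᶠ q in 𝓝 z, (A.e y (α q)).1 = (A.e y (α z)).1 :=
  HorAt.chart (A := A.swap) h hy

theorem verAt_of_chart {α : G → M} {z : G} (h : HolAt n α z) {y : M} (hy : α z ∈ (A.e y).source)
    (hc : ∀ᶠ q in 𝓝 z, (A.e y (α q)).1 = (A.e y (α z)).1) : A.VerAt α z :=
  horAt_of_chart (A := A.swap) h hy hc

theorem VerAt.congr {α α' : G → M} {z : G} (h : A.VerAt α z) (h' : α =ᶠ[𝓝 z] α') :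
    A.VerAt α' z :=
  HorAt.congr (A := A.swap) h h'

theorem VerAt.comp {α : G → M} {a : G' → G} {z : G'} (h : A.VerAt α (a z))
    (ha : AnalyticAt ℂ a z) : A.VerAt (fun q => α (a q)) z :=
  HorAt.comp (A := A.swap) h ha

theorem ProdAt.verAt {Φ : G₁ × G₂ → M} {z : G₁} {w : G₂} (h : A.ProdAt Φ (z, w)) :
    A.VerAt (fun w' => Φ (z, w')) w :=
  ProdAt.horAt (A := A.swap) h.swap

omit [IsManifold (mI n) ω M] in
theorem br_self (A : PAtlas n n₁ n₂ M) {y m : M} (hm : m ∈ (A.e y).source) : A.br y m m = m :=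
  (A.e y).left_inv hm

theorem br_chart (A : PAtlas n n₁ n₂ M) {x y m : M} (hx : m ∈ (A.e x).source)
    (hy : m ∈ (A.e y).source) :
    ∀ᶠ q : M × M in 𝓝 (m, m), A.br x q.1 q.2 = A.br y q.1 q.2 := by
  obtain ⟨a, b, hab⟩ := A.compat x y m hx hy
  have hcx : ContinuousAt (A.e x) m := (A.e x).continuousAt hx
  have hu : Tendsto (fun q : M × M => (((A.e x q.1).1, (A.e x q.2).2) : FF n₁ n₂)) (𝓝 (m, m))
      (𝓝 (A.e x m)) := by
    have h1 : Tendsto (fun q : M × M => (A.e x q.1).1) (𝓝 (m, m)) (𝓝 (A.e x m).1) :=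
      (continuous_fst.tendsto _).comp (hcx.tendsto.comp (continuous_fst.tendsto (m, m)))
    have h2 : Tendsto (fun q : M × M => (A.e x q.2).2) (𝓝 (m, m)) (𝓝 (A.e x m).2) :=
      (continuous_snd.tendsto _).comp (hcx.tendsto.comp (continuous_snd.tendsto (m, m)))
    exact h1.prodMk_nhds h2
  have hk : Tendsto (fun q : M × M => A.br x q.1 q.2) (𝓝 (m, m)) (𝓝 m) := by
    have := ((A.e x).continuousAt_symm ((A.e x).map_source hx)).tendsto.comp hu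
    rw [(A.e x).left_inv hx] at this
    exact this
  filter_upwards [hu.eventually ((A.e x).open_target.mem_nhds ((A.e x).map_source hx)),
    hk.eventually hab, hk.eventually ((A.e y).open_source.mem_nhds hy),
    (continuous_fst.tendsto (m, m)).eventually hab,
    (continuous_snd.tendsto (m, m)).eventually hab] with q h1 h2 h3 h4 h5
  have e1 : A.e x (A.br x q.1 q.2) = ((A.e x q.1).1, (A.e x q.2).2) := (A.e x).right_inv h1
  have e2 : A.e y (A.br x q.1 q.2) = ((A.e y q.1).1, (A.e y q.2).2) := by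
    rw [h2, e1, h4, h5]
  have e3 : A.br y q.1 q.2 = (A.e y).symm (A.e y (A.br x q.1 q.2)) := by
    rw [e2]; rfl
  rw [e3, (A.e y).left_inv h3]

/-- Holomorphy of the chart bracket in both variables. -/
theorem contMDiffAt_br (A : PAtlas n n₁ n₂ M) {y m m' : M} (hm : m ∈ (A.e y).source)
    (hm' : m' ∈ (A.e y).source) (ht : ((A.e y m).1, (A.e y m').2) ∈ (A.e y).target) :
    ContMDiffAt ((mI n).prod (mI n)) (mI n) ω (fun q : M × M => A.br y q.1 q.2) (m, m') := by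
  have h1 : ContMDiffAt (mI n) 𝓘(ℂ, FF n₁ n₂) ω (A.e y) m :=
    (A.hol y).contMDiffAt ((A.e y).open_source.mem_nhds hm)
  have h2 : ContMDiffAt (mI n) 𝓘(ℂ, FF n₁ n₂) ω (A.e y) m' :=
    (A.hol y).contMDiffAt ((A.e y).open_source.mem_nhds hm')
  have h3 : ContMDiffAt 𝓘(ℂ, FF n₁ n₂) (mI n) ω (A.e y).symm ((A.e y m).1, (A.e y m').2) :=
    (A.hol_symm y).contMDiffAt ((A.e y).open_target.mem_nhds ht)
  have hf : ContMDiff 𝓘(ℂ, FF n₁ n₂) 𝓘(ℂ, Model n₁) ω (fun u : FF n₁ n₂ => u.1) :=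
    contDiff_fst.contMDiff
  have hs : ContMDiff 𝓘(ℂ, FF n₁ n₂) 𝓘(ℂ, Model n₂) ω (fun u : FF n₁ n₂ => u.2) :=
    contDiff_snd.contMDiff
  have k1 : ContMDiffAt ((mI n).prod (mI n)) 𝓘(ℂ, Model n₁) ω
      (fun q : M × M => (A.e y q.1).1) (m, m') :=
    (hf _).comp (m, m') (ContMDiffAt.comp (f := fun q : M × M => q.1) (g := A.e y) (m, m') h1
      contMDiffAt_fst)
  have k2 : ContMDiffAt ((mI n).prod (mI n)) 𝓘(ℂ, Model n₂) ω
      (fun q : M × M => (A.e y q.2).2) (m, m') :=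
    (hs _).comp (m, m') (ContMDiffAt.comp (f := fun q : M × M => q.2) (g := A.e y) (m, m') h2
      contMDiffAt_snd)
  have k3 : ContMDiffAt ((mI n).prod (mI n)) 𝓘(ℂ, FF n₁ n₂) ω
      (fun q : M × M => (((A.e y q.1).1, (A.e y q.2).2) : FF n₁ n₂)) (m, m') :=
    k1.prodMk_space k2
  exact ContMDiffAt.comp (f := fun q : M × M => (((A.e y q.1).1, (A.e y q.2).2) : FF n₁ n₂))
    (g := (A.e y).symm) (m, m') h3 k3

omit [IsManifold (mI n) ω M] in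
theorem GAtlas2_chain {Φ : G → M} {p : G} (h : HolAt n Φ p) (ξ : G) :
    mfderiv (mI n) 𝓘(ℂ, FF n₁ n₂) (A.e (Φ p)) (Φ p) (mfderiv 𝓘(ℂ, G) (mI n) Φ p ξ) =
      fderiv ℂ (fun q => A.e (Φ p) (Φ q)) p ξ ∧
      DifferentiableAt ℂ (fun q => A.e (Φ p) (Φ q)) p := by
  have h1 : MDifferentiableAt (mI n) 𝓘(ℂ, FF n₁ n₂) (A.e (Φ p)) (Φ p) :=
    ((A.hol (Φ p)).contMDiffAt ((A.e _).open_source.mem_nhds (A.mem _))).mdifferentiableAt
      (by simp)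
  have h2 : MDifferentiableAt 𝓘(ℂ, G) (mI n) Φ p := h.mdifferentiableAt (by simp)
  have h3 := mfderiv_comp p h1 h2
  have h4 : MDifferentiableAt 𝓘(ℂ, G) 𝓘(ℂ, FF n₁ n₂) (A.e (Φ p) ∘ Φ) p := h1.comp p h2
  refine ⟨?_, mdifferentiableAt_iff_differentiableAt.1 h4⟩
  rw [mfderiv_eq_fderiv] at h3
  have h5 : fderiv ℂ (A.e (Φ p) ∘ Φ) p ξ =
      mfderiv (mI n) 𝓘(ℂ, FF n₁ n₂) (A.e (Φ p)) (Φ p) (mfderiv 𝓘(ℂ, G) (mI n) Φ p ξ) := by
    rw [h3]; rfl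
  exact h5.symm

theorem ProdAt.mfderiv_fst {Φ : G₁ × G₂ → M} {p : G₁ × G₂} (h : A.ProdAt Φ p) (ξ : G₁) :
    (mfderiv (mI n) 𝓘(ℂ, FF n₁ n₂) (A.e (Φ p)) (Φ p)
      (mfderiv 𝓘(ℂ, G₁ × G₂) (mI n) Φ p (ξ, 0))).2 = 0 := by
  obtain ⟨hh, a, b, hab⟩ := h
  obtain ⟨h1, h2⟩ := GAtlas2_chain (A := A) hh ((ξ, 0) : G₁ × G₂)
  rw [h1]
  have hl : HasDerivAt (fun t : ℂ => p + t • ((ξ, 0) : G₁ × G₂)) ((ξ, 0) : G₁ × G₂) 0 := by
    simpa using ((hasDerivAt_id (0 : ℂ)).smul_const ((ξ, 0) : G₁ × G₂)).const_add p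
  have hp : p + (0 : ℂ) • ((ξ, 0) : G₁ × G₂) = p := by simp
  have h3 : HasFDerivAt (fun q => A.e (Φ p) (Φ q)) (fderiv ℂ (fun q => A.e (Φ p) (Φ q)) p)
      (p + (0 : ℂ) • ((ξ, 0) : G₁ × G₂)) := by rw [hp]; exact h2.hasFDerivAt
  have h4 := h3.comp_hasDerivAt (0 : ℂ) hl
  have h5 : HasDerivAt (fun t : ℂ => (A.e (Φ p) (Φ (p + t • ((ξ, 0) : G₁ × G₂)))).2)
      (fderiv ℂ (fun q => A.e (Φ p) (Φ q)) p (ξ, 0)).2 0 :=
    (ContinuousLinearMap.snd ℂ (Model n₁) (Model n₂)).hasFDerivAt.comp_hasDerivAt (0 : ℂ) h4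
  have ht : Tendsto (fun t : ℂ => p + t • ((ξ, 0) : G₁ × G₂)) (𝓝 0) (𝓝 p) := by
    have := hl.continuousAt.tendsto
    rwa [hp] at this
  have h6 : (fun t : ℂ => (A.e (Φ p) (Φ (p + t • ((ξ, 0) : G₁ × G₂)))).2) =ᶠ[𝓝 0]
      fun _ => b p.2 := by
    filter_upwards [ht.eventually hab] with t htt
    rw [htt]
    simp
  exact h5.unique ((hasDerivAt_const (0 : ℂ) (b p.2)).congr_of_eventuallyEq h6)

theorem ProdAt.mfderiv_snd {Φ : G₁ × G₂ → M} {p : G₁ × G₂} (h : A.ProdAt Φ p) (ζ : G₂) :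
    (mfderiv (mI n) 𝓘(ℂ, FF n₁ n₂) (A.e (Φ p)) (Φ p)
      (mfderiv 𝓘(ℂ, G₁ × G₂) (mI n) Φ p (0, ζ))).1 = 0 := by
  obtain ⟨hh, a, b, hab⟩ := h
  obtain ⟨h1, h2⟩ := GAtlas2_chain (A := A) hh ((0, ζ) : G₁ × G₂)
  rw [h1]
  have hl : HasDerivAt (fun t : ℂ => p + t • ((0, ζ) : G₁ × G₂)) ((0, ζ) : G₁ × G₂) 0 := by
    simpa using ((hasDerivAt_id (0 : ℂ)).smul_const ((0, ζ) : G₁ × G₂)).const_add p
  have hp : p + (0 : ℂ) • ((0, ζ) : G₁ × G₂) = p := by simp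
  have h3 : HasFDerivAt (fun q => A.e (Φ p) (Φ q)) (fderiv ℂ (fun q => A.e (Φ p) (Φ q)) p)
      (p + (0 : ℂ) • ((0, ζ) : G₁ × G₂)) := by rw [hp]; exact h2.hasFDerivAt
  have h4 := h3.comp_hasDerivAt (0 : ℂ) hl
  have h5 : HasDerivAt (fun t : ℂ => (A.e (Φ p) (Φ (p + t • ((0, ζ) : G₁ × G₂)))).1)
      (fderiv ℂ (fun q => A.e (Φ p) (Φ q)) p (0, ζ)).1 0 :=
    (ContinuousLinearMap.fst ℂ (Model n₁) (Model n₂)).hasFDerivAt.comp_hasDerivAt (0 : ℂ) h4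
  have ht : Tendsto (fun t : ℂ => p + t • ((0, ζ) : G₁ × G₂)) (𝓝 0) (𝓝 p) := by
    have := hl.continuousAt.tendsto
    rwa [hp] at this
  have h6 : (fun t : ℂ => (A.e (Φ p) (Φ (p + t • ((0, ζ) : G₁ × G₂)))).1) =ᶠ[𝓝 0]
      fun _ => a p.1 := by
    filter_upwards [ht.eventually hab] with t htt
    rw [htt]
    simp
  exact h5.unique ((hasDerivAt_const (0 : ℂ) (a p.1)).congr_of_eventuallyEq h6)

theorem kill (A : PAtlas n n₁ n₂ M) {k : ℕ} {Y : Type} [TopologicalSpace Y]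
    [ChartedSpace (Model k) Y] {ψ : M → Y} {p : M}
    (hψ : MDifferentiableAt (mI n) (mI k) ψ p) (h : ψ =ᶠ[𝓝 p] fun m => ψ (A.br p m p))
    {v : TangentSpace (mI n) p} (hv : (mfderiv (mI n) 𝓘(ℂ, FF n₁ n₂) (A.e p) p v).1 = 0) :
    mfderiv (mI n) (mI k) ψ p v = 0 := by
  have hpm := A.mem p
  have h1 : MDifferentiableAt (mI n) 𝓘(ℂ, FF n₁ n₂) (A.e p) p :=
    ((A.hol p).contMDiffAt ((A.e _).open_source.mem_nhds hpm)).mdifferentiableAt (by simp)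
  have h2 : MDifferentiableAt 𝓘(ℂ, FF n₁ n₂) (mI n) (A.e p).symm (A.e p p) :=
    ((A.hol_symm p).contMDiffAt
      ((A.e _).open_target.mem_nhds ((A.e p).map_source hpm))).mdifferentiableAt (by simp)
  let L : FF n₁ n₂ →L[ℂ] FF n₁ n₂ :=
    (ContinuousLinearMap.fst ℂ (Model n₁) (Model n₂)).prod 0
  let τ : FF n₁ n₂ → FF n₁ n₂ := fun u => (u.1, (A.e p p).2)
  have hτ : HasFDerivAt τ L (A.e p p) :=
    (ContinuousLinearMap.fst ℂ (Model n₁) (Model n₂)).hasFDerivAt.prodMk (hasFDerivAt_const _ _)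
  have hτ' : HasMFDerivAt 𝓘(ℂ, FF n₁ n₂) 𝓘(ℂ, FF n₁ n₂) τ (A.e p p) L := hτ.hasMFDerivAt
  have hτp : τ (A.e p p) = A.e p p := rfl
  have h3 := hτ'.comp p h1.hasMFDerivAt
  have h2' : HasMFDerivAt 𝓘(ℂ, FF n₁ n₂) (mI n) (A.e p).symm ((τ ∘ A.e p) p)
      (mfderiv 𝓘(ℂ, FF n₁ n₂) (mI n) (A.e p).symm (A.e p p)) := h2.hasMFDerivAt
  have h4 := h2'.comp p h3
  have hb : ((A.e p).symm ∘ (τ ∘ A.e p)) p = p := (A.e p).left_inv hpm
  have hψ' : MDifferentiableAt (mI n) (mI k) ψ (((A.e p).symm ∘ (τ ∘ A.e p)) p) := by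
    rw [hb]; exact hψ
  have h5 := hψ'.hasMFDerivAt.comp p h4
  have h6 : ψ =ᶠ[𝓝 p] ψ ∘ ((A.e p).symm ∘ (τ ∘ A.e p)) := h
  have h7 := (h5.congr_of_eventuallyEq h6).mfderiv
  rw [h7]
  have hL : L (mfderiv (mI n) 𝓘(ℂ, FF n₁ n₂) (A.e p) p v) = 0 := by
    apply Prod.ext
    · exact hv
    · rfl
  change mfderiv (mI n) (mI k) ψ _ (mfderiv 𝓘(ℂ, FF n₁ n₂) (mI n) (A.e p).symm (A.e p p)
    (L (mfderiv (mI n) 𝓘(ℂ, FF n₁ n₂) (A.e p) p v))) = 0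
  rw [hL]
  have e0 : mfderiv 𝓘(ℂ, FF n₁ n₂) (mI n) (A.e p).symm (A.e p p) (0 : FF n₁ n₂) = 0 :=
    map_zero (mfderiv 𝓘(ℂ, FF n₁ n₂) (mI n) (A.e p).symm (A.e p p))
  rw [e0]
  exact map_zero _

end PAtlas

end Crest.Agent.R266G
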