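import Crest.Agent.R266.GHcl

/-!
# Row 266 G: the family of retractions is jointly a product map

`r y : M → M` is the global holonomy map with the germ `br y · y` at `y`.
* `beta_loc`: `ball (e a a) ρ ⊆ target`, `N = (e a).symm '' ball (e a a) ρ` is an open preconnected neighbourhood of
  `a`.  For `m' ∈ N`, `r m' =ᶠ[𝓝 m'] br m' · m' =ᶠ br a · m'` (`br_chart`), both sides are holomorphic at all points of `N`
  (`Hcl.hol`, `contMDiffAt_br`; balls are boxes), so they agree on `N` (`hol_eq_of_preconnected`).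
* `BL.change`: `Φ' (u, u') = Φ (e c ((e c').symm u), u')`, `ProdAt.comp`, `analyticAt_trans`.
* `BL.prop`: let `Φ₁` be given at `x₁`, `w₀ = e y y`; choose `R' > 0` with `ProdAt Φ₁ (e c x₁, w)` for `w ∈ ball w₀ R'`;
  `α u = r y ((e c).symm u)` is horizontal on `ball (e c x₁) R` (`Hcl.horAt`), and `Φ₁ (u, w₀) = α u` near `e c x₁`.
  `push` gives `Φ`.  For `m'` near `y` (so that `w = e y m' ∈ ball w₀ R'` and `r m' =ᶠ[𝓝 x₁] Φ₁ (e c ·, w)`;
  use `eventually_prod_iff`/`nhds_prod_eq` or `Eventually.curry_nhds` after swapping), the maps `r m'` and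
  `Φ (e c ·, w)` are holomorphic on `N = (e c).symm '' ball (e c x₁) R` and agree near `x₁`, so on `N`.
  Hence `BL c x y` with the witness `Φ` for every `x ∈ N` (`N` is open).
* `beta_prod`: `W = {x | BL x x y}` contains `y` (`beta_loc`, witness `(u, u') ↦ (e y).symm (u.1, u'.2)`) and is
  clopen: for `x*` with `ball (e x* x*) (3ρ) ⊆ target` and `N = source ∩ e x* ⁻¹' ball (e x* x*) ρ`, either `N ⊆ W` or
  `N ∩ W = ∅` (`BL.change`, `BL.prop` with radius `2ρ`).
-/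

set_option autoImplicit false
open scoped Manifold ContDiff Topology
open Set Filter Metric
open Crest.AlgGeometry.HolSplit

namespace Crest.Agent.R266G

namespace PAtlas

variable {n n₁ n₂ : ℕ} {M : Type} [TopologicalSpace M] [ChartedSpace (Model n) M]
  [IsManifold (mI n) ω M] [T2Space M] {A : PAtlas n n₁ n₂ M}

variable (A) in
/-- Near `(x, y)` the map `(m, m') ↦ r m' m` is a product map read in the charts `e c`, `e y`. -/
def BL (r : M → M → M) (c x y : M) : Prop :=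
  ∃ Φ : FF n₁ n₂ × FF n₁ n₂ → M, A.ProdAt Φ (A.e c x, A.e y y) ∧
    ∀ᶠ q : M × M in 𝓝 (x, y), r q.2 q.1 = Φ (A.e c q.1, A.e y q.2)

variable {r : M → M → M}

omit [IsManifold (mI n) ω M] [T2Space M] in
theorem GBeta_open (c : M) (u : FF n₁ n₂) (R : ℝ) :
    IsOpen ((A.e c).source ∩ A.e c ⁻¹' ball u R) :=
  (A.e c).isOpen_inter_preimage isOpen_ball

omit [IsManifold (mI n) ω M] [T2Space M] in
theorem GBeta_pre {c : M} {u : FF n₁ n₂} {R : ℝ} (hb : ball u R ⊆ (A.e c).target) :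
    IsPreconnected ((A.e c).source ∩ A.e c ⁻¹' ball u R) := by
  rw [← (A.e c).symm_image_eq_source_inter_preimage hb]
  exact (convex_ball u R).isPreconnected.image _ ((A.e c).continuousOn_symm.mono hb)

theorem beta_loc (hT : A.Touch) (hr : ∀ y x, A.Hcl (r y) x)
    (hr' : ∀ y, r y =ᶠ[𝓝 y] fun m => A.br y m y) (a : M) :
    ∀ᶠ q : M × M in 𝓝 (a, a), r q.2 q.1 = A.br a q.1 q.2 := by
  obtain ⟨ρ, hρ, hb⟩ := Metric.isOpen_iff.1 (A.e a).open_target _ ((A.e a).map_source (A.mem a))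
  have hN : (A.e a).source ∩ A.e a ⁻¹' ball (A.e a a) ρ ∈ 𝓝 a :=
    (GBeta_open a _ ρ).mem_nhds ⟨A.mem a, mem_ball_self hρ⟩
  have key : ∀ m' ∈ (A.e a).source ∩ A.e a ⁻¹' ball (A.e a a) ρ,
      ∀ m ∈ (A.e a).source ∩ A.e a ⁻¹' ball (A.e a a) ρ, r m' m = A.br a m m' := by
    intro m' hm' m hm
    have t1 : Tendsto (fun m : M => (m, m')) (𝓝 m') (𝓝 (m', m')) :=
      (by fun_prop : Continuous fun m : M => (m, m')).tendsto' m' _ rfl
    have e1 : r m' =ᶠ[𝓝 m'] fun m => A.br a m m' :=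
      (hr' m').trans (t1.eventually (A.br_chart (A.mem m') hm'.1))
    refine (hol_eq_of_preconnected (n := n) (G := Model n) (GBeta_pre hb)
      (fun q _ => (hr m' q).hol hT) (fun q hq => ?_) hm' e1 m hm).self_of_nhds
    have ht : ((A.e a q).1, (A.e a m').2) ∈ (A.e a).target := by
      apply hb
      have h1 : A.e a q ∈ ball (A.e a a) ρ := hq.2
      have h2 : A.e a m' ∈ ball (A.e a a) ρ := hm'.2
      rw [mem_ball, Prod.dist_eq, max_lt_iff] at h1 h2 ⊢
      exact ⟨h1.1, h2.2⟩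
    exact ContMDiffAt.comp (g := fun q : M × M => A.br a q.1 q.2) (f := fun m : M => (m, m')) q
      (A.contMDiffAt_br hq.1 hm'.1 ht) (contMDiffAt_id.prodMk contMDiffAt_const)
  filter_upwards [prod_mem_nhds hN hN] with q hq
  exact key _ hq.2 _ hq.1

omit [T2Space M] in
theorem BL.change {c c' x y : M} (h : A.BL r c x y) (hc : x ∈ (A.e c).source)
    (hc' : x ∈ (A.e c').source) : A.BL r c' x y := by
  obtain ⟨Φ, hP, hev⟩ := h
  have hP' : A.ProdAt Φ ((fun u => A.e c ((A.e c').symm u)) (A.e c' x),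
      (fun w : FF n₁ n₂ => w) (A.e y y)) := by
    simpa only [(A.e c').left_inv hc'] using hP
  refine ⟨_, ProdAt.comp (a := fun u => A.e c ((A.e c').symm u)) (b := fun w : FF n₁ n₂ => w)
    (z := A.e c' x) (w := A.e y y) hP' (A.analyticAt_trans hc' hc) analyticAt_id, ?_⟩
  have h1 : ∀ᶠ q : M × M in 𝓝 (x, y), q.1 ∈ (A.e c').source :=
    continuous_fst.continuousAt.eventually ((A.e c').open_source.mem_nhds hc')
  filter_upwards [hev, h1] with q e1 e2
  rw [e1, (A.e c').left_inv e2]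

theorem BL.prop (hT : A.Touch) (hr : ∀ y x, A.Hcl (r y) x) {c x₁ y : M} (h : A.BL r c x₁ y)
    (hc : x₁ ∈ (A.e c).source) {R : ℝ} (hb : ball (A.e c x₁) R ⊆ (A.e c).target) {x : M}
    (hx : x ∈ (A.e c).source) (hx' : A.e c x ∈ ball (A.e c x₁) R) : A.BL r c x y := by
  obtain ⟨Φ₁, hP, hev⟩ := h
  have hR : 0 < R := pos_of_mem_ball hx'
  have t0 : Tendsto (fun w : FF n₁ n₂ => (A.e c x₁, w)) (𝓝 (A.e y y)) (𝓝 (A.e c x₁, A.e y y)) :=
    (by fun_prop : Continuous fun w : FF n₁ n₂ => (A.e c x₁, w)).tendsto' _ _ rfl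
  obtain ⟨R', hR', hP'⟩ := Metric.eventually_nhds_iff_ball.1 (t0.eventually hP.eventually)
  have hα : ∀ z ∈ ball (A.e c x₁) R, A.HorAt (fun u => r y ((A.e c).symm u)) z := by
    intro z hz
    have := (hr y ((A.e c).symm z)).horAt hT ((A.e c).map_target (hb hz))
    rwa [(A.e c).right_inv (hb hz)] at this
  have ht : A.e c x₁ ∈ (A.e c).target := (A.e c).map_source hc
  have h0 : ∀ᶠ z in 𝓝 (A.e c x₁), Φ₁ (z, A.e y y) = r y ((A.e c).symm z) := by
    have t1 : Tendsto (fun z => ((A.e c).symm z, y)) (𝓝 (A.e c x₁)) (𝓝 (x₁, y)) :=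
      ((A.e c).tendsto_symm hc).prodMk_nhds tendsto_const_nhds
    filter_upwards [t1.eventually hev, (A.e c).open_target.mem_nhds ht] with z e1 e2
    rw [e1, (A.e c).right_inv e2]
  obtain ⟨Φ, h1, -, h3⟩ := push hT hR hR' hα hP' h0
  refine ⟨Φ, h1 _ hx' _ (mem_ball_self hR'), ?_⟩
  have hev' : ∀ᶠ q : M × M in 𝓝 (y, x₁), r q.1 q.2 = Φ₁ (A.e c q.2, A.e y q.1) :=
    (continuous_swap.tendsto (y, x₁)).eventually hev
  have hy : ∀ᶠ m' in 𝓝 y, A.e y m' ∈ ball (A.e y y) R' :=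
    ((A.e y).continuousAt (A.mem y)).eventually (ball_mem_nhds _ hR')
  have key : ∀ᶠ m' in 𝓝 y, ∀ m ∈ (A.e c).source ∩ A.e c ⁻¹' ball (A.e c x₁) R,
      r m' m = Φ (A.e c m, A.e y m') := by
    filter_upwards [hy, hev'.curry_nhds] with m' e1 e2 m hm
    have t2 : Tendsto (fun m : M => (A.e c m, A.e y m')) (𝓝 x₁) (𝓝 (A.e c x₁, A.e y m')) :=
      ((A.e c).continuousAt hc).tendsto.prodMk_nhds tendsto_const_nhds
    have e3 : r m' =ᶠ[𝓝 x₁] fun m => Φ (A.e c m, A.e y m') := by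
      filter_upwards [e2, t2.eventually (h3 _ e1)] with m a1 a2
      rw [a1, a2]
    refine (hol_eq_of_preconnected (n := n) (G := Model n) (GBeta_pre hb)
      (fun q _ => (hr m' q).hol hT) (fun q hq => ?_) ⟨hc, mem_ball_self hR⟩ e3 m hm).self_of_nhds
    exact ContMDiffAt.comp (g := Φ) (f := fun m : M => (A.e c m, A.e y m')) q
      (h1 _ hq.2 _ e1).1
      (((A.hol c).contMDiffAt ((A.e c).open_source.mem_nhds hq.1)).prodMk_space contMDiffAt_const)
  have hN : (A.e c).source ∩ A.e c ⁻¹' ball (A.e c x₁) R ∈ 𝓝 x :=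
    (GBeta_open c _ R).mem_nhds ⟨hx, hx'⟩
  filter_upwards [prod_mem_nhds hN key] with q hq
  exact hq.2 _ hq.1

theorem beta_prod [ConnectedSpace M] (hT : A.Touch) (hr : ∀ y x, A.Hcl (r y) x)
    (hr' : ∀ y, r y =ᶠ[𝓝 y] fun m => A.br y m y) (x y : M) : A.BL r x x y := by
  have hy : A.BL r y y y := by
    have h0 : A.ProdAt (fun q : Model n₁ × Model n₂ => (A.e y).symm q)
        ((fun u : FF n₁ n₂ => u.1) (A.e y y), (fun u : FF n₁ n₂ => u.2) (A.e y y)) :=
      A.prodAt_symm ((A.e y).map_source (A.mem y))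
    exact ⟨_, h0.comp analyticAt_fst analyticAt_snd, beta_loc hT hr hr' y⟩
  have hlc : IsLocallyConstant fun x => A.BL r x x y := by
    rw [IsLocallyConstant.iff_eventually_eq]
    intro c
    obtain ⟨ρ, hρ, hb⟩ := Metric.isOpen_iff.1 (A.e c).open_target _ ((A.e c).map_source (A.mem c))
    have hρ' : 0 < ρ / 3 := by positivity
    have key : ∀ x₁ ∈ (A.e c).source ∩ A.e c ⁻¹' ball (A.e c c) (ρ / 3),
        ∀ x₂ ∈ (A.e c).source ∩ A.e c ⁻¹' ball (A.e c c) (ρ / 3),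
        A.BL r x₁ x₁ y → A.BL r x₂ x₂ y := by
      intro x₁ h₁ x₂ h₂ h
      have d1 : dist (A.e c x₁) (A.e c c) < ρ / 3 := h₁.2
      have d2 : dist (A.e c x₂) (A.e c c) < ρ / 3 := h₂.2
      refine (BL.prop hT hr (h.change (A.mem x₁) h₁.1) h₁.1 (R := 2 * (ρ / 3)) ?_ h₂.1 ?_).change
        h₂.1 (A.mem x₂)
      · refine (ball_subset_ball' ?_).trans hb
        linarith
      · rw [mem_ball]
        linarith [dist_triangle_right (A.e c x₂) (A.e c x₁) (A.e c c)]
    have hc : c ∈ (A.e c).source ∩ A.e c ⁻¹' ball (A.e c c) (ρ / 3) :=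
      ⟨A.mem c, mem_ball_self hρ'⟩
    filter_upwards [(GBeta_open c _ (ρ / 3)).mem_nhds hc] with x hx
    exact propext ⟨key x hx c hc, key c hc x hx⟩
  exact (hlc.apply_eq_of_preconnectedSpace x y).mpr hy

end PAtlas

end Crest.Agent.R266G
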