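import Crest.Agent.R266.GBeta

/-!
# Row 266 G: existence of the global bracket

`choose r using exists_ret`, `β x y = r y x`.  Holomorphy on `M × M`: near `(x, y)`,
`β q.1 q.2 = Φ (e x q.1, e y q.2)` (`beta_prod`), a composition of `ContMDiffAt` maps (`ContMDiffAt.prodMk_space`).
`loc = beta_loc`.  Identities: fix `x₀`, `ball (e x₀ x₀) ρ ⊆ target` and an open `N ∋ x₀` of the form
`source ∩ e x₀ ⁻¹' ball (e x₀ x₀) ρ` with `β = br x₀` on `N × N` (`beta_loc`, shrink `ρ`); `br x₀` maps `N × N` to `N`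
(balls are boxes) and satisfies both identities there.  Then extend one variable at a time with
`hol_eq_of_preconnected` on `univ` (all partial maps `M → M` are holomorphic as compositions):
for `y, z ∈ N` the identity holds for `x ∈ N`, so for all `x`; then for all `x`, `z ∈ N` it holds for `y ∈ N`, so for
all `y`; then for all `z`.
-/

set_option autoImplicit false
open scoped Manifold ContDiff Topology
open Set Filter Metric
open Crest.AlgGeometry.HolSplit

namespace Crest.Agent.R266G

namespace PAtlas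

variable {n n₁ n₂ : ℕ} {M : Type} [TopologicalSpace M] [ChartedSpace (Model n) M]
  [IsManifold (mI n) ω M] [T2Space M] {A : PAtlas n n₁ n₂ M}

theorem GBracket_ext1 [PreconnectedSpace M] {f g : M → M} (hf : ContMDiff (mI n) (mI n) ω f)
    (hg : ContMDiff (mI n) (mI n) ω g) {a : M} {N : Set M} (hN : N ∈ 𝓝 a)
    (h : ∀ x ∈ N, f x = g x) (x : M) : f x = g x :=
  (hol_eq_of_preconnected isPreconnected_univ (fun q _ => hf q) (fun q _ => hg q) (mem_univ a)
    (eventually_of_mem hN h) x (mem_univ x)).eq_of_nhds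

theorem GBracket_ext3 [PreconnectedSpace M] {F G : M → M → M → M}
    (hF₁ : ∀ y z, ContMDiff (mI n) (mI n) ω fun x => F x y z)
    (hF₂ : ∀ x z, ContMDiff (mI n) (mI n) ω fun y => F x y z)
    (hF₃ : ∀ x y, ContMDiff (mI n) (mI n) ω fun z => F x y z)
    (hG₁ : ∀ y z, ContMDiff (mI n) (mI n) ω fun x => G x y z)
    (hG₂ : ∀ x z, ContMDiff (mI n) (mI n) ω fun y => G x y z)
    (hG₃ : ∀ x y, ContMDiff (mI n) (mI n) ω fun z => G x y z) {a : M}
    (h : ∀ᶠ t : M × M × M in 𝓝 (a, a, a), F t.1 t.2.1 t.2.2 = G t.1 t.2.1 t.2.2) (x y z : M) :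
    F x y z = G x y z := by
  obtain ⟨N₁, hN₁, N', hN', h1⟩ := mem_nhds_prod_iff.1 h
  obtain ⟨N₂, hN₂, N₃, hN₃, h2⟩ := mem_nhds_prod_iff.1 hN'
  refine GBracket_ext1 (hF₃ x y) (hG₃ x y) hN₃ (fun z hz => ?_) z
  refine GBracket_ext1 (hF₂ x z) (hG₂ x z) hN₂ (fun y hy => ?_) y
  refine GBracket_ext1 (hF₁ y z) (hG₁ y z) hN₁ (fun x hx => ?_) x
  exact h1 (show (x, y, z) ∈ N₁ ×ˢ N' from ⟨hx, h2 (show (y, z) ∈ N₂ ×ˢ N₃ from ⟨hy, hz⟩)⟩)

theorem exists_bracket [SimplyConnectedSpace M] (hT : A.Touch) : Nonempty A.Bracket := by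
  choose r hr hr' using exists_ret hT
  have hol : ContMDiff ((mI n).prod (mI n)) (mI n) ω (fun q : M × M => r q.2 q.1) := by
    rintro ⟨x, y⟩
    obtain ⟨Φ, hΦ, h⟩ := beta_prod hT hr hr' x y
    have hx : ContMDiffAt (mI n) 𝓘(ℂ, FF n₁ n₂) ω (A.e x) x :=
      (A.hol x).contMDiffAt ((A.e x).open_source.mem_nhds (A.mem x))
    have hy : ContMDiffAt (mI n) 𝓘(ℂ, FF n₁ n₂) ω (A.e y) y :=
      (A.hol y).contMDiffAt ((A.e y).open_source.mem_nhds (A.mem y))
    have h1 : ContMDiffAt ((mI n).prod (mI n)) 𝓘(ℂ, FF n₁ n₂ × FF n₁ n₂) ω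
        (fun q : M × M => (A.e x q.1, A.e y q.2)) (x, y) :=
      ContMDiffAt.prodMk_space (ContMDiffAt.comp (x, y) hx contMDiffAt_fst)
        (ContMDiffAt.comp (x, y) hy contMDiffAt_snd)
    exact (ContMDiffAt.comp (x, y) hΦ.1 h1).congr_of_eventuallyEq h
  have comp : ∀ {f g : M → M}, ContMDiff (mI n) (mI n) ω f → ContMDiff (mI n) (mI n) ω g →
      ContMDiff (mI n) (mI n) ω fun m => r (g m) (f m) := fun hf hg => hol.comp (hf.prodMk hg)
  obtain ⟨a⟩ : Nonempty M := inferInstance
  have loc := beta_loc hT hr hr' a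
  have haa : r a a = a := loc.self_of_nhds.trans (A.br_self (A.mem a))
  have hea : ContinuousAt (A.e a) a := (A.e a).continuousAt (A.mem a)
  have htgt : ∀ᶠ q : M × M in 𝓝 (a, a), ((A.e a q.1).1, (A.e a q.2).2) ∈ (A.e a).target := by
    have hc : ContinuousAt (fun q : M × M => ((A.e a q.1).1, (A.e a q.2).2)) (a, a) :=
      (ContinuousAt.comp (f := Prod.fst) (x := (a, a)) hea continuousAt_fst).fst.prodMk
        (ContinuousAt.comp (f := Prod.snd) (x := (a, a)) hea continuousAt_snd).snd
    exact hc.eventually ((A.e a).open_target.mem_nhds ((A.e a).map_source (A.mem a)))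
  have hcont : Continuous fun q : M × M => r q.2 q.1 := hol.continuous
  have t12 : Tendsto (fun t : M × M × M => (t.1, t.2.1)) (𝓝 (a, a, a)) (𝓝 (a, a)) :=
    (by fun_prop : Continuous fun t : M × M × M => (t.1, t.2.1)).tendsto' _ _ rfl
  have t13 : Tendsto (fun t : M × M × M => (t.1, t.2.2)) (𝓝 (a, a, a)) (𝓝 (a, a)) :=
    (by fun_prop : Continuous fun t : M × M × M => (t.1, t.2.2)).tendsto' _ _ rfl
  have t23 : Tendsto (fun t : M × M × M => (t.2.1, t.2.2)) (𝓝 (a, a, a)) (𝓝 (a, a)) :=
    (by fun_prop : Continuous fun t : M × M × M => (t.2.1, t.2.2)).tendsto' _ _ rfl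
  have tL : Tendsto (fun t : M × M × M => (r t.2.1 t.1, t.2.2)) (𝓝 (a, a, a)) (𝓝 (a, a)) :=
    (((hcont.comp (by fun_prop : Continuous fun t : M × M × M => (t.1, t.2.1))).prodMk
      (by fun_prop : Continuous fun t : M × M × M => t.2.2)).tendsto' (a, a, a) (a, a)
      (Prod.ext haa rfl))
  have tR : Tendsto (fun t : M × M × M => (t.1, r t.2.2 t.2.1)) (𝓝 (a, a, a)) (𝓝 (a, a)) :=
    (((by fun_prop : Continuous fun t : M × M × M => t.1).prodMk
      (hcont.comp (by fun_prop : Continuous fun t : M × M × M => (t.2.1, t.2.2)))).tendsto'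
      (a, a, a) (a, a) (Prod.ext rfl haa))
  refine ⟨⟨fun x y => r y x, hol, beta_loc hT hr hr', ?_, ?_⟩⟩
  · refine GBracket_ext3 (n := n) (F := fun x y z => r z (r y x)) (G := fun x _ z => r z x)
      (fun y z => comp (comp contMDiff_id contMDiff_const) contMDiff_const)
      (fun x z => comp (comp contMDiff_const contMDiff_id) contMDiff_const)
      (fun x y => comp contMDiff_const contMDiff_id)
      (fun y z => comp contMDiff_id contMDiff_const) (fun x z => contMDiff_const)
      (fun x y => comp contMDiff_const contMDiff_id) (a := a) ?_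
    filter_upwards [tL.eventually loc, t12.eventually loc, t13.eventually loc,
      t12.eventually htgt] with t h1 h2 h3 h4
    rw [h1, h2, h3]
    simp only [br]
    rw [(A.e a).right_inv h4]
  · refine GBracket_ext3 (n := n) (F := fun x y z => r (r z y) x) (G := fun x _ z => r z x)
      (fun y z => comp contMDiff_id contMDiff_const)
      (fun x z => comp contMDiff_const (comp contMDiff_id contMDiff_const))
      (fun x y => comp contMDiff_const (comp contMDiff_const contMDiff_id))
      (fun y z => comp contMDiff_id contMDiff_const) (fun x z => contMDiff_const)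
      (fun x y => comp contMDiff_const contMDiff_id) (a := a) ?_
    filter_upwards [tR.eventually loc, t23.eventually loc, t13.eventually loc,
      t23.eventually htgt] with t h1 h2 h3 h4
    rw [h1, h2, h3]
    simp only [br]
    rw [(A.e a).right_inv h4]

end PAtlas

end Crest.Agent.R266G
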