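import Crest.Agent.R266.GGerm

/-!
# Row 266 G: the continuity method

Let `S = {t ∈ Icc 0 T | ∃ f, (∀ p ∈ A t, Good f p) ∧ f =ᶠ[𝓝 a] f₀}`; it contains `0`, is downward closed in
`Icc 0 T` (`hmono`).  Let `t* = sSup S`.  (i) `t* ∈ S`: if `t* = 0` clear.  Otherwise every
`s ∈ Ico 0 t*` is in `S`; `glue_chain` (index type `Ico 0 t*`) gives `f` good on
`U = ⋃ s ∈ Ico 0 t*, A s` with the germ `f₀` at `a`; `U` is convex (increasing union,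
`directedOn`/direct argument), `hstep` and `glue_reg` (with `R = A t*`, `hdense`) give `g` good on
`A t*`, `g =ᶠ[𝓝 a] f` because `a ∈ A 0 ⊆ U`.  (ii) if `t* < T`, the set `O = {p | Good g p}` is open
(`C.eventually`) and contains `A t*`, so `husc` gives `s > t*` in `S`, contradiction.
(Alternatively use `IsClosed.Icc_subset_of_forall_mem_nhdsWithin`-type real induction.)
-/

set_option autoImplicit false
open scoped Manifold ContDiff Topology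
open Set Filter Metric
open Crest.AlgGeometry.HolSplit

namespace Crest.Agent.R266G

theorem GermClass.continuity_method {G Y : Type*} [NormedAddCommGroup G] [NormedSpace ℝ G]
    (C : GermClass G Y) (A : ℝ → Set G) {T : ℝ} (hT : 0 ≤ T)
    (hconv : ∀ t ∈ Icc 0 T, Convex ℝ (A t))
    (hmono : ∀ s t, 0 ≤ s → s ≤ t → t ≤ T → A s ⊆ A t)
    (husc : ∀ t ∈ Ico 0 T, ∀ O : Set G, IsOpen O → A t ⊆ O → ∃ s ∈ Ioc t T, A s ⊆ O)
    (hdense : ∀ t ∈ Ioc 0 T, A t ⊆ closure (⋃ s ∈ Ico 0 t, A s))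
    {f₀ : G → Y} {a : G} (ha : a ∈ A 0) (h₀ : ∀ p ∈ A 0, C.Good f₀ p)
    (hstep : ∀ t ∈ Ioc 0 T, ∀ f : G → Y, (∀ p ∈ ⋃ s ∈ Ico 0 t, A s, C.Good f p) →
      f =ᶠ[𝓝 a] f₀ → ∀ p ∈ A t, C.Reg f (⋃ s ∈ Ico 0 t, A s) p) :
    ∃ f : G → Y, (∀ p ∈ A T, C.Good f p) ∧ f =ᶠ[𝓝 a] f₀ := by
  classical
  set S : Set ℝ := {t | t ∈ Icc 0 T ∧ ∃ f : G → Y, (∀ p ∈ A t, C.Good f p) ∧ f =ᶠ[𝓝 a] f₀}
    with hS
  have h0S : (0 : ℝ) ∈ S := ⟨⟨le_rfl, hT⟩, f₀, h₀, EventuallyEq.rfl⟩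
  have hne : S.Nonempty := ⟨0, h0S⟩
  have hbdd : BddAbove S := ⟨T, fun t ht => ht.1.2⟩
  have hdown : ∀ s t, t ∈ S → 0 ≤ s → s ≤ t → s ∈ S := by
    rintro s t ⟨ht, f, hf, hfa⟩ hs hst
    exact ⟨⟨hs, hst.trans ht.2⟩, f, fun p hp => hf p (hmono s t hs hst ht.2 hp), hfa⟩
  set τ := sSup S with hτ
  have hτ0 : 0 ≤ τ := le_csSup hbdd h0S
  have hτT : τ ≤ T := csSup_le hne fun t ht => ht.1.2
  have hτS : τ ∈ S := by
    rcases hτ0.eq_or_lt with h | h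
    · rw [← h]; exact h0S
    have hall : ∀ s ∈ Ico 0 τ, s ∈ S := by
      intro s hs
      obtain ⟨t, ht, hst⟩ := exists_lt_of_lt_csSup hne hs.2
      exact hdown s t ht hs.1 hst.le
    have hall' : ∀ s : Ico (0 : ℝ) τ, ∃ f : G → Y, (∀ p ∈ A s, C.Good f p) ∧ f =ᶠ[𝓝 a] f₀ :=
      fun s => (hall s s.2).2
    choose F hF hFa using hall'
    have hchain : ∀ i j : Ico (0 : ℝ) τ, A i ⊆ A j ∨ A j ⊆ A i := by
      intro i j
      rcases le_total (i : ℝ) j with hij | hij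
      · exact Or.inl (hmono i j i.2.1 hij (j.2.2.le.trans hτT))
      · exact Or.inr (hmono j i j.2.1 hij (i.2.2.le.trans hτT))
    have haA : ∀ i : Ico (0 : ℝ) τ, a ∈ A i := fun i =>
      hmono 0 i le_rfl i.2.1 (i.2.2.le.trans hτT) ha
    obtain ⟨f, hf, hfa⟩ := C.glue_chain (fun i : Ico (0 : ℝ) τ => A i)
      (fun i => hconv i ⟨i.2.1, i.2.2.le.trans hτT⟩) hchain haA F hF hFa
    have hfU : ∀ p ∈ ⋃ s ∈ Ico 0 τ, A s, C.Good f p := by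
      intro p hp
      simp only [mem_iUnion] at hp
      obtain ⟨s, hs, hp⟩ := hp
      exact hf ⟨s, hs⟩ p hp
    have hUconv : Convex ℝ (⋃ s ∈ Ico 0 τ, A s) := by
      intro x hx y hy u v hu hv huv
      simp only [mem_iUnion] at hx hy ⊢
      obtain ⟨s, hs, hx⟩ := hx
      obtain ⟨t, ht, hy⟩ := hy
      rcases hchain ⟨s, hs⟩ ⟨t, ht⟩ with hst | hst
      · exact ⟨t, ht, hconv t ⟨ht.1, ht.2.le.trans hτT⟩ (hst hx) hy hu hv huv⟩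
      · exact ⟨s, hs, hconv s ⟨hs.1, hs.2.le.trans hτT⟩ hx (hst hy) hu hv huv⟩
    obtain ⟨g, hgU, hg⟩ := C.glue_reg hUconv hfU (hdense τ ⟨h, hτT⟩)
      (hstep τ ⟨h, hτT⟩ f hfU hfa)
    refine ⟨⟨hτ0, hτT⟩, g, hg, (hgU a ?_).trans hfa⟩
    simp only [mem_iUnion]
    exact ⟨0, ⟨le_rfl, h⟩, ha⟩
  have hτeq : τ = T := by
    by_contra hne'
    have hlt : τ < T := lt_of_le_of_ne hτT hne'
    obtain ⟨_, g, hg, hga⟩ := hτS
    have hO : IsOpen {p | C.Good g p} := isOpen_iff_mem_nhds.2 fun p hp => C.eventually hp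
    obtain ⟨s, hs, hsO⟩ := husc τ ⟨hτ0, hlt⟩ _ hO hg
    have hsS : s ∈ S := ⟨⟨hτ0.trans hs.1.le, hs.2⟩, g, hsO, hga⟩
    exact absurd (le_csSup hbdd hsS) (not_le.2 hs.1)
  rw [hτeq] at hτS
  exact hτS.2

end Crest.Agent.R266G
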