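import Mathlib

/-!
# Row 266 G: the exhausting family of convex sets for the cross theorem

`Kset δ t = {max (‖z‖ + δ‖w‖, δ‖z‖ + ‖w‖) ≤ t}` and `Aset δ η t = Kset δ t + ` closed "Euclidean" ball of radius `η`
(for the norm `√(‖z‖² + ‖w‖²)`; no inner product is needed).
* convexity: `x ↦ ‖x‖²` is convex on a normed space (`‖a u + b u'‖² ≤ (a‖u‖ + b‖u'‖)² ≤ a‖u‖² + b‖u'‖²`).
* `Aset_usc`: `Aset δ η t` is compact (closed+bounded or continuous image of a compact set; finite dimension gives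
  `ProperSpace` by `FiniteDimensional.proper ℂ`), so a thickening lies in `O`
  (`IsCompact.exists_thickening_subset_open`); if `q ∈ Kset δ s`, `0 ≤ t < s` then `(t/s) • q ∈ Kset δ t` is at distance
  `≤ s - t` from `q` (as `‖q‖ ≤ s`), so every `p ∈ Aset δ η s` is within `s - t` of `p - q + (t/s) • q ∈ Aset δ η t`.
* `Aset_cases`: let `q ∈ Kset δ t`, `v = p - q`.  The open ball around `q` lies in `U`: for `x` in it,
  `(μ/t) • q ∈ Kset δ μ` and the distance condition holds for `μ` close to `t` by continuity.  So if `|v| < η`, `p ∈ U`.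
  If `|v| = η`, `v.2 = 0` and `q.2 ≠ 0`: take `σ ∈ (0,1]` with `σ‖q.2‖ < δη`, `τ = σ²‖q.2‖²/η² < 1`,
  `q'' = (q.1 + τ v.1, (1 - σ) q.2)`.  Then `‖p.1 - q''.1‖² + ‖p.2 - q''.2‖² = (1-τ)²η² + τη² ≤ η²` and
  `q'' ∈ Kset δ s` with `s = t - (δσ‖q.2‖ - τη) < t` (and `0 ≤ s` since `Kset δ s` is nonempty), so `p ∈ U`.
  If `v.2 = 0` and `q.2 = 0` then `p.2 = 0`.  Symmetrically for `v.1 = 0`.
-/

set_option autoImplicit false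
open scoped Topology
open Set Filter Metric

namespace Crest.Agent.R266G

variable {G₁ G₂ : Type} [NormedAddCommGroup G₁] [NormedSpace ℂ G₁] [NormedAddCommGroup G₂]
  [NormedSpace ℂ G₂]

variable (G₁ G₂) in
def Kset (δ t : ℝ) : Set (G₁ × G₂) := {q | ‖q.1‖ + δ * ‖q.2‖ ≤ t ∧ δ * ‖q.1‖ + ‖q.2‖ ≤ t}

variable (G₁ G₂) in
def Aset (δ η t : ℝ) : Set (G₁ × G₂) :=
  {p | ∃ q ∈ Kset G₁ G₂ δ t, ‖p.1 - q.1‖ ^ 2 + ‖p.2 - q.2‖ ^ 2 ≤ η ^ 2}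

variable {δ η : ℝ}

theorem geo_norm_comb {G : Type} [NormedAddCommGroup G] [NormedSpace ℂ G] {a b : ℝ} (ha : 0 ≤ a)
    (hb : 0 ≤ b) (u v : G) : ‖a • u + b • v‖ ≤ a * ‖u‖ + b * ‖v‖ := by
  refine (norm_add_le _ _).trans (le_of_eq ?_)
  rw [norm_smul, norm_smul, Real.norm_of_nonneg ha, Real.norm_of_nonneg hb]

theorem geo_sq_comb {G : Type} [NormedAddCommGroup G] [NormedSpace ℂ G] {a b : ℝ} (ha : 0 ≤ a)
    (hb : 0 ≤ b) (hab : a + b = 1) (u v : G) :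
    ‖a • u + b • v‖ ^ 2 ≤ a * ‖u‖ ^ 2 + b * ‖v‖ ^ 2 := by
  have h1 := geo_norm_comb ha hb u v
  have h2 : ‖a • u + b • v‖ ^ 2 ≤ (a * ‖u‖ + b * ‖v‖) ^ 2 := pow_le_pow_left₀ (norm_nonneg _) h1 2
  have h3 : a * ‖u‖ ^ 2 + b * ‖v‖ ^ 2 - (a * ‖u‖ + b * ‖v‖) ^ 2 = a * b * (‖u‖ - ‖v‖) ^ 2 := by
    obtain rfl : b = 1 - a := by linarith
    ring
  have h4 : 0 ≤ a * b * (‖u‖ - ‖v‖) ^ 2 := by positivity
  linarith

theorem geo_K_smul {t τ : ℝ} {q : G₁ × G₂} (hq : q ∈ Kset G₁ G₂ δ t) (h0 : 0 ≤ τ) :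
    τ • q ∈ Kset G₁ G₂ δ (τ * t) := by
  obtain ⟨h1, h2⟩ := hq
  have e1 : ‖(τ • q).1‖ = τ * ‖q.1‖ := by
    rw [Prod.smul_fst, norm_smul, Real.norm_of_nonneg h0]
  have e2 : ‖(τ • q).2‖ = τ * ‖q.2‖ := by
    rw [Prod.smul_snd, norm_smul, Real.norm_of_nonneg h0]
  have a1 := mul_le_mul_of_nonneg_left h1 h0
  have a2 := mul_le_mul_of_nonneg_left h2 h0
  refine ⟨?_, ?_⟩
  · rw [e1, e2]; linarith
  · rw [e1, e2]; linarith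

theorem geo_K_norm (hδ : 0 < δ) {t : ℝ} {q : G₁ × G₂} (hq : q ∈ Kset G₁ G₂ δ t) : ‖q‖ ≤ t := by
  obtain ⟨h1, h2⟩ := hq
  have a1 := mul_nonneg hδ.le (norm_nonneg q.1)
  have a2 := mul_nonneg hδ.le (norm_nonneg q.2)
  rw [Prod.norm_def]
  exact max_le (by linarith) (by linarith)

theorem Aset_convex (hδ : 0 < δ) (t : ℝ) : Convex ℝ (Aset G₁ G₂ δ η t) := by
  rintro p ⟨q, ⟨hq1, hq2⟩, hpq⟩ p' ⟨q', ⟨hq1', hq2'⟩, hpq'⟩ a b ha hb hab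
  refine ⟨a • q + b • q', ?_, ?_⟩
  · have n1 : ‖(a • q + b • q').1‖ ≤ a * ‖q.1‖ + b * ‖q'.1‖ := geo_norm_comb ha hb q.1 q'.1
    have n2 : ‖(a • q + b • q').2‖ ≤ a * ‖q.2‖ + b * ‖q'.2‖ := geo_norm_comb ha hb q.2 q'.2
    have m1 := mul_le_mul_of_nonneg_left n1 hδ.le
    have m2 := mul_le_mul_of_nonneg_left n2 hδ.le
    have a1 := mul_le_mul_of_nonneg_left hq1 ha
    have a2 := mul_le_mul_of_nonneg_left hq2 ha
    have b1 := mul_le_mul_of_nonneg_left hq1' hb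
    have b2 := mul_le_mul_of_nonneg_left hq2' hb
    have ht : a * t + b * t = t := by rw [← add_mul, hab, one_mul]
    refine ⟨?_, ?_⟩
    · linarith
    · linarith
  · have e1 : (a • p + b • p').1 - (a • q + b • q').1 = a • (p.1 - q.1) + b • (p'.1 - q'.1) := by
      simp only [Prod.fst_add, Prod.smul_fst, smul_sub]; abel
    have e2 : (a • p + b • p').2 - (a • q + b • q').2 = a • (p.2 - q.2) + b • (p'.2 - q'.2) := by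
      simp only [Prod.snd_add, Prod.smul_snd, smul_sub]; abel
    rw [e1, e2]
    have s1 := geo_sq_comb ha hb hab (p.1 - q.1) (p'.1 - q'.1)
    have s2 := geo_sq_comb ha hb hab (p.2 - q.2) (p'.2 - q'.2)
    have a1 := mul_le_mul_of_nonneg_left hpq ha
    have b1 := mul_le_mul_of_nonneg_left hpq' hb
    have ht : a * η ^ 2 + b * η ^ 2 = η ^ 2 := by rw [← add_mul, hab, one_mul]
    linarith

theorem Aset_mono {s t : ℝ} (h : s ≤ t) : Aset G₁ G₂ δ η s ⊆ Aset G₁ G₂ δ η t := by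
  rintro p ⟨q, ⟨hq1, hq2⟩, hpq⟩
  exact ⟨q, ⟨hq1.trans h, hq2.trans h⟩, hpq⟩

theorem Aset_smul {t τ : ℝ} {p : G₁ × G₂} (hp : p ∈ Aset G₁ G₂ δ η t) (h0 : 0 ≤ τ) (h1 : τ ≤ 1) :
    τ • p ∈ Aset G₁ G₂ δ η (τ * t) := by
  obtain ⟨q, hq, hpq⟩ := hp
  refine ⟨τ • q, geo_K_smul hq h0, ?_⟩
  rw [Prod.smul_fst, Prod.smul_fst, Prod.smul_snd, Prod.smul_snd, ← smul_sub, ← smul_sub, norm_smul,
    norm_smul, Real.norm_of_nonneg h0, mul_pow, mul_pow, ← mul_add]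
  have h2 : τ ^ 2 ≤ 1 := pow_le_one₀ h0 h1
  calc _ ≤ 1 * η ^ 2 := mul_le_mul h2 hpq (by positivity) zero_le_one
    _ = _ := one_mul _

theorem Aset_smul_mem_iUnion {t τ : ℝ} (ht : 0 < t) {p : G₁ × G₂} (hp : p ∈ Aset G₁ G₂ δ η t)
    (hτ : τ ∈ Ico (0 : ℝ) 1) : τ • p ∈ ⋃ s ∈ Ico 0 t, Aset G₁ G₂ δ η s := by
  refine mem_biUnion (x := τ * t) ⟨mul_nonneg hτ.1 ht.le, ?_⟩ (Aset_smul hp hτ.1 hτ.2.le)
  nlinarith [hτ.2]

theorem Aset_dense {t : ℝ} (ht : 0 < t) :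
    Aset G₁ G₂ δ η t ⊆ closure (⋃ s ∈ Ico 0 t, Aset G₁ G₂ δ η s) := by
  intro p hp
  have h1 : Tendsto (fun τ : ℝ => τ • p) (𝓝[<] 1) (𝓝 p) := by
    have : Tendsto (fun τ : ℝ => τ • p) (𝓝 1) (𝓝 ((1 : ℝ) • p)) :=
      (continuous_id.smul continuous_const).tendsto 1
    rw [one_smul] at this
    exact this.mono_left nhdsWithin_le_nhds
  refine mem_closure_of_tendsto h1 ?_
  filter_upwards [Ico_mem_nhdsLT (zero_lt_one' ℝ)] with τ hτ using Aset_smul_mem_iUnion ht hp hτ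

theorem zero_mem_Aset : (0 : G₁ × G₂) ∈ Aset G₁ G₂ δ η 0 := by
  refine ⟨0, ⟨by simp, by simp⟩, ?_⟩
  simpa using sq_nonneg η

theorem Aset_norm_le (hδ : 0 < δ) (hη : 0 < η) {t : ℝ} {p : G₁ × G₂} (hp : p ∈ Aset G₁ G₂ δ η t) :
    ‖p‖ ≤ t + η := by
  obtain ⟨q, hq, hpq⟩ := hp
  have h1 := geo_K_norm hδ hq
  have a1 : ‖p.1 - q.1‖ ≤ η := by
    refine (pow_le_pow_iff_left₀ (norm_nonneg _) hη.le two_ne_zero).1 ?_
    linarith [sq_nonneg ‖p.2 - q.2‖]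
  have a2 : ‖p.2 - q.2‖ ≤ η := by
    refine (pow_le_pow_iff_left₀ (norm_nonneg _) hη.le two_ne_zero).1 ?_
    linarith [sq_nonneg ‖p.1 - q.1‖]
  have a3 : ‖p - q‖ ≤ η := by
    rw [Prod.norm_def]; exact max_le a1 a2
  calc ‖p‖ = ‖q + (p - q)‖ := by rw [add_sub_cancel]
    _ ≤ ‖q‖ + ‖p - q‖ := norm_add_le _ _
    _ ≤ t + η := add_le_add h1 a3

theorem closedBall_subset_Aset (hδ : 0 < δ) (m : ℝ) :
    closedBall (0 : G₁ × G₂) m ⊆ Aset G₁ G₂ δ η (m * (1 + δ)) := by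
  intro p hp
  rw [mem_closedBall_zero_iff] at hp
  have h1 : ‖p.1‖ ≤ m := (norm_fst_le p).trans hp
  have h2 : ‖p.2‖ ≤ m := (norm_snd_le p).trans hp
  have a1 := mul_le_mul_of_nonneg_left h1 hδ.le
  have a2 := mul_le_mul_of_nonneg_left h2 hδ.le
  refine ⟨p, ⟨by linarith, by linarith⟩, ?_⟩
  simpa using sq_nonneg η

theorem geo_compact [FiniteDimensional ℂ G₁] [FiniteDimensional ℂ G₂] (hδ : 0 < δ) (hη : 0 < η)
    (t : ℝ) : IsCompact (Aset G₁ G₂ δ η t) := by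
  have : ProperSpace (G₁ × G₂) := FiniteDimensional.proper ℂ _
  have hK : IsCompact (Kset G₁ G₂ δ t) := by
    refine (isCompact_closedBall (0 : G₁ × G₂) t).of_isClosed_subset ?_ fun q hq => ?_
    · have c1 : IsClosed {q : G₁ × G₂ | ‖q.1‖ + δ * ‖q.2‖ ≤ t} := isClosed_le (by fun_prop) continuous_const
      have c2 : IsClosed {q : G₁ × G₂ | δ * ‖q.1‖ + ‖q.2‖ ≤ t} := isClosed_le (by fun_prop) continuous_const
      exact c1.inter c2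
    · exact mem_closedBall_zero_iff.2 (geo_K_norm hδ hq)
  have hB : IsCompact {v : G₁ × G₂ | ‖v.1‖ ^ 2 + ‖v.2‖ ^ 2 ≤ η ^ 2} := by
    refine (isCompact_closedBall (0 : G₁ × G₂) (0 + η)).of_isClosed_subset
      (isClosed_le (by fun_prop) continuous_const) fun v hv => ?_
    refine mem_closedBall_zero_iff.2 (Aset_norm_le hδ hη ⟨0, ⟨by simp, by simp⟩, ?_⟩)
    simpa using hv
  have h := (hK.prod hB).image (f := fun x : (G₁ × G₂) × (G₁ × G₂) => x.1 + x.2) (by fun_prop)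
  convert h using 1
  ext p
  constructor
  · rintro ⟨q, hq, hpq⟩
    exact ⟨(q, p - q), ⟨hq, hpq⟩, by simp⟩
  · rintro ⟨⟨q, v⟩, ⟨hq, hv⟩, rfl⟩
    exact ⟨q, hq, by simpa using hv⟩

theorem Aset_usc [FiniteDimensional ℂ G₁] [FiniteDimensional ℂ G₂] (hδ : 0 < δ) (hη : 0 < η)
    {t T : ℝ} (ht : t ∈ Ico 0 T) {O : Set (G₁ × G₂)} (hO : IsOpen O)
    (h : Aset G₁ G₂ δ η t ⊆ O) : ∃ s ∈ Ioc t T, Aset G₁ G₂ δ η s ⊆ O := by
  obtain ⟨ε, hε, hO'⟩ := (geo_compact hδ hη t).exists_thickening_subset_open hO h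
  have hts : t < min T (t + ε / 2) := lt_min ht.2 (by linarith)
  refine ⟨min T (t + ε / 2), ⟨hts, min_le_left _ _⟩, ?_⟩
  have hs2 : min T (t + ε / 2) ≤ t + ε / 2 := min_le_right _ _
  generalize min T (t + ε / 2) = s at hts hs2
  have hs : 0 < s := lt_of_le_of_lt ht.1 hts
  rintro p ⟨q, hq, hpq⟩
  refine hO' (mem_thickening_iff.2 ⟨p - q + (t / s) • q, ⟨(t / s) • q, ?_, ?_⟩, ?_⟩)
  · have := geo_K_smul hq (div_nonneg ht.1 hs.le)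
    rwa [div_mul_cancel₀ _ hs.ne'] at this
  · simpa using hpq
  · have e : p - (p - q + (t / s) • q) = (1 - t / s) • q := by
      rw [sub_smul, one_smul]; abel
    have h1 : 0 ≤ 1 - t / s := by
      rw [sub_nonneg, div_le_one hs]; exact hts.le
    rw [dist_eq_norm, e, norm_smul, Real.norm_of_nonneg h1]
    have h2 := mul_le_mul_of_nonneg_left (geo_K_norm hδ hq) h1
    have h3 : (1 - t / s) * s = s - t := by field_simp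
    linarith

theorem geo_push (hδ : 0 < δ) (hδ1 : δ ≤ 1) (hη : 0 < η) {t : ℝ} {a x : G₁} {b : G₂} (hb : b ≠ 0)
    (h1 : ‖a‖ + δ * ‖b‖ ≤ t) (h2 : δ * ‖a‖ + ‖b‖ ≤ t) (hx : ‖x - a‖ ^ 2 = η ^ 2) :
    ∃ (a' : G₁) (b' : G₂), ∃ s ∈ Ico 0 t, ‖a'‖ + δ * ‖b'‖ ≤ s ∧ δ * ‖a'‖ + ‖b'‖ ≤ s ∧
      ‖x - a'‖ ^ 2 + ‖b - b'‖ ^ 2 ≤ η ^ 2 := by
  have hn : 0 < ‖b‖ := norm_pos_iff.2 hb
  have hv : ‖x - a‖ = η := (pow_left_inj₀ (norm_nonneg _) hη.le two_ne_zero).1 hx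
  obtain ⟨σ, hσ0, hσ1, hσ⟩ : ∃ σ : ℝ, 0 < σ ∧ σ ≤ 1 ∧ σ * ‖b‖ < δ * η := by
    refine ⟨min 1 (δ * η / (2 * ‖b‖)), lt_min one_pos (by positivity), min_le_left _ _, ?_⟩
    have h3 := mul_le_mul_of_nonneg_right (min_le_right 1 (δ * η / (2 * ‖b‖))) hn.le
    have h4 : δ * η / (2 * ‖b‖) * ‖b‖ = δ * η / 2 := by field_simp
    have h5 : 0 < δ * η := by positivity
    linarith
  obtain ⟨ρ, hρ⟩ : ∃ ρ : ℝ, ρ = σ * ‖b‖ / η := ⟨_, rfl⟩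
  have hρ0 : 0 < ρ := by rw [hρ]; positivity
  have hρη : ρ * η = σ * ‖b‖ := by rw [hρ]; field_simp
  have hρδ : ρ < δ := by rw [hρ, div_lt_iff₀ hη]; exact hσ
  have hτ0 : 0 < ρ ^ 2 := by positivity
  have hτ1 : ρ ^ 2 ≤ 1 := pow_le_one₀ hρ0.le (by linarith)
  have na : ‖a + (ρ ^ 2) • (x - a)‖ ≤ ‖a‖ + ρ ^ 2 * η := by
    refine (norm_add_le _ _).trans (le_of_eq ?_)
    rw [norm_smul, Real.norm_of_nonneg hτ0.le, hv]
  have nb : ‖(1 - σ) • b‖ = ‖b‖ - ρ * η := by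
    rw [norm_smul, Real.norm_of_nonneg (by linarith), hρη]; ring
  have hgap : ρ ^ 2 * η < δ * (ρ * η) := by
    have : 0 < (δ - ρ) * (ρ * η) := mul_pos (by linarith) (by positivity)
    nlinarith
  have k1 : ‖a + (ρ ^ 2) • (x - a)‖ + δ * ‖(1 - σ) • b‖ ≤ t - (δ * (ρ * η) - ρ ^ 2 * η) := by
    rw [nb]; linarith
  have k2 : δ * ‖a + (ρ ^ 2) • (x - a)‖ + ‖(1 - σ) • b‖ ≤ t - (δ * (ρ * η) - ρ ^ 2 * η) := by
    rw [nb]
    have c1 := mul_le_mul_of_nonneg_left na hδ.le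
    have c2 : δ * (ρ ^ 2 * η) ≤ 1 * (ρ ^ 2 * η) := mul_le_mul_of_nonneg_right hδ1 (by positivity)
    have c3 : δ * (ρ * η) ≤ 1 * (ρ * η) := mul_le_mul_of_nonneg_right hδ1 (by positivity)
    linarith
  refine ⟨a + (ρ ^ 2) • (x - a), (1 - σ) • b, t - (δ * (ρ * η) - ρ ^ 2 * η),
    ⟨le_trans (by positivity) k1, by linarith⟩, k1, k2, ?_⟩
  have e1 : x - (a + (ρ ^ 2) • (x - a)) = (1 - ρ ^ 2) • (x - a) := by
    rw [sub_smul, one_smul]; abel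
  have e2 : b - (1 - σ) • b = σ • b := by
    rw [sub_smul, one_smul]; abel
  rw [e1, e2, norm_smul, norm_smul, Real.norm_of_nonneg (by linarith), Real.norm_of_nonneg hσ0.le, hv,
    ← hρη]
  have : 0 ≤ ρ ^ 2 * (1 - ρ ^ 2) * η ^ 2 := mul_nonneg (mul_nonneg hτ0.le (by linarith)) (sq_nonneg _)
  nlinarith

theorem geo_ball {t : ℝ} (ht : 0 < t) {q x : G₁ × G₂} (hq : q ∈ Kset G₁ G₂ δ t)
    (hx : ‖x.1 - q.1‖ ^ 2 + ‖x.2 - q.2‖ ^ 2 < η ^ 2) : x ∈ ⋃ s ∈ Ico 0 t, Aset G₁ G₂ δ η s := by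
  have hc : Continuous fun τ : ℝ => ‖x.1 - (τ • q).1‖ ^ 2 + ‖x.2 - (τ • q).2‖ ^ 2 := by fun_prop
  have h1 : ∀ᶠ τ : ℝ in 𝓝 1, ‖x.1 - (τ • q).1‖ ^ 2 + ‖x.2 - (τ • q).2‖ ^ 2 < η ^ 2 :=
    hc.continuousAt.eventually_lt continuousAt_const (by simpa using hx)
  have h2 : ∀ᶠ τ : ℝ in 𝓝[<] 1, τ ∈ Ico (0 : ℝ) 1 := Ico_mem_nhdsLT zero_lt_one
  obtain ⟨τ, h3, h4⟩ := ((h1.filter_mono nhdsWithin_le_nhds).and h2).exists
  refine mem_biUnion (x := τ * t) ⟨mul_nonneg h4.1 ht.le, ?_⟩ ⟨τ • q, geo_K_smul hq h4.1, h3.le⟩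
  nlinarith [h4.2]

theorem Aset_cases (hδ : 0 < δ) (hδ1 : δ ≤ 1) (hη : 0 < η) {t : ℝ} (ht : 0 < t) {p : G₁ × G₂}
    (hp : p ∈ Aset G₁ G₂ δ η t) :
    p ∈ (⋃ s ∈ Ico 0 t, Aset G₁ G₂ δ η s) ∨ p.2 = 0 ∨ p.1 = 0 ∨
      ∃ q : G₁ × G₂, (∀ x : G₁ × G₂, ‖x.1 - q.1‖ ^ 2 + ‖x.2 - q.2‖ ^ 2 < η ^ 2 →
          x ∈ ⋃ s ∈ Ico 0 t, Aset G₁ G₂ δ η s) ∧
        ‖p.1 - q.1‖ ^ 2 + ‖p.2 - q.2‖ ^ 2 = η ^ 2 ∧ p.1 ≠ q.1 ∧ p.2 ≠ q.2 := by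
  obtain ⟨q, hq, hpq⟩ := hp
  rcases hpq.lt_or_eq with hlt | heq
  · exact Or.inl (geo_ball ht hq hlt)
  by_cases h2 : p.2 = q.2
  · by_cases hb : q.2 = 0
    · exact Or.inr (Or.inl (h2.trans hb))
    · obtain ⟨a', b', s, hs, k1, k2, k3⟩ := geo_push hδ hδ1 hη (x := p.1) hb hq.1 hq.2
        (by simpa [h2] using heq)
      exact Or.inl (mem_biUnion hs ⟨(a', b'), ⟨k1, k2⟩, by rw [h2]; exact k3⟩)
  by_cases h1 : p.1 = q.1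
  · by_cases hb : q.1 = 0
    · exact Or.inr (Or.inr (Or.inl (h1.trans hb)))
    · obtain ⟨a', b', s, hs, k1, k2, k3⟩ := geo_push hδ hδ1 hη (t := t) (a := q.2) (x := p.2) hb
        (by linarith [hq.2]) (by linarith [hq.1]) (by simpa [h1] using heq)
      refine Or.inl (mem_biUnion hs ⟨(b', a'), ⟨?_, ?_⟩, ?_⟩)
      · show ‖b'‖ + δ * ‖a'‖ ≤ s
        linarith
      · show δ * ‖b'‖ + ‖a'‖ ≤ s
        linarith
      · show ‖p.1 - b'‖ ^ 2 + ‖p.2 - a'‖ ^ 2 ≤ η ^ 2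
        rw [h1]; linarith
  exact Or.inr (Or.inr (Or.inr ⟨q, fun x hx => geo_ball ht hq hx, heq, h1, h2⟩))

end Crest.Agent.R266G
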