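import Crest.Agent.R266.GReg
import Crest.Agent.R266.GGeo
import Crest.Agent.R266.GCont

/-!
# Row 266 G: the cross theorem on closed balls

`Φ₀ q = br (α 0) (α q.1) (v q.2)` is `ProdAt` at `0` (`prodAt_br`; `v 0 = α 0`), hence on some `ball 0 η₀`;
`Φ₀ (z, 0) = α z` for `z` near `0` (horizontality in the chart at `α 0`), `Φ₀ (0, w) = v w` near `0`: `cross_init`.

`cross_closedBall`: choose `0 < δ ≤ 1`, `0 < η < η₀` with `m (1 + δ) + η < 1`, `T = m (1 + δ)` and apply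
`GermClass.continuity_method` to `prodClass`, `A t = Aset δ η t`, `a = 0` (all geometric hypotheses are in `GGeo`;
`Aset δ η 0 ⊆ ball 0 η₀` by `Aset_norm_le`).  Step: `p ∈ Aset δ η t`, `‖p‖ < 1`; by `Aset_cases`:
`p ∈ U` (then `Reg` with `Θ = f`, using `eventually`), `p.2 = 0` (`reg_axis₁`: `τ • p ∈ U` by
`Aset_smul_mem_iUnion`; `z ↦ f (z, 0)` and `α` are holomorphic at every point of the preconnected set
`(fun τ => τ • p.1) '' Ico 0 1` and agree near `0`, so `hol_eq_of_preconnected` gives `hfα`), `p.1 = 0`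
(`reg_axis₂`), or `reg_mixed`.
-/

set_option autoImplicit false
open scoped Manifold ContDiff Topology
open Set Filter Metric
open Crest.AlgGeometry.HolSplit

namespace Crest.Agent.R266G

namespace PAtlas

variable {n n₁ n₂ : ℕ} {M : Type} [TopologicalSpace M] [ChartedSpace (Model n) M]
  [IsManifold (mI n) ω M] [T2Space M] {A : PAtlas n n₁ n₂ M}
  {G₁ G₂ : Type} [NormedAddCommGroup G₁] [NormedSpace ℂ G₁] [NormedAddCommGroup G₂]
  [NormedSpace ℂ G₂]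

theorem cross_init {α : G₁ → M} {v : G₂ → M} (hα : A.HorAt α 0) (hv : A.VerAt v 0)
    (h0 : α 0 = v 0) : ∃ Φ₀ : G₁ × G₂ → M, A.ProdAt Φ₀ 0 ∧ (∀ᶠ z in 𝓝 (0 : G₁), Φ₀ (z, 0) = α z) ∧
      ∀ᶠ w in 𝓝 (0 : G₂), Φ₀ (0, w) = v w := by
  have hs : α 0 ∈ (A.e (α 0)).source := A.mem _
  have hs' : v 0 ∈ (A.e (α 0)).source := h0 ▸ hs
  refine ⟨fun q => A.br (α 0) (α q.1) (v q.2), ?_, ?_, ?_⟩
  · refine prodAt_br (z := 0) (w := 0) hα.1 hv.1 hs hs' ?_
    rw [← h0]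
    exact (A.e (α 0)).map_source hs
  · filter_upwards [hα.2, hα.1.continuousAt.eventually ((A.e (α 0)).open_source.mem_nhds hs)]
      with z hz hz'
    change (A.e (α 0)).symm ((A.e (α 0) (α z)).1, (A.e (α 0) (v 0)).2) = α z
    rw [← h0, ← hz]
    exact (A.e (α 0)).left_inv hz'
  · filter_upwards [hv.chart hs', hv.1.continuousAt.eventually
      ((A.e (α 0)).open_source.mem_nhds hs')] with w hw hw'
    change (A.e (α 0)).symm ((A.e (α 0) (α 0)).1, (A.e (α 0) (v w)).2) = v w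
    have e : (A.e (α 0) (α 0)).1 = (A.e (α 0) (v w)).1 := by rw [hw, ← h0]
    rw [e]
    exact (A.e (α 0)).left_inv hw'

omit [NormedAddCommGroup G₂] [NormedSpace ℂ G₂] in
theorem GCross_ray {f g : G₁ → M} {z₁ : G₁}
    (hf : ∀ τ ∈ Ico (0 : ℝ) 1, HolAt n f (τ • z₁)) (hg : ∀ τ ∈ Ico (0 : ℝ) 1, HolAt n g (τ • z₁))
    (h : f =ᶠ[𝓝 0] g) : ∀ τ ∈ Ico (0 : ℝ) 1, f =ᶠ[𝓝 (τ • z₁)] g := by
  have hB : IsPreconnected ((fun τ : ℝ => τ • z₁) '' Ico 0 1) :=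
    isPreconnected_Ico.image _ (continuous_id.smul continuous_const).continuousOn
  have key := hol_eq_of_preconnected (n := n) (G := G₁) hB (f := f) (g := g)
    (by rintro _ ⟨τ, hτ, rfl⟩; exact hf τ hτ) (by rintro _ ⟨τ, hτ, rfl⟩; exact hg τ hτ)
    (a := 0) ⟨0, ⟨le_rfl, zero_lt_one⟩, zero_smul _ _⟩ h
  exact fun τ hτ => key _ ⟨τ, hτ, rfl⟩

theorem GCross_ball {G : Type} [NormedAddCommGroup G] [NormedSpace ℂ G] {z : G} (hz : ‖z‖ < 1)
    {τ : ℝ} (hτ : τ ∈ Ico (0 : ℝ) 1) : τ • z ∈ ball (0 : G) 1 := by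
  rw [mem_ball_zero_iff, norm_smul, Real.norm_of_nonneg hτ.1]
  nlinarith [hτ.1, hτ.2, norm_nonneg z]

theorem cross_closedBall [FiniteDimensional ℂ G₁] [FiniteDimensional ℂ G₂] (hT : A.Touch)
    {α : G₁ → M} {v : G₂ → M} (hα : ∀ z ∈ ball (0 : G₁) 1, A.HorAt α z)
    (hv : ∀ w ∈ ball (0 : G₂) 1, A.VerAt v w) {Φ₀ : G₁ × G₂ → M} (h₀ : A.ProdAt Φ₀ 0)
    (h₁ : ∀ᶠ z in 𝓝 (0 : G₁), Φ₀ (z, 0) = α z) (h₂ : ∀ᶠ w in 𝓝 (0 : G₂), Φ₀ (0, w) = v w)
    {m : ℝ} (hm0 : 0 ≤ m) (hm : m < 1) :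
    ∃ Φ : G₁ × G₂ → M, (∀ p ∈ closedBall (0 : G₁ × G₂) m, A.ProdAt Φ p) ∧ Φ =ᶠ[𝓝 0] Φ₀ := by
  obtain ⟨η₀, hη₀, hball⟩ := Metric.eventually_nhds_iff_ball.1 h₀.eventually
  set δ : ℝ := (1 - m) / 2 with hδdef
  have hδ : 0 < δ := by rw [hδdef]; linarith
  have hδ1 : δ ≤ 1 := by rw [hδdef]; linarith
  have hT1 : m * (1 + δ) < 1 := by rw [hδdef]; nlinarith
  set η : ℝ := min (η₀ / 2) ((1 - m * (1 + δ)) / 2) with hηdef
  have hη : 0 < η := lt_min (by linarith) (by linarith)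
  have hηη₀ : η < η₀ := (min_le_left _ _).trans_lt (by linarith)
  have hη1 : m * (1 + δ) + η < 1 := by
    have := min_le_right (η₀ / 2) ((1 - m * (1 + δ)) / 2)
    linarith
  have hT0 : 0 ≤ m * (1 + δ) := by positivity
  obtain ⟨Φ, hΦ, hΦ₀⟩ := (A.prodClass G₁ G₂).continuity_method (Aset G₁ G₂ δ η) hT0
    (fun t _ => Aset_convex hδ t) (fun s t _ hst _ => Aset_mono hst)
    (fun t ht O hO h => Aset_usc hδ hη ht hO h) (fun t ht => Aset_dense ht.1)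
    (f₀ := Φ₀) (a := 0) zero_mem_Aset
    (fun p hp => hball p (by
      have := Aset_norm_le hδ hη hp
      rw [mem_ball_zero_iff]; linarith))
    (by
      intro t ht f hf hf₀ p hp
      have hf' : ∀ q ∈ ⋃ s ∈ Ico 0 t, Aset G₁ G₂ δ η s, A.ProdAt f q := hf
      have hp1 : ‖p‖ < 1 := by
        have := Aset_norm_le hδ hη hp
        linarith [ht.2]
      rcases Aset_cases hδ hδ1 hη ht.1 hp with hU | h2 | h1 | ⟨q, hB, hq, hq₁, hq₂⟩
      · obtain ⟨ε, hε, hb⟩ := Metric.eventually_nhds_iff_ball.1 (hf' p hU).eventually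
        exact ⟨f, ε, hε, hb, p, mem_ball_self hε, hU, EventuallyEq.rfl⟩
      · obtain ⟨z₁, w₁⟩ := p
        obtain rfl : w₁ = 0 := h2
        have hz : ‖z₁‖ < 1 := (norm_fst_le (z₁, (0 : G₂))).trans_lt hp1
        have hU : ∀ τ ∈ Ico (0 : ℝ) 1,
            (τ • z₁, (0 : G₂)) ∈ ⋃ s ∈ Ico 0 t, Aset G₁ G₂ δ η s := by
          intro τ hτ
          have := Aset_smul_mem_iUnion ht.1 hp hτ
          rwa [Prod.smul_mk, smul_zero] at this
        refine reg_axis₁ hf' hU (hα z₁ (mem_ball_zero_iff.2 hz)) ?_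
        refine GCross_ray (n := n) (f := fun z => f (z, 0)) (g := α)
          (fun τ hτ => (hf' _ (hU τ hτ)).horAt.1)
          (fun τ hτ => (hα _ (GCross_ball hz hτ)).1) ?_
        have t1 : Tendsto (fun z : G₁ => (z, (0 : G₂))) (𝓝 0) (𝓝 0) :=
          (continuous_id.prodMk continuous_const).tendsto' 0 0 rfl
        filter_upwards [t1.eventually hf₀, h₁] with z hz1 hz2 using hz1.trans hz2
      · obtain ⟨z₁, w₁⟩ := p
        obtain rfl : z₁ = 0 := h1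
        have hw : ‖w₁‖ < 1 := (norm_snd_le ((0 : G₁), w₁)).trans_lt hp1
        have hU : ∀ τ ∈ Ico (0 : ℝ) 1,
            ((0 : G₁), τ • w₁) ∈ ⋃ s ∈ Ico 0 t, Aset G₁ G₂ δ η s := by
          intro τ hτ
          have := Aset_smul_mem_iUnion ht.1 hp hτ
          rwa [Prod.smul_mk, smul_zero] at this
        refine reg_axis₂ hf' hU (hv w₁ (mem_ball_zero_iff.2 hw)) ?_
        refine GCross_ray (n := n) (f := fun w => f (0, w)) (g := v)
          (fun τ hτ => (hf' _ (hU τ hτ)).verAt.1)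
          (fun τ hτ => (hv _ (GCross_ball hw hτ)).1) ?_
        have t1 : Tendsto (fun w : G₂ => ((0 : G₁), w)) (𝓝 0) (𝓝 0) :=
          (continuous_const.prodMk continuous_id).tendsto' 0 0 rfl
        filter_upwards [t1.eventually hf₀, h₂] with z hz1 hz2 using hz1.trans hz2
      · exact reg_mixed hT hf' hB hq hq₁ hq₂)
  exact ⟨Φ, fun p hp => hΦ p (closedBall_subset_Aset hδ m hp), hΦ₀⟩

end PAtlas

end Crest.Agent.R266G
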