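import Crest.Agent.R266.GCross

/-!
# Row 266 G: the cross theorem and pushing

* `cross_unit`: `cross_init`, `cross_closedBall` for every `m ∈ Ico 0 1`, `glue_chain` over the chain
  `closedBall 0 m`; the axis identities by `hol_eq_of_preconnected` on `ball 0 1`
  (`ProdAt.horAt`, `ProdAt.verAt` give holomorphy of the restrictions).
* `cross`: apply `cross_unit` to `α (z₀ + R₁ • ·)`, `v (w₀ + R₂ • ·)` (`HorAt.comp`, `VerAt.comp`; use complex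
  scalars `(R₁ : ℂ)`) and substitute back with `ProdAt.comp`.
* `push`: `cross` with `v = Φ₁ (z₀, ·)` (`ProdAt.verAt`); `ProdAt.unique` gives `Φ =ᶠ Φ₁` at `(z₀, w₀)`, and
  `eq_of_preconnected` (for `prodClass`) along `{z₀} ×ˢ ball w₀ R` gives it at every `(z₀, w)`.
-/

set_option autoImplicit false
open scoped Manifold ContDiff Topology
open Set Filter Metric
open Crest.AlgGeometry.HolSplit

namespace Crest.Agent.R266G

namespace PAtlas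

variable {n n₁ n₂ : ℕ} {M : Type} [TopologicalSpace M] [ChartedSpace (Model n) M]
  [IsManifold (mI n) ω M] [T2Space M] {A : PAtlas n n₁ n₂ M}
  {G₁ G₂ : Type} [NormedAddCommGroup G₁] [NormedSpace ℂ G₁] [NormedAddCommGroup G₂]
  [NormedSpace ℂ G₂]

variable [FiniteDimensional ℂ G₁] [FiniteDimensional ℂ G₂]

theorem cross_unit (hT : A.Touch) {α : G₁ → M} {v : G₂ → M}
    (hα : ∀ z ∈ ball (0 : G₁) 1, A.HorAt α z) (hv : ∀ w ∈ ball (0 : G₂) 1, A.VerAt v w)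
    (h0 : α 0 = v 0) :
    ∃ Φ : G₁ × G₂ → M, (∀ z ∈ ball (0 : G₁) 1, ∀ w ∈ ball (0 : G₂) 1, A.ProdAt Φ (z, w)) ∧
      (∀ z ∈ ball (0 : G₁) 1, Φ (z, 0) = α z) ∧ ∀ w ∈ ball (0 : G₂) 1, Φ (0, w) = v w := by
  have h01 : (0 : G₁) ∈ ball (0 : G₁) 1 := mem_ball_self zero_lt_one
  have h02 : (0 : G₂) ∈ ball (0 : G₂) 1 := mem_ball_self zero_lt_one
  obtain ⟨Φ₀, hΦ₀, h₁, h₂⟩ := cross_init (hα 0 h01) (hv 0 h02) h0
  have hex : ∀ m : Ico (0 : ℝ) 1, ∃ Φ : G₁ × G₂ → M,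
      (∀ p ∈ closedBall (0 : G₁ × G₂) m.1, A.ProdAt Φ p) ∧ Φ =ᶠ[𝓝 0] Φ₀ :=
    fun m => cross_closedBall hT hα hv hΦ₀ h₁ h₂ m.2.1 m.2.2
  choose f hf hf₀ using hex
  obtain ⟨g, hg, hg₀⟩ := (A.prodClass G₁ G₂).glue_chain
    (fun m : Ico (0 : ℝ) 1 => closedBall (0 : G₁ × G₂) m.1) (fun m => convex_closedBall _ _)
    (fun i j => (le_total i.1 j.1).imp closedBall_subset_closedBall closedBall_subset_closedBall)
    (a := 0) (fun m => mem_closedBall_self m.2.1) f hf hf₀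
  have hP : ∀ z ∈ ball (0 : G₁) 1, ∀ w ∈ ball (0 : G₂) 1, A.ProdAt g (z, w) := by
    intro z hz w hw
    have hn : ‖((z, w) : G₁ × G₂)‖ < 1 := by
      rw [Prod.norm_def]
      exact max_lt (mem_ball_zero_iff.1 hz) (mem_ball_zero_iff.1 hw)
    exact hg ⟨‖((z, w) : G₁ × G₂)‖, norm_nonneg _, hn⟩ (z, w) (mem_closedBall_zero_iff.2 le_rfl)
  refine ⟨g, hP, ?_, ?_⟩
  · have t1 : Tendsto (fun z : G₁ => (z, (0 : G₂))) (𝓝 0) (𝓝 0) :=
      (continuous_id.prodMk continuous_const).tendsto' 0 0 rfl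
    have key := hol_eq_of_preconnected (n := n) (G := G₁) (convex_ball (0 : G₁) 1).isPreconnected
      (f := fun z => g (z, 0)) (g := α) (fun z hz => (hP z hz 0 h02).horAt.1)
      (fun z hz => (hα z hz).1) h01 (by
        filter_upwards [t1.eventually hg₀, h₁] with z hz1 hz2 using hz1.trans hz2)
    exact fun z hz => (key z hz).self_of_nhds
  · have t1 : Tendsto (fun w : G₂ => ((0 : G₁), w)) (𝓝 0) (𝓝 0) :=
      (continuous_const.prodMk continuous_id).tendsto' 0 0 rfl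
    have key := hol_eq_of_preconnected (n := n) (G := G₂) (convex_ball (0 : G₂) 1).isPreconnected
      (f := fun w => g (0, w)) (g := v) (fun w hw => (hP 0 h01 w hw).verAt.1)
      (fun w hw => (hv w hw).1) h02 (by
        filter_upwards [t1.eventually hg₀, h₂] with z hz1 hz2 using hz1.trans hz2)
    exact fun w hw => (key w hw).self_of_nhds

theorem GCross2_fwd {G : Type} [NormedAddCommGroup G] [NormedSpace ℂ G] {z₀ : G} {R : ℝ}
    (hR : 0 < R) {z : G} (hz : z ∈ ball (0 : G) 1) : z₀ + (R : ℂ) • z ∈ ball z₀ R := by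
  rw [mem_ball, dist_eq_norm, add_sub_cancel_left, norm_smul, Complex.norm_real,
    Real.norm_of_nonneg hR.le]
  have := mem_ball_zero_iff.1 hz
  nlinarith

theorem GCross2_bwd {G : Type} [NormedAddCommGroup G] [NormedSpace ℂ G] {z₀ : G} {R : ℝ}
    (hR : 0 < R) {z : G} (hz : z ∈ ball z₀ R) : (R : ℂ)⁻¹ • (z - z₀) ∈ ball (0 : G) 1 := by
  rw [mem_ball_zero_iff, norm_smul, norm_inv, Complex.norm_real, Real.norm_of_nonneg hR.le]
  rw [mem_ball, dist_eq_norm] at hz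
  rw [inv_mul_lt_iff₀ hR]
  linarith

theorem GCross2_inv {G : Type} [NormedAddCommGroup G] [NormedSpace ℂ G] (z₀ : G) {R : ℝ}
    (hR : 0 < R) (z : G) : z₀ + (R : ℂ) • ((R : ℂ)⁻¹ • (z - z₀)) = z := by
  have : (R : ℂ) ≠ 0 := by exact_mod_cast hR.ne'
  rw [smul_smul, mul_inv_cancel₀ this, one_smul, add_sub_cancel]

theorem cross (hT : A.Touch) {α : G₁ → M} {v : G₂ → M} {z₀ : G₁} {w₀ : G₂} {R₁ R₂ : ℝ}
    (hR₁ : 0 < R₁) (hR₂ : 0 < R₂) (hα : ∀ z ∈ ball z₀ R₁, A.HorAt α z)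
    (hv : ∀ w ∈ ball w₀ R₂, A.VerAt v w) (h0 : α z₀ = v w₀) :
    ∃ Φ : G₁ × G₂ → M, (∀ z ∈ ball z₀ R₁, ∀ w ∈ ball w₀ R₂, A.ProdAt Φ (z, w)) ∧
      (∀ z ∈ ball z₀ R₁, Φ (z, w₀) = α z) ∧ ∀ w ∈ ball w₀ R₂, Φ (z₀, w) = v w := by
  obtain ⟨Ψ, hΨ, h₁, h₂⟩ := cross_unit hT (α := fun z => α (z₀ + (R₁ : ℂ) • z))
    (v := fun w => v (w₀ + (R₂ : ℂ) • w))
    (fun z hz => HorAt.comp (a := fun z => z₀ + (R₁ : ℂ) • z) (hα _ (GCross2_fwd hR₁ hz))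
      (analyticAt_const.add (analyticAt_const.smul analyticAt_id)))
    (fun w hw => VerAt.comp (a := fun w => w₀ + (R₂ : ℂ) • w) (hv _ (GCross2_fwd hR₂ hw))
      (analyticAt_const.add (analyticAt_const.smul analyticAt_id)))
    (by simpa using h0)
  refine ⟨fun q => Ψ ((R₁ : ℂ)⁻¹ • (q.1 - z₀), (R₂ : ℂ)⁻¹ • (q.2 - w₀)), ?_, ?_, ?_⟩
  · intro z hz w hw
    exact ProdAt.comp (a := fun z => (R₁ : ℂ)⁻¹ • (z - z₀)) (b := fun w => (R₂ : ℂ)⁻¹ • (w - w₀))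
      (hΨ _ (GCross2_bwd hR₁ hz) _ (GCross2_bwd hR₂ hw))
      (analyticAt_const.smul (analyticAt_id.sub analyticAt_const))
      (analyticAt_const.smul (analyticAt_id.sub analyticAt_const))
  · intro z hz
    have := h₁ _ (GCross2_bwd hR₁ hz)
    simp only [sub_self, smul_zero]
    rw [this, GCross2_inv z₀ hR₁]
  · intro w hw
    have := h₂ _ (GCross2_bwd hR₂ hw)
    simp only [sub_self, smul_zero]
    rw [this, GCross2_inv w₀ hR₂]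

theorem push (hT : A.Touch) {α : G₁ → M} {Φ₁ : G₁ × G₂ → M} {z₀ : G₁} {w₀ : G₂} {r R : ℝ}
    (hr : 0 < r) (hR : 0 < R) (hα : ∀ z ∈ ball z₀ r, A.HorAt α z)
    (hΦ₁ : ∀ w ∈ ball w₀ R, A.ProdAt Φ₁ (z₀, w)) (h : ∀ᶠ z in 𝓝 z₀, Φ₁ (z, w₀) = α z) :
    ∃ Φ : G₁ × G₂ → M, (∀ z ∈ ball z₀ r, ∀ w ∈ ball w₀ R, A.ProdAt Φ (z, w)) ∧
      (∀ z ∈ ball z₀ r, Φ (z, w₀) = α z) ∧ ∀ w ∈ ball w₀ R, Φ =ᶠ[𝓝 (z₀, w)] Φ₁ := by
  have hz0 : z₀ ∈ ball z₀ r := mem_ball_self hr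
  have hw0 : w₀ ∈ ball w₀ R := mem_ball_self hR
  obtain ⟨Φ, hΦ, h₁, h₂⟩ := cross hT (α := α) (v := fun w => Φ₁ (z₀, w)) hr hR hα
    (fun w hw => (hΦ₁ w hw).verAt) h.self_of_nhds.symm
  refine ⟨Φ, hΦ, h₁, ?_⟩
  have h3 : Φ =ᶠ[𝓝 (z₀, w₀)] Φ₁ := by
    refine ProdAt.unique (hΦ z₀ hz0 w₀ hw0) (hΦ₁ w₀ hw0) ?_ ?_
    · filter_upwards [h, isOpen_ball.mem_nhds hz0] with z hz hz'
      exact (h₁ z hz').trans hz.symm
    · filter_upwards [isOpen_ball.mem_nhds hw0] with w hw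
      exact h₂ w hw
  have hB : IsPreconnected ((fun w : G₂ => ((z₀, w) : G₁ × G₂)) '' ball w₀ R) :=
    (convex_ball w₀ R).isPreconnected.image _
      (continuous_const.prodMk continuous_id).continuousOn
  have key := (A.prodClass G₁ G₂).eq_of_preconnected hB (f := Φ) (g := Φ₁)
    (by rintro _ ⟨w, hw, rfl⟩; exact hΦ z₀ hz0 w hw)
    (by rintro _ ⟨w, hw, rfl⟩; exact hΦ₁ w hw) (a := (z₀, w₀)) ⟨w₀, hw0, rfl⟩ h3
  exact fun w hw => key _ ⟨w, hw, rfl⟩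

end PAtlas

end Crest.Agent.R266G
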