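import Crest.Prelude.Def_TangentSplitting

/-!
# Row 266, part G (global part of S0405): definitions

* `GermClass G Y`: a class of "good" germs of maps `G → Y` with the identity property.
* `PAtlas n n₁ n₂ M`: an atlas of holomorphic product charts `M ⊇ U → F₁ × F₂` whose transition
  maps are locally products `(z, w) ↦ (a z, b w)`.
* `ProdAt`, `HorAt`, `VerAt`: product maps, horizontal maps, vertical maps into `M`.
* `Hcl`: the class of holonomy germs `M → M` generated from the chart retractions.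
-/

set_option autoImplicit false
open scoped Manifold ContDiff Topology
open Set Filter Metric
open Crest.AlgGeometry.HolSplit

namespace Crest.Agent.R266G

/-- A class of good germs of maps `G → Y`: depends only on the germ, is open, and satisfies the
local identity principle. -/
structure GermClass (G Y : Type*) [TopologicalSpace G] where
  Good : (G → Y) → G → Prop
  congr : ∀ {f g : G → Y} {p : G}, Good f p → f =ᶠ[𝓝 p] g → Good g p
  eventually : ∀ {f : G → Y} {p : G}, Good f p → ∀ᶠ q in 𝓝 p, Good f q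
  ident : ∀ {f g : G → Y} {p : G}, Good f p → Good g p → (∃ᶠ q in 𝓝 p, f =ᶠ[𝓝 q] g) →
    f =ᶠ[𝓝 p] g

/-- `p` is a regular point for `f` relative to `U`: some good map on a ball around `p` has the same
germ as `f` at a point of `U` in that ball. -/
def GermClass.Reg {G Y : Type*} [PseudoMetricSpace G] (C : GermClass G Y) (f : G → Y) (U : Set G)
    (p : G) : Prop :=
  ∃ (Θ : G → Y) (ε : ℝ), 0 < ε ∧ (∀ q ∈ ball p ε, C.Good Θ q) ∧
    ∃ q ∈ ball p ε, q ∈ U ∧ Θ =ᶠ[𝓝 q] f

/-- The model space of product charts (sup norm: balls are boxes, `ball_prod_same`). -/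
abbrev FF (n₁ n₂ : ℕ) : Type := Model n₁ × Model n₂

/-- Holomorphy at a point of a map from a complex normed space into the manifold. -/
abbrev HolAt (n : ℕ) {M : Type} [TopologicalSpace M] [ChartedSpace (Model n) M]
    {G : Type} [NormedAddCommGroup G] [NormedSpace ℂ G] (f : G → M) (p : G) : Prop :=
  ContMDiffAt 𝓘(ℂ, G) (mI n) ω f p

/-- An atlas of holomorphic product charts. -/
structure PAtlas (n n₁ n₂ : ℕ) (M : Type) [TopologicalSpace M] [ChartedSpace (Model n) M] where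
  e : M → OpenPartialHomeomorph M (FF n₁ n₂)
  mem : ∀ x, x ∈ (e x).source
  hol : ∀ x, ContMDiffOn (mI n) 𝓘(ℂ, FF n₁ n₂) ω (e x) (e x).source
  hol_symm : ∀ x, ContMDiffOn 𝓘(ℂ, FF n₁ n₂) (mI n) ω (e x).symm (e x).target
  compat : ∀ x y m, m ∈ (e x).source → m ∈ (e y).source →
    ∃ (a : Model n₁ → Model n₁) (b : Model n₂ → Model n₂),
      ∀ᶠ m' in 𝓝 m, e y m' = (a (e x m').1, b (e x m').2)

namespace PAtlas

variable {n n₁ n₂ : ℕ} {M : Type} [TopologicalSpace M] [ChartedSpace (Model n) M]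
  (A : PAtlas n n₁ n₂ M)

section
variable {G G₁ G₂ : Type} [NormedAddCommGroup G] [NormedSpace ℂ G]
  [NormedAddCommGroup G₁] [NormedSpace ℂ G₁] [NormedAddCommGroup G₂] [NormedSpace ℂ G₂]

/-- `Φ` is holomorphic at `p` and a product `(a z, b w)` in the product chart at `Φ p`. -/
def ProdAt (Φ : G₁ × G₂ → M) (p : G₁ × G₂) : Prop :=
  HolAt n Φ p ∧ ∃ (a : G₁ → Model n₁) (b : G₂ → Model n₂),
    ∀ᶠ q in 𝓝 p, A.e (Φ p) (Φ q) = (a q.1, b q.2)

/-- `α` is holomorphic at `z` and horizontal near `z`. -/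
def HorAt (α : G → M) (z : G) : Prop :=
  HolAt n α z ∧ ∀ᶠ q in 𝓝 z, (A.e (α z) (α q)).2 = (A.e (α z) (α z)).2

/-- `v` is holomorphic at `w` and vertical near `w`. -/
def VerAt (v : G → M) (w : G) : Prop :=
  HolAt n v w ∧ ∀ᶠ q in 𝓝 w, (A.e (v w) (v q)).1 = (A.e (v w) (v w)).1

end

/-- The bracket in the chart `e y`: horizontal coordinate of `m`, vertical coordinate of `m'`. -/
noncomputable def br (y m m' : M) : M := (A.e y).symm ((A.e y m).1, (A.e y m').2)

/-- The touching property: a product map on a Euclidean ball of `ℂ²` has a limit at every boundary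
point with both coordinates non zero. -/
def Touch : Prop :=
  ∀ (Φ : ℂ × ℂ → M) (η : ℝ) (p : ℂ × ℂ), ‖p.1‖ ^ 2 + ‖p.2‖ ^ 2 = η ^ 2 → p.1 ≠ 0 → p.2 ≠ 0 →
    (∀ q : ℂ × ℂ, ‖q.1‖ ^ 2 + ‖q.2‖ ^ 2 < η ^ 2 → A.ProdAt Φ q) →
    ∃ m : M, Tendsto Φ (𝓝[{q : ℂ × ℂ | ‖q.1‖ ^ 2 + ‖q.2‖ ^ 2 < η ^ 2}] p) (𝓝 m)

/-- Holonomy germs: generated from the chart retraction `m ↦ br x m x` by pushing along vertical
discs with product maps. -/
inductive Hcl : (M → M) → M → Prop
  | base (x : M) (α : M → M) (h : α =ᶠ[𝓝 x] fun m => A.br x m x) : Hcl α x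
  | step (x y : M) (α α' : M → M) (Φ : FF n₁ n₂ × FF n₁ n₂ → M) (w₀ w₁ : FF n₁ n₂) (R : ℝ)
      (hx : x ∈ (A.e y).source) (hw : w₁ ∈ ball w₀ R)
      (hΦ : ∀ w ∈ ball w₀ R, A.ProdAt Φ (A.e y x, w))
      (h₀ : α =ᶠ[𝓝 x] fun m => Φ (A.e y m, w₀)) (h₁ : α' =ᶠ[𝓝 x] fun m => Φ (A.e y m, w₁))
      (hα : Hcl α x) : Hcl α' x

/-- Exchange of the two factors. -/
noncomputable def swap : PAtlas n n₂ n₁ M where
  e x := (A.e x).transHomeomorph (Homeomorph.prodComm (Model n₁) (Model n₂))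
  mem x := A.mem x
  hol x := by
    have h : ContMDiff 𝓘(ℂ, FF n₁ n₂) 𝓘(ℂ, FF n₂ n₁) ω
        (ContinuousLinearEquiv.prodComm ℂ (Model n₁) (Model n₂)) :=
      (ContinuousLinearEquiv.prodComm ℂ (Model n₁) (Model n₂)).contDiff.contMDiff
    exact h.comp_contMDiffOn (A.hol x)
  hol_symm x := by
    have h : ContMDiff 𝓘(ℂ, FF n₂ n₁) 𝓘(ℂ, FF n₁ n₂) ω
        (ContinuousLinearEquiv.prodComm ℂ (Model n₂) (Model n₁)) :=
      (ContinuousLinearEquiv.prodComm ℂ (Model n₂) (Model n₁)).contDiff.contMDiff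
    exact (A.hol_symm x).comp h.contMDiffOn (fun u hu => hu)
  compat x y m hx hy := by
    obtain ⟨a, b, h⟩ := A.compat x y m hx hy
    refine ⟨b, a, h.mono fun m' hm' => ?_⟩
    change Prod.swap (A.e y m') = (b (A.e x m').2, a (A.e x m').1)
    rw [hm']; rfl

@[simp] theorem swap_e_apply (x m : M) : A.swap.e x m = ((A.e x m).2, (A.e x m).1) := rfl
@[simp] theorem swap_e_source (x : M) : (A.swap.e x).source = (A.e x).source := rfl
@[simp] theorem swap_e_symm (x : M) (u : FF n₂ n₁) :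
    (A.swap.e x).symm u = (A.e x).symm (u.2, u.1) := rfl
theorem swap_mem_target (x : M) (u : FF n₂ n₁) :
    u ∈ (A.swap.e x).target ↔ (u.2, u.1) ∈ (A.e x).target := Iff.rfl
theorem swap_br (y m m' : M) : A.swap.br y m m' = A.br y m' m := rfl

/-- A global bracket: holomorphic `β : M × M → M`, locally the chart bracket near the diagonal,
with the two absorption identities. -/
structure Bracket where
  β : M → M → M
  hol : ContMDiff ((mI n).prod (mI n)) (mI n) ω (fun q : M × M => β q.1 q.2)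
  loc : ∀ a : M, ∀ᶠ q : M × M in 𝓝 (a, a), β q.1 q.2 = A.br a q.1 q.2
  left : ∀ x y z, β (β x y) z = β x z
  right : ∀ x y z, β x (β y z) = β x z

end PAtlas

end Crest.Agent.R266G
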