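import Crest.Agent.R266.GSlice
import Crest.Agent.R266.GBracket

/-!
# Row 266 G: from the bracket to the product decomposition

Fix `x₀`.  `ρ₁ x = β x x₀`, `ρ₂ x = β x₀ x`, `Y_i = {m // ρ_i m = m}`; idempotent by `left`/`right`; `β x x = x` by `loc` and
`br_self`.  If `ρ₁ a = a` then `ρ₁ m = β m (β a x₀) = β m a = br a m a` near `a` (`right`, `loc`): `A.slice`.
For `ρ₂` use `A.swap.slice` (`swap_br`, `left`).  `Φ x = (⟨ρ₁ x, _⟩, ⟨ρ₂ x, _⟩)`, `Ψ (a, b) = β a b`.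
`Ψ (Φ x) = β (β x x₀) (β x₀ x) = β x (β x₀ x) = β x x = x`; `Φ (Ψ (a, b)) = (β a x₀, β x₀ b) = (a, b)`.
Derivative: `mfderiv Φ p v = (mfderiv ρ̂₁ p v, mfderiv ρ̂₂ p v)` (`MDifferentiableAt.mfderiv_prod` / `mfderiv_prodMk`);
`ρ̂₁ =ᶠ[𝓝 p] ρ̂₁ ∘ (br p · p)` because `β (β m p) x₀ = β m x₀` and `β m p = br p m p` near `p`: `A.kill`.
For `ρ̂₂` use `A.swap.kill`, with `(mfderiv (A.swap.e p) p v).1 = (mfderiv (A.e p) p v).2` (chain rule with the
continuous linear map `prodComm`).  Connectedness follows from simple connectedness (instances).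
-/

set_option autoImplicit false
open scoped Manifold ContDiff Topology
open Set Filter Metric
open Crest.AlgGeometry.HolSplit

namespace Crest.Agent.R266G

namespace PAtlas

variable {n n₁ n₂ : ℕ} {M : Type} [TopologicalSpace M] [ChartedSpace (Model n) M]
  [IsManifold (mI n) ω M] {A : PAtlas n n₁ n₂ M}

theorem GFinal_swap_mfderiv (A : PAtlas n n₁ n₂ M) (p : M) (v : TangentSpace (mI n) p) :
    (mfderiv (mI n) 𝓘(ℂ, FF n₂ n₁) (A.swap.e p) p v).1 =
      (mfderiv (mI n) 𝓘(ℂ, FF n₁ n₂) (A.e p) p v).2 := by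
  have h1 : MDifferentiableAt (mI n) 𝓘(ℂ, FF n₁ n₂) (A.e p) p :=
    ((A.hol p).contMDiffAt ((A.e p).open_source.mem_nhds (A.mem p))).mdifferentiableAt (by simp)
  let L : FF n₁ n₂ →L[ℂ] FF n₂ n₁ :=
    (ContinuousLinearEquiv.prodComm ℂ (Model n₁) (Model n₂) : FF n₁ n₂ →L[ℂ] FF n₂ n₁)
  have h2 : HasMFDerivAt (mI n) 𝓘(ℂ, FF n₂ n₁) (L ∘ A.e p) p
      (L.comp (mfderiv (mI n) 𝓘(ℂ, FF n₁ n₂) (A.e p) p)) :=
    (L.hasMFDerivAt (x := A.e p p)).comp p h1.hasMFDerivAt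
  have h3 : (A.swap.e p : M → FF n₂ n₁) = L ∘ A.e p := rfl
  rw [h3, h2.mfderiv]
  rfl

theorem product_of_bracket [SimplyConnectedSpace M] (B : A.Bracket) :
    ∃ (Y₁ : Type) (Y₂ : Type) (_ : TopologicalSpace Y₁) (_ : TopologicalSpace Y₂)
      (_ : ChartedSpace (Model n₁) Y₁) (_ : ChartedSpace (Model n₂) Y₂)
      (_ : IsManifold (mI n₁) ω Y₁) (_ : IsManifold (mI n₂) ω Y₂),
      ConnectedSpace Y₁ ∧ ConnectedSpace Y₂ ∧ SimplyConnectedSpace Y₁ ∧ SimplyConnectedSpace Y₂ ∧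
      ∃ (Φ : M → Y₁ × Y₂) (Ψ : Y₁ × Y₂ → M),
        (∀ p, Ψ (Φ p) = p) ∧ (∀ q, Φ (Ψ q) = q) ∧
        ContMDiff (mI n) ((mI n₁).prod (mI n₂)) ω Φ ∧
        ContMDiff ((mI n₁).prod (mI n₂)) (mI n) ω Ψ ∧
        ∀ (p : M) (v : TangentSpace (mI n) p),
          ((mfderiv (mI n) 𝓘(ℂ, FF n₁ n₂) (A.e p) p v).2 = 0 →
            (mfderiv (mI n) ((mI n₁).prod (mI n₂)) Φ p v).2 = 0) ∧
          ((mfderiv (mI n) 𝓘(ℂ, FF n₁ n₂) (A.e p) p v).1 = 0 →
            (mfderiv (mI n) ((mI n₁).prod (mI n₂)) Φ p v).1 = 0) := by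
  classical
  obtain ⟨x₀⟩ : Nonempty M := inferInstance
  have hloc1 : ∀ a : M, ∀ᶠ m in 𝓝 a, B.β m a = A.br a m a := fun a => by
    have hc : Tendsto (fun m : M => (m, a)) (𝓝 a) (𝓝 (a, a)) :=
      (continuous_id.prodMk continuous_const).tendsto a
    exact hc.eventually (B.loc a)
  have hloc2 : ∀ a : M, ∀ᶠ m in 𝓝 a, B.β a m = A.br a a m := fun a => by
    have hc : Tendsto (fun m : M => (a, m)) (𝓝 a) (𝓝 (a, a)) :=
      (continuous_const.prodMk continuous_id).tendsto a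
    exact hc.eventually (B.loc a)
  have hself : ∀ x, B.β x x = x := fun x => by
    rw [(hloc1 x).self_of_nhds, A.br_self (A.mem x)]
  have h1 : ContMDiff (mI n) (mI n) ω (fun x => B.β x x₀) :=
    B.hol.comp (contMDiff_id.prodMk contMDiff_const)
  have h2 : ContMDiff (mI n) (mI n) ω (fun x => B.β x₀ x) :=
    B.hol.comp (contMDiff_const.prodMk contMDiff_id)
  have id1 : ∀ m, B.β (B.β m x₀) x₀ = B.β m x₀ := fun m => B.left _ _ _
  have id2 : ∀ m, B.β x₀ (B.β x₀ m) = B.β x₀ m := fun m => B.right _ _ _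
  obtain ⟨c₁, i₁, hv₁, hr₁⟩ := A.slice (ρ := fun x => B.β x x₀) h1 id1 (fun a ha => by
    filter_upwards [hloc1 a] with m hm
    rw [← hm]
    conv_rhs => rw [← ha]
    exact (B.right _ _ _).symm)
  obtain ⟨c₂, i₂, hv₂, hr₂⟩ := A.swap.slice (ρ := fun x => B.β x₀ x) h2 id2 (fun a ha => by
    filter_upwards [hloc2 a] with m hm
    rw [swap_br, ← hm]
    conv_rhs => rw [← ha]
    exact (B.left _ _ _).symm)
  have s₁ : SimplyConnectedSpace {m : M // B.β m x₀ = m} :=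
    retract_simplyConnected (ρ := fun x => B.β x x₀) h1.continuous id1
  have s₂ : SimplyConnectedSpace {m : M // B.β x₀ m = m} :=
    retract_simplyConnected (ρ := fun x => B.β x₀ x) h2.continuous id2
  refine ⟨{m : M // B.β m x₀ = m}, {m : M // B.β x₀ m = m}, inferInstance, inferInstance, c₁, c₂,
    i₁, i₂, inferInstance, inferInstance, s₁, s₂,
    fun x => (⟨B.β x x₀, id1 x⟩, ⟨B.β x₀ x, id2 x⟩), fun q => B.β q.1.1 q.2.1, fun p => ?_,
    fun q => ?_, hr₁.prodMk hr₂, ?_, fun p v => ?_⟩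
  · change B.β (B.β p x₀) (B.β x₀ p) = p
    rw [B.left, B.right, hself]
  · refine Prod.ext (Subtype.ext ?_) (Subtype.ext ?_)
    · change B.β (B.β q.1.1 q.2.1) x₀ = q.1.1
      rw [B.left]; exact q.1.2
    · change B.β x₀ (B.β q.1.1 q.2.1) = q.2.1
      rw [B.right]; exact q.2.2
  · exact B.hol.comp ((hv₁.comp contMDiff_fst).prodMk (hv₂.comp contMDiff_snd))
  · have d₁ := (hr₁ p).mdifferentiableAt (by simp)
    have d₂ := (hr₂ p).mdifferentiableAt (by simp)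
    rw [mfderiv_prodMk d₁ d₂]
    refine ⟨fun hv => ?_, fun hv => ?_⟩
    · refine A.swap.kill d₂ ?_ (by rw [GFinal_swap_mfderiv]; exact hv)
      filter_upwards [hloc2 p] with m hm
      refine Subtype.ext ?_
      change B.β x₀ m = B.β x₀ (A.swap.br p m p)
      rw [swap_br, ← hm, B.right]
    · refine A.kill d₁ ?_ hv
      filter_upwards [hloc1 p] with m hm
      refine Subtype.ext ?_
      change B.β m x₀ = B.β (A.br p m p) x₀
      rw [← hm, B.left]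

end PAtlas

end Crest.Agent.R266G
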