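import Crest.Agent.R266.GPicard

/-!
# Row 266 G: holomorphic Frobenius, step 1: the radial ODE

We solve `L (z, y) = y + ∫₀¹ P (L (s • z, y)) z ds` near `(0, y₀)`.
Take `r > 0`, `M` with `P` differentiable on `ball y₀ r`, `‖P y‖ ≤ M` and `‖P y - P y'‖ ≤ M ‖y - y'‖` there (shrink; `SCV` Cauchy
estimates or `ContDiffAt.exists_lipschitzOnWith`).  `ρ ≤ r / 4`, `M ρ ≤ min (1/2) (r/4)`, `U = ball (0, y₀) ρ`,
`T h (z, y) = ∫ s in 0..1, P (y + h (s • z, y)) z` on functions bounded by `r / 4` (`picard`; holomorphy by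
`differentiableOn_integral` with `O = {(s, (z, y)) | (s • z, y) ∈ U}`), `L u = u.2 + h u`.
Radial identity: for `u = (z, y) ∈ U` and real `t` near `1`, `(t • z, y) ∈ U` and
`L (t • z, y) = y + ∫ σ in 0..t, P (L (σ • z, y)) z` (substitution `intervalIntegral.smul_integral_comp_mul_right` etc.);
FTC (`intervalIntegral.integral_hasDerivAt_right`) and the chain rule give both values of the derivative at `t = 1`.
-/

set_option autoImplicit false
open scoped Topology
open Set Filter Metric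

namespace Crest.Agent.R266G

theorem GFrob1_mem {E : Type*} [NormedAddCommGroup E] [NormedSpace ℂ E] {y₀ : E} {ρ : ℝ}
    {u : E × E} (hu : u ∈ ball ((0 : E), y₀) ρ) {s : ℝ} (hs : s ∈ Icc (0 : ℝ) 1) :
    ((s : ℂ) • u.1, u.2) ∈ ball ((0 : E), y₀) ρ := by
  rw [← ball_prod_same] at hu ⊢
  refine ⟨?_, hu.2⟩
  have h1 : ‖u.1‖ < ρ := mem_ball_zero_iff.1 hu.1
  rw [mem_ball_zero_iff, norm_smul, Complex.norm_real, Real.norm_of_nonneg hs.1]
  nlinarith [hs.1, hs.2, norm_nonneg u.1]

theorem exists_radial {E : Type*} [NormedAddCommGroup E] [NormedSpace ℂ E] [FiniteDimensional ℂ E]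
    {P : E → E →L[ℂ] E} {y₀ : E} (hP : AnalyticAt ℂ P y₀) {W : Set E} (hW : W ∈ 𝓝 y₀) :
    ∃ ρ > 0, ∃ L : E × E → E, DifferentiableOn ℂ L (ball (0, y₀) ρ) ∧
      (∀ u ∈ ball ((0 : E), y₀) ρ, L u ∈ W) ∧ (∀ y ∈ ball y₀ ρ, L (0, y) = y) ∧
      ∀ u ∈ ball ((0 : E), y₀) ρ, fderiv ℂ L u (u.1, 0) = P (L u) u.1 := by
  have : CompleteSpace E := FiniteDimensional.complete ℂ E
  obtain ⟨K, t, ht, hK⟩ := (hP.contDiffAt (n := 1)).exists_lipschitzOnWith
  have hb : ∀ᶠ y in 𝓝 y₀, ‖P y‖ < ‖P y₀‖ + 1 :=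
    hP.continuousAt.norm.eventually (gt_mem_nhds (lt_add_one _))
  obtain ⟨r, hr, hball⟩ := Metric.eventually_nhds_iff_ball.1
    ((hP.eventually_analyticAt.and hb).and (Filter.inter_mem ht hW))
  set M : ℝ := K + ‖P y₀‖ + 1 with hM
  have hM0 : 0 < M := by positivity
  have hPd : ∀ y ∈ ball y₀ r, DifferentiableAt ℂ P y := fun y hy =>
    (hball y hy).1.1.differentiableAt
  have hPb : ∀ y ∈ ball y₀ r, ‖P y‖ ≤ M := fun y hy => by
    have := (hball y hy).1.2
    have := K.coe_nonneg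
    linarith
  have hPl : ∀ y ∈ ball y₀ r, ∀ y' ∈ ball y₀ r, ‖P y - P y'‖ ≤ M * ‖y - y'‖ := by
    intro y hy y' hy'
    have h1 := hK.dist_le_mul y (hball y hy).2.1 y' (hball y' hy').2.1
    rw [dist_eq_norm, dist_eq_norm] at h1
    refine h1.trans (mul_le_mul_of_nonneg_right ?_ (norm_nonneg _))
    have := norm_nonneg (P y₀)
    linarith
  set ρ : ℝ := min (r / 4) (min (1 / (2 * M)) (r / (4 * M))) with hρ
  have hρ0 : 0 < ρ := by positivity
  have hρ1 : ρ ≤ r / 4 := min_le_left _ _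
  have hρ2 : M * ρ ≤ 1 / 2 := by
    have h : ρ ≤ 1 / (2 * M) := (min_le_right _ _).trans (min_le_left _ _)
    calc M * ρ ≤ M * (1 / (2 * M)) := mul_le_mul_of_nonneg_left h hM0.le
      _ = 1 / 2 := by field_simp
  have hρ3 : M * ρ ≤ r / 4 := by
    have h : ρ ≤ r / (4 * M) := (min_le_right _ _).trans (min_le_right _ _)
    calc M * ρ ≤ M * (r / (4 * M)) := mul_le_mul_of_nonneg_left h hM0.le
      _ = r / 4 := by field_simp
  set U : Set (E × E) := ball ((0 : E), y₀) ρ with hU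
  have hU1 : ∀ u ∈ U, ‖u.1‖ < ρ := by
    intro u hu
    rw [hU, ← ball_prod_same] at hu
    exact mem_ball_zero_iff.1 hu.1
  have hU2 : ∀ u ∈ U, dist u.2 y₀ < ρ := by
    intro u hu
    rw [hU, ← ball_prod_same] at hu
    exact hu.2
  have hin : ∀ u ∈ U, ∀ x : E, ‖x‖ ≤ r / 4 → u.2 + x ∈ ball y₀ r := by
    intro u hu x hx
    have h1 := hU2 u hu
    rw [mem_ball, dist_eq_norm] at *
    calc ‖u.2 + x - y₀‖ = ‖(u.2 - y₀) + x‖ := by congr 1; abel
      _ ≤ ‖u.2 - y₀‖ + ‖x‖ := norm_add_le _ _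
      _ < r := by linarith
  set O : Set (ℂ × (E × E)) := {x | (x.1 • x.2.1, x.2.2) ∈ U} with hO
  have hφ : Differentiable ℂ (fun x : ℂ × (E × E) => (x.1 • x.2.1, x.2.2)) := by fun_prop
  have hOo : IsOpen O := isOpen_ball.preimage hφ.continuous
  have hUO : ∀ s ∈ Icc (0 : ℝ) 1, ∀ x ∈ U, ((s : ℂ), x) ∈ O := fun s hs x hx => GFrob1_mem hx hs
  let g : (E × E → E) → ℂ × (E × E) → E := fun h x =>
    P (x.2.2 + h (x.1 • x.2.1, x.2.2)) x.2.1
  have hg : ∀ h : E × E → E, DifferentiableOn ℂ h U → (∀ x ∈ U, ‖h x‖ ≤ r / 4) →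
      DifferentiableOn ℂ (g h) O := by
    intro h hh hb x hx
    have h1 : DifferentiableAt ℂ (fun x : ℂ × (E × E) => h (x.1 • x.2.1, x.2.2)) x :=
      (hh.differentiableAt (isOpen_ball.mem_nhds hx)).comp x (hφ x)
    have h2 : DifferentiableAt ℂ
        (fun x : ℂ × (E × E) => x.2.2 + h (x.1 • x.2.1, x.2.2)) x :=
      differentiableAt_snd.snd.add h1
    have h3 : DifferentiableAt ℂ
        (fun x : ℂ × (E × E) => P (x.2.2 + h (x.1 • x.2.1, x.2.2))) x :=
      (hPd _ (hin _ hx _ (hb _ hx))).comp x h2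
    exact (h3.clm_apply differentiableAt_snd.fst).differentiableWithinAt
  have hgc : ∀ h : E × E → E, DifferentiableOn ℂ h U → (∀ x ∈ U, ‖h x‖ ≤ r / 4) → ∀ u : E × E,
      ContinuousOn (fun s : ℝ => g h ((s : ℂ), u)) {s : ℝ | ((s : ℂ), u) ∈ O} := by
    intro h hh hb u
    exact (hg h hh hb).continuousOn.comp
      (Complex.continuous_ofReal.prodMk continuous_const).continuousOn (fun s hs => hs)
  have hgi : ∀ h : E × E → E, DifferentiableOn ℂ h U → (∀ x ∈ U, ‖h x‖ ≤ r / 4) → ∀ u ∈ U,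
      IntervalIntegrable (fun s : ℝ => g h ((s : ℂ), u)) MeasureTheory.volume 0 1 := by
    intro h hh hb u hu
    refine ((hgc h hh hb u).mono ?_).intervalIntegrable
    rw [uIcc_of_le zero_le_one]
    exact fun s hs => hUO s hs u hu
  obtain ⟨h, hh, hb, hfix⟩ := picard (U := U) isOpen_ball
    (fun h u => ∫ s in (0 : ℝ)..1, g h ((s : ℂ), u)) (ρ := r / 4) (by positivity)
    (by
      intro h hh hb
      refine ⟨differentiableOn_integral isOpen_ball hOo hUO (hg h hh hb), fun u hu => ?_⟩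
      have := intervalIntegral.norm_integral_le_of_norm_le_const (a := 0) (b := 1) (C := r / 4)
        (f := fun s : ℝ => g h ((s : ℂ), u)) (by
          intro s hs
          rw [uIoc_of_le zero_le_one] at hs
          have hm := hUO s ⟨hs.1.le, hs.2⟩ u hu
          refine ((P _).le_opNorm _).trans ?_
          refine le_trans ?_ hρ3
          exact mul_le_mul (hPb _ (hin _ hm _ (hb _ hm))) (hU1 u hu).le (norm_nonneg _) hM0.le)
      simpa using this)
    (by
      intro h h' hh hb hh' hb' ε hε u hu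
      have hε0 : 0 ≤ ε := (norm_nonneg _).trans (hε u hu)
      rw [← intervalIntegral.integral_sub (hgi h hh hb u hu) (hgi h' hh' hb' u hu)]
      have := intervalIntegral.norm_integral_le_of_norm_le_const (a := 0) (b := 1) (C := ε / 2)
        (f := fun s : ℝ => g h ((s : ℂ), u) - g h' ((s : ℂ), u)) (by
          intro s hs
          rw [uIoc_of_le zero_le_one] at hs
          have hm := hUO s ⟨hs.1.le, hs.2⟩ u hu
          have h1 := hPl _ (hin _ hm _ (hb _ hm)) _ (hin _ hm _ (hb' _ hm))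
          rw [add_sub_add_left_eq_sub] at h1
          have h2 := hε _ hm
          change ‖P _ u.1 - P _ u.1‖ ≤ ε / 2
          rw [← sub_apply]
          refine (ContinuousLinearMap.le_opNorm _ _).trans ?_
          calc _ ≤ (M * ε) * ρ :=
                mul_le_mul (h1.trans (mul_le_mul_of_nonneg_left h2 hM0.le)) (hU1 u hu).le
                  (norm_nonneg _) (by positivity)
            _ = (M * ρ) * ε := by ring
            _ ≤ (1 / 2) * ε := mul_le_mul_of_nonneg_right hρ2 hε0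
            _ = ε / 2 := by ring)
      simpa using this)
  have hL : DifferentiableOn ℂ (fun u : E × E => u.2 + h u) U :=
    differentiableOn_snd.add hh
  refine ⟨ρ, hρ0, fun u => u.2 + h u, hL, fun u hu => (hball _ (hin u hu _ (hb u hu))).2.2,
    fun y hy => ?_, fun u hu => ?_⟩
  · have hy' : ((0 : E), y) ∈ U := by
      rw [hU, ← ball_prod_same]
      exact ⟨mem_ball_self hρ0, hy⟩
    have := hfix _ hy'
    simp only [g, map_zero, intervalIntegral.integral_zero] at this
    simp only [← this, add_zero]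
  · obtain ⟨z, y⟩ := u
    have hJ : IsOpen {s : ℝ | ((s : ℂ), (z, y)) ∈ O} :=
      hOo.preimage (Complex.continuous_ofReal.prodMk continuous_const)
    have h1J : (1 : ℝ) ∈ {s : ℝ | ((s : ℂ), (z, y)) ∈ O} :=
      hUO 1 ⟨zero_le_one, le_rfl⟩ _ hu
    have hc := hgc h hh hb (z, y)
    have d1 : HasDerivAt (fun t : ℝ => y + ∫ σ in (0 : ℝ)..t, g h ((σ : ℂ), (z, y)))
        (g h (((1 : ℝ) : ℂ), (z, y))) 1 :=
      (intervalIntegral.integral_hasDerivAt_right (hgi h hh hb _ hu)
        (hc.stronglyMeasurableAtFilter hJ 1 h1J) (hc.continuousAt (hJ.mem_nhds h1J))).const_add y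
    have d2 : HasDerivAt (fun t : ℝ => (((t : ℂ) • z, y) : E × E)) (z, 0) 1 := by
      have := (Complex.ofRealCLM.hasDerivAt (x := (1 : ℝ))).smul_const z
      simp only [Complex.ofRealCLM_apply, Complex.ofReal_one, one_smul] at this
      exact this.prodMk (hasDerivAt_const _ _)
    have d3 : HasFDerivAt (fun u : E × E => u.2 + h u)
        (fderiv ℂ (fun u : E × E => u.2 + h u) (z, y)) ((((1 : ℝ) : ℂ) • z, y) : E × E) := by
      rw [Complex.ofReal_one, one_smul]
      exact (hL.differentiableAt (isOpen_ball.mem_nhds hu)).hasFDerivAt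
    have d4 := (d3.restrictScalars ℝ).comp_hasDerivAt (1 : ℝ) d2
    have heq : (fun t : ℝ => y + ∫ σ in (0 : ℝ)..t, g h ((σ : ℂ), (z, y))) =ᶠ[𝓝 1]
        ((fun u : E × E => u.2 + h u) ∘ fun t : ℝ => (((t : ℂ) • z, y) : E × E)) := by
      filter_upwards [hJ.mem_nhds h1J] with t ht
      have ht' : (((t : ℂ) • z, y) : E × E) ∈ U := ht
      have e1 := hfix _ ht'
      change y + _ = y + h _
      rw [← e1]
      congr 1
      have e2 := intervalIntegral.smul_integral_comp_mul_right (a := 0) (b := 1)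
        (fun σ : ℝ => g h ((σ : ℂ), (z, y))) t
      rw [zero_mul, one_mul] at e2
      rw [← e2, ← intervalIntegral.integral_smul]
      refine intervalIntegral.integral_congr fun s _ => ?_
      simp only [g, Complex.ofReal_mul, mul_smul]
      rw [map_smul]
      exact (Complex.coe_smul _ _).symm
    have := d4.unique (d1.congr_of_eventuallyEq heq.symm)
    simpa [g] using this

end Crest.Agent.R266G
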