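import Crest.Agent.R264.Osgood

/-!
# Row 266 G: holomorphic Frobenius, step 2: the radial solution is tangent to the distribution

`L` is analytic on the ball (`SCV.analyticOnNhd`), so `C²` with symmetric second derivative
(`ContDiffAt.isSymmSndFDerivAt`).  Differentiating `hrad` (valid on the open ball) in the direction `(a, 0)`:
(RAD') `D²L(u)((a,0),(u.1,0)) + DL(u)(a,0) = (dP (L u) (DL(u)(a,0))) u.1 + P (L u) a`.
At `u = (0, y)` this gives `DL(0,y)(a,0) = P y a` (`radial_fderiv_zero`).  Fix `u = (z, y)`, `a`; for real `t ∈ [0,1]` put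
`γ t = L (t • z, y)`, `k t = t • DL(t • z, y)(a, 0)`, `c t = k t - P (γ t) (k t)`.  Then `γ' = P γ z` (for `t ≠ 0` from `hrad`
at `(t • z, y)`, for `t = 0` from `radial_fderiv_zero`), `k' = (dP·k) z + P a` by (RAD') at `(t • z, y)` and symmetry.
Differentiating `P (P v) = P v` on the open set `W`: `(dP·ξ) (P v) + P ((dP·ξ) v) = (dP·ξ) v`.  Hence
`c' = k' - (dP·γ') k - P k' = (dP·k) γ' - (dP·γ') k = (dP·c) γ' - (dP·γ') c` where the `P k` part vanishes by `hint`
(`P γ' = γ'`, `P (P k) = P k`).  So `‖c'‖ ≤ K ‖c‖` on `[0,1]` (continuity on a compact interval) and `c 0 = 0`; Gronwall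
(`eq_zero_of_abs_deriv_le_mul_abs_self_of_eq_zero_right` or `norm_le_gronwallBound_of_norm_deriv_right_le`) gives `c 1 = 0`.
-/

set_option autoImplicit false
open scoped Topology
open Set Filter Metric

namespace Crest.Agent.R266G

variable {E : Type*} [NormedAddCommGroup E] [NormedSpace ℂ E] [FiniteDimensional ℂ E]
  {P : E → E →L[ℂ] E} {y₀ : E} {W : Set E} {ρ : ℝ} {L : E × E → E}

theorem GFrob2_rad (hP : ∀ y ∈ W, AnalyticAt ℂ P y)
    (hL : DifferentiableOn ℂ L (ball (0, y₀) ρ)) (hLW : ∀ u ∈ ball ((0 : E), y₀) ρ, L u ∈ W)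
    (hrad : ∀ u ∈ ball ((0 : E), y₀) ρ, fderiv ℂ L u (u.1, 0) = P (L u) u.1)
    {u : E × E} (hu : u ∈ ball ((0 : E), y₀) ρ) (ξ : E × E) :
    fderiv ℂ (fderiv ℂ L) u ξ (u.1, 0) + fderiv ℂ L u (ξ.1, 0) =
      fderiv ℂ P (L u) (fderiv ℂ L u ξ) u.1 + P (L u) ξ.1 := by
  have : CompleteSpace E := FiniteDimensional.complete ℂ E
  have hA := Crest.Agent.R264.SCV.analyticOnNhd isOpen_ball hL
  have hLu : HasFDerivAt L (fderiv ℂ L u) u := (hA u hu).differentiableAt.hasFDerivAt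
  have hD : HasFDerivAt (fderiv ℂ L) (fderiv ℂ (fderiv ℂ L) u) u :=
    (hA u hu).fderiv.differentiableAt.hasFDerivAt
  have hPu : HasFDerivAt P (fderiv ℂ P (L u)) (L u) :=
    (hP _ (hLW u hu)).differentiableAt.hasFDerivAt
  have h1 := hD.clm_apply ((hasFDerivAt_fst (𝕜 := ℂ) (p := u)).prodMk (hasFDerivAt_const (0 : E) u))
  have h2 := (hPu.comp u hLu).clm_apply (hasFDerivAt_fst (𝕜 := ℂ) (p := u))
  have heq : (fun v : E × E => (P ∘ L) v v.1) =ᶠ[𝓝 u] fun v : E × E => fderiv ℂ L v (v.1, 0) := by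
    filter_upwards [isOpen_ball.mem_nhds hu] with v hv using (hrad v hv).symm
  have h3 := congrArg (fun T : E × E →L[ℂ] E => T ξ) ((h1.congr_of_eventuallyEq heq).unique h2)
  simp only [add_apply, ContinuousLinearMap.comp_apply,
    ContinuousLinearMap.flip_apply, ContinuousLinearMap.prod_apply, ContinuousLinearMap.coe_fst',
    zero_apply, Function.comp_apply] at h3
  rw [add_comm, h3, add_comm]

omit [FiniteDimensional ℂ E] in
theorem GFrob2_idem (hW : IsOpen W) (hP : ∀ y ∈ W, AnalyticAt ℂ P y)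
    (hidem : ∀ y ∈ W, ∀ v, P y (P y v) = P y v) {y : E} (hy : y ∈ W) (ξ v : E) :
    fderiv ℂ P y ξ (P y v) + P y (fderiv ℂ P y ξ v) = fderiv ℂ P y ξ v := by
  have hPy : HasFDerivAt P (fderiv ℂ P y) y := (hP y hy).differentiableAt.hasFDerivAt
  have h1 := hPy.clm_apply (hasFDerivAt_const v y)
  have h2 := hPy.clm_apply h1
  have heq : (fun x : E => P x v) =ᶠ[𝓝 y] fun x : E => P x (P x v) := by
    filter_upwards [hW.mem_nhds hy] with x hx using (hidem x hx v).symm
  have h3 := congrArg (fun T : E →L[ℂ] E => T ξ) ((h2.congr_of_eventuallyEq heq).unique h1)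
  simp only [add_apply, ContinuousLinearMap.comp_apply,
    ContinuousLinearMap.flip_apply, zero_apply, map_zero, zero_add] at h3
  rw [add_comm, h3]

theorem radial_fderiv_zero (hP : ∀ y ∈ W, AnalyticAt ℂ P y)
    (hL : DifferentiableOn ℂ L (ball (0, y₀) ρ)) (hLW : ∀ u ∈ ball ((0 : E), y₀) ρ, L u ∈ W)
    (h0 : ∀ y ∈ ball y₀ ρ, L (0, y) = y)
    (hrad : ∀ u ∈ ball ((0 : E), y₀) ρ, fderiv ℂ L u (u.1, 0) = P (L u) u.1)
    {y : E} (hy : y ∈ ball y₀ ρ) (a b : E) : fderiv ℂ L (0, y) (a, b) = P y a + b := by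
  have hu : ((0 : E), y) ∈ ball ((0 : E), y₀) ρ := by
    rw [← ball_prod_same]
    exact ⟨mem_ball_self (pos_of_mem_ball hy), hy⟩
  have h1 := GFrob2_rad hP hL hLW hrad hu (a, 0)
  have hz : (((0 : E), y).1, (0 : E)) = (0 : E × E) := rfl
  rw [hz, map_zero, zero_add, map_zero, zero_add, h0 y hy] at h1
  have hLu : HasFDerivAt L (fderiv ℂ L (0, y)) (0, y) :=
    (hL.differentiableAt (isOpen_ball.mem_nhds hu)).hasFDerivAt
  have h2 := hLu.comp y ((hasFDerivAt_const (𝕜 := ℂ) (0 : E) y).prodMk (hasFDerivAt_id y))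
  have heq : (id : E → E) =ᶠ[𝓝 y] L ∘ fun x : E => ((0 : E), id x) := by
    filter_upwards [isOpen_ball.mem_nhds hy] with v hv using (h0 v hv).symm
  have h3 := congrArg (fun T : E →L[ℂ] E => T b)
    ((h2.congr_of_eventuallyEq heq).unique (hasFDerivAt_id y))
  simp only [ContinuousLinearMap.comp_apply, ContinuousLinearMap.prod_apply,
    zero_apply, ContinuousLinearMap.id_apply] at h3
  have h4 : ((a, b) : E × E) = (a, 0) + (0, b) := by simp
  rw [h4, map_add, h1, h3]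

theorem radial_tangent (hW : IsOpen W) (hP : ∀ y ∈ W, AnalyticAt ℂ P y)
    (hidem : ∀ y ∈ W, ∀ v, P y (P y v) = P y v)
    (hint : ∀ y ∈ W, ∀ u v, P y u = u → P y v = v → fderiv ℂ P y u v = fderiv ℂ P y v u)
    (hL : DifferentiableOn ℂ L (ball (0, y₀) ρ)) (hLW : ∀ u ∈ ball ((0 : E), y₀) ρ, L u ∈ W)
    (h0 : ∀ y ∈ ball y₀ ρ, L (0, y) = y)
    (hrad : ∀ u ∈ ball ((0 : E), y₀) ρ, fderiv ℂ L u (u.1, 0) = P (L u) u.1)
    {u : E × E} (hu : u ∈ ball ((0 : E), y₀) ρ) (a : E) :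
    P (L u) (fderiv ℂ L u (a, 0)) = fderiv ℂ L u (a, 0) := by
  have : CompleteSpace E := FiniteDimensional.complete ℂ E
  have hA := Crest.Agent.R264.SCV.analyticOnNhd isOpen_ball hL
  obtain ⟨z, y⟩ := u
  have hzy : z ∈ ball (0 : E) ρ ∧ y ∈ ball y₀ ρ := by
    rw [← ball_prod_same] at hu
    exact hu
  let ℓ : ℂ → E × E := fun s => (s • z, y)
  have hℓ : ∀ s : ℂ, HasDerivAt ℓ (z, 0) s := fun s => by
    simpa using ((hasDerivAt_id s).smul_const z).prodMk (hasDerivAt_const s y)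
  have hℓc : Continuous ℓ := by fun_prop
  have hmem : ∀ t ∈ Icc (0 : ℝ) 1, ℓ t ∈ ball ((0 : E), y₀) ρ := by
    intro t ht
    rw [← ball_prod_same]
    refine ⟨?_, hzy.2⟩
    have h1 := hzy.1
    rw [mem_ball_zero_iff] at h1 ⊢
    show ‖(t : ℂ) • z‖ < ρ
    rw [norm_smul, Complex.norm_real, Real.norm_of_nonneg ht.1]
    exact lt_of_le_of_lt (mul_le_of_le_one_left (norm_nonneg _) ht.2) h1
  let γ : ℂ → E := fun s => L (ℓ s)
  let k : ℂ → E := fun s => s • fderiv ℂ L (ℓ s) (a, 0)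
  let c : ℂ → E := fun s => k s - P (γ s) (k s)
  let g : ℂ → E := fun s => P (γ s) z
  let Q : ℂ → E →L[ℂ] E →L[ℂ] E := fun s => fderiv ℂ P (γ s)
  have hγ : ∀ s : ℂ, ℓ s ∈ ball ((0 : E), y₀) ρ → HasDerivAt γ (g s) s := by
    intro s hs
    have h1 := (hA _ hs).differentiableAt.hasFDerivAt.comp_hasDerivAt s (hℓ s)
    have h2 : fderiv ℂ L (ℓ s) (z, 0) = g s := by
      by_cases h : s = 0
      · subst h
        have hl : ℓ 0 = (0, y) := by simp [ℓ]
        simp only [g, γ, hl]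
        rw [radial_fderiv_zero hP hL hLW h0 hrad hzy.2, h0 y hzy.2, add_zero]
      · have h3 := hrad _ hs
        have h4 : (((ℓ s).1, 0) : E × E) = s • (z, 0) := by simp [ℓ]
        have h5 : (ℓ s).1 = s • z := rfl
        rw [h4, h5, map_smul, map_smul] at h3
        exact smul_right_injective E h h3
    rw [h2] at h1
    exact h1
  have hk : ∀ s : ℂ, ℓ s ∈ ball ((0 : E), y₀) ρ → HasDerivAt k (Q s (k s) z + P (γ s) a) s := by
    intro s hs
    have hD := ((hA _ hs).fderiv.differentiableAt.hasFDerivAt.comp_hasDerivAt s (hℓ s)).clm_apply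
      (hasDerivAt_const s ((a, 0) : E × E))
    have h1 := (hasDerivAt_id s).smul hD
    have hsym : IsSymmSndFDerivAt ℂ L (ℓ s) := (hA _ hs).contDiffAt.isSymmSndFDerivAt_of_omega
    have h2 := GFrob2_rad hP hL hLW hrad hs (a, 0)
    have h4 : (((ℓ s).1, 0) : E × E) = s • (z, 0) := by simp [ℓ]
    have h5 : (ℓ s).1 = s • z := rfl
    rw [h4, h5, map_smul, map_smul, hsym] at h2
    refine h1.congr_deriv ?_
    simp only [id, Function.comp_apply, map_zero, add_zero, one_smul, k, Q, γ, map_smul,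
      smul_apply]
    exact h2
  have hc : ∀ s : ℂ, ℓ s ∈ ball ((0 : E), y₀) ρ →
      HasDerivAt c (Q s (c s) (g s) - Q s (g s) (c s)) s := by
    intro s hs
    have hγW : γ s ∈ W := hLW _ hs
    have hPγ := (hP _ hγW).differentiableAt.hasFDerivAt.comp_hasDerivAt s (hγ s hs)
    have h1 := (hk s hs).sub (hPγ.clm_apply (hk s hs))
    refine h1.congr_deriv ?_
    have h2 := GFrob2_idem hW hP hidem hγW (k s) z
    have h3 := hint _ hγW (P (γ s) (k s)) (g s) (hidem _ hγW _) (hidem _ hγW _)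
    have h4 := hidem _ hγW a
    simp only [c, Q, g, Function.comp_apply, map_add, map_sub, sub_apply] at h2 h3 h4 ⊢
    rw [h3, h4]
    linear_combination (norm := abel_nf) -h2
  have hreal : ∀ {f : ℂ → E} {f' : E} {t : ℝ}, HasDerivAt f f' t →
      HasDerivAt (fun x : ℝ => f x) f' t := by
    intro f f' t h
    simpa using! HasDerivAt.scomp t h (Complex.ofRealCLM.hasDerivAt (x := t))
  have hγc : ContinuousOn (fun t : ℝ => γ t) (Icc 0 1) := fun t ht =>
    (hreal (hγ _ (hmem t ht))).continuousAt.continuousWithinAt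
  have hQc : ContinuousOn (fun t : ℝ => Q t) (Icc 0 1) := fun t ht =>
    ContinuousAt.comp_continuousWithinAt (g := fderiv ℂ P) (f := fun t : ℝ => γ t)
      (hP _ (hLW _ (hmem t ht))).fderiv.continuousAt (hγc t ht)
  have hgc : ContinuousOn (fun t : ℝ => g t) (Icc 0 1) := fun t ht =>
    (ContinuousAt.comp_continuousWithinAt (g := P) (f := fun t : ℝ => γ t)
      (hP _ (hLW _ (hmem t ht))).continuousAt (hγc t ht)).clm_apply continuousWithinAt_const
  obtain ⟨K, hK⟩ := isCompact_Icc.exists_bound_of_continuousOn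
    ((ContinuousOn.norm (E := E →L[ℂ] E →L[ℂ] E) hQc).mul hgc.norm)
  have hzero := eq_zero_of_abs_deriv_le_mul_abs_self_of_eq_zero_right (f := fun t : ℝ => c t)
    (f' := fun t : ℝ => Q t (c t) (g t) - Q t (g t) (c t)) (K := 2 * K) (a := 0) (b := 1)
    (fun t ht => (hreal (hc _ (hmem t ht))).continuousAt.continuousWithinAt)
    (fun t ht => (hreal (hc _ (hmem t (Ico_subset_Icc_self ht)))).hasDerivWithinAt)
    (by simp [c, k]) (fun t ht => by
      have h1 : ‖Q t‖ * ‖g t‖ ≤ K := (le_abs_self _).trans (hK t (Ico_subset_Icc_self ht))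
      have h2 := (Q t).le_opNorm₂ (c t) (g t)
      have h3 := (Q t).le_opNorm₂ (g t) (c t)
      have h4 := mul_le_mul_of_nonneg_right h1 (norm_nonneg (c t))
      refine (norm_sub_le _ _).trans ?_
      nlinarith) 1 ⟨zero_le_one, le_rfl⟩
  have hl : ℓ 1 = (z, y) := by simp [ℓ]
  simp only [c, k, γ, Complex.ofReal_one, hl, one_smul] at hzero
  exact (sub_eq_zero.1 hzero).symm

end Crest.Agent.R266G
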