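import Crest.Agent.R266.GFrob1
import Crest.Agent.R266.GFrob2
import Crest.Prelude.Def_TangentSplitting

/-!
# Row 266 G: holomorphic Frobenius, step 3: first integrals and product coordinates

* `exists_first_integral`: take an open `W ∋ y₀` on which the hypotheses hold, `L` from `exists_radial`, `P₀ = P y₀`,
  `G z = L (P₀ z, y₀ + (z - P₀ z))`, analytic at `0`, `G 0 = y₀`, `DG(0) = id` (`radial_fderiv_zero`).  Let `Ginv` be the local inverse
  (`ContDiffAt.toOpenPartialHomeomorph`, `ContDiffAt.to_localInverse` with `n = ω`, or the strict derivative version plus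
  `SCV.analyticAt`) and `b y = Ginv y - P₀ (Ginv y)`.  For `y = G z` near `y₀`: `DG(z) (P₀ w) = DL(u)(P₀ w, 0)` is fixed by `P y`
  (`radial_tangent`); `J z = P (G z) ∘ DG(z) ∘ P₀ + (1 - P (G z)) ∘ (1 - P₀)` is continuous in `z` with `J 0 = id`, so surjective near `0`
  (units are open / `‖J - 1‖ < 1`); if `P y v = v`, `v = J w`, apply `P y`: `v = DG(z) (P₀ w)`, so `D Ginv(y) v = P₀ w`
  (chain rule for `Ginv ∘ G =ᶠ id`) and `Db(y) v = 0`.
* `exists_product_coords`: `b` for `P`, `a` for `1 - P` (`fderiv (1 - P) = - fderiv P`); `T₁ : E →L Model n₁` the composition of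
  `P₀` corestricted to its range with a linear equivalence `range P₀ ≃ Model n₁` (`LinearEquiv.ofFinrankEq`,
  `finrank_euclideanSpace_fin`), `T₂` likewise with `1 - P₀` and `ker P₀`; `f y = (T₁ (a y), T₂ (b y))`,
  `Df(y₀) v = (T₁ (P₀ v), T₂ (v - P₀ v))` is bijective.
* `finrank_eventually_eq`: `J y = P y ∘ P₀ + (1 - P y) ∘ (1 - P₀)` is invertible near `y₀` and `J ∘ P₀ = P y ∘ J`; so `J` maps
  `range P₀` onto `range (P y)` and `ker P₀` onto `ker (P y)` (or use the trace of an idempotent).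
-/

set_option autoImplicit false
open scoped Topology
open Set Filter Metric

namespace Crest.Agent.R266G

open Crest.AlgGeometry.HolSplit

variable {E : Type*} [NormedAddCommGroup E] [NormedSpace ℂ E] [FiniteDimensional ℂ E]
  {P : E → E →L[ℂ] E} {y₀ : E}

theorem GF3_bij {X : Type*} [TopologicalSpace X] {J : X → E →L[ℂ] E} {x : X}
    (hJ : ContinuousAt J x) (h1 : J x = 1) : ∀ᶠ z in 𝓝 x, Function.Bijective (J z) := by
  have := FiniteDimensional.complete ℂ E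
  have h2 : {T : E →L[ℂ] E | IsUnit T} ∈ 𝓝 (J x) :=
    Units.isOpen.mem_nhds (h1 ▸ isUnit_one)
  filter_upwards [hJ h2] with z hz
  exact ContinuousLinearMap.isUnit_iff_bijective.1 hz

theorem GF3_inv {G : E → E} {x : E} (hG : AnalyticAt ℂ G x) (h1 : fderiv ℂ G x = 1) :
    ∃ H : E → E, AnalyticAt ℂ H (G x) ∧ H (G x) = x ∧ ∀ᶠ y in 𝓝 (G x), G (H y) = y := by
  have := FiniteDimensional.complete ℂ E
  have c : ContDiffAt ℂ ⊤ G x := hG.contDiffAt
  have d : HasFDerivAt G ((ContinuousLinearEquiv.refl ℂ E : E ≃L[ℂ] E) : E →L[ℂ] E) x := by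
    have := hG.differentiableAt.hasFDerivAt
    rwa [h1] at this
  have hn : (⊤ : WithTop ℕ∞) ≠ 0 := by simp
  exact ⟨c.localInverse d hn, (c.to_localInverse d hn).analyticAt, c.localInverse_apply_image d hn,
    (c.hasStrictFDerivAt' d hn).eventually_right_inverse⟩

theorem GF3_coord (S : Submodule ℂ E) {m : ℕ} (hm : Module.finrank ℂ S = m) :
    ∃ T : E →L[ℂ] Model m, (∀ v ∈ S, T v = 0 → v = 0) ∧ ∀ s, ∃ v ∈ S, T v = s := by
  let e : S ≃ₗ[ℂ] Model m := LinearEquiv.ofFinrankEq _ _ (hm.trans finrank_euclideanSpace_fin.symm)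
  obtain ⟨T, hT⟩ := LinearMap.exists_extend (e : S →ₗ[ℂ] Model m)
  have h : ∀ v : S, T v = e v := fun v => LinearMap.congr_fun hT v
  refine ⟨LinearMap.toContinuousLinearMap T, fun v hv h0 => ?_, fun s =>
    ⟨e.symm s, (e.symm s).2, (h _).trans (e.apply_symm_apply s)⟩⟩
  exact congrArg Subtype.val (e.map_eq_zero_iff.1 ((h ⟨v, hv⟩).symm.trans h0))

theorem exists_first_integral (hP : AnalyticAt ℂ P y₀)
    (hidem : ∀ᶠ y in 𝓝 y₀, ∀ v, P y (P y v) = P y v)
    (hint : ∀ᶠ y in 𝓝 y₀, ∀ u v, P y u = u → P y v = v → fderiv ℂ P y u v = fderiv ℂ P y v u) :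
    ∃ b : E → E, AnalyticAt ℂ b y₀ ∧ (∀ v, fderiv ℂ b y₀ v = v - P y₀ v) ∧
      ∀ᶠ y in 𝓝 y₀, ∀ v, P y v = v → fderiv ℂ b y v = 0 := by
  have := FiniteDimensional.complete ℂ E
  obtain ⟨W, hW, hWo, hW0⟩ :=
    _root_.eventually_nhds_iff.1 (hP.eventually_analyticAt.and (hidem.and hint))
  obtain ⟨ρ, hρ, L, hL, hLW, h0, hrad⟩ := exists_radial hP (hWo.mem_nhds hW0)
  have hi0 := (hW y₀ hW0).2.1
  obtain ⟨A, hA⟩ : ∃ A : E →L[ℂ] E × E, ∀ v, A v = (P y₀ v, v - P y₀ v) :=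
    ⟨(P y₀).prod (1 - P y₀), fun v => rfl⟩
  obtain ⟨G, hG⟩ : ∃ G : E → E, G = fun z => L (((0 : E), y₀) + A z) := ⟨_, rfl⟩
  have dG : ∀ z, ((0 : E), y₀) + A z ∈ ball ((0 : E), y₀) ρ →
      HasFDerivAt G ((fderiv ℂ L (((0 : E), y₀) + A z)).comp A) z := fun z hz => by
    rw [hG]
    exact (hL.differentiableAt (isOpen_ball.mem_nhds hz)).hasFDerivAt.comp z
      (A.hasFDerivAt.const_add _)
  have m0 : ((0 : E), y₀) + A 0 ∈ ball ((0 : E), y₀) ρ := by simpa using hρ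
  have mev : ∀ᶠ z in 𝓝 (0 : E), ((0 : E), y₀) + A z ∈ ball ((0 : E), y₀) ρ :=
    (continuous_const.add A.continuous).continuousAt (isOpen_ball.mem_nhds m0)
  have aG : AnalyticAt ℂ G 0 :=
    Crest.Agent.R264.SCV.analyticAt_of_eventually (mev.mono fun z hz => (dG z hz).differentiableAt)
  have G0 : G 0 = y₀ := by simp [hG, h0 y₀ (mem_ball_self hρ)]
  have d0 : fderiv ℂ G 0 = 1 := by
    ext v
    rw [(dG 0 m0).fderiv, ContinuousLinearMap.comp_apply, map_zero, add_zero, hA,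
      radial_fderiv_zero (fun y hy => (hW y hy).1) hL hLW h0 hrad (mem_ball_self hρ), hi0]
    simp
  obtain ⟨H, aH, H0, hH⟩ := GF3_inv aG d0
  rw [G0] at aH H0 hH
  have tH : Tendsto H (𝓝 y₀) (𝓝 0) := H0 ▸ aH.continuousAt
  have cP : ContinuousAt (fun z => P (G z)) 0 :=
    ContinuousAt.comp (G0 ▸ hP.continuousAt) aG.continuousAt
  have bJ := GF3_bij (J := fun z => P (G z) * (fderiv ℂ G z * P y₀) + (1 - P (G z)) * (1 - P y₀))
    ((cP.mul (aG.fderiv.continuousAt.mul continuousAt_const)).add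
      ((continuousAt_const.sub cP).mul continuousAt_const)) (by
      ext v
      simp [G0, d0, hi0])
  have bG := GF3_bij aG.fderiv.continuousAt d0
  have key : ∀ᶠ y in 𝓝 y₀, (∀ v, fderiv ℂ G (H y) (fderiv ℂ H y v) = v) ∧
      fderiv ℂ (fun y => (1 - P y₀) (H y)) y = (1 - P y₀).comp (fderiv ℂ H y) := by
    filter_upwards [aH.eventually_analyticAt, hH.eventually_nhds, tH.eventually mev]
      with y h1 h2 h3
    have t1 := h1.differentiableAt.hasFDerivAt
    refine ⟨fun v => ?_, ((1 - P y₀).hasFDerivAt.comp y t1).fderiv⟩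
    have t2 := ((dG _ h3).differentiableAt.hasFDerivAt.comp y t1).unique
      ((hasFDerivAt_id y).congr_of_eventuallyEq h2)
    exact congrArg (fun T : E →L[ℂ] E => T v) t2
  refine ⟨fun y => (1 - P y₀) (H y), ((1 - P y₀).analyticAt _).comp aH, fun v => ?_, ?_⟩
  · have t := key.self_of_nhds
    have t1 := t.1 v
    rw [H0, d0, one_apply_eq_self] at t1
    rw [t.2, ContinuousLinearMap.comp_apply, t1]
    rfl
  · filter_upwards [key, hH, tH.eventually mev, tH.eventually bJ, tH.eventually bG,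
      hidem] with y h1 h2 h3 h4 h5 h6 v hv
    obtain ⟨w, hw⟩ := h4.2 v
    have t1 : P y (fderiv ℂ G (H y) (P y₀ w)) = fderiv ℂ G (H y) (P y₀ w) := by
      have := radial_tangent hWo (fun y hy => (hW y hy).1) (fun y hy => (hW y hy).2.1)
        (fun y hy => (hW y hy).2.2) hL hLW h0 hrad h3 (P y₀ w)
      have e : L (((0 : E), y₀) + A (H y)) = y := by
        conv_rhs => rw [← h2, hG]
      rw [e] at this
      rwa [(dG _ h3).fderiv, ContinuousLinearMap.comp_apply, hA (P y₀ w), hi0, sub_self]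
    have t2 : fderiv ℂ G (H y) (P y₀ w) = v := by
      have := congrArg (P y) hw
      simp only [h2, ContinuousLinearMap.add_apply, ContinuousLinearMap.mul_apply,
        sub_apply, one_apply_eq_self, map_add, map_sub, h6, hv,
        t1] at this
      simpa using this
    have t3 : fderiv ℂ H y v = P y₀ w := h5.1 ((h1.1 v).trans t2.symm)
    rw [h1.2, ContinuousLinearMap.comp_apply, t3]
    simp [hi0]

theorem exists_product_coords {n₁ n₂ : ℕ} (hP : AnalyticAt ℂ P y₀)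
    (hidem : ∀ᶠ y in 𝓝 y₀, ∀ v, P y (P y v) = P y v)
    (hint₁ : ∀ᶠ y in 𝓝 y₀, ∀ u v, P y u = u → P y v = v → fderiv ℂ P y u v = fderiv ℂ P y v u)
    (hint₂ : ∀ᶠ y in 𝓝 y₀, ∀ u v, P y u = 0 → P y v = 0 → fderiv ℂ P y u v = fderiv ℂ P y v u)
    (h₁ : Module.finrank ℂ (LinearMap.range (P y₀ : E →ₗ[ℂ] E)) = n₁)
    (h₂ : Module.finrank ℂ (LinearMap.ker (P y₀ : E →ₗ[ℂ] E)) = n₂) :
    ∃ f : E → Model n₁ × Model n₂, AnalyticAt ℂ f y₀ ∧ Function.Bijective (fderiv ℂ f y₀) ∧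
      ∀ᶠ y in 𝓝 y₀, ∀ v, (P y v = v → (fderiv ℂ f y v).2 = 0) ∧
        (P y v = 0 → (fderiv ℂ f y v).1 = 0) := by
  have := FiniteDimensional.complete ℂ E
  have hi0 := hidem.self_of_nhds
  obtain ⟨b, b1, b2, b3⟩ := exists_first_integral hP hidem hint₁
  obtain ⟨a, a1, a2, a3⟩ := exists_first_integral (P := fun y => 1 - P y)
    (analyticAt_const.sub hP) (hidem.mono fun y hy v => by simp [hy])
    (hint₂.mono fun y hy u v hu hv => by
      rw [fderiv_const_sub]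
      simp only [sub_apply, one_apply_eq_self, sub_eq_self] at hu hv
      simp [hy u v hu hv])
  obtain ⟨T₁, s1, s2⟩ := GF3_coord _ h₁
  obtain ⟨T₂, t1, t2⟩ := GF3_coord _ h₂
  have key : ∀ᶠ y in 𝓝 y₀, ∀ v, fderiv ℂ (fun y => (T₁ (a y), T₂ (b y))) y v =
      (T₁ (fderiv ℂ a y v), T₂ (fderiv ℂ b y v)) := by
    filter_upwards [a1.eventually_analyticAt, b1.eventually_analyticAt] with y h1 h2 v
    have := ((T₁.hasFDerivAt.comp y h1.differentiableAt.hasFDerivAt).prodMk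
      (T₂.hasFDerivAt.comp y h2.differentiableAt.hasFDerivAt)).fderiv
    exact congrArg (fun T : E →L[ℂ] Model n₁ × Model n₂ => T v) this
  have k0 : ∀ v, fderiv ℂ (fun y => (T₁ (a y), T₂ (b y))) y₀ v =
      (T₁ (P y₀ v), T₂ (v - P y₀ v)) := fun v => by
    rw [key.self_of_nhds, a2, b2]
    simp
  refine ⟨fun y => (T₁ (a y), T₂ (b y)),
    ((T₁.analyticAt _).comp a1).prod ((T₂.analyticAt _).comp b1), ⟨?_, fun s => ?_⟩, ?_⟩
  · refine (injective_iff_map_eq_zero _).2 fun v hv => ?_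
    rw [k0, Prod.mk_eq_zero] at hv
    have e1 := s1 _ ⟨v, rfl⟩ hv.1
    have e2 := t1 _ (by simp [hi0]) hv.2
    simp only [ContinuousLinearMap.coe_coe] at e1
    rwa [e1, sub_zero] at e2
  · obtain ⟨x, ⟨x', rfl⟩, hx⟩ := s2 s.1
    obtain ⟨k, hk, hk'⟩ := t2 s.2
    simp only [ContinuousLinearMap.coe_coe, LinearMap.mem_ker] at hx hk
    refine ⟨P y₀ x' + k, ?_⟩
    rw [k0, map_add, hi0, hk, add_zero, add_sub_cancel_left, hx, hk']
  · filter_upwards [key, a3, b3] with y h1 h2 h3 v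
    refine ⟨fun hv => ?_, fun hv => ?_⟩
    · rw [h1, h3 v hv, map_zero]
    · rw [h1, h2 v (by simp [hv]), map_zero]

theorem finrank_eventually_eq (hP : ContinuousAt P y₀)
    (hidem : ∀ᶠ y in 𝓝 y₀, ∀ v, P y (P y v) = P y v) :
    ∀ᶠ y in 𝓝 y₀, Module.finrank ℂ (LinearMap.range (P y : E →ₗ[ℂ] E)) =
        Module.finrank ℂ (LinearMap.range (P y₀ : E →ₗ[ℂ] E)) ∧
      Module.finrank ℂ (LinearMap.ker (P y : E →ₗ[ℂ] E)) =
        Module.finrank ℂ (LinearMap.ker (P y₀ : E →ₗ[ℂ] E)) := by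
  have hi0 := hidem.self_of_nhds
  have bJ := GF3_bij (J := fun y => P y * P y₀ + (1 - P y) * (1 - P y₀))
    ((hP.mul continuousAt_const).add ((continuousAt_const.sub hP).mul continuousAt_const)) (by
      ext v
      simp [hi0])
  filter_upwards [bJ, hidem] with y h1 h2
  let e : E ≃ₗ[ℂ] E := LinearEquiv.ofBijective
    ((P y * P y₀ + (1 - P y) * (1 - P y₀) : E →L[ℂ] E) : E →ₗ[ℂ] E) h1
  have he : ∀ v, e (P y₀ v) = P y (e v) := fun v => by
    simp [e, hi0, h2]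
  have hr : LinearMap.range (P y : E →ₗ[ℂ] E) =
      (LinearMap.range (P y₀ : E →ₗ[ℂ] E)).map (e : E →ₗ[ℂ] E) := by
    ext v
    constructor
    · rintro ⟨w, rfl⟩
      obtain ⟨w, rfl⟩ := e.surjective w
      exact ⟨_, ⟨w, rfl⟩, he w⟩
    · rintro ⟨_, ⟨w, rfl⟩, rfl⟩
      exact ⟨e w, (he w).symm⟩
  have h3 : Module.finrank ℂ (LinearMap.range (P y : E →ₗ[ℂ] E)) =
      Module.finrank ℂ (LinearMap.range (P y₀ : E →ₗ[ℂ] E)) := by
    rw [hr, LinearEquiv.finrank_map_eq]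
  have h4 := LinearMap.finrank_range_add_finrank_ker (P y : E →ₗ[ℂ] E)
  have h5 := LinearMap.finrank_range_add_finrank_ker (P y₀ : E →ₗ[ℂ] E)
  exact ⟨h3, by omega⟩

end Crest.Agent.R266G
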