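import Crest.Agent.R266.GDefs

/-!
# Row 266 G: gluing lemmas for germ classes

* `eq_of_preconnected`: `u = {q | f =ᶠ[𝓝 q] g}` is open (`eventually_eventually_nhds`), and
  `closure u ∩ A ⊆ u` by `C.ident` (`mem_closure_iff_frequently`); use
  `IsPreconnected.subset_of_closure_inter_subset`.
* `reg_of_segment`: `Θ` is good on a ball `ball p ε` (`C.eventually`); the half open segment
  `(fun τ => q + τ • (p - q)) '' Ico 0 1` is preconnected, `Θ` and `f` are good on it, so the germs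
  agree at each of its points, and such points exist in `ball p ε` (τ close to 1).
* `glue_local`: put `g q := Θ p q` for a chosen `p ∈ A` with `q ∈ ball p (ε p / 2)` (junk otherwise;
  `Y` is nonempty as soon as `A` is).  If `ball p (ε p/2)` meets `ball p' (ε p'/2)` and `ε p' ≤ ε p` then
  `p' ∈ ball p (ε p)`, so `Θ p =ᶠ[𝓝 p'] Θ p'` and, by `eq_of_preconnected` on the convex set
  `ball p (ε p) ∩ ball p' (ε p')`, `Θ p = Θ p'` there.  Hence `g = Θ p` on `ball p (ε p / 2)`.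
* `glue_reg`: apply `glue_local` to `A = U ∪ R`, with `Θ p = f` for `p ∈ U` (ball on which `f` is good) and
  the regularising map for `p ∈ R \ U`.  In both cases `Θ p` has the germ of `f` at EVERY point of the
  convex set `ball p (ε p) ∩ U`.  For `p' ∈ A ∩ ball p (ε p)` the convex open set
  `ball p (ε p) ∩ ball p' (ε p')` contains `p' ∈ closure U`, hence a point of `U`, where both have the germ of `f`.
* `glue_chain`: choose for `p ∈ ⋃ i, A i` an index `i p`, `Θ p = f (i p)`.  For `i, j` with `A i ⊆ A j`,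
  `f i` and `f j` have the same germ at all points of `A i` (convex, contains `a`).  For `p' ∈ A j` in
  `ball p ε`, `p ∈ A i`: if `A j ⊆ A i` done; if `A i ⊆ A j` use the convex set `ball p ε ∩ A j ∋ p, p'`.
  Finally `g =ᶠ[𝓝 a] f (i a) =ᶠ[𝓝 a] f₀`.
-/

set_option autoImplicit false
open scoped Manifold ContDiff Topology
open Set Filter Metric
open Crest.AlgGeometry.HolSplit

namespace Crest.Agent.R266G

namespace GermClass

theorem eq_of_preconnected {G Y : Type*} [TopologicalSpace G] (C : GermClass G Y) {A : Set G}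
    (hA : IsPreconnected A) {f g : G → Y} (hf : ∀ q ∈ A, C.Good f q) (hg : ∀ q ∈ A, C.Good g q)
    {a : G} (ha : a ∈ A) (h : f =ᶠ[𝓝 a] g) : ∀ q ∈ A, f =ᶠ[𝓝 q] g := by
  have hsub : A ⊆ {q | f =ᶠ[𝓝 q] g} := by
    refine hA.subset_of_closure_inter_subset (isOpen_setOfPred_eventually_nhds) ⟨a, ha, h⟩ ?_
    rintro q ⟨hq, hqA⟩
    exact C.ident (hf q hqA) (hg q hqA) (mem_closure_iff_frequently.1 hq)
  exact fun q hq => hsub hq

variable {G Y : Type*} [NormedAddCommGroup G] [NormedSpace ℝ G] (C : GermClass G Y)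

theorem reg_of_segment {U : Set G} {f Θ : G → Y} {p q : G} (hf : ∀ x ∈ U, C.Good f x)
    (hU : ∀ τ ∈ Ico (0 : ℝ) 1, q + τ • (p - q) ∈ U)
    (hΘ : ∀ τ ∈ Icc (0 : ℝ) 1, C.Good Θ (q + τ • (p - q))) (h : Θ =ᶠ[𝓝 q] f) :
    C.Reg f U p := by
  have hp : C.Good Θ p := by simpa using hΘ 1 ⟨zero_le_one, le_rfl⟩
  obtain ⟨ε, hε, hball⟩ := Metric.eventually_nhds_iff_ball.1 (C.eventually hp)
  have hc : Continuous fun τ : ℝ => q + τ • (p - q) := by fun_prop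
  have hpre : IsPreconnected ((fun τ : ℝ => q + τ • (p - q)) '' Ico 0 1) :=
    isPreconnected_Ico.image _ hc.continuousOn
  have key := C.eq_of_preconnected hpre (f := Θ) (g := f)
    (by rintro _ ⟨τ, hτ, rfl⟩; exact hΘ τ ⟨hτ.1, hτ.2.le⟩)
    (by rintro _ ⟨τ, hτ, rfl⟩; exact hf _ (hU τ hτ))
    (a := q) ⟨0, ⟨le_rfl, zero_lt_one⟩, by simp⟩ h
  have h1 : ∀ᶠ τ in 𝓝 (1 : ℝ), q + τ • (p - q) ∈ ball p ε := by
    have : Tendsto (fun τ : ℝ => q + τ • (p - q)) (𝓝 1) (𝓝 p) := by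
      simpa using hc.tendsto 1
    exact this (ball_mem_nhds p hε)
  have h2 : ∀ᶠ τ in 𝓝[<] (1 : ℝ), τ ∈ Ico (0 : ℝ) 1 := Ico_mem_nhdsLT zero_lt_one
  obtain ⟨τ, hτ1, hτ2⟩ := ((h1.filter_mono nhdsWithin_le_nhds).and h2).exists
  exact ⟨Θ, ε, hε, hball, _, hτ1, hU τ hτ2, key _ ⟨τ, hτ2, rfl⟩⟩

theorem glue_local {A : Set G} (Θ : G → G → Y) (ε : G → ℝ) (hε : ∀ p ∈ A, 0 < ε p)
    (hgood : ∀ p ∈ A, ∀ q ∈ ball p (ε p), C.Good (Θ p) q)
    (hcoh : ∀ p ∈ A, ∀ p' ∈ A, p' ∈ ball p (ε p) → Θ p =ᶠ[𝓝 p'] Θ p') (f₀ : G → Y) :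
    ∃ g : G → Y, ∀ p ∈ A, g =ᶠ[𝓝 p] Θ p := by
  classical
  have aux : ∀ p ∈ A, ∀ p' ∈ A, ε p' ≤ ε p → ∀ q, q ∈ ball p (ε p / 2) →
      q ∈ ball p' (ε p' / 2) → Θ p q = Θ p' q := by
    intro p hp p' hp' hle q hq hq'
    have hq1 := mem_ball.1 hq
    have hq2 := mem_ball.1 hq'
    have hpp : p' ∈ ball p (ε p) := by
      rw [mem_ball]
      have := dist_triangle_left p' p q
      linarith
    have hconv : Convex ℝ (ball p (ε p) ∩ ball p' (ε p')) :=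
      (convex_ball _ _).inter (convex_ball _ _)
    have := C.eq_of_preconnected hconv.isPreconnected (f := Θ p) (g := Θ p')
      (fun x hx => hgood p hp x hx.1) (fun x hx => hgood p' hp' x hx.2)
      (a := p') ⟨hpp, mem_ball_self (hε p' hp')⟩ (hcoh p hp p' hp' hpp) q
      ⟨mem_ball.2 (by linarith [hε p hp]), mem_ball.2 (by linarith [hε p' hp'])⟩
    exact this.self_of_nhds
  refine ⟨fun q => if h : ∃ p ∈ A, q ∈ ball p (ε p / 2) then Θ h.choose q else f₀ q, ?_⟩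
  intro p hp
  filter_upwards [ball_mem_nhds p (half_pos (hε p hp))] with q hq
  have h : ∃ p ∈ A, q ∈ ball p (ε p / 2) := ⟨p, hp, hq⟩
  rw [dif_pos h]
  obtain ⟨h1, h2⟩ := h.choose_spec
  rcases le_total (ε p) (ε h.choose) with hle | hle
  · exact aux _ h1 p hp hle q h2 hq
  · exact (aux p hp _ h1 hle q hq h2).symm

theorem glue_reg {U R : Set G} (hU : Convex ℝ U) {f : G → Y} (hf : ∀ q ∈ U, C.Good f q)
    (hR : R ⊆ closure U) (hreg : ∀ p ∈ R, C.Reg f U p) :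
    ∃ g : G → Y, (∀ q ∈ U, g =ᶠ[𝓝 q] f) ∧ ∀ p ∈ R, C.Good g p := by
  have hex : ∀ p ∈ U ∪ R, ∃ (Θ : G → Y) (ε : ℝ), 0 < ε ∧ (∀ q ∈ ball p ε, C.Good Θ q) ∧
      ∀ q ∈ ball p ε, q ∈ U → Θ =ᶠ[𝓝 q] f := by
    rintro p (hp | hp)
    · obtain ⟨ε, hε, hball⟩ := Metric.eventually_nhds_iff_ball.1 (C.eventually (hf p hp))
      exact ⟨f, ε, hε, hball, fun _ _ _ => EventuallyEq.rfl⟩
    · obtain ⟨Θ, ε, hε, hball, a, ha, haU, hΘ⟩ := hreg p hp
      refine ⟨Θ, ε, hε, hball, fun q hq hqU => ?_⟩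
      exact C.eq_of_preconnected ((convex_ball p ε).inter hU).isPreconnected
        (fun x hx => hball x hx.1) (fun x hx => hf x hx.2) ⟨ha, haU⟩ hΘ q ⟨hq, hqU⟩
  have : Nonempty (G → Y) := ⟨f⟩
  choose! Θ ε hε hgood hΘ using hex
  have hcl : ∀ p ∈ U ∪ R, p ∈ closure U := by
    rintro p (hp | hp)
    exacts [subset_closure hp, hR hp]
  obtain ⟨g, hg⟩ := C.glue_local (A := U ∪ R) Θ ε hε hgood (by
    intro p hp p' hp' hpp
    have hmem : p' ∈ ball p (ε p) ∩ ball p' (ε p') := ⟨hpp, mem_ball_self (hε p' hp')⟩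
    obtain ⟨a, ha, haU⟩ := mem_closure_iff.1 (hcl p' hp') _ (isOpen_ball.inter isOpen_ball) hmem
    exact C.eq_of_preconnected ((convex_ball _ _).inter (convex_ball _ _)).isPreconnected
      (fun x hx => hgood p hp x hx.1) (fun x hx => hgood p' hp' x hx.2) ha
      ((hΘ p hp a ha.1 haU).trans (hΘ p' hp' a ha.2 haU).symm) p' hmem) f
  refine ⟨g, fun q hq => ?_, fun p hp => ?_⟩
  · exact (hg q (Or.inl hq)).trans (hΘ q (Or.inl hq) q (mem_ball_self (hε q (Or.inl hq))) hq)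
  · exact C.congr (hgood p (Or.inr hp) p (mem_ball_self (hε p (Or.inr hp))))
      (hg p (Or.inr hp)).symm

theorem glue_chain {ι : Type*} (A : ι → Set G) (hconv : ∀ i, Convex ℝ (A i))
    (hchain : ∀ i j, A i ⊆ A j ∨ A j ⊆ A i) {a : G} (ha : ∀ i, a ∈ A i) (f : ι → G → Y)
    (hf : ∀ i, ∀ q ∈ A i, C.Good (f i) q) {f₀ : G → Y} (h₀ : ∀ i, f i =ᶠ[𝓝 a] f₀) :
    ∃ g : G → Y, (∀ i, ∀ q ∈ A i, C.Good g q) ∧ g =ᶠ[𝓝 a] f₀ := by
  rcases isEmpty_or_nonempty ι with hι | hι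
  · exact ⟨f₀, fun i => hι.elim i, EventuallyEq.rfl⟩
  have hex : ∀ p ∈ ⋃ i, A i, ∃ (i : ι) (ε : ℝ), p ∈ A i ∧ 0 < ε ∧
      ∀ q ∈ ball p ε, C.Good (f i) q := by
    intro p hp
    obtain ⟨i, hi⟩ := mem_iUnion.1 hp
    obtain ⟨ε, hε, hball⟩ := Metric.eventually_nhds_iff_ball.1 (C.eventually (hf i p hi))
    exact ⟨i, ε, hi, hε, hball⟩
  choose! I ε hI hε hgood using hex
  have hsub : ∀ i j, A i ⊆ A j → ∀ q ∈ A i, f i =ᶠ[𝓝 q] f j := fun i j hij =>
    C.eq_of_preconnected (hconv i).isPreconnected (hf i) (fun x hx => hf j x (hij hx)) (ha i)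
      ((h₀ i).trans (h₀ j).symm)
  obtain ⟨g, hg⟩ := C.glue_local (A := ⋃ i, A i) (fun p => f (I p)) ε hε hgood (by
    intro p hp p' hp' hpp
    rcases hchain (I p) (I p') with hij | hij
    · exact C.eq_of_preconnected ((convex_ball p (ε p)).inter (hconv (I p'))).isPreconnected
        (fun x hx => hgood p hp x hx.1) (fun x hx => hf _ x hx.2)
        ⟨mem_ball_self (hε p hp), hij (hI p hp)⟩ (hsub _ _ hij p (hI p hp)) p' ⟨hpp, hI p' hp'⟩
    · exact (hsub _ _ hij p' (hI p' hp')).symm) f₀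
  refine ⟨g, fun i q hq => ?_, ?_⟩
  · have hq' : q ∈ ⋃ i, A i := mem_iUnion.2 ⟨i, hq⟩
    exact C.congr (hf _ q (hI q hq')) (hg q hq').symm
  · obtain ⟨i⟩ := hι
    have ha' : a ∈ ⋃ i, A i := mem_iUnion.2 ⟨i, ha i⟩
    exact (hg a ha').trans (h₀ _)

end GermClass

end Crest.Agent.R266G
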