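import Crest.Agent.R266.GGerm

/-!
# Row 266 G: the monodromy theorem for germ classes

Étale space `𝓔 = {z : Σ x : G, Filter.Germ (𝓝 x) Y // ∃ f, Good f z.1 ∧ z.2 = ↑f}` (or a quotient of
`{(x, f) | Good f x}` by `x = x' ∧ f =ᶠ[𝓝 x] f'`), with the topology: `W` is open iff for every good
`(x, f)` with `[x, f] ∈ W`, for all `x'` near `x`, `[x', f] ∈ W` (whenever `Good f x'`).  The projection
`pr : 𝓔 → G` is a covering map: for `x` take `N` from `hunif` and an open path connected `V`,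
`x ∈ V ⊆ N` (locally path connected).  If the fibre over `x` is empty then `pr ⁻¹' V = ∅`
(`IsEvenlyCovered.of_preimage_eq_empty`); otherwise for `i` in the fibre choose `g i` good on `V` with germ
`i` at `x`, `U i = {[x', g i] | x' ∈ V}` and use `IsOpen.trivializationDiscrete` +
`IsEvenlyCovered.of_trivialization` (index type with the discrete topology `⊥`, then
`.to_isEvenlyCovered_preimage`): disjointness by `eq_of_preconnected` on `V`, exhaustive by `hunif`.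
Lift the identity with `IsCoveringMap.existsUnique_continuousMap_lifts` to a continuous section `F`,
`F x₀ = [x₀, f₀]`; put `f x :=` value at `x` of a representative of `F x` (germs equal near `x` have the
same value, `EventuallyEq.eq_of_nhds`).  If `F x = [x, g]`, the set `{[x', g] | Good g x'}` is open, so
`F x' = [x', g]` and `f x' = g x'` for `x'` near `x`.
-/

set_option autoImplicit false
open scoped Manifold ContDiff Topology
open Set Filter Metric
open Crest.AlgGeometry.HolSplit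

namespace Crest.Agent.R266G

/-- The étale space of good germs. -/
structure GMEt {G Y : Type*} [TopologicalSpace G] (C : GermClass G Y) where
  pt : G
  cls : Set (G → Y)
  ex : ∃ f, C.Good f pt ∧ cls = {g | g =ᶠ[𝓝 pt] f}

namespace GMEt

variable {G Y : Type*} [TopologicalSpace G] {C : GermClass G Y}

theorem exists_mem (e : GMEt C) : ∃ f, f ∈ e.cls := by
  obtain ⟨f, -, hf⟩ := e.ex
  exact ⟨f, by rw [hf]; exact EventuallyEq.refl _ _⟩

theorem good (e : GMEt C) {f : G → Y} (hf : f ∈ e.cls) : C.Good f e.pt := by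
  obtain ⟨g, hg, h⟩ := e.ex
  rw [h] at hf
  exact C.congr hg (EventuallyEq.symm hf)

theorem eq_of_mem (e : GMEt C) {f g : G → Y} (hf : f ∈ e.cls) (hg : g ∈ e.cls) :
    f =ᶠ[𝓝 e.pt] g := by
  obtain ⟨k, -, h⟩ := e.ex
  rw [h] at hf hg
  exact EventuallyEq.trans hf (EventuallyEq.symm hg)

theorem mem_of_eq (e : GMEt C) {f g : G → Y} (hf : f ∈ e.cls) (hg : g =ᶠ[𝓝 e.pt] f) :
    g ∈ e.cls := by
  obtain ⟨k, -, h⟩ := e.ex
  rw [h] at hf ⊢
  exact EventuallyEq.trans hg hf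

theorem ext' {e e' : GMEt C} (hp : e.pt = e'.pt) {f : G → Y} (hf : f ∈ e.cls) (hf' : f ∈ e'.cls) :
    e = e' := by
  have hc : e.cls = e'.cls := by
    ext g
    constructor
    · intro hg
      exact e'.mem_of_eq hf' (hp ▸ e.eq_of_mem hg hf)
    · intro hg
      exact e.mem_of_eq hf (hp ▸ e'.eq_of_mem hg hf')
  cases e
  cases e'
  simp only at hp hc
  subst hp
  subst hc
  rfl

theorem exists_of_good {f : G → Y} {x : G} (h : C.Good f x) :
    ∃ e : GMEt C, e.pt = x ∧ f ∈ e.cls :=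
  ⟨⟨x, {g | g =ᶠ[𝓝 x] f}, f, h, rfl⟩, rfl, EventuallyEq.refl _ _⟩

instance : TopologicalSpace (GMEt C) where
  IsOpen W := ∀ e ∈ W, ∀ f ∈ e.cls, ∀ᶠ x' in 𝓝 e.pt, ∀ e' : GMEt C, e'.pt = x' → f ∈ e'.cls → e' ∈ W
  isOpen_univ := fun _ _ _ _ => Eventually.of_forall fun _ _ _ _ => mem_univ _
  isOpen_inter := fun s t hs ht e he f hf => by
    filter_upwards [hs e he.1 f hf, ht e he.2 f hf] with x' h1 h2 e' hp hf'
    exact ⟨h1 e' hp hf', h2 e' hp hf'⟩
  isOpen_sUnion := fun s hs e he f hf => by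
    obtain ⟨t, ht, het⟩ := he
    filter_upwards [hs t ht e het f hf] with x' h1 e' hp hf'
    exact ⟨t, ht, h1 e' hp hf'⟩

theorem isOpen_iff {W : Set (GMEt C)} : IsOpen W ↔
    ∀ e ∈ W, ∀ f ∈ e.cls, ∀ᶠ x' in 𝓝 e.pt, ∀ e' : GMEt C, e'.pt = x' → f ∈ e'.cls → e' ∈ W :=
  Iff.rfl

theorem continuous_pt : Continuous (GMEt.pt : GMEt C → G) := by
  refine continuous_def.2 fun W hW => isOpen_iff.2 fun e he f _ => ?_
  filter_upwards [hW.mem_nhds he] with x' hx' e' hp _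
  show e'.pt ∈ W
  rwa [hp]

theorem isOpen_sheet (f : G → Y) : IsOpen {e : GMEt C | f ∈ e.cls} := by
  refine isOpen_iff.2 fun e he g hg => ?_
  have h : f =ᶠ[𝓝 e.pt] g := e.eq_of_mem he hg
  filter_upwards [h.eventuallyEq_nhds] with x' hx' e' hp hg'
  exact e'.mem_of_eq hg' (hp ▸ hx')

theorem evenly_aux {ι : Type*} [Nonempty ι] [Nonempty (GMEt C)] {V : Set G} (hV : IsOpen V) {x : G}
    (hx : x ∈ V) (g : ι → G → Y) (hg : ∀ i, ∀ q ∈ V, C.Good (g i) q)
    (hdisj : ∀ i j, ∀ q ∈ V, g i =ᶠ[𝓝 q] g j → i = j)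
    (hexh : ∀ e : GMEt C, e.pt ∈ V → ∃ i, g i ∈ e.cls) :
    IsEvenlyCovered (GMEt.pt : GMEt C → G) x ((GMEt.pt : GMEt C → G) ⁻¹' {x}) := by
  letI : TopologicalSpace ι := ⊥
  haveI : DiscreteTopology ι := ⟨rfl⟩
  let U : ι → Set (GMEt C) := fun i => {e | e.pt ∈ V ∧ g i ∈ e.cls}
  have hU : ∀ i, IsOpen (U i) := fun i =>
    (hV.preimage continuous_pt).inter (isOpen_sheet (g i))
  have open_iff : ∀ i {W : Set G}, W ⊆ V →
      (IsOpen W ↔ IsOpen ((GMEt.pt : GMEt C → G) ⁻¹' W ∩ U i)) := by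
    intro i W hWV
    constructor
    · intro hW
      exact (hW.preimage continuous_pt).inter (hU i)
    · intro hW
      refine isOpen_iff_mem_nhds.2 fun w hw => ?_
      obtain ⟨e, hp, he⟩ := exists_of_good (hg i w (hWV hw))
      have h1 := isOpen_iff.1 hW e ⟨by show e.pt ∈ W; rwa [hp], by
        show e.pt ∈ V ∧ _; exact ⟨hp ▸ hWV hw, he⟩⟩ (g i) he
      rw [hp] at h1
      filter_upwards [h1, C.eventually (hg i w (hWV hw))] with x' h2 h3
      obtain ⟨e', hp', he'⟩ := exists_of_good h3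
      have := (h2 e' hp' he').1
      rw [← hp']
      exact this
  have inj : ∀ i, (U i).InjOn (GMEt.pt : GMEt C → G) := fun i e he e' he' hp =>
    ext' hp he.2 he'.2
  have surj : ∀ i, (U i).SurjOn (GMEt.pt : GMEt C → G) V := by
    intro i w hw
    obtain ⟨e, hp, he⟩ := exists_of_good (hg i w hw)
    exact ⟨e, ⟨hp ▸ hw, he⟩, hp⟩
  have disj : Pairwise (Function.onFun Disjoint U) := by
    intro i j hij
    refine Set.disjoint_left.2 fun e hi hj => hij ?_
    exact hdisj i j e.pt hi.1 (e.eq_of_mem hi.2 hj.2)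
  have exh : (GMEt.pt : GMEt C → G) ⁻¹' V ⊆ ⋃ i, U i := by
    intro e he
    obtain ⟨i, hi⟩ := hexh e he
    exact mem_iUnion.2 ⟨i, he, hi⟩
  exact (IsEvenlyCovered.of_trivialization
    (t := hV.trivializationDiscrete U V open_iff inj surj disj exh) (x := x)
    (by simpa using hx)).to_isEvenlyCovered_preimage

theorem isCoveringMap_pt [LocallyPathConnectedSpace G]
    (hunif : ∀ x : G, ∃ N ∈ 𝓝 x, ∀ x' ∈ N, ∀ f : G → Y, C.Good f x' →
      ∃ g : G → Y, g =ᶠ[𝓝 x'] f ∧ ∀ x'' ∈ N, C.Good g x'') :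
    IsCoveringMap (GMEt.pt : GMEt C → G) := by
  intro x
  obtain ⟨N, hN, hext⟩ := hunif x
  obtain ⟨V, ⟨hVo, hxV, hVc⟩, hVN⟩ := (isOpen_isPathConnected_basis x).mem_iff.1 hN
  have hVN' : V ⊆ N := hVN
  have hpre : IsPreconnected V := hVc.isConnected.isPreconnected
  by_cases hne : ∃ e : GMEt C, e.pt = x
  · obtain ⟨e₀, he₀⟩ := hne
    haveI : Nonempty (GMEt C) := ⟨e₀⟩
    haveI : Nonempty {e : GMEt C // e.pt = x} := ⟨⟨e₀, he₀⟩⟩
    have hch : ∀ i : {e : GMEt C // e.pt = x}, ∃ g : G → Y, g ∈ i.1.cls ∧ ∀ q ∈ V, C.Good g q := by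
      intro i
      obtain ⟨f, hf⟩ := i.1.exists_mem
      obtain ⟨g, hgf, hg⟩ := hext x (hVN' hxV) f (i.2 ▸ i.1.good hf)
      exact ⟨g, i.1.mem_of_eq hf (i.2.symm ▸ hgf), fun q hq => hg q (hVN' hq)⟩
    choose g hgi hg using hch
    refine evenly_aux hVo hxV g hg ?_ ?_
    · intro i j q hq h
      have h1 := C.eq_of_preconnected hpre (hg i) (hg j) hq h x hxV
      refine Subtype.ext (ext' (i.2.trans j.2.symm) (hgi i) ?_)
      exact j.1.mem_of_eq (hgi j) (j.2.symm ▸ h1)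
    · intro e he
      obtain ⟨f, hf⟩ := e.exists_mem
      obtain ⟨k, hkf, hk⟩ := hext e.pt (hVN' he) f (e.good hf)
      obtain ⟨i, hp, hi⟩ := exists_of_good (hk x (hVN' hxV))
      refine ⟨⟨i, hp⟩, e.mem_of_eq hf (EventuallyEq.trans ?_ hkf)⟩
      refine C.eq_of_preconnected hpre (hg ⟨i, hp⟩) (fun q hq => hk q (hVN' hq)) hxV ?_ _ he
      have := i.eq_of_mem (hgi ⟨i, hp⟩) hi
      rwa [hp] at this
  · refine (IsEvenlyCovered.of_preimage_eq_empty Empty hN ?_).to_isEvenlyCovered_preimage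
    refine Set.eq_empty_of_forall_notMem fun e he => hne ?_
    obtain ⟨f, hf⟩ := e.exists_mem
    obtain ⟨k, -, hk⟩ := hext e.pt he f (e.good hf)
    obtain ⟨i, hp, -⟩ := exists_of_good (hk x (mem_of_mem_nhds hN))
    exact ⟨i, hp⟩

end GMEt

theorem GermClass.monodromy {G Y : Type*} [TopologicalSpace G] [SimplyConnectedSpace G]
    [LocallyPathConnectedSpace G] (C : GermClass G Y)
    (hunif : ∀ x : G, ∃ N ∈ 𝓝 x, ∀ x' ∈ N, ∀ f : G → Y, C.Good f x' →
      ∃ g : G → Y, g =ᶠ[𝓝 x'] f ∧ ∀ x'' ∈ N, C.Good g x'')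
    {f₀ : G → Y} {x₀ : G} (h₀ : C.Good f₀ x₀) :
    ∃ f : G → Y, (∀ x, C.Good f x) ∧ f =ᶠ[𝓝 x₀] f₀ := by
  have cov := GMEt.isCoveringMap_pt hunif
  obtain ⟨e₀, hp₀, he₀⟩ := GMEt.exists_of_good h₀
  obtain ⟨F, ⟨hF₀, hF⟩, -⟩ :=
    cov.existsUnique_continuousMap_lifts (ContinuousMap.id G) x₀ e₀ (by simpa using hp₀)
  have hFp : ∀ x, (F x).pt = x := fun x => congrFun hF x
  choose r hr using fun x => (F x).exists_mem
  have key : ∀ x, ∀ g ∈ (F x).cls, (fun y => r y y) =ᶠ[𝓝 x] g := by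
    intro x g hg
    have h1 : ∀ᶠ y in 𝓝 x, g ∈ (F y).cls :=
      ((GMEt.isOpen_sheet g).preimage F.continuous).mem_nhds hg
    filter_upwards [h1] with y hy
    have h2 := (F y).eq_of_mem (hr y) hy
    rw [hFp] at h2
    exact h2.eq_of_nhds
  refine ⟨fun y => r y y, fun x => ?_, key x₀ f₀ (hF₀ ▸ he₀)⟩
  have h3 := (F x).good (hr x)
  rw [hFp] at h3
  exact C.congr h3 (key x _ (hr x)).symm

end Crest.Agent.R266G
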