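import Crest.Agent.R266.GCross2
import Crest.Agent.R266.GMono

/-!
# Row 266 G: holonomy germs extend over boxes; global retractions

* `Hcl.congr`: `cases`; both constructors are stable under changing the (last) germ.
* `Hcl.extend`: induction on `Hcl` (generalising nothing: `y, r` are fixed, `x` is an index, so state the
  induction motive with `∀ y r, …`).
  Base: `α₀ u = (e y).symm (u.1, (e y x).2)` (horizontal: `prodAt_symm`, `ProdAt.horAt`, `HorAt.comp` with `fst`);
  `α =ᶠ br x · x =ᶠ br y · x` by `br_chart` (pull the eventual statement back along `m ↦ (m, x)`).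
  For `x'` with `e y x' ∈ ball (e y x) r`: `Hcl.step x' y (fun m => br y m x') _ Φ (e y x') (e y x) r` with
  `Φ (u, u') = (e y).symm (u.1, u'.2)` (`prodAt_symm.comp` with `fst`, `snd`; `((e y x').1, u'.2) ∈ ball (e y x) (2r)`), and
  `Hcl.base x'` through `br_chart`.
  Step (data `y', Φ', w₀, w₁, R`): the induction hypothesis gives `α₀`.  Put `Φ₁ (u, w) = Φ' (e y' ((e y).symm u), w)`
  (`ProdAt.comp`, `analyticAt_trans`); `Φ₁ (u, w₀) = α₀ u` for `u` near `e y x` (pull `h₀` and the induction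
  hypothesis back along `(e y).symm`, which tends to `x`).  `push` gives `Φ`; take `α₀' u = Φ (u, w₁)`
  (`ProdAt.horAt`); for `x'` use `Hcl.step x' y _ _ Φ w₀ w₁ R` on top of the induction hypothesis.
* `Hcl.hol`, `Hcl.horAt`: from `extend` (choose `r` with `ball (e y x) (2r) ⊆ target`).
* `exists_ret`: `GermClass.monodromy` for `hclClass` (`ChartedSpace.locallyPathConnectedSpace`).  Uniform
  neighbourhood of `x*`: `ball (e x* x*) (5ρ) ⊆ target`, `N = source ∩ e x* ⁻¹' ball (e x* x*) ρ`; for `x' ∈ N` use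
  `extend` with the chart `x*` and the radius `2ρ`.
-/

set_option autoImplicit false
open scoped Manifold ContDiff Topology
open Set Filter Metric
open Crest.AlgGeometry.HolSplit

namespace Crest.Agent.R266G

namespace PAtlas

variable {n n₁ n₂ : ℕ} {M : Type} [TopologicalSpace M] [ChartedSpace (Model n) M]
  [IsManifold (mI n) ω M] [T2Space M] {A : PAtlas n n₁ n₂ M}

omit [IsManifold (mI n) ω M] [T2Space M] in
theorem Hcl.congr {α α' : M → M} {x : M} (h : A.Hcl α x) (h' : α =ᶠ[𝓝 x] α') : A.Hcl α' x := by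
  cases h with
  | base _ _ h => exact .base _ _ (h'.symm.trans h)
  | step _ y β _ Φ w₀ w₁ R hx hw hΦ h₀ h₁ hα =>
    exact .step _ y β _ Φ w₀ w₁ R hx hw hΦ h₀ (h'.symm.trans h₁) hα

omit [T2Space M] in
theorem GHcl_br {x y m : M} (hx : m ∈ (A.e x).source) (hy : m ∈ (A.e y).source) :
    (fun m' => A.br x m' m) =ᶠ[𝓝 m] fun m' => A.br y m' m :=
  (tendsto_id.prodMk_nhds tendsto_const_nhds).eventually (A.br_chart hx hy)

omit [IsManifold (mI n) ω M] [T2Space M] in
theorem GHcl_rad {x y : M} (hx : x ∈ (A.e y).source) {c : ℝ} (hc : 0 < c) :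
    ∃ r, 0 < r ∧ ball (A.e y x) (c * r) ⊆ (A.e y).target := by
  obtain ⟨ε, hε, h⟩ := Metric.isOpen_iff.1 (A.e y).open_target _ ((A.e y).map_source hx)
  exact ⟨ε / c, by positivity, by rwa [mul_div_cancel₀ _ hc.ne']⟩

theorem Hcl.extend (hT : A.Touch) {α : M → M} {x : M} (h : A.Hcl α x) {y : M}
    (hx : x ∈ (A.e y).source) {r : ℝ} (hr : 0 < r)
    (hb : ball (A.e y x) (2 * r) ⊆ (A.e y).target) :
    ∃ α₀ : FF n₁ n₂ → M, (∀ u ∈ ball (A.e y x) r, A.HorAt α₀ u) ∧
      α =ᶠ[𝓝 x] (fun m => α₀ (A.e y m)) ∧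
      ∀ x' ∈ (A.e y).source, A.e y x' ∈ ball (A.e y x) r → A.Hcl (fun m => α₀ (A.e y m)) x' := by
  induction h with
  | base x α h =>
    refine ⟨fun u => (A.e y).symm (u.1, (A.e y x).2), fun u hu => ?_,
      h.trans (GHcl_br (A.mem x) hx), fun x' hx' hd => ?_⟩
    · have hm : (u.1, (A.e y x).2) ∈ (A.e y).target := by
        refine hb ?_
        rw [mem_ball, Prod.dist_eq, max_lt_iff] at hu ⊢
        exact ⟨by linarith [hu.1], by simpa using hr⟩
      exact (A.prodAt_symm hm).horAt.comp analyticAt_fst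
    · refine .step x' y (fun m => A.br y m x') _
        (fun q : FF n₁ n₂ × FF n₁ n₂ => (A.e y).symm (q.1.1, q.2.2)) (A.e y x') (A.e y x) r hx'
        (mem_ball_comm.1 hd) (fun w hw => ?_) EventuallyEq.rfl EventuallyEq.rfl
        (.base x' _ (GHcl_br hx' (A.mem x')))
      have hm : ((A.e y x').1, w.2) ∈ (A.e y).target := by
        refine hb ?_
        rw [mem_ball, Prod.dist_eq, max_lt_iff] at hd hw ⊢
        exact ⟨by linarith [hd.1], by
          linarith [hd.2, hw.2, dist_triangle w.2 (A.e y x').2 (A.e y x).2]⟩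
      exact ProdAt.comp (a := Prod.fst) (b := Prod.snd) (A.prodAt_symm hm) analyticAt_fst
        analyticAt_snd
  | step x y' α α' Φ' w₀ w₁ R hx' hw hΦ h₀ h₁ _ ih =>
    obtain ⟨α₀, a1, a2, a3⟩ := ih hx hb
    have ts := (A.e y).tendsto_symm hx
    obtain ⟨Φ, p1, p2, p3⟩ := push hT
      (Φ₁ := fun q : FF n₁ n₂ × FF n₁ n₂ => Φ' (A.e y' ((A.e y).symm q.1), q.2)) (w₀ := w₀) hr
      (pos_of_mem_ball hw) a1 (fun w hw' => by
        refine ProdAt.comp (a := fun u => A.e y' ((A.e y).symm u)) (b := fun w => w) ?_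
          (A.analyticAt_trans hx hx') analyticAt_id
        rw [(A.e y).left_inv hx]
        exact hΦ w hw') (by
        filter_upwards [ts.eventually h₀, ts.eventually a2,
          (A.e y).eventually_right_inverse ((A.e y).map_source hx)] with z z1 z2 z3
        rw [← z1, z2, z3])
    have tc : ∀ x' ∈ (A.e y).source, Tendsto (A.e y) (𝓝 x') (𝓝 (A.e y x')) := fun x' hx' =>
      (A.e y).continuousAt hx'
    refine ⟨fun u => Φ (u, w₁), fun u hu => (p1 u hu w₁ hw).horAt, ?_, fun x'' hx'' hd => ?_⟩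
    · filter_upwards [h₁, ((tc x hx).prodMk_nhds tendsto_const_nhds).eventually (p3 w₁ hw),
        (A.e y).eventually_left_inverse hx] with m m1 m2 m3
      rw [m1, m2, m3]
    · refine .step x'' y _ _ Φ w₀ w₁ R hx'' hw (fun w hw' => p1 _ hd w hw') ?_ EventuallyEq.rfl
        (a3 x'' hx'' hd)
      filter_upwards [tc x'' hx'' (isOpen_ball.mem_nhds hd)] with m hm
      exact (p2 _ hm).symm

theorem Hcl.hol (hT : A.Touch) {α : M → M} {x : M} (h : A.Hcl α x) :
    ContMDiffAt (mI n) (mI n) ω α x := by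
  obtain ⟨r, hr, hb⟩ := GHcl_rad (A.mem x) two_pos
  obtain ⟨α₀, a1, a2, -⟩ := h.extend hT (A.mem x) hr hb
  exact ((a1 _ (mem_ball_self hr)).1.comp x
    ((A.hol x).contMDiffAt ((A.e x).open_source.mem_nhds (A.mem x)))).congr_of_eventuallyEq a2

theorem Hcl.horAt (hT : A.Touch) {α : M → M} {x : M} (h : A.Hcl α x) {y : M}
    (hx : x ∈ (A.e y).source) : A.HorAt (fun u => α ((A.e y).symm u)) (A.e y x) := by
  obtain ⟨r, hr, hb⟩ := GHcl_rad hx two_pos
  obtain ⟨α₀, a1, a2, -⟩ := h.extend hT hx hr hb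
  refine (a1 _ (mem_ball_self hr)).congr ?_
  filter_upwards [((A.e y).tendsto_symm hx).eventually a2,
    (A.e y).eventually_right_inverse ((A.e y).map_source hx)] with z z1 z2
  rw [z1, z2]

theorem Hcl.eventually (hT : A.Touch) {α : M → M} {x : M} (h : A.Hcl α x) :
    ∀ᶠ x' in 𝓝 x, A.Hcl α x' := by
  obtain ⟨r, hr, hb⟩ := GHcl_rad (A.mem x) two_pos
  obtain ⟨α₀, -, a2, a3⟩ := h.extend hT (A.mem x) hr hb
  filter_upwards [a2.eventuallyEq_nhds, (A.e x).open_source.mem_nhds (A.mem x),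
    (A.e x).continuousAt (A.mem x) (ball_mem_nhds _ hr)] with m m1 m2 m3
  exact (a3 m m2 m3).congr m1.symm

/-- Holonomy germs form a germ class. -/
def hclClass (hT : A.Touch) : GermClass M M where
  Good := A.Hcl
  congr h h' := h.congr h'
  eventually h := h.eventually hT
  ident h h' hh := hol_ident (h.hol hT) (h'.hol hT) hh

theorem exists_ret [SimplyConnectedSpace M] (hT : A.Touch) (y : M) :
    ∃ r : M → M, (∀ x, A.Hcl r x) ∧ r =ᶠ[𝓝 y] fun m => A.br y m y := by
  have := ChartedSpace.locallyPathConnectedSpace (Model n) M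
  refine (hclClass hT).monodromy (fun x => ?_) (Hcl.base y _ EventuallyEq.rfl)
  obtain ⟨ρ, hρ, hb⟩ := GHcl_rad (A.mem x) (c := 5) (by norm_num)
  refine ⟨(A.e x).source ∩ A.e x ⁻¹' ball (A.e x x) ρ,
    inter_mem ((A.e x).open_source.mem_nhds (A.mem x))
      ((A.e x).continuousAt (A.mem x) (ball_mem_nhds _ hρ)), fun x' hx' f hf => ?_⟩
  have d1 : dist (A.e x x') (A.e x x) < ρ := hx'.2
  obtain ⟨α₀, -, a2, a3⟩ := Hcl.extend hT hf hx'.1 (r := 2 * ρ) (by positivity)
    ((ball_subset_ball' (by linarith)).trans hb)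
  refine ⟨_, a2.symm, fun x'' hx'' => a3 x'' hx''.1 ?_⟩
  have d2 : dist (A.e x x'') (A.e x x) < ρ := hx''.2
  rw [mem_ball]
  linarith [dist_triangle_right (A.e x x'') (A.e x x') (A.e x x)]

end PAtlas

end Crest.Agent.R266G
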