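import Crest.Agent.R266.GGerm

/-!
# Row 266 G: holomorphic maps into a Hausdorff complex manifold

* `hol_ident`: identity principle.  `f` and `g` are continuous at `p` and frequently equal, so
  `f p = g p` (T2).  With `c = extChartAt _ (f p)`, `d = extChartAt _ p`, the maps `c ∘ f ∘ d.symm`,
  `c ∘ g ∘ d.symm` are `ContDiffAt ℂ ω` (`contMDiffAt_iff`, boundaryless models: `range = univ`), i.e.
  analytic (`contDiffAt_omega_iff_analyticAt`) at `d p`, hence on a ball, and agree near some point of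
  that ball; `AnalyticOnNhd.eqOn_of_preconnected_of_eventuallyEq`; go back with injectivity of `c` on
  its source.
* `holAt_iff_chart`: compose with `e` resp. `e.symm` (`f =ᶠ e.symm ∘ e ∘ f` near `p`).
* `exists_locDiffeo`: inverse function theorem.  In the chart `c = chartAt p`, `φ = f ∘ c.symm` is
  `ContDiffAt ℂ ω` at `c p` with derivative `mfderiv f p` (a linear equivalence:
  `ContinuousLinearEquiv.ofBijective` / `LinearEquiv.toContinuousLinearEquiv`);
  `ContDiffAt.toOpenPartialHomeomorph`, `ContDiffAt.to_localInverse`; restrict to a small open set on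
  which `φ` and the inverse are `ContDiffAt ω` (`ContDiffAt.eventually`, `ω ≠ ∞`), compose with `c`, and
  change the function to `f` (`OpenPartialHomeomorph.copy` or build the structure by hand:
  `φ ∘ c = f` on `c.source`).
-/

set_option autoImplicit false
open scoped Manifold ContDiff Topology
open Set Filter Metric
open Crest.AlgGeometry.HolSplit

namespace Crest.Agent.R266G

variable {n : ℕ} {M : Type} [TopologicalSpace M] [ChartedSpace (Model n) M] [IsManifold (mI n) ω M]

theorem GHol_omega {E F : Type*} [NormedAddCommGroup E] [NormedSpace ℂ E] [NormedAddCommGroup F]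
    [NormedSpace ℂ F] [CompleteSpace F] {f : E → F} {x : E} :
    ContDiffAt ℂ ω f x ↔ AnalyticAt ℂ f x := by
  rw [← contDiffWithinAt_univ, contDiffWithinAt_omega_iff_analyticWithinAt, analyticWithinAt_univ]

theorem hol_ident [T2Space M] {G N : Type} [NormedAddCommGroup G] [NormedSpace ℂ G]
    [TopologicalSpace N] [ChartedSpace G N] [IsManifold 𝓘(ℂ, G) ω N] {f g : N → M} {p : N}
    (hf : ContMDiffAt 𝓘(ℂ, G) (mI n) ω f p) (hg : ContMDiffAt 𝓘(ℂ, G) (mI n) ω g p)
    (h : ∃ᶠ q in 𝓝 p, f =ᶠ[𝓝 q] g) : f =ᶠ[𝓝 p] g := by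
  have hp : f p = g p := tendsto_nhds_unique_of_frequently_eq hf.continuousAt hg.continuousAt
    (h.mono fun q hq => hq.self_of_nhds)
  have a1 := (contMDiffAt_iff.1 hf).2
  have a2 := (contMDiffAt_iff.1 hg).2
  rw [← hp] at a2
  rw [modelWithCornersSelf_coe, range_id, contDiffWithinAt_univ, GHol_omega]
    at a1 a2
  obtain ⟨r, hr, hB⟩ := Metric.eventually_nhds_iff_ball.1
    (a1.eventually_analyticAt.and a2.eventually_analyticAt)
  have e1 : ∀ᶠ q in 𝓝 p, q ∈ (extChartAt 𝓘(ℂ, G) p).source ∧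
      extChartAt 𝓘(ℂ, G) p q ∈ ball (extChartAt 𝓘(ℂ, G) p p) r :=
    Filter.Eventually.and (extChartAt_source_mem_nhds p)
      (continuousAt_extChartAt p (ball_mem_nhds _ hr))
  obtain ⟨q, hq, hq1, hq2⟩ := (h.and_eventually e1).exists
  have e2 : Tendsto (extChartAt 𝓘(ℂ, G) p).symm (𝓝 (extChartAt 𝓘(ℂ, G) p q)) (𝓝 q) := by
    have := continuousAt_extChartAt_symm' (I := 𝓘(ℂ, G)) hq1
    rwa [ContinuousAt, (extChartAt 𝓘(ℂ, G) p).left_inv hq1] at this
  have e3 := AnalyticOnNhd.eqOn_of_preconnected_of_eventuallyEq (fun x hx => (hB x hx).1)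
    (fun x hx => (hB x hx).2) (convex_ball _ _).isPreconnected hq2
    ((hq.comp_tendsto e2).fun_comp _)
  have s1 : (extChartAt (mI n) (f p)).source ∈ 𝓝 (f p) := extChartAt_source_mem_nhds _
  have s2 : (extChartAt (mI n) (f p)).source ∈ 𝓝 (g p) := hp ▸ s1
  filter_upwards [e1, hf.continuousAt s1, hg.continuousAt s2] with x hx h1 h2
  have := e3 hx.2
  simp only [Function.comp_apply, (extChartAt 𝓘(ℂ, G) p).left_inv hx.1] at this
  exact (extChartAt (mI n) (f p)).injOn h1 h2 this

/-- Holomorphic germs `N → M` form a germ class. -/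
def holClass (n : ℕ) (M : Type) [TopologicalSpace M] [ChartedSpace (Model n) M]
    [IsManifold (mI n) ω M] [T2Space M] (G N : Type) [NormedAddCommGroup G] [NormedSpace ℂ G]
    [TopologicalSpace N] [ChartedSpace G N] [IsManifold 𝓘(ℂ, G) ω N] : GermClass N M where
  Good f p := ContMDiffAt 𝓘(ℂ, G) (mI n) ω f p
  congr hf h := hf.congr_of_eventuallyEq h.symm
  eventually hf := (contMDiffAt_iff_contMDiffAt_nhds (by simp)).mp hf
  ident hf hg h := hol_ident hf hg h

/-- Identity theorem on preconnected sets. -/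
theorem hol_eq_of_preconnected [T2Space M] {G N : Type} [NormedAddCommGroup G] [NormedSpace ℂ G]
    [TopologicalSpace N] [ChartedSpace G N] [IsManifold 𝓘(ℂ, G) ω N] {B : Set N}
    (hB : IsPreconnected B) {f g : N → M} (hf : ∀ q ∈ B, ContMDiffAt 𝓘(ℂ, G) (mI n) ω f q)
    (hg : ∀ q ∈ B, ContMDiffAt 𝓘(ℂ, G) (mI n) ω g q) {a : N} (ha : a ∈ B) (h : f =ᶠ[𝓝 a] g) :
    ∀ q ∈ B, f =ᶠ[𝓝 q] g :=
  (holClass n M G N).eq_of_preconnected hB hf hg ha h

theorem holAt_iff_chart {G F : Type} [NormedAddCommGroup G] [NormedSpace ℂ G]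
    [NormedAddCommGroup F] [NormedSpace ℂ F] [CompleteSpace F] (e : OpenPartialHomeomorph M F)
    (he : ContMDiffOn (mI n) 𝓘(ℂ, F) ω e e.source)
    (he' : ContMDiffOn 𝓘(ℂ, F) (mI n) ω e.symm e.target) {f : G → M} {p : G}
    (hp : f p ∈ e.source) :
    HolAt n f p ↔ ContinuousAt f p ∧ AnalyticAt ℂ (fun q => e (f q)) p := by
  constructor
  · intro hf
    exact ⟨hf.continuousAt, GHol_omega.1
      ((he.contMDiffAt (e.open_source.mem_nhds hp)).comp p hf).contDiffAt⟩
  · rintro ⟨hc, ha⟩
    have h1 := ContMDiffAt.comp (f := fun q => e (f q)) p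
      (he'.contMDiffAt (e.open_target.mem_nhds (e.map_source hp)))
      (GHol_omega.2 ha).contMDiffAt
    refine h1.congr_of_eventuallyEq ?_
    filter_upwards [hc (e.open_source.mem_nhds hp)] with q hq
    exact (e.left_inv hq).symm

theorem GHol_change {X Y : Type*} [TopologicalSpace X] [TopologicalSpace Y]
    (e : OpenPartialHomeomorph X Y) (f : X → Y) (h : EqOn f e e.source) :
    ∃ e' : OpenPartialHomeomorph X Y, e'.source = e.source ∧ (e' : X → Y) = f ∧
      (e'.symm : Y → X) = e.symm :=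
  ⟨{ toFun := f
     invFun := e.symm
     source := e.source
     target := e.target
     map_source' := fun x hx => by rw [h hx]; exact e.map_source hx
     map_target' := fun _ hy => e.map_target hy
     left_inv' := fun x hx => by rw [h hx]; exact e.left_inv hx
     right_inv' := fun y hy => by rw [h (e.map_target hy)]; exact e.right_inv hy
     open_source := e.open_source
     open_target := e.open_target
     continuousOn_toFun := e.continuousOn.congr h
     continuousOn_invFun := e.continuousOn_symm }, rfl, rfl, rfl⟩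

theorem exists_locDiffeo {F : Type} [NormedAddCommGroup F] [NormedSpace ℂ F] [CompleteSpace F]
    {f : M → F} {p : M} (hf : ContMDiffAt (mI n) 𝓘(ℂ, F) ω f p)
    (hd : Function.Bijective (mfderiv (mI n) 𝓘(ℂ, F) f p)) {U : Set M} (hU : U ∈ 𝓝 p) :
    ∃ e : OpenPartialHomeomorph M F, p ∈ e.source ∧ e.source ⊆ U ∧ (e : M → F) = f ∧
      ContMDiffOn (mI n) 𝓘(ℂ, F) ω e e.source ∧ ContMDiffOn 𝓘(ℂ, F) (mI n) ω e.symm e.target := by
  have a1 := (contMDiffAt_iff.1 hf).2
  have a2 := (hf.mdifferentiableAt (by simp)).hasMFDerivAt.2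
  rw [modelWithCornersSelf_coe, range_id, contDiffWithinAt_univ] at a1
  rw [modelWithCornersSelf_coe, range_id, hasFDerivWithinAt_univ] at a2
  obtain ⟨D, hD⟩ : ∃ D : Model n →L[ℂ] F, D = mfderiv (mI n) 𝓘(ℂ, F) f p := ⟨_, rfl⟩
  have hd' : Function.Bijective D := hD ▸ hd
  let L : Model n ≃L[ℂ] F := ContinuousLinearEquiv.ofBijective D
    (LinearMap.ker_eq_bot.2 hd'.1) (LinearMap.range_eq_top.2 hd'.2)
  have b1 : ContDiffAt ℂ ω (f ∘ (chartAt (Model n) p).symm) (chartAt (Model n) p p) := a1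
  have b2 : HasFDerivAt (f ∘ (chartAt (Model n) p).symm) (L : Model n →L[ℂ] F)
      (chartAt (Model n) p p) := by
    rw [ContinuousLinearEquiv.coe_ofBijective, hD]
    exact a2
  have hn : (ω : WithTop ℕ∞) ≠ 0 := by simp
  have hpc := mem_chart_source (Model n) p
  have hφ : (f ∘ (chartAt (Model n) p).symm) (chartAt (Model n) p p) = f p := by
    rw [Function.comp_apply, (chartAt (Model n) p).left_inv hpc]
  obtain ⟨e, s1, s2, s3⟩ := GHol_change
    ((chartAt (Model n) p).trans (b1.toOpenPartialHomeomorph _ b2 hn)) f fun x hx =>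
      congrArg f ((chartAt (Model n) p).left_inv hx.1).symm
  have hp : p ∈ e.source := s1 ▸ ⟨hpc, b1.mem_toOpenPartialHomeomorph_source b2 hn⟩
  have b3 : ContMDiffAt 𝓘(ℂ, F) (mI n) ω e.symm (f p) := by
    have c1 := (b1.to_localInverse b2 hn).contMDiffAt
    have c2 := b1.localInverse_apply_image b2 hn
    rw [hφ] at c1 c2
    have c3 : ContMDiffAt (mI n) (mI n) ω (chartAt (Model n) p).symm
        (b1.localInverse b2 hn (f p)) := by
      rw [c2]
      exact contMDiffOn_chart_symm.contMDiffAt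
        ((chartAt (Model n) p).open_target.mem_nhds ((chartAt (Model n) p).map_source hpc))
    rw [s3]
    exact c3.comp _ c1
  have b4 : ∀ᶠ x in 𝓝 p, x ∈ U ∧ ContMDiffAt (mI n) 𝓘(ℂ, F) ω f x ∧
      ContMDiffAt 𝓘(ℂ, F) (mI n) ω e.symm (f x) :=
    Filter.Eventually.and hU (((contMDiffAt_iff_contMDiffAt_nhds (by simp)).1 hf).and
      (hf.continuousAt ((contMDiffAt_iff_contMDiffAt_nhds (by simp)).1 b3)))
  obtain ⟨V, hV, hVo, hpV⟩ := eventually_nhds_iff.1 b4
  refine ⟨e.restrOpen V hVo, ⟨hp, hpV⟩, fun x hx => (hV x hx.2).1, s2, fun x hx => ?_, fun y hy => ?_⟩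
  · have := (hV x hx.2).2.1
    rw [← s2] at this
    exact this.contMDiffWithinAt
  · have := (hV _ hy.2).2.2
    rw [← s2] at this
    have e1 : e (e.symm y) = y := e.right_inv hy.1
    exact (e1 ▸ this : ContMDiffAt 𝓘(ℂ, F) (mI n) ω e.symm y).contMDiffWithinAt

end Crest.Agent.R266G
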