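import Crest.Agent.R266.GAtlas2

/-!
# Row 266 G: regular boundary points for product maps

* `reg_axis₁`: let `y = α z₁`.  On a ball `ball z₁ ε`, `α` is holomorphic, `α z ∈ (e y).source` and
  `(e y (α z)).2 = c := (e y y).2`.  Take `τ₀ ∈ [0,1)` with `z' = τ₀ • z₁ ∈ ball z₁ ε` and
  `Θ q = br y (α q.1) (f (z', q.2))`.  For `z ∈ ball z₁ ε`, `prodAt_br` gives `ProdAt Θ (z, 0)`
  (`f (z', 0) = α z'`, so the pair of coordinates is `e y (α z) ∈ target`; `w ↦ f (z', w)` is holomorphic at `0` by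
  `ProdAt.verAt`), and `Θ =ᶠ f` near `(z', 0)` by `ProdAt.eq_br` and `hfα`.  Conclude with `reg_of_segment`
  (`q = (z', 0)`, the segment consists of the points `((τ₀ + τ (1 - τ₀)) • z₁, 0)`).
* `reg_axis₂`: symmetric (repeat the proof, or use `A.swap`, `ProdAt.swap`, `swap.swap = A` up to `rfl`).
* `reg_mixed`: `v = p - q`, `ι (s, t) = (q.1 + (s / ‖v.1‖) • v.1, q.2 + (t / ‖v.2‖) • v.2)` maps the ball
  `B₀ = {‖s‖² + ‖t‖² < η²}` into the ball of `hB`; `f ∘ ι` is `ProdAt` on `B₀` (`ProdAt.comp`),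
  `p₀ = (‖v.1‖, ‖v.2‖)`, `ι p₀ = p`.  `hT` gives a limit `y`.  Take `r` with `ball (e y y) r ⊆ target`; for `x ∈ B₀` close to
  `p₀`, `f (ι x) ∈ source` and `e y (f (ι x)) ∈ ball (e y y) r`.  Fix `τ₀ < 1` close to `1`, `z' = q.1 + τ₀ • v.1`,
  `w' = q.2 + τ₀ • v.2`, `Θ x = br y (f (x.1, w')) (f (z', x.2))`.  For `σ ∈ [τ₀, 1]` the points
  `(q.1 + σ • v.1, w')` and `(z', q.2 + σ • v.2)` are in the open ball (since `v.1, v.2 ≠ 0`, `τ₀ < 1`) and are images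
  under `ι` of points close to `p₀`; so `prodAt_br` (a sup norm ball is a box) gives `ProdAt Θ (q + σ • v)`.
  `Θ =ᶠ f` near `(z', w')` by `ProdAt.eq_br`; conclude with `reg_of_segment`.
-/

set_option autoImplicit false
open scoped Manifold ContDiff Topology
open Set Filter Metric
open Crest.AlgGeometry.HolSplit

namespace Crest.Agent.R266G

namespace PAtlas

variable {n n₁ n₂ : ℕ} {M : Type} [TopologicalSpace M] [ChartedSpace (Model n) M]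
  [IsManifold (mI n) ω M] [T2Space M] {A : PAtlas n n₁ n₂ M}
  {G₁ G₂ : Type} [NormedAddCommGroup G₁] [NormedSpace ℂ G₁] [NormedAddCommGroup G₂]
  [NormedSpace ℂ G₂]

theorem greg_exists {P : ℝ → ℝ → Prop} (h : ∀ᶠ x : ℝ × ℝ in 𝓝 (1, 1), P x.1 x.2) :
    ∃ τ₀ ∈ Ico (0 : ℝ) 1, ∀ s ∈ Icc τ₀ 1, ∀ t ∈ Icc τ₀ 1, P s t := by
  obtain ⟨δ, hδ, hb⟩ := Metric.eventually_nhds_iff.1 h
  refine ⟨max 0 (1 - δ / 2), ⟨le_max_left _ _, max_lt zero_lt_one (by linarith)⟩,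
    fun s hs t ht => hb (y := (s, t)) ?_⟩
  have h1 := (le_max_right 0 (1 - δ / 2)).trans hs.1
  have h2 := (le_max_right 0 (1 - δ / 2)).trans ht.1
  rw [Prod.dist_eq, max_lt_iff, Real.dist_eq, Real.dist_eq, abs_lt, abs_lt]
  refine ⟨⟨?_, ?_⟩, ?_, ?_⟩ <;> dsimp only <;> linarith [hs.2, ht.2]

theorem greg_mem {τ₀ τ : ℝ} (h₀ : τ₀ ∈ Ico (0 : ℝ) 1) (h : τ ∈ Icc (0 : ℝ) 1) :
    τ₀ + τ * (1 - τ₀) ∈ Icc τ₀ 1 := by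
  constructor <;> nlinarith [h₀.1, h₀.2, h.1, h.2]

theorem greg_lt {τ₀ τ : ℝ} (h₀ : τ₀ ∈ Ico (0 : ℝ) 1) (h : τ ∈ Ico (0 : ℝ) 1) :
    τ₀ + τ * (1 - τ₀) < 1 := by
  nlinarith [h₀.1, h₀.2, h.1, h.2]

theorem reg_axis₁ {U : Set (G₁ × G₂)} {f : G₁ × G₂ → M} {α : G₁ → M} {z₁ : G₁}
    (hf : ∀ q ∈ U, A.ProdAt f q) (hU : ∀ τ ∈ Ico (0 : ℝ) 1, (τ • z₁, (0 : G₂)) ∈ U)
    (hα : A.HorAt α z₁) (hfα : ∀ τ ∈ Ico (0 : ℝ) 1, ∀ᶠ z in 𝓝 (τ • z₁), f (z, 0) = α z) :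
    (A.prodClass G₁ G₂).Reg f U (z₁, 0) := by
  have h1 : ∀ᶠ z in 𝓝 z₁, HolAt n α z ∧ α z ∈ (A.e (α z₁)).source ∧
      (A.e (α z₁) (α z)).2 = (A.e (α z₁) (α z₁)).2 :=
    ((contMDiffAt_iff_contMDiffAt_nhds (by simp)).1 hα.1).and
      ((hα.1.continuousAt.eventually ((A.e (α z₁)).open_source.mem_nhds (A.mem _))).and hα.2)
  have ht : Tendsto (fun x : ℝ × ℝ => x.1 • z₁) (𝓝 (1, 1)) (𝓝 z₁) := by
    have hc : Continuous fun x : ℝ × ℝ => x.1 • z₁ := by fun_prop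
    simpa using hc.tendsto (1, 1)
  obtain ⟨τ₀, hτ₀, hP⟩ := greg_exists (P := fun s _ => HolAt n α (s • z₁) ∧
    α (s • z₁) ∈ (A.e (α z₁)).source ∧ (A.e (α z₁) (α (s • z₁))).2 = (A.e (α z₁) (α z₁)).2)
    (ht.eventually h1)
  have hτ₁ : τ₀ ∈ Icc τ₀ 1 := ⟨le_rfl, hτ₀.2.le⟩
  have hseg : ∀ τ : ℝ, ((τ₀ • z₁, (0 : G₂)) : G₁ × G₂) + τ • ((z₁, 0) - (τ₀ • z₁, 0)) =
      ((τ₀ + τ * (1 - τ₀)) • z₁, 0) := by
    intro τ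
    ext
    · simp only [Prod.fst_add, Prod.smul_fst, Prod.fst_sub]
      module
    · simp
  have hf0 := hf _ (hU τ₀ hτ₀)
  have e0 : f (τ₀ • z₁, 0) = α (τ₀ • z₁) := (hfα τ₀ hτ₀).self_of_nhds
  obtain ⟨-, s0, c0⟩ := hP τ₀ hτ₁ τ₀ hτ₁
  refine (A.prodClass G₁ G₂).reg_of_segment (q := (τ₀ • z₁, 0))
    (Θ := fun q => A.br (α z₁) (α q.1) (f (τ₀ • z₁, q.2))) hf (fun τ hτ => ?_) (fun τ hτ => ?_) ?_
  · rw [hseg]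
    exact hU _ ⟨hτ₀.1.trans (greg_mem hτ₀ ⟨hτ.1, hτ.2.le⟩).1, greg_lt hτ₀ hτ⟩
  · rw [hseg]
    obtain ⟨a1, a2, a3⟩ := hP _ (greg_mem hτ₀ hτ) τ₀ hτ₁
    refine prodAt_br (v := fun w => f (τ₀ • z₁, w)) a1 hf0.verAt.1 a2 (by rw [e0]; exact s0) ?_
    rw [e0, c0, ← a3]
    exact (A.e (α z₁)).map_source a2
  · have h2 := hf0.eq_br (y := α z₁) (by rw [e0]; exact s0)
    have h3 : ∀ᶠ q : G₁ × G₂ in 𝓝 (τ₀ • z₁, 0), f (q.1, 0) = α q.1 :=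
      (continuous_fst.tendsto ((τ₀ • z₁, 0) : G₁ × G₂)).eventually (hfα τ₀ hτ₀)
    filter_upwards [h2, h3] with q h2 h3
    rw [h2, h3]

theorem reg_axis₂ {U : Set (G₁ × G₂)} {f : G₁ × G₂ → M} {v : G₂ → M} {w₁ : G₂}
    (hf : ∀ q ∈ U, A.ProdAt f q) (hU : ∀ τ ∈ Ico (0 : ℝ) 1, ((0 : G₁), τ • w₁) ∈ U)
    (hv : A.VerAt v w₁) (hfv : ∀ τ ∈ Ico (0 : ℝ) 1, ∀ᶠ w in 𝓝 (τ • w₁), f (0, w) = v w) :
    (A.prodClass G₁ G₂).Reg f U (0, w₁) := by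
  have h1 : ∀ᶠ z in 𝓝 w₁, HolAt n v z ∧ v z ∈ (A.e (v w₁)).source ∧
      (A.e (v w₁) (v z)).1 = (A.e (v w₁) (v w₁)).1 :=
    ((contMDiffAt_iff_contMDiffAt_nhds (by simp)).1 hv.1).and
      ((hv.1.continuousAt.eventually ((A.e (v w₁)).open_source.mem_nhds (A.mem _))).and hv.2)
  have ht : Tendsto (fun x : ℝ × ℝ => x.1 • w₁) (𝓝 (1, 1)) (𝓝 w₁) := by
    have hc : Continuous fun x : ℝ × ℝ => x.1 • w₁ := by fun_prop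
    simpa using hc.tendsto (1, 1)
  obtain ⟨τ₀, hτ₀, hP⟩ := greg_exists (P := fun s _ => HolAt n v (s • w₁) ∧
    v (s • w₁) ∈ (A.e (v w₁)).source ∧ (A.e (v w₁) (v (s • w₁))).1 = (A.e (v w₁) (v w₁)).1)
    (ht.eventually h1)
  have hτ₁ : τ₀ ∈ Icc τ₀ 1 := ⟨le_rfl, hτ₀.2.le⟩
  have hseg : ∀ τ : ℝ, (((0 : G₁), τ₀ • w₁) : G₁ × G₂) + τ • ((0, w₁) - (0, τ₀ • w₁)) =
      (0, (τ₀ + τ * (1 - τ₀)) • w₁) := by
    intro τ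
    ext
    · simp
    · simp only [Prod.snd_add, Prod.smul_snd, Prod.snd_sub]
      module
  have hf0 := hf _ (hU τ₀ hτ₀)
  have e0 : f (0, τ₀ • w₁) = v (τ₀ • w₁) := (hfv τ₀ hτ₀).self_of_nhds
  obtain ⟨-, s0, c0⟩ := hP τ₀ hτ₁ τ₀ hτ₁
  refine (A.prodClass G₁ G₂).reg_of_segment (q := (0, τ₀ • w₁))
    (Θ := fun q => A.br (v w₁) (f (q.1, τ₀ • w₁)) (v q.2)) hf (fun τ hτ => ?_) (fun τ hτ => ?_) ?_
  · rw [hseg]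
    exact hU _ ⟨hτ₀.1.trans (greg_mem hτ₀ ⟨hτ.1, hτ.2.le⟩).1, greg_lt hτ₀ hτ⟩
  · rw [hseg]
    obtain ⟨a1, a2, a3⟩ := hP _ (greg_mem hτ₀ hτ) τ₀ hτ₁
    refine prodAt_br (α := fun z => f (z, τ₀ • w₁)) hf0.horAt.1 a1 (by rw [e0]; exact s0) a2 ?_
    rw [e0, c0, ← a3]
    exact (A.e (v w₁)).map_source a2
  · have h2 := hf0.eq_br (y := v w₁) (by rw [e0]; exact s0)
    have h3 : ∀ᶠ q : G₁ × G₂ in 𝓝 (0, τ₀ • w₁), f (0, q.2) = v q.2 :=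
      (continuous_snd.tendsto ((0, τ₀ • w₁) : G₁ × G₂)).eventually (hfv τ₀ hτ₀)
    filter_upwards [h2, h3] with q h2 h3
    rw [h2, h3]

theorem greg_lt_ball {a b η s t : ℝ} (ha : 0 < a) (hb : 0 < b) (h : a ^ 2 + b ^ 2 = η ^ 2)
    (hs : s ∈ Icc (0 : ℝ) 1) (ht : t ∈ Icc (0 : ℝ) 1) (hst : s < 1 ∨ t < 1) :
    (s * a) ^ 2 + (t * b) ^ 2 < η ^ 2 := by
  have h1 : s ^ 2 ≤ 1 := pow_le_one₀ hs.1 hs.2
  have h2 : t ^ 2 ≤ 1 := pow_le_one₀ ht.1 ht.2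
  have ha2 : 0 < a ^ 2 := by positivity
  have hb2 : 0 < b ^ 2 := by positivity
  rw [mul_pow, mul_pow, ← h]
  rcases hst with h3 | h3
  · have : s ^ 2 < 1 := pow_lt_one₀ hs.1 h3 two_ne_zero
    nlinarith
  · have : t ^ 2 < 1 := pow_lt_one₀ ht.1 h3 two_ne_zero
    nlinarith

theorem greg_norm {G : Type} [NormedAddCommGroup G] [NormedSpace ℂ G] {u : G} (hu : u ≠ 0) (c : G)
    (s : ℂ) : ‖c + (s / (‖u‖ : ℂ)) • u - c‖ = ‖s‖ := by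
  have h : ‖u‖ ≠ 0 := norm_ne_zero_iff.2 hu
  rw [add_sub_cancel_left, norm_smul, norm_div, Complex.norm_real, norm_norm, div_mul_cancel₀ _ h]

theorem greg_real {G : Type} [NormedAddCommGroup G] [NormedSpace ℂ G] {u : G} (hu : u ≠ 0)
    (s : ℝ) : (((s * ‖u‖ : ℝ) : ℂ) / (‖u‖ : ℂ)) • u = s • u := by
  have h : ((‖u‖ : ℝ) : ℂ) ≠ 0 := by exact_mod_cast norm_ne_zero_iff.2 hu
  rw [Complex.ofReal_mul, mul_div_cancel_right₀ _ h, Complex.coe_smul]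

theorem reg_mixed (hT : A.Touch) {U : Set (G₁ × G₂)} {f : G₁ × G₂ → M} {p q : G₁ × G₂} {η : ℝ}
    (hf : ∀ x ∈ U, A.ProdAt f x)
    (hB : ∀ x : G₁ × G₂, ‖x.1 - q.1‖ ^ 2 + ‖x.2 - q.2‖ ^ 2 < η ^ 2 → x ∈ U)
    (hp : ‖p.1 - q.1‖ ^ 2 + ‖p.2 - q.2‖ ^ 2 = η ^ 2) (h₁ : p.1 ≠ q.1) (h₂ : p.2 ≠ q.2) :
    (A.prodClass G₁ G₂).Reg f U p := by
  obtain ⟨u, hu⟩ : ∃ u, u = p.1 - q.1 := ⟨_, rfl⟩
  obtain ⟨w, hw⟩ : ∃ w, w = p.2 - q.2 := ⟨_, rfl⟩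
  have hu0 : u ≠ 0 := hu ▸ sub_ne_zero.2 h₁
  have hw0 : w ≠ 0 := hw ▸ sub_ne_zero.2 h₂
  have hun : 0 < ‖u‖ := norm_pos_iff.2 hu0
  have hwn : 0 < ‖w‖ := norm_pos_iff.2 hw0
  rw [← hu, ← hw] at hp
  obtain ⟨y, hy⟩ := hT (fun x : ℂ × ℂ => f (q.1 + (x.1 / (‖u‖ : ℂ)) • u, q.2 + (x.2 / (‖w‖ : ℂ)) • w)) η
    ((‖u‖ : ℂ), (‖w‖ : ℂ)) (by simpa using hp) (by simpa using hu0) (by simpa using hw0)
    (fun x hx => by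
      refine ProdAt.comp (Φ := f) (a := fun s : ℂ => q.1 + (s / (‖u‖ : ℂ)) • u)
        (b := fun t : ℂ => q.2 + (t / (‖w‖ : ℂ)) • w) (z := x.1) (w := x.2) (hf _ (hB _ ?_)) ?_ ?_
      · dsimp only
        rw [greg_norm hu0, greg_norm hw0]
        exact hx
      · exact analyticAt_const.add ((analyticAt_id.div_const (c := (‖u‖ : ℂ))).smul analyticAt_const)
      · exact analyticAt_const.add ((analyticAt_id.div_const (c := (‖w‖ : ℂ))).smul analyticAt_const))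
  obtain ⟨r, hr, hball⟩ := Metric.isOpen_iff.1 (A.e y).open_target _ ((A.e y).map_source (A.mem y))
  have hN : ∀ᶠ m in 𝓝 y, m ∈ (A.e y).source ∧ A.e y m ∈ ball (A.e y y) r :=
    (show ∀ᶠ m in 𝓝 y, m ∈ (A.e y).source from (A.e y).open_source.mem_nhds (A.mem y)).and
      (((A.e y).continuousAt (A.mem y)).eventually (ball_mem_nhds _ hr))
  have h1 := eventually_nhdsWithin_iff.1 (hy.eventually hN)
  have ht : Tendsto (fun x : ℝ × ℝ => ((((x.1 * ‖u‖ : ℝ) : ℂ), ((x.2 * ‖w‖ : ℝ) : ℂ)) : ℂ × ℂ))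
      (𝓝 (1, 1)) (𝓝 ((‖u‖ : ℂ), (‖w‖ : ℂ))) := by
    have hc : Continuous fun x : ℝ × ℝ =>
        ((((x.1 * ‖u‖ : ℝ) : ℂ), ((x.2 * ‖w‖ : ℝ) : ℂ)) : ℂ × ℂ) := by fun_prop
    simpa using hc.tendsto (1, 1)
  obtain ⟨τ₀, hτ₀, hP⟩ := greg_exists (P := fun s t => (s * ‖u‖) ^ 2 + (t * ‖w‖) ^ 2 < η ^ 2 →
      f (q.1 + s • u, q.2 + t • w) ∈ (A.e y).source ∧
        A.e y (f (q.1 + s • u, q.2 + t • w)) ∈ ball (A.e y y) r) (by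
    filter_upwards [ht.eventually h1] with x hx hlt
    have := hx (by
      simpa only [mem_ofPred_eq, Complex.norm_real, Real.norm_eq_abs, sq_abs] using hlt)
    rwa [greg_real hu0, greg_real hw0] at this)
  have hτ₁ : τ₀ ∈ Icc τ₀ 1 := ⟨le_rfl, hτ₀.2.le⟩
  have hin : ∀ s ∈ Icc τ₀ 1, ∀ t ∈ Icc τ₀ 1, s < 1 ∨ t < 1 →
      (q.1 + s • u, q.2 + t • w) ∈ U ∧ f (q.1 + s • u, q.2 + t • w) ∈ (A.e y).source ∧
        A.e y (f (q.1 + s • u, q.2 + t • w)) ∈ ball (A.e y y) r := by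
    intro s hs t ht' hst
    have hs0 : 0 ≤ s := hτ₀.1.trans hs.1
    have ht0 : 0 ≤ t := hτ₀.1.trans ht'.1
    have hlt := greg_lt_ball hun hwn hp ⟨hs0, hs.2⟩ ⟨ht0, ht'.2⟩ hst
    refine ⟨hB _ ?_, hP s hs t ht' hlt⟩
    dsimp only
    rw [add_sub_cancel_left, add_sub_cancel_left, norm_smul, norm_smul, Real.norm_of_nonneg hs0,
      Real.norm_of_nonneg ht0]
    exact hlt
  have hseg : ∀ τ : ℝ, ((q.1 + τ₀ • u, q.2 + τ₀ • w) : G₁ × G₂) +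
      τ • (p - (q.1 + τ₀ • u, q.2 + τ₀ • w)) =
      (q.1 + (τ₀ + τ * (1 - τ₀)) • u, q.2 + (τ₀ + τ * (1 - τ₀)) • w) := by
    intro τ
    ext
    · simp only [Prod.fst_add, Prod.smul_fst, Prod.fst_sub, hu]
      module
    · simp only [Prod.snd_add, Prod.smul_snd, Prod.snd_sub, hw]
      module
  obtain ⟨m0, s0, -⟩ := hin τ₀ hτ₁ τ₀ hτ₁ (Or.inl hτ₀.2)
  refine (A.prodClass G₁ G₂).reg_of_segment (q := (q.1 + τ₀ • u, q.2 + τ₀ • w))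
    (Θ := fun x => A.br y (f (x.1, q.2 + τ₀ • w)) (f (q.1 + τ₀ • u, x.2))) hf
    (fun τ hτ => ?_) (fun τ hτ => ?_) ((hf _ m0).eq_br s0).symm
  · rw [hseg]
    have := greg_mem hτ₀ ⟨hτ.1, hτ.2.le⟩
    exact (hin _ this _ this (Or.inl (greg_lt hτ₀ hτ))).1
  · rw [hseg]
    obtain ⟨a1, a2, a3⟩ := hin _ (greg_mem hτ₀ hτ) τ₀ hτ₁ (Or.inr hτ₀.2)
    obtain ⟨b1, b2, b3⟩ := hin τ₀ hτ₁ _ (greg_mem hτ₀ hτ) (Or.inl hτ₀.2)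
    refine prodAt_br (α := fun z => f (z, q.2 + τ₀ • w)) (v := fun w' => f (q.1 + τ₀ • u, w'))
      (hf _ a1).horAt.1 (hf _ b1).verAt.1 a2 b2 (hball ?_)
    rw [mem_ball, Prod.dist_eq, max_lt_iff] at a3 b3 ⊢
    exact ⟨a3.1, b3.2⟩

end PAtlas

end Crest.Agent.R266G
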