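import Crest.Agent.R266.GAtlas2

/-!
# Row 266 G: the fixed point set of a retraction which is locally a chart retraction

* `retract_simplyConnected`: `simply_connected_iff_paths_homotopic'`; a path / homotopy in `M` is pushed to the
  subtype by the continuous map `m ↦ ⟨ρ m, _⟩` (`Path.map`, `Path.Homotopic.map`, `Path.cast`), and
  `(γ.map val).map ρ̂ = γ` up to casts.
* `slice`: `Y = {m // ρ m = m}`.  For `a : Y` choose `s > 0` with `ball (e a a) s ⊆ target` and `ρ m = br a m a` for all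
  `m ∈ N a := source ∩ e a ⁻¹' ball (e a a) s`.  For `m ∈ N a`: `ρ m = m ↔ (e a m).2 = (e a a).2`.  Chart at `a`:
  source `val ⁻¹' N a`, target `ball (e a a).1 s`, map `y ↦ (e a y).1`, inverse
  `z ↦ ⟨ρ ((e a).symm (z, (e a a).2)), hid _⟩` (equal to `(e a).symm (z, (e a a).2)` on the target).  Atlas = range of these
  charts.  `isManifold_of_contDiffOn`: transitions are `z ↦ (e b ((e a).symm (z, c))).1` on their domain
  (`analyticAt_trans`).  `ContMDiff val`: near `a`, `val = (e a).symm ∘ (·, c) ∘ chartAt a` with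
  `contMDiffOn_chart`/`contMDiffAt_extChartAt`.  `ContMDiff ρ̂` at `m`, `a = ρ̂ m`: near `m`,
  `ρ̂ = (chartAt a).symm ∘ fst ∘ e a ∘ ρ` (`contMDiffOn_chart_symm`), by continuity of `ρ̂`.
-/

set_option autoImplicit false
open scoped Manifold ContDiff Topology
open Set Filter Metric
open Crest.AlgGeometry.HolSplit

namespace Crest.Agent.R266G

theorem retract_simplyConnected {M : Type} [TopologicalSpace M] [SimplyConnectedSpace M]
    {ρ : M → M} (hρ : Continuous ρ) (hid : ∀ m, ρ (ρ m) = ρ m) :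
    SimplyConnectedSpace {m : M // ρ m = m} := by
  let r : C(M, {m : M // ρ m = m}) := ⟨fun m => ⟨ρ m, hid m⟩, hρ.subtype_mk _⟩
  have hr : ∀ y : {m : M // ρ m = m}, r y.1 = y := fun y => Subtype.ext y.2
  have hsurj : Function.Surjective r := fun y => ⟨y.1, hr y⟩
  rw [simply_connected_iff_paths_homotopic']
  refine ⟨hsurj.pathConnectedSpace r.continuous, ?_⟩
  intro x y p q
  have h : (p.map continuous_subtype_val).Homotopic (q.map continuous_subtype_val) :=
    SimplyConnectedSpace.paths_homotopic _ _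
  have h2 := Path.Homotopic.pathCast (h.map r) (hr x).symm (hr y).symm
  have e : ∀ γ : Path x y, ((γ.map continuous_subtype_val).map r.continuous).cast
      (hr x).symm (hr y).symm = γ := by
    intro γ
    ext t
    exact (γ t).2
  rwa [e p, e q] at h2

namespace PAtlas

variable {n n₁ n₂ : ℕ} {M : Type} [TopologicalSpace M] [ChartedSpace (Model n) M]
  [IsManifold (mI n) ω M] {A : PAtlas n n₁ n₂ M}

omit [IsManifold (mI n) ω M] in
theorem gsl_symm (A : PAtlas n n₁ n₂ M) {ρ : M → M} {a : M} {s : ℝ}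
    (h1 : ball (A.e a a) s ⊆ (A.e a).target)
    (h2 : ∀ m ∈ (A.e a).source, A.e a m ∈ ball (A.e a a) s → ρ m = A.br a m a)
    {z : Model n₁} (hz : z ∈ ball (A.e a a).1 s) :
    (z, (A.e a a).2) ∈ ball (A.e a a) s ∧
      ρ ((A.e a).symm (z, (A.e a a).2)) = (A.e a).symm (z, (A.e a a).2) := by
  have hs : 0 < s := nonempty_ball.1 ⟨z, hz⟩
  have hu : (z, (A.e a a).2) ∈ ball (A.e a a) s := by
    have : ball (A.e a a) s = ball (A.e a a).1 s ×ˢ ball (A.e a a).2 s :=
      (ball_prod_same _ _ _).symm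
    rw [this]
    exact ⟨hz, mem_ball_self hs⟩
  refine ⟨hu, ?_⟩
  have ht := h1 hu
  have := h2 _ ((A.e a).map_target ht) (by rw [(A.e a).right_inv ht]; exact hu)
  rw [this, br, (A.e a).right_inv ht]

/-- The chart of the fixed point set at `a`. -/
noncomputable def gslChart (A : PAtlas n n₁ n₂ M) {ρ : M → M} (hρ : Continuous ρ)
    (hid : ∀ m, ρ (ρ m) = ρ m) (a : M) (s : ℝ)
    (h1 : ball (A.e a a) s ⊆ (A.e a).target)
    (h2 : ∀ m ∈ (A.e a).source, A.e a m ∈ ball (A.e a a) s → ρ m = A.br a m a) :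
    OpenPartialHomeomorph {m : M // ρ m = m} (Model n₁) where
  toFun y := (A.e a y.1).1
  invFun z := ⟨ρ ((A.e a).symm (z, (A.e a a).2)), hid _⟩
  source := Subtype.val ⁻¹' ((A.e a).source ∩ A.e a ⁻¹' ball (A.e a a) s)
  target := ball (A.e a a).1 s
  map_source' := by
    intro y hy
    have h : A.e a y.1 ∈ ball (A.e a a).1 s ×ˢ ball (A.e a a).2 s := by
      rw [ball_prod_same]; exact hy.2
    exact h.1
  map_target' := by
    intro z hz
    obtain ⟨hu, hf⟩ := A.gsl_symm h1 h2 hz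
    change ρ ((A.e a).symm (z, (A.e a a).2)) ∈ (A.e a).source ∩ A.e a ⁻¹' ball (A.e a a) s
    rw [hf]
    refine ⟨(A.e a).map_target (h1 hu), ?_⟩
    rw [mem_preimage, (A.e a).right_inv (h1 hu)]
    exact hu
  left_inv' := by
    intro y hy
    apply Subtype.ext
    have h := h2 y.1 hy.1 hy.2
    change ρ (A.br a y.1 a) = y.1
    rw [← h, hid, y.2]
  right_inv' := by
    intro z hz
    obtain ⟨hu, hf⟩ := A.gsl_symm h1 h2 hz
    change (A.e a (ρ ((A.e a).symm (z, (A.e a a).2)))).1 = z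
    rw [hf, (A.e a).right_inv (h1 hu)]
  open_source := ((A.e a).isOpen_inter_preimage isOpen_ball).preimage continuous_subtype_val
  open_target := isOpen_ball
  continuousOn_toFun :=
    continuous_fst.comp_continuousOn ((A.e a).continuousOn.comp
      continuous_subtype_val.continuousOn fun _ hy => hy.1)
  continuousOn_invFun := by
    have hc : Continuous fun m => (⟨ρ m, hid m⟩ : {m : M // ρ m = m}) := hρ.subtype_mk _
    exact hc.comp_continuousOn ((A.e a).continuousOn_symm.comp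
      (continuous_id.prodMk continuous_const).continuousOn
      fun _ hz => h1 (A.gsl_symm h1 h2 hz).1)

theorem slice (A : PAtlas n n₁ n₂ M) {ρ : M → M} (hρ : ContMDiff (mI n) (mI n) ω ρ)
    (hid : ∀ m, ρ (ρ m) = ρ m) (hloc : ∀ a, ρ a = a → ρ =ᶠ[𝓝 a] fun m => A.br a m a) :
    ∃ (_ : ChartedSpace (Model n₁) {m : M // ρ m = m})
      (_ : IsManifold (mI n₁) ω {m : M // ρ m = m}),
      ContMDiff (mI n₁) (mI n) ω (Subtype.val : {m : M // ρ m = m} → M) ∧
      ContMDiff (mI n) (mI n₁) ω (fun m => (⟨ρ m, hid m⟩ : {m : M // ρ m = m})) := by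
  have hex : ∀ a : {m : M // ρ m = m}, ∃ s : ℝ, 0 < s ∧ ball (A.e a.1 a.1) s ⊆ (A.e a.1).target ∧
      ∀ m ∈ (A.e a.1).source, A.e a.1 m ∈ ball (A.e a.1 a.1) s → ρ m = A.br a.1 m a.1 := by
    intro a
    have ht : A.e a.1 a.1 ∈ (A.e a.1).target := (A.e a.1).map_source (A.mem _)
    have hc : Tendsto (A.e a.1).symm (𝓝 (A.e a.1 a.1)) (𝓝 a.1) := by
      have := ((A.e a.1).continuousAt_symm ht).tendsto
      rwa [(A.e a.1).left_inv (A.mem _)] at this
    have h1 : ∀ᶠ u in 𝓝 (A.e a.1 a.1), u ∈ (A.e a.1).target ∧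
        ρ ((A.e a.1).symm u) = A.br a.1 ((A.e a.1).symm u) a.1 :=
      Filter.Eventually.and ((A.e a.1).open_target.mem_nhds ht) (hc.eventually (hloc a.1 a.2))
    obtain ⟨s, hs, hb⟩ := Metric.eventually_nhds_iff_ball.1 h1
    refine ⟨s, hs, fun u hu => (hb u hu).1, fun m hm hm' => ?_⟩
    have := (hb _ hm').2
    rwa [(A.e a.1).left_inv hm] at this
  choose s hs h1 h2 using hex
  let ch : {m : M // ρ m = m} → OpenPartialHomeomorph {m : M // ρ m = m} (Model n₁) :=
    fun a => A.gslChart hρ.continuous hid a.1 (s a) (h1 a) (h2 a)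
  have hmem : ∀ a, a ∈ (ch a).source := fun a => ⟨A.mem _, mem_ball_self (hs a)⟩
  let cs : ChartedSpace (Model n₁) {m : M // ρ m = m} :=
    { atlas := range ch
      chartAt := ch
      mem_chart_source := hmem
      chart_mem_atlas := fun a => ⟨a, rfl⟩ }
  have hfst : ContMDiff 𝓘(ℂ, FF n₁ n₂) (mI n₁) ω (fun u : FF n₁ n₂ => u.1) :=
    contDiff_fst.contMDiff
  have im : IsManifold (mI n₁) ω {m : M // ρ m = m} := by
    apply isManifold_of_contDiffOn
    rintro _ _ ⟨a, rfl⟩ ⟨b, rfl⟩ z hz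
    have hz1 : z ∈ ball (A.e a.1 a.1).1 (s a) := hz.1.1
    obtain ⟨hu, hf⟩ := A.gsl_symm (h1 a) (h2 a) hz1
    have hz2 : ρ ((A.e a.1).symm (z, (A.e a.1 a.1).2)) ∈ (A.e b.1).source := hz.1.2.1
    rw [hf] at hz2
    have han := A.analyticAt_trans ((A.e a.1).map_target (h1 a hu)) hz2
    rw [(A.e a.1).right_inv (h1 a hu)] at han
    have han2 : AnalyticAt ℂ
        (fun z' : Model n₁ => (A.e b.1 ((A.e a.1).symm (z', (A.e a.1 a.1).2))).1) z :=
      analyticAt_fst.comp (AnalyticAt.comp (f := fun z' : Model n₁ => (z', (A.e a.1 a.1).2))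
        (g := fun u => A.e b.1 ((A.e a.1).symm u)) han (analyticAt_id.prod analyticAt_const))
    refine ContDiffAt.contDiffWithinAt (han2.contDiffAt.congr_of_eventuallyEq ?_)
    filter_upwards [isOpen_ball.mem_nhds hz1] with z' hz'
    change (A.e b.1 (ρ ((A.e a.1).symm (z', (A.e a.1 a.1).2)))).1 = _
    rw [(A.gsl_symm (h1 a) (h2 a) hz').2]
  refine ⟨cs, im, fun a => ?_, fun m => ?_⟩
  · have c1 : ContMDiffAt (mI n₁) (mI n₁) ω (ch a) a :=
      (contMDiffOn_chart (I := mI n₁) (x := a)).contMDiffAt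
        ((ch a).open_source.mem_nhds (hmem a))
    have c2 : ContMDiffAt (mI n₁) 𝓘(ℂ, FF n₁ n₂) ω
        (fun z : Model n₁ => (z, (A.e a.1 a.1).2)) (ch a a) :=
      (contDiffAt_id.prodMk contDiffAt_const).contMDiffAt
    have c3 : ContMDiffAt 𝓘(ℂ, FF n₁ n₂) (mI n) ω (A.e a.1).symm (ch a a, (A.e a.1 a.1).2) :=
      (A.hol_symm a.1).contMDiffAt ((A.e a.1).open_target.mem_nhds
        ((A.e a.1).map_source (A.mem a.1)))
    have c4 := ContMDiffAt.comp a (ContMDiffAt.comp (ch a a)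
      (f := fun z : Model n₁ => (z, (A.e a.1 a.1).2)) c3 c2) c1
    refine c4.congr_of_eventuallyEq ?_
    filter_upwards [(ch a).open_source.mem_nhds (hmem a)] with y hy
    have h := h2 a y.1 hy.1 hy.2
    change y.1 = A.br a.1 y.1 a.1
    rw [← h, y.2]
  · set a : {m : M // ρ m = m} := ⟨ρ m, hid m⟩ with ha
    have c1 : ContMDiffAt (mI n₁) (mI n₁) ω (ch a).symm (ch a a) :=
      (contMDiffOn_chart_symm (I := mI n₁) (x := a)).contMDiffAt
        ((ch a).open_target.mem_nhds ((ch a).map_source (hmem a)))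
    have c2 : ContMDiffAt (mI n) 𝓘(ℂ, FF n₁ n₂) ω (A.e a.1) (ρ m) :=
      (A.hol a.1).contMDiffAt ((A.e a.1).open_source.mem_nhds (A.mem a.1))
    have c3 : ContMDiffAt (mI n) (mI n₁) ω (fun m' => (A.e a.1 (ρ m')).1) m :=
      (hfst _).comp m (c2.comp m (hρ m))
    have c4 := ContMDiffAt.comp m (f := fun m' => (A.e a.1 (ρ m')).1) (g := (ch a).symm) c1 c3
    refine c4.congr_of_eventuallyEq ?_
    have hc : Continuous fun m => (⟨ρ m, hid m⟩ : {m : M // ρ m = m}) :=
      hρ.continuous.subtype_mk _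
    filter_upwards [hc.continuousAt.eventually ((ch a).open_source.mem_nhds (hmem a))] with m' hm'
    exact ((ch a).left_inv hm').symm

end PAtlas

end Crest.Agent.R266G
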