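import Crest.Agent.R266.Defs

/-! Row 266 (helper3): Sard theorem for analytic sets, part 2: submersions and maps of constant rank.

* `section_of_surj`: `R` a continuous linear right inverse of `A = fderiv ℂ ev θ`
  (`ContinuousLinearMap.exists_right_inverse_of_surjective` / `LinearMap.exists_rightInverse_of_surjective`);
  `u ↦ ev (θ + R u)` is analytic at `0` with derivative `id`; let `σ` be its local inverse, `φ b = θ + R (σ b)`.
* `meagre_of_const_rank`: `A = fderiv ℂ ev θ`, `L : F →L range A`, `π : T →L ker A` continuous projections,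
  `τ x = (L (ev x), π x)` has bijective derivative at `θ` (injective + `finrank_range_add_finrank_ker`); `σ` its local inverse,
  `G = ev ∘ σ` on a ball `ball (u₀, κ₀) ρ` (a box).  There `L (G (u, κ)) = u`, so `L ∘ DG = fst`; `ξ ↦ DG (ξ, 0)` is injective, hence its
  range, of dimension `rank A ≥ rank DG`, is the range of `DG`; so `DG (0, κ) = DG (ξ, 0)` and applying `L`, `ξ = 0`.
  Thus `G (u, κ) = G (u, κ₀)` on the box (mean value on the convex ball) and for `N = source ∩ τ ⁻¹' ball (u₀, κ₀) (ρ/2)`,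
  `ev '' N ⊆ K := (fun u => G (u, κ₀)) '' closedBall u₀ (ρ/2)`, compact, with dense complement
  (`ContDiffOn.dense_compl_image_of_dimH_lt_finrank` over `ℝ`, `Real.dimH_univ_eq_finrank`, `finrank_real_of_complex`; use
  `NormedSpace.complexToReal`/`restrictScalars`), so nowhere dense (`isClosed_isNowhereDense_iff_compl`), so meagre.
-/

set_option autoImplicit false
set_option linter.unusedSectionVars false

open Set Filter Topology Metric

noncomputable section
namespace Crest.Agent.R266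

variable {T F : Type} [NormedAddCommGroup T] [NormedSpace ℂ T] [FiniteDimensional ℂ T]
  [NormedAddCommGroup F] [NormedSpace ℂ F] [FiniteDimensional ℂ F]

theorem section_of_surj {ev : T → F} {θ : T} (hev : ∀ᶠ x in 𝓝 θ, DifferentiableAt ℂ ev x)
    (hs : Function.Surjective (fderiv ℂ ev θ)) {N : Set T} (hN : N ∈ 𝓝 θ) :
    ∃ φ : F → T, ∀ᶠ b in 𝓝 (ev θ), DifferentiableAt ℂ φ b ∧ φ b ∈ N ∧ ev (φ b) = b := by
  obtain ⟨R₀, hR₀⟩ := LinearMap.exists_rightInverse_of_surjective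
    (fderiv ℂ ev θ : T →ₗ[ℂ] F) (LinearMap.range_eq_top.2 hs)
  let R : F →L[ℂ] T := LinearMap.toContinuousLinearMap R₀
  have hR : ∀ u, fderiv ℂ ev θ (R u) = u := fun u => LinearMap.congr_fun hR₀ u
  have hc : Continuous fun u : F => θ + R u := continuous_const.add R.continuous
  have h0 : θ + R 0 = θ := by simp
  have h1 : ∀ᶠ u in 𝓝 (0 : F), DifferentiableAt ℂ ev (θ + R u) ∧ θ + R u ∈ N := by
    apply hc.continuousAt.eventually (p := fun x => DifferentiableAt ℂ ev x ∧ x ∈ N)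
    simp only [h0]
    exact hev.and hN
  obtain ⟨O, hO, hOo, hO0⟩ := _root_.eventually_nhds_iff.1 h1
  have hd : ∀ u, HasFDerivAt (fun u : F => θ + R u) R u := fun u => R.hasFDerivAt.const_add θ
  have hf : DifferentiableOn ℂ (fun u => ev (θ + R u)) O := fun u hu =>
    ((hO u hu).1.comp u (hd u).differentiableAt).differentiableWithinAt
  have hD : fderiv ℂ (fun u => ev (θ + R u)) 0 = (fderiv ℂ ev θ).comp R := by
    have h2 : HasFDerivAt ev (fderiv ℂ ev θ) (θ + R 0) := by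
      rw [h0]; exact hev.self_of_nhds.hasFDerivAt
    exact (h2.comp 0 (hd 0)).fderiv
  have hb : Function.Bijective (fderiv ℂ (fun u => ev (θ + R u)) 0) := by
    rw [hD]
    have : ⇑((fderiv ℂ ev θ).comp R) = id := funext hR
    rw [this]
    exact Function.bijective_id
  obtain ⟨A, B, g, -, hA0, hAO, hB, hg, h1, h2, -, h4⟩ :=
    Crest.Agent.R264.exists_local_inverse hOo hf hO0 hb
  have hθB : ev θ ∈ B := by
    have := h1 hA0
    simpa using this
  refine ⟨fun b => θ + R (g b), ?_⟩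
  filter_upwards [hB.mem_nhds hθB] with b hb
  exact ⟨(hd _).differentiableAt.comp b (hg.differentiableAt (hB.mem_nhds hb)),
    (hO _ (hAO (h2 hb))).2, h4 b hb⟩

private theorem hs2_meagre_img {P : Type} [NormedAddCommGroup P] [NormedSpace ℂ P]
    [FiniteDimensional ℂ P] {g : P → F} {u₀ : P} {ρ : ℝ} (hρ : 0 < ρ)
    (hg : DifferentiableOn ℂ g (ball u₀ ρ)) (hlt : Module.finrank ℂ P < Module.finrank ℂ F) :
    IsMeagre (g '' closedBall u₀ (ρ / 2)) := by
  haveI := FiniteDimensional.complete ℂ F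
  haveI := FiniteDimensional.proper ℂ P
  haveI : FiniteDimensional ℝ P := FiniteDimensional.complexToReal P
  haveI : FiniteDimensional ℝ F := FiniteDimensional.complexToReal F
  have hsub : closedBall u₀ (ρ / 2) ⊆ ball u₀ ρ := closedBall_subset_ball (by linarith)
  have h1 : ContDiffOn ℝ 1 g (ball u₀ ρ) :=
    ((Crest.Agent.R264.SCV.analyticOnNhd isOpen_ball hg).contDiffOn_of_completeSpace
      (n := 1)).restrict_scalars ℝ
  have h2 : Dense (g '' closedBall u₀ (ρ / 2))ᶜ := by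
    apply h1.dense_compl_image_of_dimH_lt_finrank (convex_ball _ _) hsub
    refine (dimH_mono (subset_univ _)).trans_lt ?_
    rw [Real.dimH_univ_eq_finrank, finrank_real_of_complex, finrank_real_of_complex]
    exact_mod_cast (by omega : 2 * Module.finrank ℂ P < 2 * Module.finrank ℂ F)
  have h3 : IsClosed (g '' closedBall u₀ (ρ / 2)) :=
    ((isCompact_closedBall _ _).image_of_continuousOn (hg.continuousOn.mono hsub)).isClosed
  exact (isClosed_isNowhereDense_iff_compl.2 ⟨h3.isOpen_compl, h2⟩).2.isMeagre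

private theorem hs2_aux {P Q : Type} [NormedAddCommGroup P] [NormedSpace ℂ P]
    [FiniteDimensional ℂ P] [NormedAddCommGroup Q] [NormedSpace ℂ Q] [FiniteDimensional ℂ Q]
    {ev : T → F} {θ : T} (hev : ∀ᶠ x in 𝓝 θ, DifferentiableAt ℂ ev x)
    (hr : ∀ᶠ x in 𝓝 θ, Module.finrank ℂ (LinearMap.range (fderiv ℂ ev x : T →ₗ[ℂ] F)) ≤
      Module.finrank ℂ P) (hlt : Module.finrank ℂ P < Module.finrank ℂ F)
    (L : F →L[ℂ] P) (π : T →L[ℂ] Q)
    (hb : Function.Bijective ((L.comp (fderiv ℂ ev θ)).prod π)) :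
    ∃ N ∈ 𝓝 θ, IsMeagre (ev '' N) := by
  obtain ⟨O, hO, hOo, hOθ⟩ := _root_.eventually_nhds_iff.1 (hev.and hr)
  let τ : T → P × Q := fun x => (L (ev x), π x)
  have hτ : ∀ x ∈ O, HasFDerivAt τ ((L.comp (fderiv ℂ ev x)).prod π) x := fun x hx =>
    (L.hasFDerivAt.comp x (hO x hx).1.hasFDerivAt).prodMk π.hasFDerivAt
  have hτd : DifferentiableOn ℂ τ O := fun x hx => (hτ x hx).differentiableAt.differentiableWithinAt
  obtain ⟨A, B, σ, hA, hAθ, hAO, hB, hσ, h1, h2, h3, h4⟩ :=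
    Crest.Agent.R264.exists_local_inverse hOo hτd hOθ (by rw [(hτ θ hOθ).fderiv]; exact hb)
  obtain ⟨ρ, hρ, hρB⟩ := Metric.isOpen_iff.1 hB _ (h1 hAθ)
  have hG : ∀ y ∈ B, HasFDerivAt (ev ∘ σ) ((fderiv ℂ ev (σ y)).comp (fderiv ℂ σ y)) y :=
    fun y hy => (hO _ (hAO (h2 hy))).1.hasFDerivAt.comp y
      (hσ.differentiableAt (hB.mem_nhds hy)).hasFDerivAt
  have hL : ∀ y ∈ B, ∀ w, L (fderiv ℂ ev (σ y) (fderiv ℂ σ y w)) = w.1 := by
    intro y hy w
    have e1 := L.hasFDerivAt.comp y (hG y hy)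
    have e2 : (fun z : P × Q => z.1) =ᶠ[𝓝 y] L ∘ ev ∘ σ := by
      filter_upwards [hB.mem_nhds hy] with z hz
      exact (congrArg Prod.fst (h4 z hz)).symm
    have e3 := (e1.congr_of_eventuallyEq e2).unique hasFDerivAt_fst
    exact congrArg (fun M : P × Q →L[ℂ] P => M w) e3
  have hz : ∀ y ∈ B, ∀ κ : Q, fderiv ℂ ev (σ y) (fderiv ℂ σ y (0, κ)) = 0 := by
    intro y hy κ
    let D : P →ₗ[ℂ] F := (fderiv ℂ ev (σ y) : T →ₗ[ℂ] F) ∘ₗ
      (fderiv ℂ σ y : P × Q →ₗ[ℂ] T) ∘ₗ LinearMap.inl ℂ P Q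
    have hDi : Function.Injective D := by
      intro a b hab
      have := congrArg L hab
      exact (hL y hy (a, 0)).symm.trans (this.trans (hL y hy (b, 0)))
    have hle : LinearMap.range D ≤ LinearMap.range (fderiv ℂ ev (σ y) : T →ₗ[ℂ] F) :=
      LinearMap.range_comp_le_range _ _
    have heq : LinearMap.range D = LinearMap.range (fderiv ℂ ev (σ y) : T →ₗ[ℂ] F) := by
      apply Submodule.eq_of_le_of_finrank_le hle
      rw [LinearMap.finrank_range_of_inj hDi]
      exact (hO _ (hAO (h2 hy))).2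
    have hm : fderiv ℂ ev (σ y) (fderiv ℂ σ y (0, κ)) ∈ LinearMap.range D := by
      rw [heq]; exact ⟨_, rfl⟩
    obtain ⟨ξ, hξ⟩ := hm
    have h5 : ξ = 0 := by
      have := congrArg L hξ
      exact (hL y hy (ξ, 0)).symm.trans (this.trans (hL y hy (0, κ)))
    rw [← hξ, h5, map_zero]
  have hbox : ∀ u ∈ ball (τ θ).1 ρ, ∀ κ ∈ ball (τ θ).2 ρ, (u, κ) ∈ B := by
    intro u hu κ hκ
    apply hρB
    rw [← ball_prod_same]
    exact ⟨hu, hκ⟩
  have hconst : ∀ u ∈ ball (τ θ).1 ρ, ∀ κ ∈ ball (τ θ).2 ρ,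
      ev (σ (u, κ)) = ev (σ (u, (τ θ).2)) := by
    intro u hu κ hκ
    have hd : ∀ κ ∈ ball (τ θ).2 ρ, HasFDerivAt (fun κ => ev (σ (u, κ))) (0 : Q →L[ℂ] F) κ := by
      intro κ hκ
      have e1 := (hG _ (hbox u hu κ hκ)).comp κ (hasFDerivAt_prodMk_right (𝕜 := ℂ) u κ)
      refine HasFDerivAt.congr_fderiv e1 ?_
      ext w
      exact hz _ (hbox u hu κ hκ) w
    exact isOpen_ball.is_const_of_fderiv_eq_zero (𝕜 := ℂ) (f := fun κ => ev (σ (u, κ)))
      (convex_ball _ _).isPreconnected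
      (fun κ hκ => (hd κ hκ).differentiableAt.differentiableWithinAt)
      (fun κ hκ => (hd κ hκ).fderiv) hκ (mem_ball_self hρ)
  have hg : DifferentiableOn ℂ (fun u => ev (σ (u, (τ θ).2))) (ball (τ θ).1 ρ) := by
    intro u hu
    exact ((hG _ (hbox u hu _ (mem_ball_self hρ))).comp u
      (hasFDerivAt_prodMk_left (𝕜 := ℂ) u (τ θ).2)).differentiableAt.differentiableWithinAt
  refine ⟨A ∩ τ ⁻¹' ball (τ θ) (ρ / 2), inter_mem (hA.mem_nhds hAθ)
    ((hτ θ hOθ).continuousAt.preimage_mem_nhds (ball_mem_nhds _ (half_pos hρ))), ?_⟩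
  refine (hs2_meagre_img hρ hg hlt).mono ?_
  rintro _ ⟨x, ⟨hxA, hx⟩, rfl⟩
  rw [mem_preimage, ← ball_prod_same] at hx
  have hs : ρ / 2 ≤ ρ := by linarith
  refine ⟨(τ x).1, ball_subset_closedBall hx.1, ?_⟩
  have := hconst _ (ball_subset_ball hs hx.1) _ (ball_subset_ball hs hx.2)
  simp only [Prod.mk.eta] at this
  rw [h3 x hxA] at this
  exact this.symm

theorem meagre_of_const_rank {ev : T → F} {θ : T} (hev : ∀ᶠ x in 𝓝 θ, DifferentiableAt ℂ ev x)
    (hr : ∀ᶠ x in 𝓝 θ, Module.finrank ℂ (LinearMap.range (fderiv ℂ ev x : T →ₗ[ℂ] F)) ≤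
      Module.finrank ℂ (LinearMap.range (fderiv ℂ ev θ : T →ₗ[ℂ] F)))
    (hns : ¬ Function.Surjective (fderiv ℂ ev θ)) : ∃ N ∈ 𝓝 θ, IsMeagre (ev '' N) := by
  set A : T →ₗ[ℂ] F := (fderiv ℂ ev θ : T →ₗ[ℂ] F) with hA
  obtain ⟨L₀, hL₀⟩ := LinearMap.exists_leftInverse_of_injective (LinearMap.range A).subtype
    (Submodule.ker_subtype _)
  obtain ⟨π₀, hπ₀⟩ := LinearMap.exists_leftInverse_of_injective (LinearMap.ker A).subtype
    (Submodule.ker_subtype _)
  have hlt : Module.finrank ℂ (LinearMap.range A) < Module.finrank ℂ F :=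
    Submodule.finrank_lt fun h => hns (LinearMap.range_eq_top.1 h)
  refine hs2_aux hev hr hlt (LinearMap.toContinuousLinearMap L₀)
    (LinearMap.toContinuousLinearMap π₀) ?_
  have hinj : Function.Injective (((LinearMap.toContinuousLinearMap L₀).comp
      (fderiv ℂ ev θ)).prod (LinearMap.toContinuousLinearMap π₀)) := by
    rw [injective_iff_map_eq_zero]
    intro v hv
    have h1 : L₀ (A v) = 0 := congrArg Prod.fst hv
    have h2 : π₀ v = 0 := congrArg Prod.snd hv
    have h3 : L₀ (A v) = ⟨A v, v, rfl⟩ := LinearMap.congr_fun hL₀ ⟨A v, v, rfl⟩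
    have h4 : A v = 0 := congrArg Subtype.val (h3.symm.trans h1)
    have h5 : π₀ v = ⟨v, h4⟩ := LinearMap.congr_fun hπ₀ ⟨v, h4⟩
    exact congrArg Subtype.val (h5.symm.trans h2)
  refine ⟨hinj, ?_⟩
  have hfr : Module.finrank ℂ T =
      Module.finrank ℂ (LinearMap.range A × LinearMap.ker A) := by
    rw [Module.finrank_prod, LinearMap.finrank_range_add_finrank_ker]
  exact (LinearMap.injective_iff_surjective_of_finrank_eq_finrank
    (f := ((((LinearMap.toContinuousLinearMap L₀).comp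
      (fderiv ℂ ev θ)).prod (LinearMap.toContinuousLinearMap π₀) :
        T →L[ℂ] LinearMap.range A × LinearMap.ker A) :
        T →ₗ[ℂ] LinearMap.range A × LinearMap.ker A)) hfr).1 hinj

end Crest.Agent.R266
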