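import Crest.Agent.R266.HSard1
import Crest.Agent.R266.HSard2

/-! Row 266 (helper3): Sard theorem for analytic sets.

If the image of an analytic set `Z` under a map `ev` which is locally the restriction of a holomorphic map is not
meagre, then `ev` has a local holomorphic section with values in `Z`.

* `meagre_of_local`: Lindelöf (`TopologicalSpace.countable_cover_nhdsWithin`, `isMeagre_iUnion`/`isMeagre_biUnion`).
* `sard_hyp` (given the statement in smaller dimension): by `meagre_of_local` and `zero_set_cover` it suffices to treat, for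
  `i < j`, `S i = Z ∩ {θ ∈ U | g i θ = 0 ∧ fderiv ℂ (g i) θ ≠ 0}`; again by `meagre_of_local`, at `θ ∈ S i` take `ψ, V, N` from
  `hyper_param`; `Z' = V ∩ ψ ⁻¹' Z` is `LocAn` (`LocAn.preimage`), `LocEv Z' (ev ∘ ψ)`, has no section (compose with `ψ`;
  `V` is open), lives in dimension `finrank (ker) < finrank T`; `ev '' (S i ∩ N) ⊆ (ev ∘ ψ) '' Z'`.
* `sard_aux`: strong induction on the dimension.  At `θ ∈ Z` take `W, 𝓕`, `ev'` and a ball `B ⊆ W` around `θ` on which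
  `ev'` is differentiable and agrees with `ev` on `Z`.  If some `f ∈ 𝓕` is not identically `0` on `B`, it is nowhere
  eventually zero on `B` (identity theorem `Crest.Agent.R264.eqOn_of_eventuallyEq`) and `Z ∩ B ⊆ {f = 0}`: `sard_hyp`.
  Otherwise `B ⊆ Z`, `ev = ev'` on `B`, `fderiv ev'` is nowhere surjective on `B` (`section_of_surj`); take `θ₁ ∈ B` of maximal rank
  (bounded naturals) and `h` from `exists_minor`: on `{h = 0}` use `sard_hyp`, on the open set `B ∩ {h ≠ 0}` use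
  `meagre_of_local` and `meagre_of_const_rank`.
-/

set_option autoImplicit false
set_option linter.unusedSectionVars false

open Set Filter Topology Metric

noncomputable section
namespace Crest.Agent.R266

variable {T F : Type} [NormedAddCommGroup T] [NormedSpace ℂ T] [FiniteDimensional ℂ T]
  [NormedAddCommGroup F] [NormedSpace ℂ F] [FiniteDimensional ℂ F]

/-- `ev` is near each point of `Z` the restriction to `Z` of a holomorphic map. -/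
def LocEv (Z : Set T) (ev : T → F) : Prop :=
  ∀ θ ∈ Z, ∃ ev' : T → F, ∀ᶠ θ' in 𝓝 θ, DifferentiableAt ℂ ev' θ' ∧ (θ' ∈ Z → ev' θ' = ev θ')

/-- `ev` has a local holomorphic section with values in `Z`. -/
def HasSec (Z : Set T) (ev : T → F) : Prop :=
  ∃ (b₀ : F) (φ : F → T), ∀ᶠ b in 𝓝 b₀, DifferentiableAt ℂ φ b ∧ φ b ∈ Z ∧ ev (φ b) = b

theorem meagre_of_local {Z : Set T} {ev : T → F}
    (h : ∀ θ ∈ Z, ∃ N ∈ 𝓝 θ, IsMeagre (ev '' (Z ∩ N))) : IsMeagre (ev '' Z) := by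
  classical
  choose! N hN hM using h
  obtain ⟨s, hsZ, hsc, hcov⟩ := TopologicalSpace.countable_cover_nhdsWithin
    (s := Z) (f := N) (fun x hx => mem_nhdsWithin_of_mem_nhds (hN x hx))
  have hsub : ev '' Z ⊆ ⋃ x ∈ s, ev '' (Z ∩ N x) := by
    rintro _ ⟨z, hz, rfl⟩
    obtain ⟨x, hx, hzx⟩ := mem_iUnion₂.1 (hcov hz)
    exact mem_iUnion₂.2 ⟨x, hx, z, ⟨hz, hzx⟩, rfl⟩
  exact (isMeagre_biUnion hsc fun x hx => hM x (hsZ hx)).mono hsub

theorem LocAn.preimage {T' : Type} [NormedAddCommGroup T'] [NormedSpace ℂ T'] {Z : Set T}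
    (hZ : LocAn Z) {ψ : T' → T} {V : Set T'} (hV : IsOpen V) (hψ : DifferentiableOn ℂ ψ V) :
    LocAn (V ∩ ψ ⁻¹' Z) := by
  rintro θ ⟨hθV, hθZ⟩
  obtain ⟨W, hW, hθW, 𝓕, h𝓕, hiff⟩ := hZ _ hθZ
  have hop : IsOpen (V ∩ ψ ⁻¹' W) := hψ.continuousOn.isOpen_inter_preimage hV hW
  refine ⟨V ∩ ψ ⁻¹' W, hop, ⟨hθV, hθW⟩, (fun f => f ∘ ψ) '' 𝓕, ?_, ?_⟩
  · rintro _ ⟨f, hf, rfl⟩
    exact (h𝓕 f hf).comp (hψ.mono inter_subset_left) fun x hx => hx.2
  · intro θ' hθ'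
    constructor
    · rintro ⟨-, hz⟩ _ ⟨f, hf, rfl⟩
      exact (hiff _ hθ'.2).1 hz f hf
    · intro hz
      exact ⟨hθ'.1, (hiff _ hθ'.2).2 fun f hf => hz _ ⟨f, hf, rfl⟩⟩

theorem HS_finrank_ker_lt {L : T →L[ℂ] ℂ} (hL : L ≠ 0) :
    Module.finrank ℂ (LinearMap.ker (L : T →ₗ[ℂ] ℂ)) < Module.finrank ℂ T := by
  apply Submodule.finrank_lt
  intro htop
  apply hL
  ext x
  have : x ∈ LinearMap.ker (L : T →ₗ[ℂ] ℂ) := htop ▸ Submodule.mem_top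
  simpa using this

theorem HS_regular
    (ih : ∀ (T' : Type) [NormedAddCommGroup T'] [NormedSpace ℂ T'] [FiniteDimensional ℂ T'],
      Module.finrank ℂ T' < Module.finrank ℂ T → ∀ (Z' : Set T') (ev' : T' → F), LocAn Z' →
        LocEv Z' ev' → ¬ HasSec Z' ev' → IsMeagre (ev' '' Z'))
    {Z : Set T} {ev : T → F} (hZ : LocAn Z) (hev : LocEv Z ev) (hs : ¬ HasSec Z ev)
    {g : T → ℂ} {U : Set T} (hU : IsOpen U) (hg : DifferentiableOn ℂ g U) :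
    IsMeagre (ev '' (Z ∩ {θ ∈ U | g θ = 0 ∧ fderiv ℂ g θ ≠ 0})) := by
  apply meagre_of_local
  rintro θ ⟨hθZ, hθU, h0, hd⟩
  have hgd : ∀ᶠ x in 𝓝 θ, DifferentiableAt ℂ g x := by
    filter_upwards [hU.mem_nhds hθU] with x hx using hg.differentiableAt (hU.mem_nhds hx)
  obtain ⟨ψ, V, hV, hψ, N, hN, hpar⟩ := hyper_param hgd h0 hd
  refine ⟨N, hN, ?_⟩
  have hZ' : LocAn (V ∩ ψ ⁻¹' Z) := hZ.preimage hV hψ
  have hev' : LocEv (V ∩ ψ ⁻¹' Z) (ev ∘ ψ) := by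
    rintro x ⟨hxV, hxZ⟩
    obtain ⟨ev', hev'⟩ := hev _ hxZ
    have hc : ContinuousAt ψ x := (hψ.differentiableAt (hV.mem_nhds hxV)).continuousAt
    refine ⟨ev' ∘ ψ, ?_⟩
    filter_upwards [hc.eventually hev', hV.mem_nhds hxV] with y hy hyV
    exact ⟨hy.1.comp y (hψ.differentiableAt (hV.mem_nhds hyV)), fun hyZ => hy.2 hyZ.2⟩
  have hs' : ¬ HasSec (V ∩ ψ ⁻¹' Z) (ev ∘ ψ) := by
    rintro ⟨b₀, φ, hφ⟩
    refine hs ⟨b₀, ψ ∘ φ, ?_⟩
    filter_upwards [hφ] with b hb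
    exact ⟨(hψ.differentiableAt (hV.mem_nhds hb.2.1.1)).comp b hb.1, hb.2.1.2, hb.2.2⟩
  refine (ih _ (HS_finrank_ker_lt hd) _ _ hZ' hev' hs').mono ?_
  rintro _ ⟨z, ⟨⟨hzZ, -, hz0, -⟩, hzN⟩, rfl⟩
  obtain ⟨x, hxV, rfl⟩ := hpar z hzN hz0
  exact ⟨x, ⟨hxV, hzZ⟩, rfl⟩

theorem sard_hyp
    (ih : ∀ (T' : Type) [NormedAddCommGroup T'] [NormedSpace ℂ T'] [FiniteDimensional ℂ T'],
      Module.finrank ℂ T' < Module.finrank ℂ T → ∀ (Z' : Set T') (ev' : T' → F), LocAn Z' →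
        LocEv Z' ev' → ¬ HasSec Z' ev' → IsMeagre (ev' '' Z'))
    {Z : Set T} {ev : T → F} (hZ : LocAn Z) (hev : LocEv Z ev) (hs : ¬ HasSec Z ev)
    {h : T → ℂ} {U : Set T} (hU : IsOpen U) (hh : DifferentiableOn ℂ h U)
    (hne : ∀ θ ∈ U, ¬ h =ᶠ[𝓝 θ] 0) : IsMeagre (ev '' (Z ∩ {θ ∈ U | h θ = 0})) := by
  apply meagre_of_local
  rintro θ ⟨hθZ, hθU, hθ0⟩
  obtain ⟨N, hN, hNU, j, g, hg, hcov⟩ := zero_set_cover hU hh hθU (hne θ hθU)
  refine ⟨N, hN, ?_⟩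
  have hm : IsMeagre (⋃ i : ℕ, ev '' (Z ∩ {θ ∈ U | g i θ = 0 ∧ fderiv ℂ (g i) θ ≠ 0})) :=
    isMeagre_iUnion fun i => HS_regular ih hZ hev hs hU (hg i)
  refine hm.mono ?_
  rintro _ ⟨z, ⟨⟨hzZ, hzU, hz0⟩, hzN⟩, rfl⟩
  obtain ⟨i, -, hi⟩ := hcov z hzN hz0
  exact mem_iUnion.2 ⟨i, z, ⟨hzZ, hzU, hi⟩, rfl⟩

theorem HS_not_ev_zero {f : T → ℂ} {c : T} {r : ℝ} (hf : DifferentiableOn ℂ f (ball c r))
    {x : T} (hx : x ∈ ball c r) (hfx : f x ≠ 0) : ∀ θ ∈ ball c r, ¬ f =ᶠ[𝓝 θ] 0 := by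
  intro θ hθ h
  exact hfx (Crest.Agent.R264.SCV.eqOn_of_eventuallyEq isOpen_ball (convex_ball c r).isPreconnected
    hf (differentiableOn_const 0) hθ h hx)

theorem sard_aux (k : ℕ) : ∀ (T : Type) [NormedAddCommGroup T] [NormedSpace ℂ T]
    [FiniteDimensional ℂ T], Module.finrank ℂ T = k → ∀ (Z : Set T) (ev : T → F), LocAn Z →
      LocEv Z ev → ¬ HasSec Z ev → IsMeagre (ev '' Z) := by
  induction k using Nat.strong_induction_on with
  | _ k ihk =>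
  intro T _ _ _ hk Z ev hZ hev hs
  have ih : ∀ (T' : Type) [NormedAddCommGroup T'] [NormedSpace ℂ T'] [FiniteDimensional ℂ T'],
      Module.finrank ℂ T' < Module.finrank ℂ T → ∀ (Z' : Set T') (ev' : T' → F), LocAn Z' →
        LocEv Z' ev' → ¬ HasSec Z' ev' → IsMeagre (ev' '' Z') := by
    intro T' _ _ _ hlt Z' ev' h1 h2 h3
    exact ihk _ (hk ▸ hlt) T' rfl Z' ev' h1 h2 h3
  apply meagre_of_local
  intro θ hθZ
  obtain ⟨W, hW, hθW, 𝓕, h𝓕, hiff⟩ := hZ θ hθZ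
  obtain ⟨ev', hev'⟩ := hev θ hθZ
  obtain ⟨r, hr, hball⟩ := Metric.mem_nhds_iff.1 (hev'.and (hW.mem_nhds hθW))
  have hBW : ball θ r ⊆ W := fun x hx => (hball hx).2
  have hd' : DifferentiableOn ℂ ev' (ball θ r) := fun x hx =>
    (hball hx).1.1.differentiableWithinAt
  refine ⟨ball θ r, ball_mem_nhds θ hr, ?_⟩
  by_cases hex : ∃ f ∈ 𝓕, ∃ x ∈ ball θ r, f x ≠ 0
  · obtain ⟨f, hf, x, hx, hfx⟩ := hex
    have hfd : DifferentiableOn ℂ f (ball θ r) := (h𝓕 f hf).mono hBW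
    refine (sard_hyp ih hZ hev hs isOpen_ball hfd (HS_not_ev_zero hfd hx hfx)).mono ?_
    refine image_mono ?_
    rintro z ⟨hzZ, hzB⟩
    exact ⟨hzZ, hzB, (hiff z (hBW hzB)).1 hzZ f hf⟩
  · push Not at hex
    have hBZ : ball θ r ⊆ Z := fun x hx => (hiff x (hBW hx)).2 fun f hf => hex f hf x hx
    have heq : ∀ x ∈ ball θ r, ev' x = ev x := fun x hx => (hball hx).1.2 (hBZ hx)
    have hdiff : ∀ x ∈ ball θ r, ∀ᶠ y in 𝓝 x, DifferentiableAt ℂ ev' y := fun x hx => by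
      filter_upwards [isOpen_ball.mem_nhds hx] with y hy using (hball hy).1.1
    have hns : ∀ x ∈ ball θ r, ¬ Function.Surjective (fderiv ℂ ev' x) := by
      intro x hx hsurj
      obtain ⟨φ, hφ⟩ := section_of_surj (hdiff x hx) hsurj (isOpen_ball.mem_nhds hx)
      refine hs ⟨ev' x, φ, ?_⟩
      filter_upwards [hφ] with b hb
      exact ⟨hb.1, hBZ hb.2.1, by rw [← heq _ hb.2.1]; exact hb.2.2⟩
    set rk : T → ℕ := fun x =>
      Module.finrank ℂ (LinearMap.range (fderiv ℂ ev' x : T →ₗ[ℂ] F)) with hrk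
    have hbdd : BddAbove (rk '' ball θ r) := by
      refine ⟨Module.finrank ℂ F, ?_⟩
      rintro _ ⟨x, -, rfl⟩
      exact Submodule.finrank_le _
    obtain ⟨θ₁, hθ₁, hmax⟩ : ∃ θ₁ ∈ ball θ r, ∀ x ∈ ball θ r, rk x ≤ rk θ₁ := by
      have hne : (rk '' ball θ r).Nonempty := ⟨_, θ, mem_ball_self hr, rfl⟩
      obtain ⟨θ₁, hθ₁, he⟩ := Nat.sSup_mem hne hbdd
      exact ⟨θ₁, hθ₁, fun x hx => he ▸ le_csSup hbdd ⟨x, hx, rfl⟩⟩
    obtain ⟨h, hh, hh1, hrank⟩ := exists_minor isOpen_ball hd' θ₁ hθ₁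
    have hA : IsMeagre (ev '' (Z ∩ {x ∈ ball θ r | h x = 0})) :=
      sard_hyp ih hZ hev hs isOpen_ball hh (HS_not_ev_zero hh hθ₁ hh1)
    have hB : IsMeagre (ev' '' {x ∈ ball θ r | h x ≠ 0}) := by
      apply meagre_of_local
      rintro x ⟨hx, hhx⟩
      obtain ⟨N, hN, hm⟩ := meagre_of_const_rank (hdiff x hx) (by
        filter_upwards [isOpen_ball.mem_nhds hx] with y hy
        exact (hmax y hy).trans (hrank x hx hhx)) (hns x hx)
      exact ⟨N, hN, hm.mono (image_mono inter_subset_right)⟩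
    refine (hA.union hB).mono ?_
    rintro _ ⟨z, ⟨hzZ, hzB⟩, rfl⟩
    by_cases hz : h z = 0
    · exact Or.inl ⟨z, ⟨hzZ, hzB, hz⟩, rfl⟩
    · exact Or.inr ⟨z, ⟨hzB, hz⟩, heq z hzB⟩

/-- **Sard theorem for analytic sets.** -/
theorem hasSec_of_not_meagre {Z : Set T} {ev : T → F} (hZ : LocAn Z) (hev : LocEv Z ev)
    (h : ¬ IsMeagre (ev '' Z)) : HasSec Z ev := by
  by_contra hs
  exact h (sard_aux _ T rfl Z ev hZ hev hs)

end Crest.Agent.R266
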