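import Crest.Agent.R266.Defs

/-! Row 266 (helper3): Sard theorem for analytic sets, part 1: hypersurfaces.

* `zero_set_cover`: for `v : T` let `D v g x = fderiv ℂ g x v`, `g i = (D v)^[i] h` (differentiable on `U` by
  `Crest.Agent.R264.SCV.differentiableOn_fderiv_apply`).  For `x + t • v ∈ U`,
  `iteratedDeriv i (fun t : ℂ => h (x + t • v)) t = g i (x + t • v)` (induction, `iteratedDeriv_succ`, eventual equality).
  If `(D v)^[j] h θ = 0` for all `v, j` then, for `ball θ ε ⊆ U` and `‖v‖ < ε`, the one variable function is analytic on a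
  disc of radius `> 1`, all its derivatives at `0` vanish, so it vanishes near `0` (Taylor series,
  `AnalyticAt.hasFPowerSeriesAt` / `Complex.taylorSeries_eq_on_ball`), hence at `t = 1`: `h = 0` on `ball θ ε`, excluded.
  So fix `v, j` with `g j θ ≠ 0`, `N = {x ∈ U | g j x ≠ 0}`.  For `θ' ∈ N` with `h θ' = 0` the least `k` with `g k θ' ≠ 0` satisfies
  `0 < k ≤ j`; take `i = k - 1`: `g i θ' = 0`, `fderiv ℂ (g i) θ' v = g k θ' ≠ 0`.
* `hyper_param`: implicit function theorem.  Let `ℓ = fderiv ℂ g θ`, `π : T →L[ℂ] ker ℓ` a continuous projection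
  (`Submodule.ClosedComplemented`, finite dimension), `τ x = (g x, π (x - θ))` is analytic at `θ`
  (`SCV.analyticAt_of_eventually`-type lemma) with bijective derivative; `σ` its local inverse
  (`HasStrictFDerivAt.toOpenPartialHomeomorph`, `ContDiffAt.to_localInverse`), `ψ κ = σ (0, κ)`; `V` a small ball on which `ψ` is
  differentiable, `N = {x ∈ source | π (x - θ) ∈ V}`.
* `exists_minor`: `A = fderiv ℂ ev θ₁`, `r` its rank.  Choose `R : (Fin r → ℂ) →L T`, `L : F →L (Fin r → ℂ)` with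
  `L ∘ A ∘ R = id` (basis of `range A`, preimages of the basis vectors, a projection onto `range A`), and
  `h θ = LinearMap.det (L ∘ fderiv ℂ ev θ ∘ R)` (or the determinant of the matrix of entries; `Matrix.det_apply` is a
  polynomial in differentiable entries).  If `h θ ≠ 0` then `L ∘ D ∘ R` is surjective, so `r ≤ rank D`.
-/

set_option autoImplicit false
set_option linter.unusedSectionVars false

open Set Filter Topology Metric

noncomputable section
namespace Crest.Agent.R266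

variable {T F : Type} [NormedAddCommGroup T] [NormedSpace ℂ T] [FiniteDimensional ℂ T]
  [NormedAddCommGroup F] [NormedSpace ℂ F] [FiniteDimensional ℂ F]

theorem zero_set_cover {h : T → ℂ} {U : Set T} (hU : IsOpen U) (hh : DifferentiableOn ℂ h U)
    {θ : T} (hθ : θ ∈ U) (hne : ¬ h =ᶠ[𝓝 θ] 0) :
    ∃ N ∈ 𝓝 θ, N ⊆ U ∧ ∃ (j : ℕ) (g : ℕ → T → ℂ), (∀ i, DifferentiableOn ℂ (g i) U) ∧
      ∀ θ' ∈ N, h θ' = 0 → ∃ i < j, g i θ' = 0 ∧ fderiv ℂ (g i) θ' ≠ 0 := by
  obtain ⟨v, j, hj⟩ : ∃ (v : T) (j : ℕ), iteratedFDeriv ℂ j h θ (fun _ => v) ≠ 0 := by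
    by_contra hx
    push Not at hx
    obtain ⟨p, r, hp⟩ := Crest.Agent.R264.SCV.analyticOnNhd hU hh θ hθ
    refine hne ?_
    filter_upwards [Metric.eball_mem_nhds θ hp.r_pos] with x hx'
    have := hp.hasSum_iteratedFDeriv (y := x - θ) (by
      simpa [edist_eq_enorm_sub] using hx')
    simp only [hx, smul_zero, add_sub_cancel] at this
    exact this.unique hasSum_zero
  have hd : ∀ i, ∀ x ∈ U, DifferentiableAt ℂ (iteratedFDeriv ℂ i h) x := fun i x hx =>
    Crest.Agent.R264.SCV.differentiableAt_iteratedFDeriv hU hh i hx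
  have hg : ∀ i, ∀ x ∈ U, DifferentiableAt ℂ (fun x => iteratedFDeriv ℂ i h x fun _ => v) x :=
    fun i x hx => (hd i x hx).continuousMultilinear_apply_const _
  refine ⟨U ∩ {x | iteratedFDeriv ℂ j h x (fun _ => v) ≠ 0},
    inter_mem (hU.mem_nhds hθ) ((hg j θ hθ).continuousAt.eventually_ne hj), inter_subset_left, j,
    fun i x => iteratedFDeriv ℂ i h x fun _ => v,
    fun i x hx => (hg i x hx).differentiableWithinAt, fun x hx h0 => ?_⟩
  classical
  have hex : ∃ k, iteratedFDeriv ℂ k h x (fun _ => v) ≠ 0 := ⟨j, hx.2⟩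
  have h1 := Nat.find_spec hex
  have h2 := Nat.find_min' hex hx.2
  have h3 := fun m => Nat.find_min hex (m := m)
  generalize Nat.find hex = k at h1 h2 h3
  cases k with
  | zero => exact (h1 (by simpa using h0)).elim
  | succ i =>
    refine ⟨i, h2, not_not.1 (h3 i (Nat.lt_succ_self i)), fun h4 => h1 ?_⟩
    rw [iteratedFDeriv_succ_apply_left,
      ← fderiv_continuousMultilinear_apply_const_apply (hd i x hx.1)]
    exact congrArg (fun L : T →L[ℂ] ℂ => L v) h4

theorem HS1_inv {G : T → F} {x : T} (hG : AnalyticAt ℂ G x)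
    (hb : Function.Bijective (fderiv ℂ G x)) :
    ∃ H : F → T, AnalyticAt ℂ H (G x) ∧ ∀ᶠ y in 𝓝 x, H (G y) = y := by
  have := FiniteDimensional.complete ℂ T
  have := FiniteDimensional.complete ℂ F
  have c : ContDiffAt ℂ ⊤ G x := hG.contDiffAt
  have d : HasFDerivAt G ((ContinuousLinearEquiv.ofBijective (fderiv ℂ G x)
      (LinearMap.ker_eq_bot.2 hb.1) (LinearMap.range_eq_top.2 hb.2) : T ≃L[ℂ] F) : T →L[ℂ] F) x := by
    rw [ContinuousLinearEquiv.coe_ofBijective]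
    exact hG.differentiableAt.hasFDerivAt
  have hn : (⊤ : WithTop ℕ∞) ≠ 0 := by simp
  exact ⟨c.localInverse d hn, (c.to_localInverse d hn).analyticAt,
    (c.hasStrictFDerivAt' d hn).eventually_left_inverse⟩

theorem hyper_param {g : T → ℂ} {θ : T} (hg : ∀ᶠ x in 𝓝 θ, DifferentiableAt ℂ g x)
    (h0 : g θ = 0) (hd : fderiv ℂ g θ ≠ 0) :
    ∃ (ψ : LinearMap.ker (fderiv ℂ g θ : T →ₗ[ℂ] ℂ) → T)
      (V : Set (LinearMap.ker (fderiv ℂ g θ : T →ₗ[ℂ] ℂ))), IsOpen V ∧ DifferentiableOn ℂ ψ V ∧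
      ∃ N ∈ 𝓝 θ, ∀ θ' ∈ N, g θ' = 0 → θ' ∈ ψ '' V := by
  have ag := Crest.Agent.R264.SCV.analyticAt_of_eventually hg
  obtain ⟨π, hπ⟩ := Submodule.ClosedComplemented.of_finiteDimensional
    (LinearMap.ker (fderiv ℂ g θ : T →ₗ[ℂ] ℂ))
  have dτ : fderiv ℂ (fun x => (g x, π x)) θ = (fderiv ℂ g θ).prod π :=
    (ag.differentiableAt.hasFDerivAt.prodMk π.hasFDerivAt).fderiv
  obtain ⟨w, hw⟩ : ∃ w, fderiv ℂ g θ w = 1 := by
    obtain ⟨w, hw⟩ : ∃ w, fderiv ℂ g θ w ≠ 0 := by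
      by_contra hx
      push Not at hx
      exact hd (ContinuousLinearMap.ext hx)
    exact ⟨(fderiv ℂ g θ w)⁻¹ • w, by rw [map_smul, smul_eq_mul, inv_mul_cancel₀ hw]⟩
  obtain ⟨H, aH, hH⟩ := HS1_inv (ag.prod (π.analyticAt θ)) (by
    rw [dτ]
    refine ⟨(injective_iff_map_eq_zero _).2 fun v hv => ?_, fun s => ?_⟩
    · have h1 : fderiv ℂ g θ v = 0 := congrArg Prod.fst hv
      have h2 : π v = 0 := congrArg Prod.snd hv
      exact congrArg Subtype.val ((hπ ⟨v, h1⟩).symm.trans h2)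
    · refine ⟨s.1 • w + (s.2 - π (s.1 • w) :), Prod.ext ?_ ?_⟩
      · have : fderiv ℂ g θ (s.2 - π (s.1 • w) :) = 0 := (s.2 - π (s.1 • w)).2
        rw [ContinuousLinearMap.prod_apply, map_add, this, map_smul, hw]
        simp
      · rw [ContinuousLinearMap.prod_apply, map_add π, hπ]
        simp)
  rw [h0] at aH
  have aψ : AnalyticAt ℂ (fun κ => H (0, κ)) (π θ) :=
    AnalyticAt.comp (f := fun κ => ((0 : ℂ), κ)) aH (analyticAt_const.prod analyticAt_id)
  obtain ⟨V, hV, hVo, hV0⟩ := _root_.eventually_nhds_iff.1 aψ.eventually_analyticAt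
  refine ⟨fun κ => H (0, κ), V, hVo, fun κ hκ => (hV κ hκ).differentiableAt.differentiableWithinAt,
    _, hH.and (π.continuous.continuousAt (hVo.mem_nhds hV0)), fun x hx h1 => ⟨π x, hx.2, ?_⟩⟩
  have := hx.1
  rwa [h1] at this

theorem exists_minor {ev : T → F} {U : Set T} (hU : IsOpen U) (hev : DifferentiableOn ℂ ev U)
    (θ₁ : T) (hθ₁ : θ₁ ∈ U) :
    ∃ h : T → ℂ, DifferentiableOn ℂ h U ∧ h θ₁ ≠ 0 ∧ ∀ θ ∈ U, h θ ≠ 0 →
      Module.finrank ℂ (LinearMap.range (fderiv ℂ ev θ₁ : T →ₗ[ℂ] F)) ≤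
        Module.finrank ℂ (LinearMap.range (fderiv ℂ ev θ : T →ₗ[ℂ] F)) := by
  classical
  have := FiniteDimensional.complete ℂ F
  obtain ⟨L, hL⟩ := Submodule.ClosedComplemented.of_finiteDimensional
    (LinearMap.range (fderiv ℂ ev θ₁ : T →ₗ[ℂ] F))
  obtain ⟨R, hR⟩ := LinearMap.exists_rightInverse_of_surjective _
    (fderiv ℂ ev θ₁ : T →ₗ[ℂ] F).range_rangeRestrict
  have hR' : ∀ s, fderiv ℂ ev θ₁ (R s) = s := fun s =>
    congrArg Subtype.val (LinearMap.congr_fun hR s)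
  clear hR
  generalize LinearMap.range (fderiv ℂ ev θ₁ : T →ₗ[ℂ] F) = S at L hL R hR'
  let b := Module.finBasis ℂ S
  refine ⟨fun θ => LinearMap.det ((L : F →ₗ[ℂ] S) ∘ₗ (fderiv ℂ ev θ : T →ₗ[ℂ] F) ∘ₗ R), ?_, ?_,
    fun θ _ hθ => ?_⟩
  · simp only [← LinearMap.det_toMatrix b, Matrix.det_apply', LinearMap.toMatrix_apply]
    refine AnalyticOnNhd.differentiableOn (Finset.analyticOnNhd_fun_sum _ fun σ _ =>
      analyticOnNhd_const.mul (Finset.analyticOnNhd_fun_prod _ fun i _ => ?_))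
    refine Crest.Agent.R264.SCV.analyticOnNhd hU ?_
    exact ((LinearMap.toContinuousLinearMap (b.coord (σ i))).comp L).differentiable.comp_differentiableOn
      (Crest.Agent.R264.SCV.differentiableOn_fderiv_apply hU hev (R (b i)))
  · have : (L : F →ₗ[ℂ] S) ∘ₗ (fderiv ℂ ev θ₁ : T →ₗ[ℂ] F) ∘ₗ R = LinearMap.id := by
      ext s
      simp [hR', hL]
    simp [this]
  · have h1 := (LinearMap.equivOfDetNeZero _ hθ).surjective
    have h2 : (⊤ : Submodule ℂ S) ≤
        (LinearMap.range (fderiv ℂ ev θ : T →ₗ[ℂ] F)).map (L : F →ₗ[ℂ] S) := fun s _ => by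
      obtain ⟨t, ht⟩ := h1 s
      exact ⟨_, ⟨R t, rfl⟩, ht⟩
    exact (finrank_top ℂ S).symm.trans_le
      ((Submodule.finrank_mono h2).trans (Submodule.finrank_map_le _ _))

end Crest.Agent.R266
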