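import Crest.Agent.R266.Basic3

/-! Row 266: the pull-back of a Kähler metric; uniform product charts. -/

set_option autoImplicit false
set_option linter.unusedSectionVars false

open Set Filter Topology Metric
open scoped Manifold ContDiff

noncomputable section
namespace Crest.Agent.R266

open Crest.AlgGeometry.HolSplit

variable {n : ℕ} {X : Type} [TopologicalSpace X] [ChartedSpace (Model n) X]
  [IsManifold (mI n) ω X]

section KahPure

variable {E F : Type} [NormedAddCommGroup E] [NormedSpace ℂ E] [NormedSpace ℝ E]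
  [IsScalarTower ℝ ℂ E] [CompleteSpace E] [NormedAddCommGroup F] [NormedSpace ℂ F]
  [NormedSpace ℝ F] [IsScalarTower ℝ ℂ F] {ψ : F → E} {y : F} {B : E → E →L[ℝ] E →L[ℝ] ℝ}

theorem kah_contDiffAt (hψ : AnalyticAt ℂ ψ y) (hB : ContDiffAt ℝ 1 B (ψ y)) (a b : F) :
    ContDiffAt ℝ 1 (fun z => B (ψ z) (fderiv ℂ ψ z a) (fderiv ℂ ψ z b)) y := by
  have h0 : ContDiffAt ℝ 1 ψ y := (hψ.contDiffAt (n := 1)).restrict_scalars ℝ
  have h1 : ∀ a : F, ContDiffAt ℝ 1 (fun z => fderiv ℂ ψ z a) y := fun a =>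
    ((hψ.fderiv.contDiffAt (n := 1)).clm_apply contDiffAt_const).restrict_scalars ℝ
  exact ((hB.comp y h0).clm_apply (h1 a)).clm_apply (h1 b)

theorem kah_fderiv (hψ : AnalyticAt ℂ ψ y) (hB : DifferentiableAt ℝ B (ψ y)) (a b u : F) :
    fderiv ℝ (fun z => B (ψ z) (fderiv ℂ ψ z a) (fderiv ℂ ψ z b)) y u =
      fderiv ℝ B (ψ y) (fderiv ℂ ψ y u) (fderiv ℂ ψ y a) (fderiv ℂ ψ y b)
        + B (ψ y) (fderiv ℂ (fderiv ℂ ψ) y u a) (fderiv ℂ ψ y b)
        + B (ψ y) (fderiv ℂ ψ y a) (fderiv ℂ (fderiv ℂ ψ) y u b) := by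
  have h0 := hψ.differentiableAt.hasFDerivAt.restrictScalars ℝ
  have h1 := fun a : F => (hψ.fderiv.differentiableAt.hasFDerivAt.clm_apply
    (hasFDerivAt_const a y)).restrictScalars ℝ
  have h4 := HasFDerivAt.comp (G := E →L[ℝ] E →L[ℝ] ℝ) y hB.hasFDerivAt h0
  have h5 := h4.clm_apply (h1 a)
  have h2 := h5.clm_apply (h1 b)
  have h3 := h2.fderiv
  simp only [Function.comp_apply] at h3
  rw [h3]
  simp
  ring

theorem kah_fderiv_const {x : E} (hB : DifferentiableAt ℝ B x) (a b u : E) :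
    fderiv ℝ (fun z => B z a b) x u = fderiv ℝ B x u a b := by
  rw [((hB.hasFDerivAt.clm_apply (hasFDerivAt_const a x)).clm_apply (hasFDerivAt_const b x)).fderiv]
  simp

theorem kah_closed (hψ : AnalyticAt ℂ ψ y) (hB : DifferentiableAt ℝ B (ψ y))
    (hanti : ∀ a b, B (ψ y) (Complex.I • a) b = -B (ψ y) (Complex.I • b) a)
    (hcl : ∀ u v w, fderiv ℝ (fun z => B z (Complex.I • v) w) (ψ y) u
      - fderiv ℝ (fun z => B z (Complex.I • u) w) (ψ y) v
      + fderiv ℝ (fun z => B z (Complex.I • u) v) (ψ y) w = 0) (u v w : F) :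
    fderiv ℝ (fun z => B (ψ z) (fderiv ℂ ψ z (Complex.I • v)) (fderiv ℂ ψ z w)) y u
      - fderiv ℝ (fun z => B (ψ z) (fderiv ℂ ψ z (Complex.I • u)) (fderiv ℂ ψ z w)) y v
      + fderiv ℝ (fun z => B (ψ z) (fderiv ℂ ψ z (Complex.I • u)) (fderiv ℂ ψ z v)) y w = 0 := by
  have hs : IsSymmSndFDerivAt ℂ ψ y := (hψ.contDiffAt (n := ω)).isSymmSndFDerivAt le_top
  have h1 := hcl (fderiv ℂ ψ y u) (fderiv ℂ ψ y v) (fderiv ℂ ψ y w)
  simp only [kah_fderiv_const hB] at h1
  have h2 := hanti (fderiv ℂ ψ y v) (fderiv ℂ (fderiv ℂ ψ) y u w)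
  rw [kah_fderiv hψ hB, kah_fderiv hψ hB, kah_fderiv hψ hB]
  simp only [map_smul]
  rw [hs.eq v u, hs.eq w u, hs.eq w v]
  linarith

end KahPure

/-- Near `y`, with `c = φ y`, `ψ = chart c ∘ φ` (analytic) and `ĝ` the coefficient function of `K`
in the chart at `c` (`pullbackForm (g (chart.symm z)) (ti c z)`):
`pb g φ y' u v = ĝ (ψ y') (Dψ y' u) (Dψ y' v)` (`hasFDerivAt_chart`, `ti_tc`).  In the cyclic sum
the terms with `Dĝ` cancel by `K.closed` (at the vectors `Dψ u, Dψ v, Dψ w`, `Dψ` is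
`ℂ`-linear), the terms with `D²ψ` cancel by symmetry and `ℂ`-bilinearity of `D²ψ` and
`ĝ (i a) b = - ĝ (i b) a`. -/
theorem pull_closed (K : KahlerMetric n X) {F : Type} [NormedAddCommGroup F] [NormedSpace ℂ F]
    [FiniteDimensional ℂ F] {φ : F → X} {G : Set F} (hG : IsOpen G) (hφ : HolOn F (Model n) φ G) :
    ClosedOn (pb K.g φ) G := by
  have key : ∀ y ∈ G, ∃ (ψ : F → Model n) (B : Model n → Model n →L[ℝ] Model n →L[ℝ] ℝ),
      AnalyticAt ℂ ψ y ∧ ContDiffAt ℝ 1 B (ψ y) ∧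
      (∀ a b, B (ψ y) (Complex.I • a) b = -B (ψ y) (Complex.I • b) a) ∧
      (∀ u v w, fderiv ℝ (fun z => B z (Complex.I • v) w) (ψ y) u
        - fderiv ℝ (fun z => B z (Complex.I • u) w) (ψ y) v
        + fderiv ℝ (fun z => B z (Complex.I • u) v) (ψ y) w = 0) ∧
      ∀ a b, (fun z => pb K.g φ z a b) =ᶠ[𝓝 y]
        fun z => B (ψ z) (fderiv ℂ ψ z a) (fderiv ℂ ψ z b) := by
    intro y hy
    have hsrc := mem_chart_source (Model n) (φ y)
    have htg := (chartAt (Model n) (φ y)).map_source hsrc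
    have hev : ∀ᶠ z in 𝓝 y, HolAt F (Model n) φ z := by
      filter_upwards [hG.mem_nhds hy] with z hz using hφ z hz
    refine ⟨chartAt (Model n) (φ y) ∘ φ, fun z => pullbackForm (K.g ((chartAt (Model n) (φ y)).symm z))
      ((ti (Model n) (φ y) z).restrictScalars ℝ), analyticAt_chart hev hsrc, ?_, fun a b => ?_,
      K.closed (φ y) _ htg, fun a b => ?_⟩
    · exact ((K.smooth (φ y)).contDiffAt
        ((chartAt (Model n) (φ y)).open_target.mem_nhds htg)).of_le (by exact_mod_cast le_top)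
    · change K.g _ (ti (Model n) (φ y) _ (Complex.I • a)) (ti (Model n) (φ y) _ b) =
        -K.g _ (ti (Model n) (φ y) _ (Complex.I • b)) (ti (Model n) (φ y) _ a)
      rw [(ti (Model n) (φ y) _).map_smul, (ti (Model n) (φ y) _).map_smul, ← K.herm, smul_smul,
        Complex.I_mul_I, neg_one_smul, map_neg, neg_apply, K.symm]
    · filter_upwards [hev, (hφ y hy).continuousAt.eventually
        ((chartAt (Model n) (φ y)).open_source.mem_nhds hsrc)] with z hz hz'
      rw [(hasFDerivAt_chart hz hz').fderiv]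
      change K.g (φ z) _ _ = K.g ((chartAt (Model n) (φ y)).symm (chartAt (Model n) (φ y) (φ z)))
        (ti (Model n) (φ y) (chartAt (Model n) (φ y) (φ z)) (tc (Model n) (φ y) (φ z) _))
        (ti (Model n) (φ y) (chartAt (Model n) (φ y) (φ z)) (tc (Model n) (φ y) (φ z) _))
      rw [ti_tc hz', ti_tc hz', (chartAt (Model n) (φ y)).left_inv hz']
      rfl
  refine ⟨fun u v y hy => ?_, fun y hy u v w => ?_⟩
  · obtain ⟨ψ, B, h1, h2, -, -, h5⟩ := key y hy
    exact ((kah_contDiffAt h1 h2 u v).congr_of_eventuallyEq (h5 u v)).contDiffWithinAt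
  · obtain ⟨ψ, B, h1, h2, h3, h4, h5⟩ := key y hy
    rw [(h5 _ _).fderiv_eq, (h5 _ _).fderiv_eq, (h5 _ _).fderiv_eq]
    exact kah_closed h1 (h2.differentiableAt one_ne_zero) h3 h4 u v w

theorem kData (K : KahlerMetric n X) : KData K.g where
  symm := K.symm
  nonneg x u := by
    by_cases h : u = 0
    · simp [h]
    · exact (K.pos x u h).le
  herm := K.herm
  pull _ _ hG hφ := pull_closed K hG hφ

theorem quad_bounds {F T : Type} [NormedAddCommGroup F] [NormedSpace ℝ F] [FiniteDimensional ℝ F]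
    [TopologicalSpace T] {S : Set T} (hS : IsCompact S) (H : T → F →L[ℝ] F →L[ℝ] ℝ)
    (hc : ∀ u v, ContinuousOn (fun y => H y u v) S) (hp : ∀ y ∈ S, ∀ v, v ≠ 0 → 0 < H y v v) :
    ∃ c C : ℝ, 0 < c ∧ 0 < C ∧ ∀ y ∈ S, ∀ v, c * ‖v‖ ^ 2 ≤ H y v v ∧ H y v v ≤ C * ‖v‖ ^ 2 := by
  have hH : ContinuousOn H S :=
    continuousOn_clm_apply.2 fun u => continuousOn_clm_apply.2 fun v => hc u v
  obtain ⟨C, hC⟩ := hS.exists_bound_of_continuousOn (E := F →L[ℝ] F →L[ℝ] ℝ) hH
  have hK : IsCompact (S ×ˢ sphere (0 : F) 1) := hS.prod (isCompact_sphere 0 1)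
  have hq : ContinuousOn (fun p : T × F => H p.1 p.2 p.2) (S ×ˢ sphere (0 : F) 1) :=
    ((hH.comp continuousOn_fst fun p hp => hp.1).clm_apply continuousOn_snd).clm_apply
      continuousOn_snd
  obtain ⟨c, hc0, hcl⟩ := hK.exists_forall_le' hq (a := 0) (by
    rintro ⟨y, v⟩ ⟨hy, hv⟩
    refine hp y hy v ?_
    rintro rfl
    simp at hv)
  refine ⟨c, max C 1, hc0, lt_max_of_lt_right one_pos, fun y hy v => ⟨?_, ?_⟩⟩
  · by_cases hv : v = 0
    · simp [hv]
    · have hn : ‖v‖ ≠ 0 := norm_ne_zero_iff.2 hv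
      have h1 := hcl (y, ‖v‖⁻¹ • v) ⟨hy, by simp [norm_smul, hn]⟩
      simp only [map_smul, smul_apply, smul_eq_mul] at h1
      have h2 := mul_le_mul_of_nonneg_right h1 (sq_nonneg ‖v‖)
      calc c * ‖v‖ ^ 2 ≤ _ := h2
        _ = H y v v := by field_simp
  · calc H y v v ≤ ‖H y v v‖ := Real.le_norm_self _
      _ ≤ ‖H y‖ * ‖v‖ * ‖v‖ := (H y).le_opNorm₂ v v
      _ = ‖H y‖ * ‖v‖ ^ 2 := by ring
      _ ≤ max C 1 * ‖v‖ ^ 2 :=
        mul_le_mul_of_nonneg_right ((hC y hy).trans (le_max_left _ _)) (sq_nonneg _)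

theorem pb_bounds (K : KahlerMetric n X) {F : Type} [NormedAddCommGroup F] [NormedSpace ℂ F]
    [FiniteDimensional ℂ F] {φ : F → X} {G S : Set F} (hG : IsOpen G)
    (hφ : HolOn F (Model n) φ G) (hS : IsCompact S) (hSG : S ⊆ G)
    (hi : ∀ y ∈ S, Function.Injective (md F (Model n) φ y)) :
    ∃ c C : ℝ, 0 < c ∧ 0 < C ∧ ∀ y ∈ S, ∀ v,
      c * ‖v‖ ^ 2 ≤ pb K.g φ y v v ∧ pb K.g φ y v v ≤ C * ‖v‖ ^ 2 := by
  have hfd : FiniteDimensional ℝ F := Module.Finite.trans ℂ F
  exact quad_bounds hS (fun y => (K.g (φ y)).bilinearComp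
      ((md F (Model n) φ y).restrictScalars ℝ) ((md F (Model n) φ y).restrictScalars ℝ))
    (fun u v => ((pull_closed K hG hφ).1 u v).continuousOn.mono hSG)
    (fun y hy v hv => K.pos _ _ fun h0 => hv (hi y hy (h0.trans (map_zero _).symm)))

/-- For a product chart `e` the function `(y, v) ↦ pb K.g e.symm y v v` is continuous (each
`y ↦ pb .. y u v` is `C¹` by `pull_closed`, and it is a bilinear form in a finite dimensional space)
and positive for `v ≠ 0`, hence bounded above and below on `closedBall 0 (3/4) × sphere 0 1`.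
Finitely many sets `{x ∈ e.source | ‖e x‖ < 1/4}` cover `X`. -/
theorem exists_uc [CompactSpace X] [T2Space X] (K : KahlerMetric n X) {A B : Type}
    [NormedAddCommGroup A] [NormedSpace ℂ A] [NormedAddCommGroup B] [NormedSpace ℂ B]
    [FiniteDimensional ℂ A] [FiniteDimensional ℂ B] {P : X → Model n →L[ℂ] Model n}
    (h : HasPC A B P) : ∃ c C : ℝ, 0 < c ∧ 0 < C ∧ UC A B P K.g c C := by
  classical
  choose e he hx h0 using h
  have hli : ∀ x, ∀ z ∈ (e x).source, ∀ v,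
      md (A × B) (Model n) (e x).symm (e x z) (md (Model n) (A × B) (e x) z v) = v := by
    intro x z hz v
    have h1 : ((e x).symm ∘ e x : X → X) =ᶠ[𝓝 z] id := by
      filter_upwards [(e x).open_source.mem_nhds hz] with w hw
      exact (e x).left_inv hw
    rw [← md_comp_apply ((he x).hol_symm _ ((e x).map_source hz)) ((he x).hol z hz), md_congr h1,
      md_id]
    rfl
  have hri : ∀ x, ∀ y ∈ (e x).target, Function.Injective (md (A × B) (Model n) (e x).symm y) := by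
    intro x y hy
    have h1 : (e x ∘ (e x).symm : A × B → A × B) =ᶠ[𝓝 y] id := by
      filter_upwards [(e x).open_target.mem_nhds hy] with w hw
      exact (e x).right_inv hw
    have h2 : ∀ v, md (Model n) (A × B) (e x) ((e x).symm y)
        (md (A × B) (Model n) (e x).symm y v) = v := by
      intro v
      rw [← md_comp_apply ((he x).hol _ ((e x).map_target hy)) ((he x).hol_symm y hy), md_congr h1,
        md_id]
      rfl
    exact Function.LeftInverse.injective h2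
  have hsub : ∀ x, closedBall (0 : A × B) (3 / 4) ⊆ (e x).target := by
    intro x
    rw [(he x).target_eq]
    exact closedBall_subset_ball (by norm_num)
  have hpr : ProperSpace (A × B) := FiniteDimensional.proper ℂ (A × B)
  have hb : ∀ x, ∃ c C : ℝ, 0 < c ∧ 0 < C ∧ Cmp K.g c C (e x) := by
    intro x
    obtain ⟨c, C, hc, hC, hb⟩ := pb_bounds K (e x).open_target (he x).hol_symm
      (isCompact_closedBall 0 (3 / 4)) (hsub x) (fun y hy => hri x y (hsub x hy))
    refine ⟨c, C, hc, hC, fun z hz hn v => ?_⟩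
    have := hb (e x z) (mem_closedBall_zero_iff.2 hn) (md (Model n) (A × B) (e x) z v)
    unfold pb at this
    rwa [hli x z hz, (e x).left_inv hz] at this
  choose c C hc hC hb using hb
  obtain ⟨t, ht⟩ := isCompact_univ.elim_finite_subcover
    (fun x => (e x).source ∩ e x ⁻¹' ball 0 (1 / 4))
    (fun x => (e x).isOpen_inter_preimage isOpen_ball)
    (fun x _ => mem_iUnion.2 ⟨x, hx x, by simp [h0 x]⟩)
  have hf : ∀ s : Finset X, ∃ c' C' : ℝ, 0 < c' ∧ 0 < C' ∧ ∀ x ∈ s, c' ≤ c x ∧ C x ≤ C' := by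
    intro s
    induction s using Finset.induction_on with
    | empty => exact ⟨1, 1, one_pos, one_pos, by simp⟩
    | insert a s _ ih =>
      obtain ⟨c', C', h1, h2, h3⟩ := ih
      refine ⟨min c' (c a), max C' (C a), lt_min h1 (hc a), lt_max_of_lt_left h2, ?_⟩
      intro x hxs
      rcases Finset.mem_insert.1 hxs with rfl | hxs
      · exact ⟨min_le_right _ _, le_max_right _ _⟩
      · exact ⟨(min_le_left _ _).trans (h3 x hxs).1, (h3 x hxs).2.trans (le_max_left _ _)⟩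
  obtain ⟨c', C', h1, h2, h3⟩ := hf t
  refine ⟨c', C', h1, h2, fun z => ?_⟩
  obtain ⟨x, hxt, hz, hzb⟩ := mem_iUnion₂.1 (ht (mem_univ z))
  refine ⟨e x, he x, fun w hw hn v => ⟨?_, ?_⟩, hz, mem_ball_zero_iff.1 hzb⟩
  · exact (mul_le_mul_of_nonneg_right (h3 x hxt).1 (sq_nonneg _)).trans (hb x w hw hn v).1
  · exact (hb x w hw hn v).2.trans (mul_le_mul_of_nonneg_right (h3 x hxt).2 (sq_nonneg _))

end Crest.Agent.R266
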