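import Crest.Agent.R266.Weak

/-! Row 266: small gradient on two families of circles forces the map into one product chart.

`Φ = φ ∘ lg`, `η* = 1/2 + iν` with `‖η*‖ = ‖1 - η*‖ = lam`, `e` the uniform chart at `Φ (x₁, η*)`,
`m₀ = e (Φ (x₁, η*))`, `o = 1/32`.  By `escape`: along `s ↦ (x - s, η*)`, `s ∈ [0,1]`, and along
the circles `α ↦ (x, η* e^{iα})`, `α ↦ (x, 1 - (1 - η*) e^{iα})`, `α ∈ [0, 2π]`, the chart value moves
by at most `o` (`L = 1/256`, `KData.smul_self`).  Put `f₁ z = (e (φ (z, ‖z‖/lam - z))).1`,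
`f₂ w = (e (φ (‖w‖/lam - w, w))).2`; `f₁` is differentiable at `z` as soon as
`φ (z, ‖z‖/lam - z) ∈ e.source` (`IsPC.local_prod`: near that point `(e (φ q)).1` depends on `q.1`
only).  Induction on `j`: for `x ∈ [x₁ - j, x₁]`, `Φ (x, η*) ∈ e.source` and
`‖e (Φ (x, η*)) - m₀‖ ≤ 2 o`: in the step all circle points are in the chart, the circle averages of
`f₁` over radii `lam eˣ` and `lam e^{x₁}` agree (Cauchy on an annulus,
`Complex.circleIntegral_sub_center_inv_smul_eq_of_differentiable_on_annulus_off_countable`), each is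
within `o` of the value at `eˣ η*`; same for `f₂`.  So `f₁, f₂` are bounded by `1/2` on the punctured
disc of radius `lam e^{x₁}`; remove the singularity
(`Complex.differentiableOn_update_limUnder_of_bddAbove`), `ψ (z, w) = e.symm (π₁ z, π₂ w)` agrees with
`φ` near `lg (x, η*)` (`local_prod`), hence on the convex set `cone ε r`,
`r = min (lam e^{x₁}) δ` (`hol_eqOn`). -/

set_option autoImplicit false
set_option linter.unusedSectionVars false

open Set Filter Topology Metric MeasureTheory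
open scoped Manifold ContDiff

noncomputable section
namespace Crest.Agent.R266

theorem isOpen_cone (ε δ : ℝ) : IsOpen (cone ε δ) := by
  have h1 : IsOpen {y : ℂ × ℂ | ε * (‖y.1‖ + ‖y.2‖) < (y.1 + y.2).re} :=
    isOpen_lt (by fun_prop) (by fun_prop)
  have h2 : IsOpen {y : ℂ × ℂ | ‖y.1‖ < δ} := isOpen_lt (by fun_prop) continuous_const
  have h3 : IsOpen {y : ℂ × ℂ | ‖y.2‖ < δ} := isOpen_lt (by fun_prop) continuous_const
  exact h1.inter (h2.inter h3)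

theorem convex_cone {ε : ℝ} (hε : 0 ≤ ε) (δ : ℝ) : Convex ℝ (cone ε δ) := by
  intro x hx y hy a b ha hb hab
  obtain ⟨hx1, hx2, hx3⟩ := hx
  obtain ⟨hy1, hy2, hy3⟩ := hy
  have h1 : ‖(a • x + b • y).1‖ ≤ a * ‖x.1‖ + b * ‖y.1‖ := by
    refine (norm_add_le _ _).trans (le_of_eq ?_)
    simp [abs_of_nonneg ha, abs_of_nonneg hb]
  have h2 : ‖(a • x + b • y).2‖ ≤ a * ‖x.2‖ + b * ‖y.2‖ := by
    refine (norm_add_le _ _).trans (le_of_eq ?_)
    simp [abs_of_nonneg ha, abs_of_nonneg hb]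
  have h3 : ((a • x + b • y).1 + (a • x + b • y).2).re =
      a * (x.1 + x.2).re + b * (y.1 + y.2).re := by
    simp
    ring
  have key : ∀ {u v s t : ℝ}, u < s → v < t → a * u + b * v < a * s + b * t := by
    intro u v s t h h'
    rcases ha.eq_or_lt with h0 | h0
    · have : b = 1 := by linarith
      rw [← h0, this]
      linarith
    · nlinarith [mul_le_mul_of_nonneg_left h'.le hb, mul_lt_mul_of_pos_left h h0]
  have hδ : a * δ + b * δ = δ := by rw [← add_mul, hab, one_mul]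
  refine ⟨?_, ?_, ?_⟩
  · rw [h3]
    have h4 := key hx1 hy1
    nlinarith [mul_le_mul_of_nonneg_left (add_le_add h1 h2) hε]
  · linarith [key hx2 hy2]
  · linarith [key hx3 hy3]

theorem Stay_eta {lam : ℝ} (hlam : 1 ≤ lam) : ∃ η : ℂ, ‖η‖ = lam ∧ ‖1 - η‖ = lam := by
  have h : 0 ≤ lam ^ 2 - 1 / 4 := by nlinarith
  have hs := Real.sq_sqrt h
  refine ⟨⟨1 / 2, √(lam ^ 2 - 1 / 4)⟩, ?_, ?_⟩
  · refine (sq_eq_sq₀ (norm_nonneg _) (by linarith)).1 ?_
    rw [Complex.sq_norm, Complex.normSq_apply]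
    nlinarith
  · refine (sq_eq_sq₀ (norm_nonneg _) (by linarith)).1 ?_
    rw [Complex.sq_norm, Complex.normSq_apply]
    simp only [Complex.sub_re, Complex.one_re, Complex.sub_im, Complex.one_im]
    nlinarith

theorem Stay_avg {V : Type*} [NormedAddCommGroup V] [NormedSpace ℂ V] [CompleteSpace V]
    {f : ℂ → V} {r R o : ℝ} (hr : 0 < r) (hrR : r ≤ R)
    (hf : ∀ z, r ≤ ‖z‖ → ‖z‖ ≤ R → DifferentiableAt ℂ f z) {a b : V}
    (ha : ∀ z, ‖z‖ = r → ‖f z - a‖ ≤ o) (hb : ∀ z, ‖z‖ = R → ‖f z - b‖ ≤ o) :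
    ‖a - b‖ ≤ 2 * o := by
  have key : ∀ {ρ : ℝ} {v : V}, r ≤ ρ → ρ ≤ R → (∀ z, ‖z‖ = ρ → ‖f z - v‖ ≤ o) →
      ‖(∮ z in C(0, ρ), (z - 0)⁻¹ • f z) - (2 * Real.pi * Complex.I : ℂ) • v‖ ≤
        2 * Real.pi * o := by
    intro ρ v h1 h2 hv
    have hρ : 0 < ρ := hr.trans_le h1
    have hinv : ContinuousOn (fun z : ℂ => (z - 0)⁻¹) (sphere 0 ρ) := by
      refine (continuousOn_id.sub continuousOn_const).inv₀ fun z hz h0 => ?_
      rw [mem_sphere_zero_iff_norm] at hz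
      have : z = 0 := by simpa using h0
      rw [this, norm_zero] at hz
      exact hρ.ne hz
    have hfc : ContinuousOn f (sphere 0 ρ) := fun z hz => by
      rw [mem_sphere_zero_iff_norm] at hz
      exact (hf z (hz ▸ h1) (hz ▸ h2)).continuousAt.continuousWithinAt
    rw [← circleIntegral.integral_sub_center_inv 0 hρ.ne', ← circleIntegral.integral_smul_const,
      ← circleIntegral.integral_sub (f := fun z => (z - 0)⁻¹ • f z) (g := fun z => (z - 0)⁻¹ • v)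
        ((hinv.smul hfc).circleIntegrable hρ.le)
        ((hinv.smul continuousOn_const).circleIntegrable hρ.le)]
    refine (circleIntegral.norm_integral_le_of_norm_le_const (C := ρ⁻¹ * o) hρ.le
      fun z hz => ?_).trans (le_of_eq ?_)
    · rw [mem_sphere_zero_iff_norm] at hz
      rw [← smul_sub, norm_smul, sub_zero, norm_inv, hz]
      exact mul_le_mul_of_nonneg_left (hv z hz) (inv_nonneg.2 hρ.le)
    · field_simp
  have h1 := key le_rfl hrR ha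
  have h2 := key hrR le_rfl hb
  have h3 := Complex.circleIntegral_sub_center_inv_smul_eq_of_differentiable_on_annulus_off_countable
    (c := 0) hr hrR (f := f) countable_empty
    (fun z hz => (hf z (by simpa using hz.2) (by simpa using hz.1)).continuousAt.continuousWithinAt)
    (fun z hz => hf z (le_of_lt (by simpa using hz.1.2)) (le_of_lt (by simpa using hz.1.1)))
  rw [h3] at h2
  have h4 : ‖(2 * Real.pi * Complex.I : ℂ) • (a - b)‖ ≤ 2 * Real.pi * o + 2 * Real.pi * o := by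
    refine le_trans (le_of_eq ?_) (norm_sub_le_of_le h2 h1)
    rw [smul_sub]
    congr 1
    abel
  have h5 : ‖(2 * Real.pi * Complex.I : ℂ)‖ = 2 * Real.pi := by simp [Real.pi_pos.le]
  rw [norm_smul, h5] at h4
  have h6 := Real.pi_pos
  nlinarith

theorem Stay_remov {V : Type*} [NormedAddCommGroup V] [NormedSpace ℂ V] [CompleteSpace V]
    {f : ℂ → V} {R b : ℝ} (hR : 0 < R)
    (hf : ∀ z, z ≠ 0 → ‖z‖ < R → DifferentiableAt ℂ f z ∧ ‖f z‖ ≤ b) :
    ∃ p : ℂ → V, (∀ z, ‖z‖ < R → DifferentiableAt ℂ p z ∧ ‖p z‖ ≤ b) ∧ ∀ z, z ≠ 0 → p z = f z := by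
  classical
  have hd := Complex.differentiableOn_update_limUnder_of_bddAbove (f := f) (ball_mem_nhds 0 hR)
    (fun z hz => (hf z hz.2 (by simpa using hz.1)).1.differentiableWithinAt)
    ⟨b, by
      rintro _ ⟨z, hz, rfl⟩
      exact (hf z hz.2 (by simpa using hz.1)).2⟩
  set p := Function.update f 0 (limUnder (𝓝[≠] 0) f) with hp
  have hpf : ∀ z, z ≠ 0 → p z = f z := fun z hz => Function.update_of_ne hz _ _
  have hd' : ∀ z, ‖z‖ < R → DifferentiableAt ℂ p z := fun z hz =>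
    hd.differentiableAt (isOpen_ball.mem_nhds (by simpa using hz))
  refine ⟨p, fun z hz => ⟨hd' z hz, ?_⟩, hpf⟩
  by_cases h0 : z = 0
  · subst h0
    have hc : Tendsto (fun z => ‖p z‖) (𝓝[≠] 0) (𝓝 ‖p 0‖) :=
      (hd' 0 hz).continuousAt.norm.tendsto.mono_left nhdsWithin_le_nhds
    refine le_of_tendsto hc ?_
    filter_upwards [self_mem_nhdsWithin, mem_nhdsWithin_of_mem_nhds (ball_mem_nhds (0 : ℂ) hR)]
      with w hw hw'
    rw [hpf w hw]
    exact (hf w hw (by simpa using hw')).2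
  · rw [hpf z h0]
    exact (hf z h0 hz).2

theorem Stay_polar {lam x₁ : ℝ} (hlam : 0 < lam) {z : ℂ} (hz : z ≠ 0)
    (h : ‖z‖ ≤ lam * Real.exp x₁) :
    ∃ (x : ℝ) (η : ℂ), x ≤ x₁ ∧ ‖η‖ = lam ∧ ‖z‖ = lam * Real.exp x ∧ z = Complex.exp x * η := by
  have hz' : 0 < ‖z‖ / lam := div_pos (norm_pos_iff.2 hz) hlam
  have hx : Real.exp (Real.log (‖z‖ / lam)) = ‖z‖ / lam := Real.exp_log hz'
  refine ⟨Real.log (‖z‖ / lam), z / Complex.exp (Real.log (‖z‖ / lam)), ?_, ?_, ?_, ?_⟩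
  · rw [← Real.exp_le_exp, hx, div_le_iff₀ hlam, mul_comm]
    exact h
  · rw [norm_div, Complex.norm_exp_ofReal, hx]
    have := (norm_pos_iff.2 hz).ne'
    field_simp
  · rw [hx]
    field_simp
  · rw [mul_div_cancel₀ _ (Complex.exp_ne_zero _)]

variable {E A B : Type} [NormedAddCommGroup E] [NormedSpace ℂ E] [FiniteDimensional ℂ E]
  [NormedAddCommGroup A] [NormedSpace ℂ A] [FiniteDimensional ℂ A]
  [NormedAddCommGroup B] [NormedSpace ℂ B] [FiniteDimensional ℂ B]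
  {X : Type} [TopologicalSpace X] [ChartedSpace E X] [IsManifold 𝓘(ℂ, E) ω X] [T2Space X]
  {P : X → E →L[ℂ] E} {g : X → E →L[ℝ] E →L[ℝ] ℝ} {c C : ℝ}

theorem Stay_esc (hK : KData g) (hc : 0 < c) {e : OpenPartialHomeomorph X (A × B)} (he : IsPC P e)
    (hcmp : Cmp g c C e) {lam : ℝ} (hlam : 1 ≤ lam) {φ : ℂ × ℂ → X} {γ : ℝ → ℂ × ℂ} {s : ℝ → ℂ}
    {v : ℂ × ℂ} (hv : v = (1, 0) ∨ v = (0, 1))
    (hγ : ∀ t ∈ Icc (0 : ℝ) 1, HasDerivAt γ (s t • v) t ∧ ‖s t‖ ≤ 4 * lam ∧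
      HolAt (ℂ × ℂ) E φ (lg (γ t)) ∧ en g (φ ∘ lg) (γ t) ≤ c * (1 / (256 * lam)) ^ 2)
    (h0 : φ (lg (γ 0)) ∈ e.source) (h1 : ‖e (φ (lg (γ 0)))‖ ≤ 1 / 2) :
    φ (lg (γ 1)) ∈ e.source ∧ ‖e (φ (lg (γ 1))) - e (φ (lg (γ 0)))‖ ≤ 1 / 64 := by
  have h := escape he hcmp hc (Φ := φ ∘ lg) (γ := γ) (γ' := fun t => s t • v) (a := 0) (b := 1)
    (L := 1 / 64) (by norm_num) (fun t ht => ?_) h0 (by
      show ‖e (φ (lg (γ 0)))‖ + _ < _
      linarith) 1 ⟨zero_le_one, le_rfl⟩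
  · simpa using h
  obtain ⟨h2, h3, h4, h5⟩ := hγ t ht
  have hlg : HolAt (ℂ × ℂ) (ℂ × ℂ) lg (γ t) := by
    refine holAt_self.2 ?_
    unfold lg
    fun_prop
  refine ⟨h2, MDifferentiableAt.comp (γ t) h4 hlg, ?_⟩
  have h6 : pb g (φ ∘ lg) (γ t) (s t • v) (s t • v) = ‖s t‖ ^ 2 * pb g (φ ∘ lg) (γ t) v v := by
    unfold pb
    rw [map_smul, hK.smul_self]
  have h7 : ∀ w, 0 ≤ pb g (φ ∘ lg) (γ t) w w := fun w => hK.nonneg _ _
  have h8 : pb g (φ ∘ lg) (γ t) v v ≤ c * (1 / (256 * lam)) ^ 2 := by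
    refine le_trans ?_ h5
    unfold en
    rcases hv with rfl | rfl
    · linarith [h7 (0, 1)]
    · linarith [h7 (1, 0)]
  rw [h6]
  calc ‖s t‖ ^ 2 * pb g (φ ∘ lg) (γ t) v v ≤ (4 * lam) ^ 2 * (c * (1 / (256 * lam)) ^ 2) :=
        mul_le_mul (pow_le_pow_left₀ (norm_nonneg _) h3 2) h8 (h7 v) (by positivity)
    _ = c * (1 / 64) ^ 2 := by
        have : lam ≠ 0 := by linarith
        field_simp
        ring

theorem Stay_loc {e : OpenPartialHomeomorph X (A × B)} (he : IsPC P e) {φ : ℂ × ℂ → X}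
    {G : Set (ℂ × ℂ)} (hG : IsOpen G) (hφ : BifOn P φ G) {p : ℂ × ℂ} (hp : p ∈ G)
    (hs : φ p ∈ e.source) :
    DifferentiableAt ℂ (fun q => e (φ q)) p ∧
      ∀ᶠ q in 𝓝 p, e (φ q) = ((e (φ (q.1, p.2))).1, (e (φ (p.1, q.2))).2) := by
  have hd : DifferentiableAt ℂ (fun q => e (φ q)) p :=
    holAt_self.1 (MDifferentiableAt.comp p (he.hol _ hs) (hφ p hp).1)
  refine ⟨hd, ?_⟩
  have h1 := he.local_prod (eventually_of_mem (hG.mem_nhds hp) hφ) hs
  have hc : ContinuousAt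
      (fun q : ℂ × ℂ => ((e (φ (q.1, p.2))).1, (e (φ (p.1, q.2))).2)) p :=
    (ContinuousAt.comp (f := fun q : ℂ × ℂ => (q.1, p.2)) (x := p) hd.continuousAt
      (by fun_prop)).fst.prodMk
      (ContinuousAt.comp (f := fun q : ℂ × ℂ => (p.1, q.2)) (x := p) hd.continuousAt
        (by fun_prop)).snd
  filter_upwards [h1, hc.eventually (e.open_target.mem_nhds (e.map_source hs))] with q h2 h3
  rw [h2, e.right_inv h3]

theorem Stay_loc1 {e : OpenPartialHomeomorph X (A × B)} (he : IsPC P e) {φ : ℂ × ℂ → X}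
    {G : Set (ℂ × ℂ)} (hG : IsOpen G) (hφ : BifOn P φ G) {h : ℂ → ℂ} {z : ℂ}
    (hh : ContinuousAt h z) (hp : (z, h z) ∈ G) (hs : φ (z, h z) ∈ e.source) :
    ((fun w => (e (φ (w, h w))).1) =ᶠ[𝓝 z] fun w => (e (φ (w, h z))).1) ∧
      DifferentiableAt ℂ (fun w => (e (φ (w, h w))).1) z := by
  obtain ⟨hd, h1⟩ := Stay_loc he hG hφ hp hs
  have h2 : (fun w => (e (φ (w, h w))).1) =ᶠ[𝓝 z] fun w => (e (φ (w, h z))).1 := by
    filter_upwards [(continuousAt_id.prodMk hh).eventually h1] with w hw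
    exact (congrArg Prod.fst hw :)
  refine ⟨h2, DifferentiableAt.congr_of_eventuallyEq ?_ h2⟩
  exact (DifferentiableAt.comp (f := fun w : ℂ => (w, h z)) z hd (by fun_prop)).fst

theorem Stay_loc2 {e : OpenPartialHomeomorph X (A × B)} (he : IsPC P e) {φ : ℂ × ℂ → X}
    {G : Set (ℂ × ℂ)} (hG : IsOpen G) (hφ : BifOn P φ G) {h : ℂ → ℂ} {z : ℂ}
    (hh : ContinuousAt h z) (hp : (h z, z) ∈ G) (hs : φ (h z, z) ∈ e.source) :
    ((fun w => (e (φ (h w, w))).2) =ᶠ[𝓝 z] fun w => (e (φ (h z, w))).2) ∧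
      DifferentiableAt ℂ (fun w => (e (φ (h w, w))).2) z := by
  obtain ⟨hd, h1⟩ := Stay_loc he hG hφ hp hs
  have h2 : (fun w => (e (φ (h w, w))).2) =ᶠ[𝓝 z] fun w => (e (φ (h z, w))).2 := by
    filter_upwards [(hh.prodMk continuousAt_id).eventually h1] with w hw
    exact (congrArg Prod.snd hw :)
  refine ⟨h2, DifferentiableAt.congr_of_eventuallyEq ?_ h2⟩
  exact (DifferentiableAt.comp (f := fun w : ℂ => (h z, w)) z hd (by fun_prop)).snd

theorem stay (hK : KData g) (hU : UC A B P g c C) (hc : 0 < c) {ε δ lam x₁ : ℝ} (hε : 0 ≤ ε)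
    (hlam : 1 ≤ lam) {φ : ℂ × ℂ → X} (hφ : BifOn P φ (cone ε δ))
    (hin : ∀ x : ℝ, x ≤ x₁ → ∀ η : ℂ, (‖η‖ = lam ∨ ‖1 - η‖ = lam) →
      lg (x, η) ∈ cone ε δ ∧ en g (φ ∘ lg) (x, η) ≤ c * (1 / (256 * lam)) ^ 2) :
    ∃ r, 0 < r ∧ r ≤ δ ∧ ∃ e : OpenPartialHomeomorph X (A × B), IsPC P e ∧
      MapsTo φ (cone ε r) e.source := by
  have : CompleteSpace A := FiniteDimensional.complete ℂ A
  have : CompleteSpace B := FiniteDimensional.complete ℂ B
  have hlam0 : 0 < lam := by linarith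
  obtain ⟨η₀, hη₀, hη₀'⟩ := Stay_eta hlam
  obtain ⟨e, he, hcmp, hs₀, hm₀⟩ := hU (φ (lg (x₁, η₀)))
  -- movement along the real direction
  have hline : ∀ x' x : ℝ, x' ≤ x₁ → x ≤ x₁ → |x - x'| ≤ 1 → φ (lg (x', η₀)) ∈ e.source →
      ‖e (φ (lg (x', η₀)))‖ ≤ 1 / 2 →
      φ (lg (x, η₀)) ∈ e.source ∧ ‖e (φ (lg (x, η₀))) - e (φ (lg (x', η₀)))‖ ≤ 1 / 64 := by
    intro x' x hx' hx hd hs hn
    have h := Stay_esc hK hc he hcmp hlam (φ := φ)
      (γ := fun t : ℝ => (((x' + t * (x - x') : ℝ) : ℂ), η₀)) (s := fun _ => ((x - x' : ℝ) : ℂ))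
      (v := (1, 0)) (Or.inl rfl) (fun t ht => ?_) (by simpa using hs) (by simpa using hn)
    · simpa using h
    have hle : x' + t * (x - x') ≤ x₁ := by nlinarith [ht.1, ht.2]
    obtain ⟨h1, h2⟩ := hin _ hle η₀ (Or.inl hη₀)
    refine ⟨?_, ?_, (hφ _ h1).1, h2⟩
    · have h3 : HasDerivAt (fun t : ℝ => x' + t * (x - x')) (x - x') t := by
        simpa using ((hasDerivAt_id t).mul_const (x - x')).const_add x'
      simpa using h3.ofReal_comp.prodMk (hasDerivAt_const t η₀)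
    · rw [Complex.norm_real, Real.norm_eq_abs]
      linarith
  -- movement along the circles
  have hcirc : ∀ x : ℝ, x ≤ x₁ → φ (lg (x, η₀)) ∈ e.source → ‖e (φ (lg (x, η₀)))‖ ≤ 1 / 2 →
      ∀ η : ℂ, (‖η‖ = lam ∨ ‖1 - η‖ = lam) →
      φ (lg (x, η)) ∈ e.source ∧ ‖e (φ (lg (x, η))) - e (φ (lg (x, η₀)))‖ ≤ 1 / 64 := by
    intro x hx hs hn η hη
    obtain ⟨a, ha₀, ha, hcl⟩ : ∃ a : ℂ, ‖η₀ - a‖ = lam ∧ ‖η - a‖ = lam ∧
        ∀ ζ : ℂ, ‖ζ - a‖ = lam → (‖ζ‖ = lam ∨ ‖1 - ζ‖ = lam) := by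
      rcases hη with hη | hη
      · exact ⟨0, by simpa using hη₀, by simpa using hη, fun ζ hζ => Or.inl (by simpa using hζ)⟩
      · exact ⟨1, by rwa [norm_sub_rev], by rwa [norm_sub_rev],
          fun ζ hζ => Or.inr (by rwa [norm_sub_rev])⟩
    have hne : η₀ - a ≠ 0 := by
      rw [← norm_ne_zero_iff, ha₀]
      exact hlam0.ne'
    obtain ⟨θ, hθ, hθe⟩ : ∃ θ : ℝ, |θ| ≤ 4 ∧ a + (η₀ - a) * Complex.exp (θ * Complex.I) = η := by
      refine ⟨Complex.arg ((η - a) / (η₀ - a)),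
        (Complex.abs_arg_le_pi _).trans Real.pi_le_four, ?_⟩
      have h1 := Complex.norm_mul_exp_arg_mul_I ((η - a) / (η₀ - a))
      rw [norm_div, ha, ha₀, div_self hlam0.ne', Complex.ofReal_one, one_mul] at h1
      rw [h1, mul_div_cancel₀ _ hne, add_sub_cancel]
    have h := Stay_esc hK hc he hcmp hlam (φ := φ)
      (γ := fun t : ℝ => ((x : ℂ), a + (η₀ - a) * Complex.exp (((t * θ : ℝ) : ℂ) * Complex.I)))
      (s := fun t => (η₀ - a) * (Complex.exp (((t * θ : ℝ) : ℂ) * Complex.I) * (θ * Complex.I)))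
      (v := (0, 1)) (Or.inr rfl) (fun t ht => ?_) (by simpa using hs) (by simpa using hn)
    · simpa [hθe] using h
    obtain ⟨h1, h2⟩ := hin _ hx (a + (η₀ - a) * Complex.exp (((t * θ : ℝ) : ℂ) * Complex.I))
      (hcl _ (by rw [add_sub_cancel_left, norm_mul, Complex.norm_exp_ofReal_mul_I, mul_one, ha₀]))
    refine ⟨?_, ?_, (hφ _ h1).1, h2⟩
    · have h3 : HasDerivAt (fun t : ℝ => t * θ) θ t := by
        simpa using (hasDerivAt_id t).mul_const θ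
      have h4 := (((h3.ofReal_comp.mul_const Complex.I).cexp).const_mul (η₀ - a)).const_add a
      simpa using (hasDerivAt_const t (x : ℂ)).prodMk h4
    · rw [norm_mul, norm_mul, norm_mul, Complex.norm_exp_ofReal_mul_I, ha₀, Complex.norm_real,
        Real.norm_eq_abs, Complex.norm_I]
      nlinarith
  -- the two one-variable functions
  let k : ℂ → ℂ := fun z => ((‖z‖ / lam : ℝ) : ℂ) - z
  have hk : Continuous k := by fun_prop
  let f₁ : ℂ → A := fun z => (e (φ (z, k z))).1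
  let f₂ : ℂ → B := fun w => (e (φ (k w, w))).2
  have hkx : ∀ (x : ℝ) (η : ℂ), ‖η‖ = lam →
      k (Complex.exp x * η) = Complex.exp x * (1 - η) := by
    intro x η hη
    simp only [k]
    rw [norm_mul, Complex.norm_exp_ofReal, hη, mul_div_cancel_right₀ _ hlam0.ne',
      Complex.ofReal_exp]
    ring
  have hlg1 : ∀ (x : ℝ) (η : ℂ), ‖η‖ = lam →
      (Complex.exp x * η, k (Complex.exp x * η)) = lg (x, η) := by
    intro x η hη
    rw [hkx x η hη]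
    rfl
  have hlg2 : ∀ (x : ℝ) (η : ℂ), ‖η‖ = lam →
      (k (Complex.exp x * η), Complex.exp x * η) = lg (x, 1 - η) := by
    intro x η hη
    rw [hkx x η hη]
    simp [lg]
  have hsub : ∀ η : ℂ, ‖η‖ = lam → ‖1 - (1 - η)‖ = lam := fun η hη => by simpa using hη
  -- consequences of a bound at the base points
  have hcons : ∀ x : ℝ, x ≤ x₁ → φ (lg (x, η₀)) ∈ e.source → ‖e (φ (lg (x, η₀)))‖ ≤ 1 / 2 →
      ∀ η : ℂ, ‖η‖ = lam →
      (DifferentiableAt ℂ f₁ (Complex.exp x * η) ∧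
        ‖f₁ (Complex.exp x * η) - (e (φ (lg (x, η₀)))).1‖ ≤ 1 / 64) ∧
      (DifferentiableAt ℂ f₂ (Complex.exp x * η) ∧
        ‖f₂ (Complex.exp x * η) - (e (φ (lg (x, η₀)))).2‖ ≤ 1 / 64) := by
    intro x hx hs hn η hη
    obtain ⟨h1, h2⟩ := hcirc x hx hs hn η (Or.inl hη)
    obtain ⟨h3, h4⟩ := hcirc x hx hs hn (1 - η) (Or.inr (hsub η hη))
    have h5 := (hin x hx η (Or.inl hη)).1
    have h6 := (hin x hx (1 - η) (Or.inr (hsub η hη))).1
    rw [← hlg1 x η hη] at h1 h2 h5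
    rw [← hlg2 x η hη] at h3 h4 h6
    exact ⟨⟨(Stay_loc1 he (isOpen_cone ε δ) hφ hk.continuousAt h5 h1).2,
        (norm_fst_le _).trans h2⟩,
      (Stay_loc2 he (isOpen_cone ε δ) hφ hk.continuousAt h6 h3).2, (norm_snd_le _).trans h4⟩
  have hbd : ∀ {u : A × B} {o : ℝ}, ‖u - e (φ (lg (x₁, η₀)))‖ ≤ o → ‖u‖ ≤ 1 / 4 + o := by
    intro u o hu
    have := norm_le_norm_add_norm_sub' u (e (φ (lg (x₁, η₀))))
    linarith
  have hind : ∀ j : ℕ, ∀ x : ℝ, x₁ - j ≤ x → x ≤ x₁ → φ (lg (x, η₀)) ∈ e.source ∧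
      ‖e (φ (lg (x, η₀))) - e (φ (lg (x₁, η₀)))‖ ≤ 2 * (1 / 64) := by
    intro j
    induction j with
    | zero =>
      intro x h1 h2
      have : x = x₁ := le_antisymm h2 (by simpa using h1)
      subst this
      exact ⟨hs₀, by simp⟩
    | succ j ih =>
      have hj : (0 : ℝ) ≤ j := Nat.cast_nonneg j
      have hA : ∀ x : ℝ, x₁ - (j + 1 : ℕ) ≤ x → x ≤ x₁ → φ (lg (x, η₀)) ∈ e.source ∧
          ‖e (φ (lg (x, η₀)))‖ ≤ 1 / 2 := by
        intro x h1 h2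
        push_cast at h1
        by_cases h3 : x₁ - j ≤ x
        · obtain ⟨h4, h5⟩ := ih x h3 h2
          exact ⟨h4, by linarith [hbd h5]⟩
        · obtain ⟨h4, h5⟩ := ih (x₁ - j) le_rfl (by linarith)
          obtain ⟨h6, h7⟩ := hline (x₁ - j) x (by linarith) h2
            (abs_le.2 ⟨by linarith, by linarith⟩) h4 (by linarith [hbd h5])
          refine ⟨h6, ?_⟩
          have h8 := norm_le_norm_add_norm_sub' (e (φ (lg (x, η₀))))
            (e (φ (lg (((x₁ - j : ℝ) : ℂ), η₀))))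
          linarith [hbd h5]
      intro x h1 h2
      refine ⟨(hA x h1 h2).1, ?_⟩
      have hr : 0 < lam * Real.exp x := by positivity
      have hrR : lam * Real.exp x ≤ lam * Real.exp x₁ :=
        mul_le_mul_of_nonneg_left (Real.exp_le_exp.2 h2) hlam0.le
      have hpol : ∀ z : ℂ, lam * Real.exp x ≤ ‖z‖ → ‖z‖ ≤ lam * Real.exp x₁ →
          ∃ (y : ℝ) (η : ℂ), x ≤ y ∧ y ≤ x₁ ∧ ‖η‖ = lam ∧ ‖z‖ = lam * Real.exp y ∧
            z = Complex.exp y * η := by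
        intro z hz hz'
        obtain ⟨y, η, h3, h4, h5, h6⟩ := Stay_polar hlam0 (norm_pos_iff.1 (hr.trans_le hz)) hz'
        refine ⟨y, η, ?_, h3, h4, h5, h6⟩
        rw [h5] at hz
        exact Real.exp_le_exp.1 (le_of_mul_le_mul_left hz hlam0)
      have hsph : ∀ y : ℝ, x ≤ y → y ≤ x₁ → ∀ z : ℂ, ‖z‖ = lam * Real.exp y →
          ‖f₁ z - (e (φ (lg (y, η₀)))).1‖ ≤ 1 / 64 ∧ ‖f₂ z - (e (φ (lg (y, η₀)))).2‖ ≤ 1 / 64 := by
        intro y h3 h4 z hz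
        have hz0 : z ≠ 0 := by
          rw [← norm_pos_iff, hz]
          positivity
        obtain ⟨y', η, -, h5, h6, h7⟩ := Stay_polar hlam0 hz0 hz.le
        have h8 : y' = y := Real.exp_injective (mul_left_cancel₀ hlam0.ne' (h6.symm.trans hz))
        subst h8
        have h9 := hcons y' h4 (hA y' (h1.trans h3) h4).1 (hA y' (h1.trans h3) h4).2 η h5
        rw [← h7] at h9
        exact ⟨h9.1.2, h9.2.2⟩
      have hdiff : ∀ z : ℂ, lam * Real.exp x ≤ ‖z‖ → ‖z‖ ≤ lam * Real.exp x₁ →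
          DifferentiableAt ℂ f₁ z ∧ DifferentiableAt ℂ f₂ z := by
        intro z hz hz'
        obtain ⟨y, η, h3, h4, h5, -, h7⟩ := hpol z hz hz'
        have h9 := hcons y h4 (hA y (h1.trans h3) h4).1 (hA y (h1.trans h3) h4).2 η h5
        rw [← h7] at h9
        exact ⟨h9.1.1, h9.2.1⟩
      rw [Prod.norm_def]
      exact max_le
        (Stay_avg hr hrR (fun z hz hz' => (hdiff z hz hz').1)
          (fun z hz => (hsph x le_rfl h2 z hz).1) (fun z hz => (hsph x₁ h2 le_rfl z hz).1))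
        (Stay_avg hr hrR (fun z hz hz' => (hdiff z hz hz').2)
          (fun z hz => (hsph x le_rfl h2 z hz).2) (fun z hz => (hsph x₁ h2 le_rfl z hz).2))
  have hall : ∀ x : ℝ, x ≤ x₁ → φ (lg (x, η₀)) ∈ e.source ∧
      ‖e (φ (lg (x, η₀)))‖ ≤ 1 / 4 + 2 * (1 / 64) := by
    intro x hx
    obtain ⟨j, hj⟩ := exists_nat_ge (x₁ - x)
    obtain ⟨h1, h2⟩ := hind j x (by linarith) hx
    exact ⟨h1, hbd h2⟩
  have hR : 0 < lam * Real.exp x₁ := by positivity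
  have hpunct : ∀ z : ℂ, z ≠ 0 → ‖z‖ < lam * Real.exp x₁ →
      (DifferentiableAt ℂ f₁ z ∧ ‖f₁ z‖ ≤ 1 / 2) ∧ (DifferentiableAt ℂ f₂ z ∧ ‖f₂ z‖ ≤ 1 / 2) := by
    intro z hz hz'
    obtain ⟨y, η, h3, h4, -, h6⟩ := Stay_polar hlam0 hz hz'.le
    obtain ⟨h7, h8⟩ := hall y h3
    have h9 := hcons y h3 h7 (by linarith) η h4
    rw [← h6] at h9
    have a1 := norm_le_norm_add_norm_sub' (f₁ z) (e (φ (lg (y, η₀)))).1
    have a2 := norm_le_norm_add_norm_sub' (f₂ z) (e (φ (lg (y, η₀)))).2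
    have a3 := norm_fst_le (e (φ (lg (y, η₀))))
    have a4 := norm_snd_le (e (φ (lg (y, η₀))))
    exact ⟨⟨h9.1.1, by linarith [h9.1.2]⟩, h9.2.1, by linarith [h9.2.2]⟩
  obtain ⟨p₁, hp₁, hpf₁⟩ := Stay_remov hR fun z hz hz' => (hpunct z hz hz').1
  obtain ⟨p₂, hp₂, hpf₂⟩ := Stay_remov hR fun z hz hz' => (hpunct z hz hz').2
  have hx₂ : x₁ - 1 ≤ x₁ := by linarith
  have hq := (hin (x₁ - 1) hx₂ η₀ (Or.inl hη₀)).1
  have hqs := (hall (x₁ - 1) hx₂).1
  set z₁ : ℂ := Complex.exp ((x₁ - 1 : ℝ) : ℂ) * η₀ with hz₁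
  set z₂ : ℂ := Complex.exp ((x₁ - 1 : ℝ) : ℂ) * (1 - η₀) with hz₂
  have hlg : lg (((x₁ - 1 : ℝ) : ℂ), η₀) = (z₁, z₂) := rfl
  have hk₁ : k z₁ = z₂ := hkx _ _ hη₀
  have hk₂ : k z₂ = z₁ := by
    rw [hz₂, hkx _ _ hη₀', sub_sub_cancel]
  rw [hlg] at hq hqs
  have hlt : Real.exp (x₁ - 1) * lam < lam * Real.exp x₁ := by
    rw [mul_comm]
    exact mul_lt_mul_of_pos_left (Real.exp_lt_exp.2 (by linarith)) hlam0
  have hn₁ : ‖z₁‖ = Real.exp (x₁ - 1) * lam := by rw [hz₁, norm_mul, Complex.norm_exp_ofReal, hη₀]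
  have hn₂ : ‖z₂‖ = Real.exp (x₁ - 1) * lam := by rw [hz₂, norm_mul, Complex.norm_exp_ofReal, hη₀']
  have hpos : 0 < Real.exp (x₁ - 1) * lam := by positivity
  have hδ : 0 < δ := (norm_nonneg _).trans_lt hq.2.1
  have hsubc : cone ε (min (lam * Real.exp x₁) δ) ⊆ cone ε δ := fun y hy =>
    ⟨hy.1, hy.2.1.trans_le (min_le_right _ _), hy.2.2.trans_le (min_le_right _ _)⟩
  have htgt : ∀ y ∈ cone ε (min (lam * Real.exp x₁) δ), (p₁ y.1, p₂ y.2) ∈ e.target := by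
    intro y hy
    refine he.mem_target.2 ⟨?_, ?_⟩
    · exact (hp₁ _ (hy.2.1.trans_le (min_le_left _ _))).2.trans_lt (by norm_num)
    · exact (hp₂ _ (hy.2.2.trans_le (min_le_left _ _))).2.trans_lt (by norm_num)
  have heq : EqOn φ (fun y => e.symm (p₁ y.1, p₂ y.2)) (cone ε (min (lam * Real.exp x₁) δ)) := by
    refine hol_eqOn (F := ℂ × ℂ) (E := E) (isOpen_cone _ _) (convex_cone hε _).isPreconnected
      (fun y hy => (hφ y (hsubc hy)).1) (fun y hy => ?_) (y := (z₁, z₂))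
      ⟨hq.1, lt_min (hn₁ ▸ hlt) hq.2.1, lt_min (hn₂ ▸ hlt) hq.2.2⟩ ?_
    · have hd : DifferentiableAt ℂ (fun y : ℂ × ℂ => (p₁ y.1, p₂ y.2)) y :=
        ((hp₁ _ (hy.2.1.trans_le (min_le_left _ _))).1.comp y differentiableAt_fst).prodMk
          ((hp₂ _ (hy.2.2.trans_le (min_le_left _ _))).1.comp y differentiableAt_snd)
      exact MDifferentiableAt.comp y (he.hol_symm _ (htgt y hy)) (holAt_self.2 hd)
    · have h1 := he.local_prod (eventually_of_mem ((isOpen_cone ε δ).mem_nhds hq) hφ) hqs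
      have h2 := (Stay_loc1 he (isOpen_cone ε δ) hφ (z := z₁) hk.continuousAt (hk₁ ▸ hq)
        (hk₁ ▸ hqs)).1
      have h3 := (Stay_loc2 he (isOpen_cone ε δ) hφ (z := z₂) hk.continuousAt (hk₂ ▸ hq)
        (hk₂ ▸ hqs)).1
      rw [hk₁] at h2
      rw [hk₂] at h3
      have h4 : ∀ᶠ z in 𝓝 z₁, z ≠ 0 := eventually_ne_nhds (norm_pos_iff.1 (hn₁ ▸ hpos))
      have h5 : ∀ᶠ z in 𝓝 z₂, z ≠ 0 := eventually_ne_nhds (norm_pos_iff.1 (hn₂ ▸ hpos))
      have t1 : Tendsto (Prod.fst : ℂ × ℂ → ℂ) (𝓝 (z₁, z₂)) (𝓝 z₁) := continuous_fst.tendsto _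
      have t2 : Tendsto (Prod.snd : ℂ × ℂ → ℂ) (𝓝 (z₁, z₂)) (𝓝 z₂) := continuous_snd.tendsto _
      filter_upwards [h1, t1.eventually h2, t2.eventually h3, t1.eventually h4, t2.eventually h5]
        with y a1 a2 a3 a4 a5
      rw [a1, hpf₁ _ a4, hpf₂ _ a5]
      exact congrArg e.symm (Prod.ext a2.symm a3.symm)
  refine ⟨min (lam * Real.exp x₁) δ, lt_min hR hδ, min_le_right _ _, e, he, fun y hy => ?_⟩
  rw [heq hy]
  exact e.map_target (htgt y hy)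

end Crest.Agent.R266
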