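import Crest.Agent.R266.Energy
import Crest.Agent.R266.EpsReg
import Crest.Agent.R266.Stay

/-! Row 266: the local lemma.

`K = C / c`, `lam = 4 √K + 2`, `Λ = lam + 3`, `ε = 1 / (2 (2Λ + 1))`, `x₀ = log (δ / (Λ + 1))`.
`lg` maps `strip x₀ Λ` into `cone ε δ` (`cos θ > 1/2` for `|θ| < 1`).  For `Φ = φ ∘ lg`:
`dΦ (1, -η) = dφ (0, eᵗ) =: v`, `dΦ (0, 1) = dφ (eᵗ, 0) - v =: u - v` with `P u = u`, `P v = 0`, so in
the uniform chart at `Φ y`, `‖de v‖ ≤ ‖de (u - v)‖` (sup norm) and `g v v ≤ K g (u - v) (u - v)`.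
Also `en ≤ (1 + 2K + 2Λ²) pb (0,1) (0,1)` on the strip.  By `energy_finite` the integral over the
part `Re t < x` of the region tends to `0` as `x → -∞`; the balls of radius `1/2` around the points
`(x, η)` of `stay` lie in the region; `eps_reg` with `β = 1/2`. -/

set_option autoImplicit false
set_option linter.unusedSectionVars false

open Set Filter Topology Metric MeasureTheory
open scoped Manifold ContDiff

noncomputable section
namespace Crest.Agent.R266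

variable {E A B : Type} [NormedAddCommGroup E] [NormedSpace ℂ E] [FiniteDimensional ℂ E]
  [NormedAddCommGroup A] [NormedSpace ℂ A] [FiniteDimensional ℂ A]
  [NormedAddCommGroup B] [NormedSpace ℂ B] [FiniteDimensional ℂ B]
  {X : Type} [TopologicalSpace X] [ChartedSpace E X] [IsManifold 𝓘(ℂ, E) ω X] [T2Space X]
  {P : X → E →L[ℂ] E} {g : X → E →L[ℝ] E →L[ℝ] ℝ} {c C : ℝ}

theorem L5_mem {Λ δ : ℝ} (hΛ : 0 < Λ) (hδ : 0 < δ) {y : ℂ × ℂ}
    (hy : y ∈ strip (Real.log (δ / (Λ + 1))) Λ) : lg y ∈ cone (1 / (2 * (2 * Λ + 1))) δ := by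
  obtain ⟨h1, h2, h3⟩ := hy
  have hr : 0 < Real.exp y.1.re := Real.exp_pos _
  have hrδ : Real.exp y.1.re * (Λ + 1) < δ := by
    have := Real.exp_lt_exp.2 h1
    rw [Real.exp_log (by positivity)] at this
    rwa [lt_div_iff₀ (by positivity)] at this
  have hn1 : ‖(lg y).1‖ = Real.exp y.1.re * ‖y.2‖ := by
    simp only [lg, norm_mul, Complex.norm_exp]
  have hn2 : ‖(lg y).2‖ = Real.exp y.1.re * ‖1 - y.2‖ := by
    simp only [lg, norm_mul, Complex.norm_exp]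
  have h4 : ‖1 - y.2‖ ≤ 1 + ‖y.2‖ := by simpa using norm_sub_le (1 : ℂ) y.2
  have hs : ((lg y).1 + (lg y).2).re = Real.exp y.1.re * Real.cos y.1.im := by
    have : (lg y).1 + (lg y).2 = Complex.exp y.1 := by simp only [lg]; ring
    rw [this, Complex.exp_re]
  have hcos : 1 / 2 < Real.cos y.1.im := by
    have h5 := Real.one_sub_sq_div_two_le_cos (x := y.1.im)
    have h6 : y.1.im ^ 2 < 1 := by
      have := abs_lt.1 h2
      nlinarith [this.1, this.2]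
    linarith
  refine ⟨?_, ?_, ?_⟩
  · rw [hn1, hn2, hs]
    have h7 : Real.exp y.1.re * ‖y.2‖ + Real.exp y.1.re * ‖1 - y.2‖ ≤
        Real.exp y.1.re * (2 * Λ + 1) := by nlinarith
    have h8 : 1 / (2 * (2 * Λ + 1)) * (Real.exp y.1.re * (2 * Λ + 1)) = Real.exp y.1.re / 2 := by
      field_simp
    have h9 : 1 / (2 * (2 * Λ + 1)) * (Real.exp y.1.re * ‖y.2‖ + Real.exp y.1.re * ‖1 - y.2‖) ≤
        1 / (2 * (2 * Λ + 1)) * (Real.exp y.1.re * (2 * Λ + 1)) :=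
      mul_le_mul_of_nonneg_left h7 (by positivity)
    nlinarith
  · rw [hn1]; nlinarith
  · rw [hn2]; nlinarith

theorem L5_deriv (y : ℂ × ℂ) : DifferentiableAt ℂ lg y ∧
    fderiv ℂ lg y (1, -y.2) = (0, Complex.exp y.1) ∧
    fderiv ℂ lg y (0, 1) = (Complex.exp y.1, 0) - (0, Complex.exp y.1) := by
  have h1 : HasFDerivAt (fun q : ℂ × ℂ => Complex.exp q.1)
      (Complex.exp y.1 • ContinuousLinearMap.fst ℂ ℂ ℂ) y := hasFDerivAt_fst.cexp
  have h2 : HasFDerivAt (fun q : ℂ × ℂ => q.2) (ContinuousLinearMap.snd ℂ ℂ ℂ) y := hasFDerivAt_snd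
  have h3 := (h1.mul h2).prodMk (h1.mul (h2.const_sub 1))
  have h4 : HasFDerivAt lg _ y := h3
  refine ⟨h4.differentiableAt, ?_, ?_⟩
  · rw [h4.fderiv]
    ext
    · simp
      ring
    · simp
      ring
  · rw [h4.fderiv]
    ext <;> simp

theorem L5_dom (hU : UC A B P g c C) (hc : 0 < c) (hC : 0 < C) {x : X} {u v : E}
    (hu : P x u = u) (hv : P x v = 0) : g x v v ≤ C / c * g x (u - v) (u - v) := by
  obtain ⟨e, he, hcmp, hx, hn⟩ := hU x
  have h1 := (hcmp x hx (by linarith) v).2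
  have h2 := (hcmp x hx (by linarith) (u - v)).1
  have h3 := he.compat x hx u
  have h4 := he.compat x hx v
  rw [hu] at h3
  rw [hv, map_zero] at h4
  have h5 : (md E (A × B) e x v).1 = 0 := (congrArg Prod.fst h4).symm
  have h6 : (md E (A × B) e x u).2 = 0 := congrArg Prod.snd h3
  have h7 : ‖md E (A × B) e x v‖ ≤ ‖md E (A × B) e x (u - v)‖ := by
    rw [Prod.norm_def (md E (A × B) e x v), h5, norm_zero, max_eq_right (norm_nonneg _)]
    refine le_trans (le_of_eq ?_) (norm_snd_le _)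
    rw [map_sub, Prod.snd_sub, h6, zero_sub, norm_neg]
  have h8 : ‖md E (A × B) e x v‖ ^ 2 ≤ ‖md E (A × B) e x (u - v)‖ ^ 2 :=
    pow_le_pow_left₀ (norm_nonneg _) h7 2
  calc g x v v ≤ C * ‖md E (A × B) e x (u - v)‖ ^ 2 :=
        h1.trans (mul_le_mul_of_nonneg_left h8 hC.le)
    _ = C / c * (c * ‖md E (A × B) e x (u - v)‖ ^ 2) := by field_simp
    _ ≤ _ := mul_le_mul_of_nonneg_left h2 (by positivity)

theorem L5_en (hK : KData g) {Φ : ℂ × ℂ → X} {y : ℂ × ℂ} {K Λ : ℝ} (hy : ‖y.2‖ ≤ Λ)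
    (h : pb g Φ y (1, -y.2) (1, -y.2) ≤ K * pb g Φ y (0, 1) (0, 1)) :
    en g Φ y ≤ (1 + 2 * K + 2 * Λ ^ 2) * pb g Φ y (0, 1) (0, 1) := by
  have e1 : ((1, 0) : ℂ × ℂ) = (1, -y.2) + y.2 • ((0, 1) : ℂ × ℂ) := by ext <;> simp
  have h1 : pb g Φ y (1, 0) (1, 0) ≤ 2 * pb g Φ y (1, -y.2) (1, -y.2) +
      2 * (‖y.2‖ ^ 2 * pb g Φ y (0, 1) (0, 1)) := by
    unfold pb
    rw [e1, map_add, map_smul, ← hK.smul_self]
    exact hK.add_le _ _ _
  have h2 : 0 ≤ pb g Φ y (0, 1) (0, 1) := hK.nonneg _ _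
  have h3 : ‖y.2‖ ^ 2 ≤ Λ ^ 2 := pow_le_pow_left₀ (norm_nonneg _) hy 2
  have h4 := mul_le_mul_of_nonneg_right h3 h2
  unfold en
  nlinarith

theorem L5_small {f : ℂ × ℂ → ENNReal} {x₀ lam : ℝ}
    (h : ∫⁻ y in {y : ℂ × ℂ | y.1.re < x₀ ∧ |y.1.im| ≤ 1 / 2 ∧ lam - 3 / 2 ≤ ‖y.2‖ ∧
      ‖y.2‖ ≤ lam + 3 / 2}, f y < ⊤) {τ : ENNReal} (hτ : 0 < τ) :
    ∃ x ≤ x₀, ∫⁻ y in {y : ℂ × ℂ | y.1.re < x ∧ |y.1.im| ≤ 1 / 2 ∧ lam - 3 / 2 ≤ ‖y.2‖ ∧
      ‖y.2‖ ≤ lam + 3 / 2}, f y < τ := by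
  set R : ℕ → Set (ℂ × ℂ) := fun j => {y : ℂ × ℂ | y.1.re < x₀ - j ∧ |y.1.im| ≤ 1 / 2 ∧
    lam - 3 / 2 ≤ ‖y.2‖ ∧ ‖y.2‖ ≤ lam + 3 / 2} with hR
  have hm : ∀ j, MeasurableSet (R j) := fun j => by
    have m1 : Measurable fun y : ℂ × ℂ => y.1.re := by fun_prop
    have m2 : Measurable fun y : ℂ × ℂ => |y.1.im| := by fun_prop
    have m3 : Measurable fun y : ℂ × ℂ => ‖y.2‖ := by fun_prop
    exact (measurableSet_lt m1 measurable_const).inter
      ((measurableSet_le m2 measurable_const).inter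
      ((measurableSet_le measurable_const m3).inter (measurableSet_le m3 measurable_const)))
  have hanti : Antitone R := by
    intro i j hij y hy
    refine ⟨lt_of_lt_of_le hy.1 ?_, hy.2⟩
    have : (i : ℝ) ≤ j := by exact_mod_cast hij
    linarith
  have h0 : (volume.withDensity f) (R 0) ≠ ⊤ := by
    rw [withDensity_apply _ (hm 0)]
    simpa [hR] using h.ne
  have hT := tendsto_measure_iInter_atTop (μ := volume.withDensity f)
    (fun j => (hm j).nullMeasurableSet) hanti ⟨0, h0⟩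
  have hE : ⋂ j, R j = ∅ := by
    ext y
    simp only [mem_iInter, mem_empty_iff_false, iff_false, not_forall]
    obtain ⟨j, hj⟩ := exists_nat_ge (x₀ - y.1.re)
    exact ⟨j, fun hy => by have := hy.1; linarith⟩
  rw [hE, measure_empty] at hT
  obtain ⟨j, hj⟩ := (hT.eventually (gt_mem_nhds hτ)).exists
  refine ⟨x₀ - j, by linarith [(Nat.cast_nonneg j : (0 : ℝ) ≤ j)], ?_⟩
  have := hj
  simp only [Function.comp_apply] at this
  rwa [withDensity_apply _ (hm j)] at this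

theorem locP_of_uc (hK : KData g) (hU : UC A B P g c C) (hc : 0 < c) (hC : 0 < C) :
    LocP A B P := by
  set K : ℝ := C / c with hKdef
  have hK0 : 0 ≤ K := by positivity
  set lam : ℝ := 4 * Real.sqrt K + 2 with hlam
  have hlam2 : 2 ≤ lam := by have := Real.sqrt_nonneg K; linarith
  have hΛ : 0 < lam + 3 := by linarith
  refine ⟨1 / (2 * (2 * (lam + 3) + 1)), by positivity, ?_, ?_⟩
  · rw [div_lt_one (by positivity)]; linarith
  intro δ hδ φ hφ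
  set x₀ : ℝ := Real.log (δ / (lam + 3 + 1)) with hx₀
  have hhol : HolOn (ℂ × ℂ) E (φ ∘ lg) (strip x₀ (lam + 3)) := fun y hy =>
    MDifferentiableAt.comp y (hφ _ (L5_mem hΛ hδ hy)).1 (holAt_self.2 (L5_deriv y).1)
  have hdom : ∀ y ∈ strip x₀ (lam + 3), pb g (φ ∘ lg) y (1, -y.2) (1, -y.2) ≤
      K * pb g (φ ∘ lg) y (0, 1) (0, 1) := by
    intro y hy
    obtain ⟨h1, h2, h3⟩ := hφ _ (L5_mem hΛ hδ hy)
    obtain ⟨d1, d2, d3⟩ := L5_deriv y
    unfold pb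
    rw [md_comp_apply h1 (holAt_self.2 d1), md_comp_apply h1 (holAt_self.2 d1), md_self, d2, d3,
      map_sub]
    exact L5_dom hU hc hC (h2 _) (h3 _)
  have hfin := energy_finite hK hK0 le_rfl hhol hdom
  obtain ⟨ε₁, hε₁, hreg⟩ := eps_reg hK hU hc hC (β := 1 / 2) (η₀ := c * (1 / (256 * lam)) ^ 2)
    (by norm_num) (by positivity)
  set M : ℝ := 1 + 2 * K + 2 * (lam + 3) ^ 2 with hM
  have hM0 : 0 < M := by positivity
  obtain ⟨x₂, hx₂, hsm⟩ := L5_small hfin (τ := ENNReal.ofReal (ε₁ / M))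
    (ENNReal.ofReal_pos.2 (by positivity))
  refine stay hK hU hc (lam := lam) (x₁ := x₂ - 1 / 2) (by positivity) (by linarith) hφ ?_
  intro x hx η hη
  have hη' : lam - 1 ≤ ‖η‖ ∧ ‖η‖ ≤ lam + 1 := by
    rcases hη with h | h
    · constructor <;> linarith
    · have h1 : ‖1 - η‖ ≤ 1 + ‖η‖ := by simpa using norm_sub_le (1 : ℂ) η
      have h2 : ‖η‖ ≤ 1 + ‖1 - η‖ := by
        have := norm_sub_le (1 : ℂ) (1 - η)
        simpa using this
      constructor <;> linarith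
  have hsub : ball (((x : ℂ), η) : ℂ × ℂ) (1 / 2) ⊆ {y : ℂ × ℂ | y.1.re < x₂ ∧ |y.1.im| ≤ 1 / 2 ∧
      lam - 3 / 2 ≤ ‖y.2‖ ∧ ‖y.2‖ ≤ lam + 3 / 2} := by
    intro y hy
    rw [mem_ball, Prod.dist_eq, max_lt_iff, dist_eq_norm, dist_eq_norm] at hy
    obtain ⟨h1, h2⟩ := hy
    have h3 := (abs_lt.1 ((Complex.abs_re_le_norm (y.1 - x)).trans_lt h1)).2
    have h4 := (Complex.abs_im_le_norm (y.1 - x)).trans_lt h1
    simp only [Complex.sub_re, Complex.ofReal_re, Complex.sub_im, Complex.ofReal_im,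
      sub_zero] at h3 h4
    have h5 := abs_lt.1 ((abs_norm_sub_norm_le y.2 η).trans_lt h2)
    exact ⟨by linarith, h4.le, by linarith [h5.1], by linarith [h5.2]⟩
  have hstrip : {y : ℂ × ℂ | y.1.re < x₂ ∧ |y.1.im| ≤ 1 / 2 ∧
      lam - 3 / 2 ≤ ‖y.2‖ ∧ ‖y.2‖ ≤ lam + 3 / 2} ⊆ strip x₀ (lam + 3) := by
    intro y hy
    exact ⟨by linarith [hy.1], by linarith [hy.2.1], by linarith [hy.2.2.2]⟩
  refine ⟨L5_mem hΛ hδ (hstrip (hsub (mem_ball_self (by norm_num)))), hreg _ _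
    (fun y hy => hhol y (hstrip (hsub hy))) ?_⟩
  calc ∫⁻ z in ball (((x : ℂ), η) : ℂ × ℂ) (1 / 2), ENNReal.ofReal (en g (φ ∘ lg) z)
      ≤ ∫⁻ z in ball (((x : ℂ), η) : ℂ × ℂ) (1 / 2),
          ENNReal.ofReal M * ENNReal.ofReal (pb g (φ ∘ lg) z (0, 1) (0, 1)) := by
        refine setLIntegral_mono' measurableSet_ball fun z hz => ?_
        rw [← ENNReal.ofReal_mul hM0.le]
        have hz' := hstrip (hsub hz)
        exact ENNReal.ofReal_le_ofReal (L5_en hK hz'.2.2.le (hdom z hz'))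
    _ = ENNReal.ofReal M * ∫⁻ z in ball (((x : ℂ), η) : ℂ × ℂ) (1 / 2),
          ENNReal.ofReal (pb g (φ ∘ lg) z (0, 1) (0, 1)) :=
        lintegral_const_mul' _ _ ENNReal.ofReal_ne_top
    _ < ENNReal.ofReal M * ENNReal.ofReal (ε₁ / M) := by
        refine ENNReal.mul_lt_mul_right (ENNReal.ofReal_pos.2 hM0).ne' ENNReal.ofReal_ne_top ?_
        exact (lintegral_mono_set hsub).trans_lt hsm
    _ = ENNReal.ofReal ε₁ := by
        rw [← ENNReal.ofReal_mul hM0.le]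
        congr 1
        field_simp

end Crest.Agent.R266
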