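import Crest.Agent.R266.Bridge
import Crest.Agent.R266.Kahler
import Crest.Agent.R266.Local
import Crest.Agent.R266.Frob2

/-! Row 266: interface for the final assembly of S0405. -/

set_option autoImplicit false
set_option linter.unusedSectionVars false

open Set Filter Topology Metric
open scoped Manifold ContDiff

noncomputable section
namespace Crest.Agent.R266

open Crest.AlgGeometry.HolSplit

variable {n : ℕ} {X : Type} [TopologicalSpace X] [ChartedSpace (Model n) X]
  [IsManifold (mI n) ω X]

theorem isPF_proj (S : Splitting n X) :
    IsPF (E := Model n) (fun x => (S.proj x : Model n →L[ℂ] Model n)) :=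
  spP_isPF S

theorem nzero_iff_second (S : Splitting n X) : S.SecondIntegrable ↔
    ∀ x, Nzero (E := Model n) (fun x => (S.proj x : Model n →L[ℂ] Model n)) x :=
  second_iff S

theorem nzero_sw_iff_first (S : Splitting n X) : S.FirstIntegrable ↔
    ∀ x, Nzero (E := Model n) (sw (fun x => (S.proj x : Model n →L[ℂ] Model n))) x :=
  first_iff S

theorem locP_of_kahler [T2Space X] [CompactSpace X] (K : KahlerMetric n X) {A B : Type}
    [NormedAddCommGroup A] [NormedSpace ℂ A] [NormedAddCommGroup B] [NormedSpace ℂ B]
    [FiniteDimensional ℂ A] [FiniteDimensional ℂ B] {P : X → Model n →L[ℂ] Model n}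
    (hPC : HasPC A B P) : LocP A B P := by
  obtain ⟨c, C, hc, hC, hU⟩ := exists_uc K hPC
  exact locP_of_uc (kData K) hU hc hC

end Crest.Agent.R266
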