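import Crest.Agent.R266.Weak

/-! Row 266: monotonicity of the energy (Lelong).

Centre at `y₀`; write `y - y₀ = (z, w)`, `z = x₁ + i y₁`, `w = x₂ + i y₂`, `ρ = |z|² + |w|²`,
`a = H e₁ e₁`, `b = H e₂ e₂`, `p = H e₁ e₂`, `q = H (i e₁) e₂` (`H = pb g Φ y`), `F = ψ ρ`.
`weak_closed` for `(f; u, v, w) = (x₁ F; e₁, e₂, i e₂), (y₁ F; i e₁, e₂, i e₂),
(x₂ F; e₂, e₁, i e₁), (y₂ F; i e₂, e₁, i e₁)` adds up to
`∫ 2 ψ (a + b) + 2 ψ' [|z|² b + |w|² a - 2 p Re(z w̄) - 2 q Im(z w̄)] = 0`; the bracket is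
`ρ (a + b) - H (z, w) (z, w) ≤ ρ (a + b)`.  So `∫ (ψ + ρ ψ') (a + b) ≤ 0` when `ψ' ≤ 0`.
Take `ψ ρ = κ ρ / (ρ + r²)` with `κ` smooth, decreasing, `1` on `(-∞, R²/2]`, `0` on
`[3R²/4, ∞)`: `(ρ ψ)' = κ r² / (ρ + r²)² + κ' ρ / (ρ + r²) ≥ 1_{ρ ≤ 2r²} / (9 r²) - sup |κ'|`. -/

set_option autoImplicit false
set_option linter.unusedSectionVars false

open Set Filter Topology Metric MeasureTheory
open scoped Manifold ContDiff

noncomputable section
namespace Crest.Agent.R266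

variable {E A B : Type} [NormedAddCommGroup E] [NormedSpace ℂ E] [FiniteDimensional ℂ E]
  [NormedAddCommGroup A] [NormedSpace ℂ A] [FiniteDimensional ℂ A]
  [NormedAddCommGroup B] [NormedSpace ℂ B] [FiniteDimensional ℂ B]
  {X : Type} [TopologicalSpace X] [ChartedSpace E X] [IsManifold 𝓘(ℂ, E) ω X] [T2Space X]
  {P : X → E →L[ℂ] E} {g : X → E →L[ℝ] E →L[ℝ] ℝ} {c C : ℝ}

/-- Euclidean square norm. -/
private def lelN (ζ : ℂ × ℂ) : ℝ := ζ.1.re ^ 2 + ζ.1.im ^ 2 + ζ.2.re ^ 2 + ζ.2.im ^ 2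

private def lelC (i : Fin 4) : ℂ × ℂ →L[ℝ] ℝ :=
  ![Complex.reCLM.comp (ContinuousLinearMap.fst ℝ ℂ ℂ),
    Complex.imCLM.comp (ContinuousLinearMap.fst ℝ ℂ ℂ),
    Complex.reCLM.comp (ContinuousLinearMap.snd ℝ ℂ ℂ),
    Complex.imCLM.comp (ContinuousLinearMap.snd ℝ ℂ ℂ)] i

/-- its derivative. -/
private def lelD (ζ : ℂ × ℂ) : ℂ × ℂ →L[ℝ] ℝ :=
  (2 * ζ.1.re) • lelC 0 + (2 * ζ.1.im) • lelC 1 + (2 * ζ.2.re) • lelC 2 + (2 * ζ.2.im) • lelC 3

private theorem lelN_nonneg (ζ : ℂ × ℂ) : 0 ≤ lelN ζ := by unfold lelN; positivity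

private theorem lelN_eq (ζ : ℂ × ℂ) : lelN ζ = ‖ζ.1‖ ^ 2 + ‖ζ.2‖ ^ 2 := by
  rw [← Complex.normSq_eq_norm_sq, ← Complex.normSq_eq_norm_sq, Complex.normSq_apply,
    Complex.normSq_apply, lelN]
  ring

private theorem sq_le_lelN (ζ : ℂ × ℂ) : ‖ζ‖ ^ 2 ≤ lelN ζ := by
  rw [lelN_eq, Prod.norm_def]
  rcases max_choice ‖ζ.1‖ ‖ζ.2‖ with h | h <;> rw [h] <;> nlinarith [sq_nonneg ‖ζ.1‖, sq_nonneg ‖ζ.2‖]

private theorem lelN_le (ζ : ℂ × ℂ) : lelN ζ ≤ 2 * ‖ζ‖ ^ 2 := by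
  have h1 : ‖ζ.1‖ ^ 2 ≤ ‖ζ‖ ^ 2 := pow_le_pow_left₀ (norm_nonneg _) (norm_fst_le ζ) 2
  have h2 : ‖ζ.2‖ ^ 2 ≤ ‖ζ‖ ^ 2 := pow_le_pow_left₀ (norm_nonneg _) (norm_snd_le ζ) 2
  rw [lelN_eq]
  linarith

private theorem contDiff_lelN : ContDiff ℝ 1 lelN :=
  ((((lelC 0).contDiff.pow 2).add ((lelC 1).contDiff.pow 2)).add ((lelC 2).contDiff.pow 2)).add
    ((lelC 3).contDiff.pow 2)

private theorem hasFDerivAt_lelC (i : Fin 4) (y₀ y : ℂ × ℂ) :
    HasFDerivAt (fun y => lelC i (y - y₀)) (lelC i) y :=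
  (lelC i).hasFDerivAt.comp y (g := lelC i) ((hasFDerivAt_id y).sub_const y₀)

private theorem hasFDerivAt_lelN (y₀ y : ℂ × ℂ) :
    HasFDerivAt (fun y => lelN (y - y₀)) (lelD (y - y₀)) y := by
  have h := ((((hasFDerivAt_lelC 0 y₀ y).pow 2).add ((hasFDerivAt_lelC 1 y₀ y).pow 2)).add
    ((hasFDerivAt_lelC 2 y₀ y).pow 2)).add ((hasFDerivAt_lelC 3 y₀ y).pow 2)
  refine h.congr_fderiv ?_
  simp [lelD, lelC]

private theorem lel_one {H : ℂ × ℂ → ℂ × ℂ → ℂ × ℂ → ℝ} {G : Set (ℂ × ℂ)} (hG : IsOpen G)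
    (hH : ClosedOn H G) (y₀ : ℂ × ℂ) {F F' : ℂ × ℂ → ℝ} (hF : ContDiff ℝ 1 F)
    (hs : HasCompactSupport F) (hsG : tsupport F ⊆ G)
    (hF' : ∀ y u, fderiv ℝ F y u = F' y * lelD (y - y₀) u) (i : Fin 4) (u v w : ℂ × ℂ) :
    let d : ℂ × ℂ → ℂ × ℂ → ℝ := fun y u =>
      lelC i u * F y + lelC i (y - y₀) * (F' y * lelD (y - y₀) u)
    Integrable (fun y => d y u * H y (Complex.I • v) w - d y v * H y (Complex.I • u) w +
      d y w * H y (Complex.I • u) v) ∧
    ∫ y, (d y u * H y (Complex.I • v) w - d y v * H y (Complex.I • u) w +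
      d y w * H y (Complex.I • u) v) = 0 := by
  intro d
  have hf : ContDiff ℝ 1 fun y => lelC i (y - y₀) * F y :=
    ((lelC i).contDiff.comp (contDiff_id.sub contDiff_const)).mul hF
  have hfs : HasCompactSupport fun y => lelC i (y - y₀) * F y := hs.mul_left
  have hfG : tsupport (fun y => lelC i (y - y₀) * F y) ⊆ G :=
    (tsupport_mul_subset_right (f := fun y => lelC i (y - y₀)) (g := F)).trans hsG
  have hd : ∀ y u, fderiv ℝ (fun y => lelC i (y - y₀) * F y) y u = d y u := fun y u => by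
    have := ((hasFDerivAt_lelC i y₀ y).mul (hF.differentiable one_ne_zero y).hasFDerivAt).fderiv
    refine (DFunLike.congr_fun this u).trans ?_
    simp only [add_apply, smul_apply, smul_eq_mul, hF', d]
    ring
  have h1 := weak_closed hG hH hf hfs hfG u v w
  have a1 := (weak_parts hG (hH.1 (Complex.I • v) w) hf hfs hfG u).1
  have a2 := (weak_parts hG (hH.1 (Complex.I • u) w) hf hfs hfG v).1
  have a3 := (weak_parts hG (hH.1 (Complex.I • u) v) hf hfs hfG w).1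
  simp only [hd] at h1 a1 a2 a3
  exact ⟨(a1.sub a2).add a3, h1⟩

private theorem lel_identity (hK : KData g) {Φ : ℂ × ℂ → X} {G : Set (ℂ × ℂ)} (hG : IsOpen G)
    (hH : ClosedOn (pb g Φ) G) (y₀ : ℂ × ℂ) {F F' : ℂ × ℂ → ℝ} (hF : ContDiff ℝ 1 F)
    (hs : HasCompactSupport F) (hsG : tsupport F ⊆ G)
    (hF' : ∀ y u, fderiv ℝ F y u = F' y * lelD (y - y₀) u) :
    Integrable (fun y => F y * en g Φ y +
      F' y * (lelN (y - y₀) * en g Φ y - pb g Φ y (y - y₀) (y - y₀))) ∧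
    ∫ y, (F y * en g Φ y +
      F' y * (lelN (y - y₀) * en g Φ y - pb g Φ y (y - y₀) (y - y₀))) = 0 := by
  obtain ⟨i1, z1⟩ := lel_one hG hH y₀ hF hs hsG hF' 0 (1, 0) (0, 1) (Complex.I • (0, 1))
  obtain ⟨i2, z2⟩ := lel_one hG hH y₀ hF hs hsG hF' 1 (Complex.I • (1, 0)) (0, 1) (Complex.I • (0, 1))
  obtain ⟨i3, z3⟩ := lel_one hG hH y₀ hF hs hsG hF' 2 (0, 1) (1, 0) (Complex.I • (1, 0))
  obtain ⟨i4, z4⟩ := lel_one hG hH y₀ hF hs hsG hF' 3 (Complex.I • (0, 1)) (1, 0) (Complex.I • (1, 0))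
  have i5 := (((i1.add i2).add i3).add i4).const_mul (1 / 2)
  have z6 := integral_add' ((i1.add i2).add i3) i4
  rw [integral_add' (i1.add i2) i3, integral_add' i1 i2, z1, z2, z3, z4, add_zero, add_zero,
    add_zero] at z6
  have z5 := (integral_const_mul (1 / 2 : ℝ) _).trans ((congrArg _ z6).trans (mul_zero _))
  refine (fun h => ⟨i5.congr (Eventually.of_forall h), (integral_congr_ae
    (Eventually.of_forall h)).symm.trans z5⟩) fun y => ?_
  clear i5 z5 z6 i1 i2 i3 i4 z1 z2 z3 z4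
  simp only [Pi.add_apply]
  generalize y - y₀ = ζ
  set a := md (ℂ × ℂ) E Φ y (1, 0) with ha
  set b := md (ℂ × ℂ) E Φ y (0, 1) with hb
  have e : md (ℂ × ℂ) E Φ y ζ = ζ.1 • a + ζ.2 • b := by
    rw [ha, hb, ← map_smul, ← map_smul, ← map_add]
    congr 1
    ext <;> simp
  have q1 : g (Φ y) (Complex.I • b) a = -g (Φ y) (Complex.I • a) b := by
    have := hK.smul_smul (Φ y) 1 Complex.I a b
    rw [one_smul, hK.symm] at this
    simpa using this
  have q2 : ∀ u v : E, g (Φ y) (Complex.I • Complex.I • u) v = -g (Φ y) u v := fun u v => by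
    rw [_root_.smul_smul, Complex.I_mul_I, neg_one_smul, map_neg, neg_apply]
  have q3 : g (Φ y) a (Complex.I • b) = -g (Φ y) (Complex.I • a) b := by rw [hK.symm, q1]
  have q4 : g (Φ y) b (Complex.I • a) = g (Φ y) (Complex.I • a) b := hK.symm _ _ _
  have q5 : g (Φ y) b a = g (Φ y) a b := hK.symm _ _ _
  simp only [en, pb, e, map_smul, map_add, add_apply, ← ha, ← hb,
    q2, hK.herm]
  simp only [hK.smul_smul (Φ y) ζ.1, hK.smul_smul (Φ y) ζ.2, q1, q3, q4, q5, hK.I_self]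
  simp [lelC, lelD, lelN]
  ring

theorem lelong (hK : KData g) {R : ℝ} (hR : 0 < R) : ∃ C₀ : ℝ, 0 < C₀ ∧
    ∀ (Φ : ℂ × ℂ → X) (y₀ : ℂ × ℂ) (r : ℝ), 0 < r → r ≤ R / 2 → HolOn (ℂ × ℂ) E Φ (ball y₀ R) →
      ∫⁻ y in ball y₀ r, ENNReal.ofReal (en g Φ y) ≤
        ENNReal.ofReal (C₀ * r ^ 2) * ∫⁻ y in ball y₀ R, ENNReal.ofReal (en g Φ y) := by
  set T : ℝ := 3 * R ^ 2 / 4 with hT
  have hG : ContDiff ℝ 2 expNegInvGlue := expNegInvGlue.contDiff
  have hG1 : ∀ s, HasDerivAt expNegInvGlue (deriv expNegInvGlue s) s := fun s =>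
    (hG.differentiable two_ne_zero s).hasDerivAt
  have hG'c : Continuous (deriv expNegInvGlue) := hG.continuous_deriv one_le_two
  have hG'0 : ∀ s, 0 ≤ deriv expNegInvGlue s := fun s => expNegInvGlue.monotone.deriv_nonneg
  have hG'neg : ∀ s, s < 0 → deriv expNegInvGlue s = 0 := fun s hs => by
    have : expNegInvGlue =ᶠ[𝓝 s] fun _ => 0 := by
      filter_upwards [Iio_mem_nhds hs] with t ht using expNegInvGlue.zero_of_nonpos (le_of_lt ht)
    rw [this.deriv_eq, deriv_const]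
  obtain ⟨M₀, hM₀⟩ := (isCompact_Icc (a := (0 : ℝ)) (b := T)).bddAbove_image hG'c.continuousOn
  have hM : ∀ s, s ≤ T → deriv expNegInvGlue s ≤ |M₀| + 1 := fun s hs => by
    rcases lt_or_ge s 0 with h | h
    · rw [hG'neg s h]; positivity
    · have := hM₀ (mem_image_of_mem _ ⟨h, hs⟩)
      linarith [le_abs_self M₀]
  set c₀ : ℝ := expNegInvGlue (R ^ 2 / 4) with hc₀
  have hc₀p : 0 < c₀ := expNegInvGlue.pos_of_pos (by positivity)
  refine ⟨9 * (|M₀| + 1) / c₀, by positivity, fun Φ y₀ r hr hrR hΦ => ?_⟩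
  have hρ0 : ∀ y, 0 ≤ lelN (y - y₀) := fun y => lelN_nonneg _
  have hρc : ContDiff ℝ 1 fun y : ℂ × ℂ => lelN (y - y₀) :=
    contDiff_lelN.comp (contDiff_id.sub contDiff_const)
  have hpos : ∀ y, 0 < lelN (y - y₀) + r ^ 2 := fun y => by have := hρ0 y; positivity
  -- the compact set carrying all supports
  have hsub : closedBall y₀ (9 / 10 * R) ⊆ ball y₀ R := closedBall_subset_ball (by linarith)
  have hout : ∀ y, y ∉ closedBall y₀ (9 / 10 * R) → T - lelN (y - y₀) < 0 := fun y hy => by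
    rw [mem_closedBall, dist_eq_norm, not_le] at hy
    have h1 := sq_le_lelN (y - y₀)
    have h2 : (9 / 10 * R) ^ 2 < ‖y - y₀‖ ^ 2 := pow_lt_pow_left₀ hy (by positivity) two_ne_zero
    rw [hT]
    nlinarith [sq_nonneg R]
  have hsupp : ∀ k : ℂ × ℂ → ℝ, (∀ y, T - lelN (y - y₀) < 0 → k y = 0) →
      HasCompactSupport k ∧ tsupport k ⊆ ball y₀ R := fun k hk => by
    have h1 : Function.support k ⊆ closedBall y₀ (9 / 10 * R) := fun y hy => by
      by_contra h
      exact hy (hk y (hout y h))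
    exact ⟨HasCompactSupport.of_support_subset_isCompact (isCompact_closedBall _ _) h1,
      (closure_minimal h1 isClosed_closedBall).trans hsub⟩
  let F : ℂ × ℂ → ℝ := fun y => expNegInvGlue (T - lelN (y - y₀)) / (lelN (y - y₀) + r ^ 2)
  let k : ℂ × ℂ → ℝ := fun y => deriv expNegInvGlue (T - lelN (y - y₀))
  let F' : ℂ × ℂ → ℝ := fun y => -k y / (lelN (y - y₀) + r ^ 2) - F y / (lelN (y - y₀) + r ^ 2)
  have hFc : ContDiff ℝ 1 F :=
    ((hG.of_le one_le_two).comp (contDiff_const.sub hρc)).div (hρc.add contDiff_const)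
      fun y => (hpos y).ne'
  have hFs := hsupp F fun y hy => by
    simp only [F, expNegInvGlue.zero_of_nonpos hy.le, zero_div]
  have hks := hsupp k fun y hy => hG'neg _ hy
  have hF' : ∀ y u, fderiv ℝ F y u = F' y * lelD (y - y₀) u := fun y u => by
    have h1 : HasDerivAt (fun t : ℝ => expNegInvGlue (T - t) / (t + r ^ 2)) (F' y)
        (lelN (y - y₀)) := by
      have h2 := ((hG1 (T - lelN (y - y₀))).comp_const_sub T _).div
        ((hasDerivAt_id (lelN (y - y₀))).add_const (r ^ 2)) (hpos y).ne'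
      refine h2.congr_deriv ?_
      have := (hpos y).ne'
      simp only [F', F, k, id]
      field_simp
    have h3 := h1.comp_hasFDerivAt y (hasFDerivAt_lelN y₀ y)
    exact (DFunLike.congr_fun h3.fderiv u).trans rfl
  have hcl := hK.pull Φ _ isOpen_ball hΦ
  obtain ⟨hI, hI0⟩ := lel_identity hK isOpen_ball hcl y₀ hFc hFs.1 hFs.2 hF'
  have he0 : ∀ y, 0 ≤ en g Φ y := fun y => add_nonneg (hK.nonneg _ _) (hK.nonneg _ _)
  have hk0 : ∀ y, 0 ≤ k y := fun y => hG'0 _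
  have hke : Integrable fun y => k y * en g Φ y :=
    integrable_mul_of_tsupport isOpen_ball
      ((hcl.1 _ _).continuousOn.add (hcl.1 _ _).continuousOn)
      (hG'c.comp (continuous_const.sub hρc.continuous)) hks.1 hks.2
  -- pointwise lower bound
  have hlow : ∀ y, expNegInvGlue (T - lelN (y - y₀)) * r ^ 2 / (lelN (y - y₀) + r ^ 2) ^ 2
      * en g Φ y ≤ F y * en g Φ y + F' y * (lelN (y - y₀) * en g Φ y - pb g Φ y (y - y₀) (y - y₀))
        + k y * en g Φ y := fun y => by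
    have h1 : 0 ≤ F y := div_nonneg (expNegInvGlue.nonneg _) (hpos y).le
    have h2 : F' y ≤ 0 := by
      have := div_nonneg (hk0 y) (hpos y).le
      have := div_nonneg h1 (hpos y).le
      simp only [F', neg_div]
      linarith
    have h3 : 0 ≤ pb g Φ y (y - y₀) (y - y₀) := hK.nonneg _ _
    have h4 : F y + F' y * lelN (y - y₀) + k y =
        expNegInvGlue (T - lelN (y - y₀)) * r ^ 2 / (lelN (y - y₀) + r ^ 2) ^ 2 +
          k y * r ^ 2 / (lelN (y - y₀) + r ^ 2) := by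
      have := (hpos y).ne'
      simp only [F', F]
      field_simp
      ring
    have h5 : 0 ≤ k y * r ^ 2 / (lelN (y - y₀) + r ^ 2) * en g Φ y := by
      have := hk0 y; have := hpos y; have := he0 y; positivity
    have h6 := congrArg (· * en g Φ y) h4
    nlinarith [mul_nonneg (neg_nonneg.2 h2) h3]
  have hα : 0 < 9 * r ^ 2 / c₀ := by positivity
  have hJ : Integrable fun y => 9 * r ^ 2 / c₀ * (F y * en g Φ y +
      F' y * (lelN (y - y₀) * en g Φ y - pb g Φ y (y - y₀) (y - y₀)) + k y * en g Φ y) :=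
    (hI.add hke).const_mul _
  have hJ0 : ∀ y, 0 ≤ 9 * r ^ 2 / c₀ * (F y * en g Φ y +
      F' y * (lelN (y - y₀) * en g Φ y - pb g Φ y (y - y₀) (y - y₀)) + k y * en g Φ y) :=
    fun y => mul_nonneg hα.le (le_trans (by
      have := expNegInvGlue.nonneg (T - lelN (y - y₀)); have := he0 y; positivity) (hlow y))
  calc ∫⁻ y in ball y₀ r, ENNReal.ofReal (en g Φ y)
      ≤ ∫⁻ y, ENNReal.ofReal (9 * r ^ 2 / c₀ * (F y * en g Φ y +
          F' y * (lelN (y - y₀) * en g Φ y - pb g Φ y (y - y₀) (y - y₀)) + k y * en g Φ y)) := by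
        rw [← lintegral_indicator measurableSet_ball]
        refine lintegral_mono fun y => ?_
        by_cases hy : y ∈ ball y₀ r
        swap
        · rw [indicator_of_notMem hy]
          exact zero_le
        rw [indicator_of_mem hy]
        refine ENNReal.ofReal_le_ofReal ?_
        refine le_trans ?_ (mul_le_mul_of_nonneg_left (hlow y) hα.le)
        rw [← mul_assoc]
        refine le_mul_of_one_le_left (he0 y) ?_
        rw [mem_ball, dist_eq_norm] at hy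
        have h1 := lelN_le (y - y₀)
        have h2 : ‖y - y₀‖ ^ 2 < r ^ 2 := pow_lt_pow_left₀ hy (norm_nonneg _) two_ne_zero
        have h3 : r ^ 2 ≤ (R / 2) ^ 2 := pow_le_pow_left₀ hr.le hrR 2
        have h4 : c₀ ≤ expNegInvGlue (T - lelN (y - y₀)) :=
          expNegInvGlue.monotone (by rw [hT]; nlinarith)
        have h5 : (lelN (y - y₀) + r ^ 2) ^ 2 ≤ (3 * r ^ 2) ^ 2 :=
          pow_le_pow_left₀ (hpos y).le (by linarith) 2
        have h6 := hpos y
        rw [div_mul_div_comm, one_le_div (by positivity)]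
        calc c₀ * (lelN (y - y₀) + r ^ 2) ^ 2 ≤ expNegInvGlue (T - lelN (y - y₀)) * (3 * r ^ 2) ^ 2 :=
              mul_le_mul h4 h5 (by positivity) (expNegInvGlue.nonneg _)
          _ = _ := by ring
    _ = ∫⁻ y, ENNReal.ofReal (9 * r ^ 2 / c₀ * (k y * en g Φ y)) := by
        rw [← ofReal_integral_eq_lintegral_ofReal hJ (Eventually.of_forall hJ0),
          ← ofReal_integral_eq_lintegral_ofReal (hke.const_mul _) (Eventually.of_forall fun y =>
            mul_nonneg hα.le (mul_nonneg (hk0 y) (he0 y))), integral_const_mul, integral_const_mul,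
          integral_add hI hke, hI0, zero_add]
    _ ≤ _ := by
        rw [← lintegral_const_mul' _ _ ENNReal.ofReal_ne_top, ← lintegral_indicator measurableSet_ball]
        refine lintegral_mono fun y => ?_
        by_cases hy : y ∈ ball y₀ R
        · rw [indicator_of_mem hy, ← ENNReal.ofReal_mul (by positivity)]
          refine ENNReal.ofReal_le_ofReal ?_
          have h1 : k y ≤ |M₀| + 1 := hM _ (by linarith [hρ0 y])
          calc _ ≤ 9 * r ^ 2 / c₀ * ((|M₀| + 1) * en g Φ y) := by gcongr; exact he0 y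
            _ = _ := by ring
        · have : k y = 0 := image_eq_zero_of_notMem_tsupport fun h => hy (hks.2 h)
          simp [this]

end Crest.Agent.R266
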