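import Crest.Agent.R266.Basic3
import Crest.Agent.R266.GFrob3

/-! Row 266: product charts from the vanishing of both torsions; the local lemma gives limits at
mixed boundary points of balls. -/

set_option autoImplicit false
set_option linter.unusedSectionVars false

open Set Filter Topology Metric
open scoped Manifold ContDiff
open Crest.AlgGeometry.HolSplit

noncomputable section
namespace Crest.Agent.R266

section PC

variable {E : Type} [NormedAddCommGroup E] [NormedSpace ℂ E] [FiniteDimensional ℂ E]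
  {X : Type} [TopologicalSpace X] [ChartedSpace E X] [IsManifold 𝓘(ℂ, E) ω X] [T2Space X]
  {P : X → E →L[ℂ] E}

theorem IsPF.ker_sw (hP : IsPF P) (x : X) :
    LinearMap.ker (R266.sw P x : E →ₗ[ℂ] E) = LinearMap.range (P x : E →ₗ[ℂ] E) := by
  ext v
  simp only [LinearMap.mem_ker, ContinuousLinearMap.coe_coe, sw_apply, LinearMap.mem_range]
  constructor
  · intro h; exact ⟨v, (sub_eq_zero.mp h).symm⟩
  · rintro ⟨u, rfl⟩; rw [hP.idem, sub_self]

theorem hasPC_of_nzero' [PreconnectedSpace X] (hP : IsPF P) (h₁ : ∀ x, Nzero (sw P) x)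
    (h₂ : ∀ x, Nzero P x) (x₀ : X) {n₁ n₂ : ℕ}
    (hn₁ : Module.finrank ℂ (LinearMap.ker (sw P x₀ : E →ₗ[ℂ] E)) = n₁)
    (hn₂ : Module.finrank ℂ (LinearMap.ker (P x₀ : E →ₗ[ℂ] E)) = n₂) :
    HasPC (Model n₁) (Model n₂) P := by
  intro x
  set c := chartAt E x with hc
  have hx : x ∈ c.source := mem_chart_source E x
  have hy₀ : c x ∈ c.target := c.map_source hx
  have htgt : ∀ᶠ y in 𝓝 (c x), y ∈ c.target := c.open_target.mem_nhds hy₀
  have han : AnalyticAt ℂ (Pc P x) (c x) :=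
    Crest.Agent.R264.SCV.analyticAt (hP.hol x) (c.open_target.mem_nhds hy₀)
  have hidem : ∀ᶠ y in 𝓝 (c x), ∀ v, Pc P x y (Pc P x y v) = Pc P x y v :=
    htgt.mono fun y hy v => hP.Pc_idem hy v
  have hint₂ : ∀ᶠ y in 𝓝 (c x), ∀ u v, Pc P x y u = 0 → Pc P x y v = 0 →
      fderiv ℂ (Pc P x) y u v = fderiv ℂ (Pc P x) y v u := by
    refine htgt.mono fun y hy => ?_
    have h := (hP.nzC_iff (c := x) (c.map_target hy)).mpr (h₂ _)
    rw [c.right_inv hy] at h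
    exact h
  have hint₁ : ∀ᶠ y in 𝓝 (c x), ∀ u v, Pc P x y u = u → Pc P x y v = v →
      fderiv ℂ (Pc P x) y u v = fderiv ℂ (Pc P x) y v u := by
    refine htgt.mono fun y hy u v hu hv => ?_
    have h := (hP.sw.nzC_iff (c := x) (c.map_target hy)).mpr (h₁ _)
    rw [c.right_inv hy] at h
    have he : Pc (sw P) x =ᶠ[𝓝 y] fun z => ContinuousLinearMap.id ℂ E - Pc P x z := by
      filter_upwards [c.open_target.mem_nhds hy] with z hz using Pc_sw hz
    have hd : fderiv ℂ (Pc (sw P) x) y = -fderiv ℂ (Pc P x) y := by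
      rw [he.fderiv_eq, fderiv_const_sub]
    have h' := h u v (by rw [Pc_sw hy]; simp [hu]) (by rw [Pc_sw hy]; simp [hv])
    rw [hd] at h'
    simpa using h'
  have hr₁ : Module.finrank ℂ (LinearMap.range (Pc P x (c x) : E →ₗ[ℂ] E)) = n₁ := by
    rw [hc, Pc_self, ← hP.ker_sw, ← hn₁]; exact hP.sw.finrank_ker_eq x x₀
  have hr₂ : Module.finrank ℂ (LinearMap.ker (Pc P x (c x) : E →ₗ[ℂ] E)) = n₂ := by
    rw [hc, Pc_self, ← hn₂]; exact hP.finrank_ker_eq x x₀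
  obtain ⟨f, hf, hb, hfv⟩ := Crest.Agent.R266G.exists_product_coords han hidem hint₁ hint₂ hr₁ hr₂
  have hcc : ContinuousAt c x := c.continuousAt hx
  have key : ∀ z ∈ c.source, DifferentiableAt ℂ f (c z) →
      HolAt E (Model n₁ × Model n₂) (f ∘ c) z ∧
        md E (Model n₁ × Model n₂) (f ∘ c) z = (fderiv ℂ f (c z)).comp (tc E x z) := by
    intro z hz hd
    have h1 : HolAt E E c z := holAt_chart hz
    have h2 : HolAt E (Model n₁ × Model n₂) f (c z) := holAt_self.mpr hd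
    refine ⟨MDifferentiableAt.comp z h2 h1, ?_⟩
    rw [md_comp h2 h1, md_self]; rfl
  refine exists_isPC_of_germ (f := f ∘ c) ?_ ?_
  · filter_upwards [c.open_source.mem_nhds hx, hcc.eventually hf.eventually_analyticAt,
      hcc.eventually hfv, hcc.eventually hidem] with z hz hfz hv hi
    obtain ⟨k1, k2⟩ := key z hz hfz.differentiableAt
    refine ⟨k1, fun v => ?_⟩
    rw [k2]
    simp only [ContinuousLinearMap.comp_apply]
    rw [← Pc_tc P hz v]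
    set u := tc E x z v
    set D := fderiv ℂ f (c z)
    set p := Pc P x (c z)
    have e1 : (D (p u)).2 = 0 := (hv (p u)).1 (hi u)
    have e2 : (D (u - p u)).1 = 0 := (hv (u - p u)).2 (by rw [map_sub, hi, sub_self])
    rw [map_sub, Prod.fst_sub, sub_eq_zero] at e2
    exact Prod.ext e2.symm e1
  · rw [(key x hx hf.differentiableAt).2, tc_self]
    simpa using hb

theorem hasPC_of_nzero [PreconnectedSpace X] [Nonempty X] (hP : IsPF P)
    (h₁ : ∀ x, Nzero (sw P) x) (h₂ : ∀ x, Nzero P x) :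
    ∃ n₁ n₂ : ℕ, HasPC (Model n₁) (Model n₂) P :=
  ⟨_, _, hasPC_of_nzero' hP h₁ h₂ (Classical.arbitrary X) rfl rfl⟩

end PC

section Touch

theorem convex_sqBall (η : ℝ) : Convex ℝ {q : ℂ × ℂ | ‖q.1‖ ^ 2 + ‖q.2‖ ^ 2 < η ^ 2} := by
  have h0 : ConvexOn ℝ univ (fun z : ℂ => ‖z‖ ^ 2) :=
    (convexOn_univ_norm (E := ℂ)).pow (fun _ _ => norm_nonneg _) 2
  have h1 : ConvexOn ℝ univ (fun q : ℂ × ℂ => ‖q.1‖ ^ 2) :=
    ⟨convex_univ, fun x _ y _ a b ha hb hab => h0.2 (mem_univ x.1) (mem_univ y.1) ha hb hab⟩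
  have h2 : ConvexOn ℝ univ (fun q : ℂ × ℂ => ‖q.2‖ ^ 2) :=
    ⟨convex_univ, fun x _ y _ a b ha hb hab => h0.2 (mem_univ x.2) (mem_univ y.2) ha hb hab⟩
  simpa using (h1.add h2).convex_lt (η ^ 2)

theorem norm_sq_sub_div_conj {p y : ℂ} (hp : p ≠ 0) :
    ‖p - y / (starRingEnd ℂ) p‖ ^ 2 = ‖p‖ ^ 2 - 2 * y.re + ‖y‖ ^ 2 / ‖p‖ ^ 2 := by
  have hc : (starRingEnd ℂ) p ≠ 0 := by simpa using hp
  rw [← Complex.normSq_eq_norm_sq, Complex.normSq_sub, Complex.normSq_div, Complex.normSq_conj,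
    Complex.normSq_eq_norm_sq, Complex.normSq_eq_norm_sq]
  have : p * (starRingEnd ℂ) (y / (starRingEnd ℂ) p) = (starRingEnd ℂ) y := by
    rw [map_div₀, Complex.conj_conj]; field_simp
  rw [this, Complex.conj_re]; ring

variable {E A B : Type} [NormedAddCommGroup E] [NormedSpace ℂ E] [FiniteDimensional ℂ E]
  [NormedAddCommGroup A] [NormedSpace ℂ A] [NormedAddCommGroup B] [NormedSpace ℂ B]
  {X : Type} [TopologicalSpace X] [ChartedSpace E X] [IsManifold 𝓘(ℂ, E) ω X] [T2Space X]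
  {P : X → E →L[ℂ] E}

theorem tendsto_of_cone {ε r : ℝ} (hε : 0 < ε) (hε1 : ε < 1) (hr : 0 < r) {φ : ℂ × ℂ → X}
    {G : Set (ℂ × ℂ)} (hG : IsOpen G) (hGc : Convex ℝ G) (hsub : cone ε r ⊆ G)
    (hφ : BifOn P φ G) {e : OpenPartialHomeomorph X (A × B)} (he : IsPC P e)
    (hm : MapsTo φ (cone ε r) e.source) : ∃ m, Tendsto φ (𝓝[G] 0) (𝓝 m) := by
  set s : ℂ := ((r / 2 : ℝ) : ℂ) with hs
  have hsn : ‖s‖ = r / 2 := by rw [hs, Complex.norm_real, Real.norm_of_nonneg (by positivity)]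
  have hsre : s.re = r / 2 := by simp [hs]
  set D : Set ℂ := {z | ε * ‖z‖ - z.re < (1 - ε) * (r / 2)} ∩ ball 0 r with hD
  have hDo : IsOpen D := (isOpen_lt (by fun_prop) continuous_const).inter isOpen_ball
  have hDc : Convex ℝ D := by
    refine Convex.inter ?_ (convex_ball _ _)
    have h1 : ConvexOn ℝ univ (fun z : ℂ => ε * ‖z‖) :=
      (convexOn_univ_norm (E := ℂ)).smul hε.le
    have h2 : ConcaveOn ℝ univ (fun z : ℂ => z.re) := Complex.reLm.concaveOn convex_univ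
    simpa using (h1.sub h2).convex_lt ((1 - ε) * (r / 2))
  have hD1 : ∀ z ∈ D, (z, s) ∈ cone ε r := fun z hz => by
    refine ⟨?_, by simpa using hz.2, by rw [hsn]; linarith⟩
    have := hz.1
    simp only [mem_ofPred_eq] at this
    simp only [Complex.add_re, hsn, hsre]; nlinarith
  have hD2 : ∀ z ∈ D, (s, z) ∈ cone ε r := fun z hz => by
    refine ⟨?_, by rw [hsn]; linarith, by simpa using hz.2⟩
    have := hz.1
    simp only [mem_ofPred_eq] at this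
    simp only [Complex.add_re, hsn, hsre]; nlinarith
  have h0D : (0 : ℂ) ∈ D := ⟨by simp only [mem_ofPred_eq]; simp; nlinarith, mem_ball_self hr⟩
  have hsD : s ∈ D := ⟨by simp only [mem_ofPred_eq, hsn, hsre]; nlinarith, by
    rw [mem_ball_zero_iff, hsn]; linarith⟩
  set Θ : ℂ × ℂ → X := fun q => e.symm ((e (φ (q.1, s))).1, (e (φ (s, q.2))).2) with hΘ
  have hΘhol : HolOn (ℂ × ℂ) E Θ (D ×ˢ D) := by
    rintro ⟨z, w⟩ ⟨hz, hw⟩
    have m1 := hm (hD1 z hz)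
    have m2 := hm (hD2 w hw)
    have a1 : HolAt ℂ E (fun z => φ (z, s)) z :=
      (Bif.ht (hφ _ (hsub (hD1 z hz))).1 (hφ _ (hsub (hD1 z hz))).2).1
    have a2 : HolAt ℂ E (fun w => φ (s, w)) w :=
      (Bif.vt (hφ _ (hsub (hD2 w hw))).1 (hφ _ (hsub (hD2 w hw))).2).1
    have b1 : DifferentiableAt ℂ (fun z => e (φ (z, s))) z :=
      holAt_self.mp (MDifferentiableAt.comp z (he.hol _ m1) a1)
    have b2 : DifferentiableAt ℂ (fun w => e (φ (s, w))) w :=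
      holAt_self.mp (MDifferentiableAt.comp w (he.hol _ m2) a2)
    have c1 : DifferentiableAt ℂ
        (fun q : ℂ × ℂ => ((e (φ (q.1, s))).1, (e (φ (s, q.2))).2)) (z, w) :=
      DifferentiableAt.prodMk
        (DifferentiableAt.comp (g := fun z => (e (φ (z, s))).1) (f := Prod.fst) (z, w) b1.fst
          differentiableAt_fst)
        (DifferentiableAt.comp (g := fun w => (e (φ (s, w))).2) (f := Prod.snd) (z, w) b2.snd
          differentiableAt_snd)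
    have ht : ((e (φ (z, s))).1, (e (φ (s, w))).2) ∈ e.target :=
      he.mem_target.mpr ⟨(he.mem_target.mp (e.map_source m1)).1,
        (he.mem_target.mp (e.map_source m2)).2⟩
    exact MDifferentiableAt.comp (z, w) (he.hol_symm _ ht) (holAt_self.mpr c1)
  have hss : (s, s) ∈ G := hsub (hD1 s hsD)
  have hloc : φ =ᶠ[𝓝 (s, s)] Θ :=
    he.local_prod (y := (s, s)) (by filter_upwards [hG.mem_nhds hss] with q hq using hφ q hq)
      (hm (hD1 s hsD))
  have heq : EqOn φ Θ (G ∩ D ×ˢ D) :=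
    hol_eqOn (hG.inter (hDo.prod hDo)) (hGc.inter (hDc.prod hDc)).isPreconnected
      (fun q hq => (hφ q hq.1).1) (fun q hq => hΘhol q hq.2) ⟨hss, hsD, hsD⟩ hloc
  refine ⟨Θ 0, ?_⟩
  have hc0 : ContinuousAt Θ 0 := (hΘhol 0 ⟨h0D, h0D⟩).continuousAt
  refine (hc0.tendsto.mono_left nhdsWithin_le_nhds).congr' ?_
  filter_upwards [self_mem_nhdsWithin,
    mem_nhdsWithin_of_mem_nhds ((hDo.prod hDo).mem_nhds (⟨h0D, h0D⟩ : (0 : ℂ × ℂ) ∈ D ×ˢ D))]
    with q hq hq' using (heq ⟨hq, hq'⟩).symm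

theorem touch_of_locP (hL : LocP A B P) {Φ : ℂ × ℂ → X} {η : ℝ} {p : ℂ × ℂ}
    (hp : ‖p.1‖ ^ 2 + ‖p.2‖ ^ 2 = η ^ 2) (h₁ : p.1 ≠ 0) (h₂ : p.2 ≠ 0)
    (hΦ : BifOn P Φ {q : ℂ × ℂ | ‖q.1‖ ^ 2 + ‖q.2‖ ^ 2 < η ^ 2}) :
    ∃ m, Tendsto Φ (𝓝[{q : ℂ × ℂ | ‖q.1‖ ^ 2 + ‖q.2‖ ^ 2 < η ^ 2}] p) (𝓝 m) := by
  obtain ⟨ε, hε, hε1, hL⟩ := hL
  set Bl := {q : ℂ × ℂ | ‖q.1‖ ^ 2 + ‖q.2‖ ^ 2 < η ^ 2} with hBl
  have hBo : IsOpen Bl := isOpen_lt (by fun_prop) continuous_const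
  set α : ℂ → ℂ := fun y => p.1 - y / (starRingEnd ℂ) p.1 with hα
  set β : ℂ → ℂ := fun y => p.2 - y / (starRingEnd ℂ) p.2 with hβ
  set κ : ℂ × ℂ → ℂ × ℂ := fun y => (α y.1, β y.2) with hκ
  have hκc : Continuous κ := by simp only [hκ, hα, hβ]; fun_prop
  set G := κ ⁻¹' Bl with hG
  have hGo : IsOpen G := hBo.preimage hκc
  have hGc : Convex ℝ G := by
    intro y hy y' hy' a b ha hb hab
    have := convex_sqBall η hy hy' ha hb hab
    have e : κ (a • y + b • y') = a • κ y + b • κ y' := by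
      have hb' : (b : ℂ) = 1 - a := by rw [show b = 1 - a by linarith]; push_cast; ring
      ext <;> simp only [hκ, hα, hβ, Prod.fst_add, Prod.snd_add, Prod.smul_fst, Prod.smul_snd,
        Complex.real_smul, hb'] <;> ring
    show κ _ ∈ Bl
    rw [e]; exact this
  have n1 : 0 < ‖p.1‖ ^ 2 := by positivity
  have n2 : 0 < ‖p.2‖ ^ 2 := by positivity
  set δ := ε * min (‖p.1‖ ^ 2) (‖p.2‖ ^ 2) with hδ
  have hδ0 : 0 < δ := mul_pos hε (lt_min n1 n2)
  have hcone : ∀ r ≤ δ, cone ε r ⊆ G := by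
    rintro r hr y ⟨hy, hy1, hy2⟩
    show ‖α y.1‖ ^ 2 + ‖β y.2‖ ^ 2 < η ^ 2
    simp only [hα, hβ]
    rw [norm_sq_sub_div_conj h₁, norm_sq_sub_div_conj h₂, ← hp]
    have k1 : ‖y.1‖ ^ 2 / ‖p.1‖ ^ 2 ≤ ε * ‖y.1‖ := by
      rw [div_le_iff₀ n1]
      have : δ ≤ ε * ‖p.1‖ ^ 2 := mul_le_mul_of_nonneg_left (min_le_left _ _) hε.le
      nlinarith [norm_nonneg y.1]
    have k2 : ‖y.2‖ ^ 2 / ‖p.2‖ ^ 2 ≤ ε * ‖y.2‖ := by
      rw [div_le_iff₀ n2]
      have : δ ≤ ε * ‖p.2‖ ^ 2 := mul_le_mul_of_nonneg_left (min_le_right _ _) hε.le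
      nlinarith [norm_nonneg y.2]
    have k3 : 0 ≤ ε * (‖y.1‖ + ‖y.2‖) := by positivity
    rw [Complex.add_re] at hy
    nlinarith
  have hφ : BifOn P (fun y : ℂ × ℂ => Φ (α y.1, β y.2)) G := fun y hy =>
    Bif.comp_prod (hΦ _ hy).1 (hΦ _ hy).2 (by simp only [hα]; fun_prop)
      (by simp only [hβ]; fun_prop)
  obtain ⟨r, hr, hrδ, e, he, hm⟩ := hL δ hδ0 _ fun y hy => hφ y (hcone δ le_rfl hy)
  obtain ⟨m, hm⟩ := tendsto_of_cone hε hε1 hr hGo hGc (hcone r hrδ) hφ he hm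
  refine ⟨m, ?_⟩
  set ι : ℂ × ℂ → ℂ × ℂ := fun q =>
    ((p.1 - q.1) * (starRingEnd ℂ) p.1, (p.2 - q.2) * (starRingEnd ℂ) p.2) with hι
  have c1 : (starRingEnd ℂ) p.1 ≠ 0 := by simpa using h₁
  have c2 : (starRingEnd ℂ) p.2 ≠ 0 := by simpa using h₂
  have hκι : ∀ q, κ (ι q) = q := fun q => by
    ext <;> simp only [hκ, hι, hα, hβ] <;> field_simp <;> ring
  have hιt : Tendsto ι (𝓝[Bl] p) (𝓝[G] 0) := by
    refine tendsto_nhdsWithin_iff.mpr ⟨?_, ?_⟩
    · have : ContinuousAt ι p := by simp only [hι]; fun_prop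
      have h0 : ι p = 0 := by simp [hι]
      exact (h0 ▸ this.tendsto).mono_left nhdsWithin_le_nhds
    · filter_upwards [self_mem_nhdsWithin] with q hq
      show κ (ι q) ∈ Bl
      rw [hκι]; exact hq
  refine (hm.comp hιt).congr fun q => ?_
  show Φ (κ (ι q)) = Φ q
  rw [hκι]

end Touch

end Crest.Agent.R266
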