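import Crest.Agent.R266.LinkA
import Crest.Agent.R266.Bridge
import Crest.Agent.R266.GFinal
import Crest.Agent.R266.GAdapt

/-! Row 266: the universal cover is a product, assuming the local lemma `LocP`. -/

set_option autoImplicit false
set_option linter.unusedSectionVars false

open Set Filter Topology Metric
open scoped Manifold ContDiff
open Crest.AlgGeometry.HolSplit

noncomputable section
namespace Crest.Agent.R266

theorem product_cover_of_locP {n n₁ n₂ : ℕ} {X : Type} [TopologicalSpace X] [T2Space X]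
    [ChartedSpace (Model n) X] [IsManifold (mI n) ω X] (S : Splitting n X)
    (hPC : HasPC (Model n₁) (Model n₂) (spP S)) (hL : LocP (Model n₁) (Model n₂) (spP S))
    (X' : Type) [TopologicalSpace X'] [T2Space X'] [SimplyConnectedSpace X']
    [ChartedSpace (Model n) X'] [IsManifold (mI n) ω X'] (π : X' → X) (hcov : IsCoveringMap π)
    (hπ : ContMDiff (mI n) (mI n) ω π)
    (hdπ : ∀ p : X', Function.Bijective (mfderiv (mI n) (mI n) π p)) :
    HasCompatibleProductCover S X' π := by
  have hP := spP_isPF S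
  have hπd : ∀ p, HolAt (Model n) (Model n) π p := fun p =>
    (hπ p).mdifferentiableAt (by simp)
  let D : X' → Model n →L[ℂ] Model n := fun p => md (Model n) (Model n) π p
  let H : X' → Model n → Prop := fun m v => spP S (π m) (D m v) = D m v
  let V : X' → Model n → Prop := fun m v => spP S (π m) (D m v) = 0
  have hdec : ∀ m v, ∃ h k, H m h ∧ V m k ∧ v = h + k := by
    intro m v
    have hD : Function.Bijective (D m) := hdπ m
    obtain ⟨h, hh'⟩ := hD.2 (spP S (π m) (D m v))
    refine ⟨h, v - h, ?_, ?_, by abel⟩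
    · show spP S (π m) (D m h) = D m h
      rw [hh', hP.idem]
    · show spP S (π m) (D m (v - h)) = 0
      rw [map_sub, hh', map_sub, hP.idem, sub_self]
  have hloc : ∀ p : X', ∃ f : X' → R266G.FF n₁ n₂,
      ContMDiffAt (mI n) 𝓘(ℂ, R266G.FF n₁ n₂) ω f p ∧
      Function.Bijective (mfderiv (mI n) 𝓘(ℂ, R266G.FF n₁ n₂) f p) ∧
      ∀ᶠ m in 𝓝 p, ∀ v : Model n,
        (H m v → (mfderiv (mI n) 𝓘(ℂ, R266G.FF n₁ n₂) f m v).2 = 0) ∧
        (V m v → (mfderiv (mI n) 𝓘(ℂ, R266G.FF n₁ n₂) f m v).1 = 0) := by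
    intro p
    obtain ⟨e, he, hp, -⟩ := hPC (π p)
    have hnb : ∀ᶠ m in 𝓝 p, π m ∈ e.source :=
      (hπ p).continuousAt.eventually (e.open_source.mem_nhds hp)
    have hmd : ∀ m, π m ∈ e.source → md (Model n) (Model n₁ × Model n₂) (e ∘ π) m =
        (md (Model n) (Model n₁ × Model n₂) e (π m)).comp (D m) := fun m hm =>
      md_comp (he.hol _ hm) (hπd m)
    refine ⟨e ∘ π, ?_, ?_, ?_⟩
    · exact contMDiffAt_of_hol (hnb.mono fun m hm =>
        MDifferentiableAt.comp m (he.hol _ hm) (hπd m))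
    · change Function.Bijective (md (Model n) (Model n₁ × Model n₂) (e ∘ π) p)
      rw [hmd p hp, ContinuousLinearMap.coe_comp']
      have hD : Function.Bijective (D p) := hdπ p
      refine Function.Bijective.comp ⟨he.md_injective hp, fun u => ?_⟩ hD
      have ht := e.map_source hp
      have h1 := md_comp_apply (F := Model n₁ × Model n₂) (E := Model n)
        (G := Model n₁ × Model n₂) (g := e) (f := e.symm) (y := e (π p))
        (by rw [e.left_inv hp]; exact he.hol _ hp) (he.hol_symm _ ht) u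
      have h2 : (e ∘ e.symm) =ᶠ[𝓝 (e (π p))] id := by
        filter_upwards [e.open_target.mem_nhds ht] with y hy using e.right_inv hy
      rw [md_congr h2, md_id, e.left_inv hp] at h1
      exact ⟨_, h1.symm⟩
    · refine hnb.mono fun m hm v => ?_
      have hc := he.compat _ hm (D m v)
      change (H m v → (md (Model n) (Model n₁ × Model n₂) (e ∘ π) m v).2 = 0) ∧
        (V m v → (md (Model n) (Model n₁ × Model n₂) (e ∘ π) m v).1 = 0)
      rw [hmd m hm]
      constructor
      · intro hv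
        have hv' : spP S (π m) (D m v) = D m v := hv
        rw [hv'] at hc
        exact congrArg Prod.snd hc
      · intro hv
        have hv' : spP S (π m) (D m v) = 0 := hv
        rw [hv', map_zero] at hc
        exact (congrArg Prod.fst hc).symm
  obtain ⟨A, hA⟩ := R266G.exists_patlas H V hdec hloc
  have hT : A.Touch := by
    intro Φ η p hp h₁ h₂ hΦ
    have hB : BifOn (spP S) (π ∘ Φ) {q : ℂ × ℂ | ‖q.1‖ ^ 2 + ‖q.2‖ ^ 2 < η ^ 2} := by
      intro q hq
      have hq' := hΦ q hq
      have hd : HolAt (ℂ × ℂ) (Model n) Φ q := hq'.1.mdifferentiableAt (by simp)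
      refine ⟨MDifferentiableAt.comp q (hπd _) hd, fun a => ?_, fun b => ?_⟩
      · rw [md_comp_apply (hπd _) hd]
        exact ((hA (Φ q) (Φ q) (A.mem _) _).1).mpr (hq'.mfderiv_fst a)
      · rw [md_comp_apply (hπd _) hd]
        exact ((hA (Φ q) (Φ q) (A.mem _) _).2).mpr (hq'.mfderiv_snd b)
    obtain ⟨y, hy⟩ := touch_of_locP hL hp h₁ h₂ hB
    exact R266G.tendsto_lift hcov (convex_sqBall η)
      (fun q hq => (hΦ q hq).1.continuousAt.continuousWithinAt) hy
  obtain ⟨B⟩ := R266G.PAtlas.exists_bracket hT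
  obtain ⟨Y₁, Y₂, t₁, t₂, c₁, c₂, m₁, m₂, k₁, k₂, s₁, s₂, Φ, Ψ, l, r, hΦ, hΨ, hd⟩ :=
    R266G.PAtlas.product_of_bracket B
  refine ⟨n₁, n₂, Y₁, Y₂, t₁, t₂, c₁, c₂, m₁, m₂, k₁, k₂, s₁, s₂, Φ, Ψ, l, r, hΦ, hΨ,
    fun p v => ⟨fun hv => ?_, fun hv => ?_⟩⟩
  · exact (hd p v).1 (((hA p p (A.mem p) v).1).mp hv)
  · exact (hd p v).2 (((hA p p (A.mem p) v).2).mp hv)

end Crest.Agent.R266
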