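import Crest.Agent.R266.Proj2

/-! Row 266 (S0404): the space of chains is locally analytic. -/

set_option autoImplicit false
set_option linter.unusedSectionVars false

open Set Filter Topology Metric
open scoped Manifold ContDiff

noncomputable section
namespace Crest.Agent.R266

section
variable {T T' : Type} [NormedAddCommGroup T] [NormedSpace ℂ T] [NormedAddCommGroup T']
  [NormedSpace ℂ T']

private theorem LA_union {α : Type} {s t : Set α} {p : α → Prop} :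
    (∀ x ∈ s ∪ t, p x) ↔ (∀ x ∈ s, p x) ∧ ∀ x ∈ t, p x := by
  simp only [mem_union, or_imp, forall_and]

theorem LocAn.inter {Z Z' : Set T} (h : LocAn Z) (h' : LocAn Z') : LocAn (Z ∩ Z') := by
  intro θ hθ
  obtain ⟨W, hW, hθW, 𝓕, h1, h2⟩ := h θ hθ.1
  obtain ⟨W', hW', hθW', 𝓕', h1', h2'⟩ := h' θ hθ.2
  refine ⟨W ∩ W', hW.inter hW', ⟨hθW, hθW'⟩, 𝓕 ∪ 𝓕', fun f hf => ?_, fun θ' hθ' => ?_⟩
  · exact hf.elim (fun hf => (h1 f hf).mono inter_subset_left)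
      fun hf => (h1' f hf).mono inter_subset_right
  · rw [mem_inter_iff, h2 θ' hθ'.1, h2' θ' hθ'.2, LA_union]

theorem LocAn.preimage {Z : Set T} (hZ : LocAn Z) {h : T' → T} {B : Set T'} (hB : IsOpen B)
    (hh : DifferentiableOn ℂ h B) : LocAn (B ∩ h ⁻¹' Z) := by
  intro θ hθ
  obtain ⟨W, hW, hθW, 𝓕, h1, h2⟩ := hZ (h θ) hθ.2
  refine ⟨B ∩ h ⁻¹' W, hh.continuousOn.isOpen_inter_preimage hB hW, ⟨hθ.1, hθW⟩,
    (fun f => f ∘ h) '' 𝓕, ?_, fun θ' hθ' => ?_⟩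
  · rintro _ ⟨f, hf, rfl⟩
    exact (h1 f hf).comp (hh.mono inter_subset_left) fun y hy => hy.2
  · rw [forall_mem_image, mem_inter_iff, mem_preimage, h2 _ hθ'.2]
    exact ⟨fun h => h.2, fun h => ⟨hθ'.1, h⟩⟩

/-- cut out further equations, valid on `Z` only. -/
theorem LocAn.sep {Z : Set T} (hZ : LocAn Z) {Q : T → Prop}
    (hQ : ∀ θ ∈ Z, Q θ → ∃ W : Set T, IsOpen W ∧ θ ∈ W ∧ ∃ 𝓖 : Set (T → ℂ),
      (∀ f ∈ 𝓖, DifferentiableOn ℂ f W) ∧ ∀ θ' ∈ W, θ' ∈ Z → (Q θ' ↔ ∀ f ∈ 𝓖, f θ' = 0)) :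
    LocAn {θ ∈ Z | Q θ} := by
  intro θ hθ
  obtain ⟨W, hW, hθW, 𝓕, h1, h2⟩ := hZ θ hθ.1
  obtain ⟨W', hW', hθW', 𝓕', h1', h2'⟩ := hQ θ hθ.1 hθ.2
  refine ⟨W ∩ W', hW.inter hW', ⟨hθW, hθW'⟩, 𝓕 ∪ 𝓕', fun f hf => ?_, fun θ' hθ' => ?_⟩
  · exact hf.elim (fun hf => (h1 f hf).mono inter_subset_left)
      fun hf => (h1' f hf).mono inter_subset_right
  · rw [LA_union, ← h2 θ' hθ'.1]
    exact and_congr_right fun hz => h2' θ' hθ'.2 hz

end

open Crest.AlgGeometry.HolSplit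

variable {n N : ℕ} {X : Type} [TopologicalSpace X] [ChartedSpace (Model n) X]
  [IsManifold (mI n) ω X] [T2Space X] [CompactSpace X] [Nonempty X] {ι : ProjEmbedding n X N}
  {P : X → Model n →L[ℂ] Model n}

private theorem LA_diff {d : ℕ} (u : ℂ) :
    Differentiable ℂ fun p : Fin (d + 1) → Fin (N + 1) → ℂ => Hev p u 1 :=
  differentiable_Hev.comp (f := fun p => (p, u, (1 : ℂ))) (by fun_prop)

private theorem LA_over {d : ℕ} {p : Fin (d + 1) → Fin (N + 1) → ℂ} (h : GoodC ι p) (u : ℂ) :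
    Over ι (Hev p u 1) (cv ι p u) :=
  over_pt (h u 1 (Or.inr one_ne_zero))

private theorem LA_open {d : ℕ} {p : Fin (d + 1) → Fin (N + 1) → ℂ} (h : GoodC ι p) {u : ℂ}
    {U : Set X} (hU : IsOpen U) (hu : cv ι p u ∈ U) :
    ∀ᶠ p' in 𝓝 p, GoodC ι p' → cv ι p' u ∈ U := by
  obtain ⟨R, hR0, hR⟩ := h.exists_ext u
  have hR1 : ∀ᶠ q in 𝓝 (p, u), R q ∈ U :=
    hR.self_of_nhds.1.continuousAt.eventually (hU.mem_nhds (hR0 ▸ hu))
  filter_upwards [(Continuous.prodMk_left u).continuousAt.eventually (hR.and hR1)] with p' hp' hg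
  exact hp'.1.2 _ (LA_over hg u) ▸ hp'.2

private theorem LA_eq {v w : Fin (N + 1) → ℂ} {x y : X} (hv : Over ι v x) (hw : Over ι w y) :
    x = y ↔ ∀ i j, v i * w j - v j * w i = 0 := by
  obtain ⟨hw0, c, rfl⟩ := hw
  have hc : c ≠ 0 := by
    rintro rfl
    exact hw0 (zero_smul _ _)
  simp only [Pi.smul_apply, smul_eq_mul]
  refine ⟨fun h i j => ?_, fun h => hv.unique (over_iff_prop2.2 ⟨hv.1, fun i j => ?_⟩)⟩
  · subst h
    linear_combination c * (over_iff_prop2.1 hv).2 i j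
  · refine mul_left_cancel₀ hc ?_
    linear_combination h i j

/-- near `p₀`: `R` from `GoodC.exists_ext` at `u = 0` on `W × D`, `W ⊆ {Hev ≠ 0}`
(`isOpen_Hev_ne`), `R` maps into `nbhd x₀`; equations
`p ↦ Hev p u 1 i * coords x₀ (R (p, u)) j - Hev p u 1 j * coords x₀ (R (p, u)) i`, `u ∈ D`;
`goodC_of_eventually`. -/
theorem locAn_goodC {d : ℕ} : LocAn {p : Fin (d + 1) → Fin (N + 1) → ℂ | GoodC ι p} := by
  intro p₀ hp₀
  obtain ⟨R, hR0, hR⟩ := GoodC.exists_ext hp₀ 0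
  have hR1 : ∀ᶠ q in 𝓝 (p₀, (0 : ℂ)), R q ∈ ι.nbhd (R (p₀, 0)) :=
    hR.self_of_nhds.1.continuousAt.eventually ((ι.isOpen_nbhd _).mem_nhds (ι.mem_nbhd _))
  obtain ⟨W, D, hW, hp₀W, hD, h0D, hWD⟩ := mem_nhds_prod_iff'.1 (hR.and hR1)
  refine ⟨W ∩ _, hW.inter (isOpen_Hev_ne (N := N) (d := d)), ⟨hp₀W, fun u v h => ?_⟩,
    {f | ∃ u ∈ D, ∃ i j, f = fun p => Hev p u 1 i * ι.coords (R (p₀, 0)) (R (p, u)) j -
      Hev p u 1 j * ι.coords (R (p₀, 0)) (R (p, u)) i}, ?_, fun p hp => ⟨fun h => ?_, fun h => ?_⟩⟩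
  · obtain ⟨x, hx⟩ := hp₀ u v h
    exact hx.1
  · rintro _ ⟨u, hu, i, j, rfl⟩ p hp
    have h1 := hWD (mk_mem_prod hp.1 hu)
    have h2 : DifferentiableAt ℂ (fun p => ι.coords (R (p₀, 0)) (R (p, u))) p :=
      DifferentiableAt.comp p (g := ι.coords (R (p₀, 0)) ∘ R) (f := fun p => (p, u))
        (holAt_self.1 ((holAt_coords h1.2).comp _ h1.1.1)) (by fun_prop)
    have h3 := LA_diff (N := N) (d := d) u p
    rw [differentiableAt_pi] at h2 h3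
    exact (((h3 i).mul (h2 j)).sub ((h3 j).mul (h2 i))).differentiableWithinAt
  · rintro _ ⟨u, hu, i, j, rfl⟩
    have h1 := hWD (mk_mem_prod hp.1 hu)
    obtain ⟨x, hx⟩ := h u 1 (Or.inr one_ne_zero)
    have h2 : R (p, u) = x := h1.1.2 x hx
    rw [← h2] at hx
    exact sub_eq_zero.2 ((prop2_iff h1.2).1 (over_iff_prop2.1 hx).2 i j)
  · refine goodC_of_eventually hp.2 (u₀ := 0) ?_
    filter_upwards [hD.mem_nhds h0D] with u hu
    have h1 := hWD (mk_mem_prod hp.1 hu)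
    exact ⟨R (p, u), over_iff_prop2.2 ⟨hp.2 u 1 (Or.inr one_ne_zero),
      (prop2_iff h1.2).2 fun i j => sub_eq_zero.1 (h _ ⟨u, hu, i, j, rfl⟩)⟩⟩

theorem A2_vt_iff {T : Type} [NormedAddCommGroup T] [NormedSpace ℂ T] {R : T × ℂ → X} {c : X}
    {p : T} {u : ℂ} (hR : HolAt (T × ℂ) (Model n) R (p, u))
    (hc : R (p, u) ∈ (chartAt (Model n) c).source) :
    VT ℂ P (fun u' => R (p, u')) u ↔
      Pc P c ((chartAt (Model n) c ∘ R) (p, u))
        (fderiv ℂ (chartAt (Model n) c ∘ R) (p, u) (0, 1)) = 0 := by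
  have h1 : HasFDerivAt (fun u' : ℂ => (p, u')) (ContinuousLinearMap.inr ℂ T ℂ) u :=
    hasFDerivAt_prodMk_right p u
  have h2 : ∀ a : ℂ, md ℂ (Model n) (fun u' => R (p, u')) u a =
      a • md (T × ℂ) (Model n) R (p, u) (0, 1) := by
    intro a
    have h3 := md_comp_apply (g := R) (f := fun u' : ℂ => (p, u')) (y := u) hR
      (holAt_self.2 h1.differentiableAt) a
    rw [md_self, h1.fderiv] at h3
    refine h3.trans ?_
    rw [← map_smul]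
    congr 1
    simp
  rw [(hasFDerivAt_chart hR hc).fderiv, ContinuousLinearMap.comp_apply, Function.comp_apply,
    Pc_tc P hc]
  constructor
  · intro h
    have h3 := h 1
    rw [h2, one_smul] at h3
    rw [h3, map_zero]
  · intro h a
    have h3 := ti_tc hc (P (R (p, u)) (md (T × ℂ) (Model n) R (p, u) (0, 1)))
    rw [h, map_zero] at h3
    rw [h2, map_smul, ← h3, smul_zero]

/-- equations `p ↦ (Pc P c (chart (R (p,u))) (D(chart ∘ R) (p,u) (0,1))) i`, `u ∈ D`;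
`IsPF.vt_of_eventually`. -/
theorem locAn_vt (hP : IsPF P) {d : ℕ} :
    LocAn {p : Fin (d + 1) → Fin (N + 1) → ℂ | GoodC ι p ∧ ∀ u, VT ℂ P (cv ι p) u} := by
  refine LocAn.sep (locAn_goodC (ι := ι) (d := d)) (Q := fun p => ∀ u, VT ℂ P (cv ι p) u)
    fun p hp _ => ?_
  obtain ⟨R, -, hR⟩ := GoodC.exists_ext hp 0
  obtain ⟨c, hc⟩ : ∃ c, R (p, 0) ∈ (chartAt (Model n) c).source := ⟨_, mem_chart_source _ _⟩
  have hc' : ∀ᶠ q in 𝓝 (p, (0 : ℂ)), R q ∈ (chartAt (Model n) c).source :=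
    hR.self_of_nhds.1.continuousAt.eventually_mem ((chartAt (Model n) c).open_source.mem_nhds hc)
  obtain ⟨W, D, hW, hpW, hD, h0D, hWD⟩ := mem_nhds_prod_iff'.1 (hR.and hc')
  have hS : DifferentiableOn ℂ (chartAt (Model n) c ∘ R) (W ×ˢ D) := fun q hq =>
    (hasFDerivAt_chart (hWD hq).1.1 (hWD hq).2).differentiableAt.differentiableWithinAt
  have hS' := Crest.Agent.R264.SCV.differentiableOn_fderiv (hW.prod hD) hS
  have hG : DifferentiableOn ℂ (fun q => Pc P c ((chartAt (Model n) c ∘ R) q)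
      (fderiv ℂ (chartAt (Model n) c ∘ R) q (0, 1))) (W ×ˢ D) :=
    ((hP.hol c).comp hS fun q hq => (chartAt (Model n) c).map_source (hWD hq).2).clm_apply
      (hS'.clm_apply (differentiableOn_const _))
  have key : ∀ p' ∈ W, GoodC ι p' → ∀ u ∈ D, (VT ℂ P (cv ι p') u ↔
      Pc P c ((chartAt (Model n) c ∘ R) (p', u))
        (fderiv ℂ (chartAt (Model n) c ∘ R) (p', u) (0, 1)) = 0) := by
    intro p' hp' hg u hu
    have hq : (p', u) ∈ W ×ˢ D := ⟨hp', hu⟩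
    have h1 : cv ι p' =ᶠ[𝓝 u] fun u' => R (p', u') := by
      filter_upwards [hD.mem_nhds hu] with u' hu'
      exact ((hWD (show (p', u') ∈ W ×ˢ D from ⟨hp', hu'⟩)).1.2 _
        (over_pt (hg u' 1 (Or.inr one_ne_zero)))).symm
    rw [← A2_vt_iff (hWD hq).1.1 (hWD hq).2]
    exact ⟨fun h => h.congr h1.symm, fun h => h.congr h1⟩
  refine ⟨W, hW, hpW, {f | ∃ u ∈ D, ∃ i : Fin n, f = fun p' =>
    Pc P c ((chartAt (Model n) c ∘ R) (p', u))
      (fderiv ℂ (chartAt (Model n) c ∘ R) (p', u) (0, 1)) i}, ?_, fun p' hp' hg => ⟨?_, ?_⟩⟩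
  · rintro f ⟨u, hu, i, rfl⟩
    exact (EuclideanSpace.proj (𝕜 := ℂ) i).differentiable.comp_differentiableOn
      (hG.comp (f := fun p' => (p', u)) (by fun_prop) fun p' hp' => ⟨hp', hu⟩)
  · rintro h f ⟨u, hu, i, rfl⟩
    show (Pc P c _ _ : Model n) i = 0
    rw [(key p' hp' hg u hu).1 (h u)]
    rfl
  · intro h u
    refine hP.vt_of_eventually isOpen_univ isPreconnected_univ
      (fun y _ => (GoodC.rc hg).hol₀ y) (mem_univ 0) ?_ u (mem_univ u)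
    filter_upwards [hD.mem_nhds h0D] with u' hu'
    refine (key p' hp' hg u' hu').2 ?_
    ext i
    exact h _ ⟨u', hu', i, rfl⟩

theorem locAn_ht (hP : IsPF P) {d : ℕ} :
    LocAn {p : Fin (d + 1) → Fin (N + 1) → ℂ | GoodC ι p ∧ ∀ u, HT ℂ P (cv ι p) u} := by
  simpa only [HT_iff_sw] using locAn_vt (ι := ι) hP.sw (d := d)

/-- the three tangency conditions by `locAn_ht`, `locAn_vt`, `LocAn.preimage` (projections),
`LocAn.inter`; `cv θ.1 0 = x` iff `Prop2 (Hev θ.1 0 1) x`; `cv p 1 = cv q 0` iff all minors of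
`Hev p 1 1`, `Hev q 0 1` vanish; the conditions with `U`, `V` are open relative to `GoodC`
(`GoodC.exists_ext`, `LocAn.sep` with the empty family). -/
theorem locAn_chains (hP : IsPF P) (x : X) {U V : Set X} (hU : IsOpen U) (hV : IsOpen V)
    (d₁ d₂ d₃ : ℕ) : LocAn {θ ∈ Chains ι P x U d₁ d₂ d₃ | cv ι θ.2.2 1 ∈ V} := by
  have h1 := (locAn_ht (ι := ι) hP (d := d₁)).preimage (h := fun θ : Par N d₁ d₂ d₃ => θ.1)
    isOpen_univ (by fun_prop)
  have h2 := (locAn_vt (ι := ι) hP (d := d₂)).preimage (h := fun θ : Par N d₁ d₂ d₃ => θ.2.1)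
    isOpen_univ (by fun_prop)
  have h3 := (locAn_ht (ι := ι) hP (d := d₃)).preimage (h := fun θ : Par N d₁ d₂ d₃ => θ.2.2)
    isOpen_univ (by fun_prop)
  have h4 := ((h1.inter h2).inter h3).sep (Q := fun θ => (cv ι θ.1 0 = x ∧
      cv ι θ.1 1 = cv ι θ.2.1 0 ∧ cv ι θ.2.1 1 = cv ι θ.2.2 0) ∧ (∃ c, cv ι θ.2.1 c ∈ U) ∧
      cv ι θ.2.2 1 ∈ V) ?_
  · convert h4 using 1
    ext θ
    simp only [Chains, mem_ofPred_eq, mem_inter_iff, mem_univ, mem_preimage, true_and]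
    tauto
  rintro θ ⟨⟨⟨-, g1, -⟩, ⟨-, g2, -⟩⟩, ⟨-, g3, -⟩⟩ ⟨-, ⟨c, hc⟩, hv⟩
  obtain ⟨W, hW, hWo, hθW⟩ := _root_.eventually_nhds_iff.1
    (((continuous_fst.comp continuous_snd).continuousAt.eventually (LA_open g2 hU hc)).and
      ((continuous_snd.comp continuous_snd).continuousAt.eventually (LA_open g3 hV hv)))
  refine ⟨W, hWo, hθW,
    range (fun (k : Fin (N + 1) × Fin (N + 1)) (θ : Par N d₁ d₂ d₃) =>
      Hev θ.1 0 1 k.1 * ι.coords x x k.2 - Hev θ.1 0 1 k.2 * ι.coords x x k.1) ∪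
    (range (fun (k : Fin (N + 1) × Fin (N + 1)) (θ : Par N d₁ d₂ d₃) =>
      Hev θ.1 1 1 k.1 * Hev θ.2.1 0 1 k.2 - Hev θ.1 1 1 k.2 * Hev θ.2.1 0 1 k.1) ∪
    range (fun (k : Fin (N + 1) × Fin (N + 1)) (θ : Par N d₁ d₂ d₃) =>
      Hev θ.2.1 1 1 k.1 * Hev θ.2.2 0 1 k.2 - Hev θ.2.1 1 1 k.2 * Hev θ.2.2 0 1 k.1)), ?_, ?_⟩
  · have a1 : ∀ u i, Differentiable ℂ fun θ : Par N d₁ d₂ d₃ => Hev θ.1 u 1 i := fun u =>
      differentiable_pi.1 ((LA_diff u).comp (by fun_prop))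
    have a2 : ∀ u i, Differentiable ℂ fun θ : Par N d₁ d₂ d₃ => Hev θ.2.1 u 1 i := fun u =>
      differentiable_pi.1 ((LA_diff u).comp (by fun_prop))
    have a3 : ∀ u i, Differentiable ℂ fun θ : Par N d₁ d₂ d₃ => Hev θ.2.2 u 1 i := fun u =>
      differentiable_pi.1 ((LA_diff u).comp (by fun_prop))
    rintro _ (⟨k, rfl⟩ | ⟨k, rfl⟩ | ⟨k, rfl⟩)
    · exact (((a1 _ _).mul_const _).sub ((a1 _ _).mul_const _)).differentiableOn
    · exact (((a1 _ _).mul (a2 _ _)).sub ((a1 _ _).mul (a2 _ _))).differentiableOn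
    · exact (((a2 _ _).mul (a3 _ _)).sub ((a2 _ _).mul (a3 _ _))).differentiableOn
  · rintro θ' hθ' ⟨⟨⟨-, g1, -⟩, ⟨-, g2, -⟩⟩, ⟨-, g3, -⟩⟩
    rw [LA_union, LA_union, forall_mem_range, forall_mem_range, forall_mem_range,
      LA_eq (LA_over g1 0) (over_coords (ι.mem_nbhd x)), LA_eq (LA_over g1 1) (LA_over g2 0),
      LA_eq (LA_over g2 1) (LA_over g3 0), Prod.forall, Prod.forall, Prod.forall]
    exact and_iff_left ⟨⟨c, (hW θ' hθ').1 g2⟩, (hW θ' hθ').2 g3⟩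

end Crest.Agent.R266
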