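import Crest.Agent.R266.Defs

/-! Row 266: the monodromy theorem for a class of germs.

The space of pairs `(y, germ at y of a good map)`, with the topology generated by the sections
`y ↦ (y, germ of f at y)` (`f` good on an open set), is a covering space of `M`: over `W` it is
`W × fibre` (`IsOpen.trivializationDiscrete` or directly `IsEvenlyCovered`).  Lift the identity
(`IsCoveringMap.existsUnique_continuousMap_lifts`) and let `F y` be the value at `y` of the lifted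
germ. -/

set_option autoImplicit false
set_option linter.unusedSectionVars false

open Set Filter Topology Metric
open scoped Manifold ContDiff

noncomputable section
namespace Crest.Agent.R266

/-- The étale space of good germs (adapted from `R266/GMono`). -/
structure MEt {M T : Type} [TopologicalSpace M] (Good : M → (M → T) → Prop) where
  /-- the base point -/
  pt : M
  /-- the germ, as a class of maps -/
  cls : Set (M → T)
  ex : ∃ f, Good pt f ∧ cls = {g | g =ᶠ[𝓝 pt] f}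

namespace MEt

variable {M T : Type} [TopologicalSpace M] {Good : M → (M → T) → Prop}

theorem exists_mem (e : MEt Good) : ∃ f, f ∈ e.cls ∧ Good e.pt f := by
  obtain ⟨f, h, hf⟩ := e.ex
  exact ⟨f, by rw [hf]; exact EventuallyEq.refl _ _, h⟩

theorem mem_iff (e : MEt Good) {f g : M → T} (hf : f ∈ e.cls) : g ∈ e.cls ↔ g =ᶠ[𝓝 e.pt] f := by
  obtain ⟨k, -, h⟩ := e.ex
  rw [h] at hf ⊢
  exact ⟨fun hg => EventuallyEq.trans hg (EventuallyEq.symm hf), fun hg => EventuallyEq.trans hg hf⟩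

theorem ext' {e e' : MEt Good} (hp : e.pt = e'.pt) {f : M → T} (hf : f ∈ e.cls) (hf' : f ∈ e'.cls) :
    e = e' := by
  have hc : e.cls = e'.cls := by
    ext g
    rw [e.mem_iff hf, e'.mem_iff hf', hp]
  cases e
  cases e'
  simp only at hp hc
  subst hp
  subst hc
  rfl

theorem exists_of_good {f : M → T} {x : M} (h : Good x f) : ∃ e : MEt Good, e.pt = x ∧ f ∈ e.cls :=
  ⟨⟨x, {g | g =ᶠ[𝓝 x] f}, f, h, rfl⟩, rfl, EventuallyEq.refl _ _⟩

instance : TopologicalSpace (MEt Good) where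
  IsOpen W := ∀ e ∈ W, ∀ f ∈ e.cls, ∀ᶠ x' in 𝓝 e.pt, ∀ e' : MEt Good, e'.pt = x' → f ∈ e'.cls → e' ∈ W
  isOpen_univ := fun _ _ _ _ => Eventually.of_forall fun _ _ _ _ => mem_univ _
  isOpen_inter := fun s t hs ht e he f hf => by
    filter_upwards [hs e he.1 f hf, ht e he.2 f hf] with x' h1 h2 e' hp hf'
    exact ⟨h1 e' hp hf', h2 e' hp hf'⟩
  isOpen_sUnion := fun s hs e he f hf => by
    obtain ⟨t, ht, het⟩ := he
    filter_upwards [hs t ht e het f hf] with x' h1 e' hp hf'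
    exact ⟨t, ht, h1 e' hp hf'⟩

theorem isOpen_iff {W : Set (MEt Good)} : IsOpen W ↔
    ∀ e ∈ W, ∀ f ∈ e.cls, ∀ᶠ x' in 𝓝 e.pt, ∀ e' : MEt Good, e'.pt = x' → f ∈ e'.cls → e' ∈ W :=
  Iff.rfl

theorem continuous_pt : Continuous (MEt.pt : MEt Good → M) := by
  refine continuous_def.2 fun W hW => isOpen_iff.2 fun e he f _ => ?_
  filter_upwards [hW.mem_nhds he] with x' hx' e' hp _
  show e'.pt ∈ W
  rwa [hp]

theorem isOpen_sheet (f : M → T) : IsOpen {e : MEt Good | f ∈ e.cls} := by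
  refine isOpen_iff.2 fun e he g hg => ?_
  filter_upwards [((e.mem_iff hg).1 he).eventuallyEq_nhds] with x' hx' e' hp hg'
  exact (e'.mem_iff hg').2 (hp ▸ hx')

theorem evenly_aux {ι : Type} [Nonempty ι] [Nonempty (MEt Good)] {V : Set M} (hV : IsOpen V) {x : M}
    (hx : x ∈ V) (g : ι → M → T) (hg : ∀ i, ∀ q ∈ V, Good q (g i))
    (hdisj : ∀ i j, ∀ q ∈ V, g i =ᶠ[𝓝 q] g j → i = j)
    (hexh : ∀ e : MEt Good, e.pt ∈ V → ∃ i, g i ∈ e.cls) :
    IsEvenlyCovered (MEt.pt : MEt Good → M) x ((MEt.pt : MEt Good → M) ⁻¹' {x}) := by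
  let : TopologicalSpace ι := ⊥
  have : DiscreteTopology ι := ⟨rfl⟩
  let U : ι → Set (MEt Good) := fun i => {e | e.pt ∈ V ∧ g i ∈ e.cls}
  have open_iff : ∀ i {W : Set M}, W ⊆ V →
      (IsOpen W ↔ IsOpen ((MEt.pt : MEt Good → M) ⁻¹' W ∩ U i)) := by
    intro i W hWV
    constructor
    · intro hW
      exact (hW.preimage continuous_pt).inter ((hV.preimage continuous_pt).inter (isOpen_sheet (g i)))
    · intro hW
      refine isOpen_iff_mem_nhds.2 fun w hw => ?_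
      obtain ⟨e, rfl, he⟩ := exists_of_good (hg i w (hWV hw))
      filter_upwards [isOpen_iff.1 hW e ⟨hw, hWV hw, he⟩ (g i) he, hV.mem_nhds (hWV hw)] with x' h2 h3
      obtain ⟨e', rfl, he'⟩ := exists_of_good (hg i x' h3)
      exact (h2 e' rfl he').1
  have inj : ∀ i, (U i).InjOn (MEt.pt : MEt Good → M) := fun i e he e' he' hp =>
    ext' hp he.2 he'.2
  have surj : ∀ i, (U i).SurjOn (MEt.pt : MEt Good → M) V := by
    intro i w hw
    obtain ⟨e, hp, he⟩ := exists_of_good (hg i w hw)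
    exact ⟨e, ⟨hp ▸ hw, he⟩, hp⟩
  have disj : Pairwise (Function.onFun Disjoint U) := fun i j hij =>
    Set.disjoint_left.2 fun e hi hj => hij (hdisj i j e.pt hi.1 ((e.mem_iff hj.2).1 hi.2))
  have exh : (MEt.pt : MEt Good → M) ⁻¹' V ⊆ ⋃ i, U i := by
    intro e he
    obtain ⟨i, hi⟩ := hexh e he
    exact mem_iUnion.2 ⟨i, he, hi⟩
  exact (IsEvenlyCovered.of_trivialization
    (t := hV.trivializationDiscrete U V open_iff inj surj disj exh) (x := x)
    (by simpa using hx)).to_isEvenlyCovered_preimage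

theorem isCoveringMap_pt (hloc : ∀ y, ∃ W, IsOpen W ∧ y ∈ W ∧
      (∀ y' ∈ W, ∀ f, Good y' f → ∃ f', (∀ z ∈ W, Good z f') ∧ f' =ᶠ[𝓝 y'] f) ∧
      ∀ f f', (∀ z ∈ W, Good z f) → (∀ z ∈ W, Good z f') → ∀ y' ∈ W, f =ᶠ[𝓝 y'] f' → EqOn f f' W) :
    IsCoveringMap (MEt.pt : MEt Good → M) := by
  intro x
  obtain ⟨V, hVo, hxV, hext, hid⟩ := hloc x
  have hext' : ∀ e : MEt Good, e.pt ∈ V → ∃ g ∈ e.cls, ∀ q ∈ V, Good q g := fun e he => by
    obtain ⟨f, hf, hf'⟩ := e.exists_mem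
    obtain ⟨g, hg, hgf⟩ := hext e.pt he f hf'
    exact ⟨g, (e.mem_iff hf).2 hgf, hg⟩
  by_cases hne : ∃ e : MEt Good, e.pt = x
  · obtain ⟨e₀, he₀⟩ := hne
    have : Nonempty (MEt Good) := ⟨e₀⟩
    have : Nonempty {e : MEt Good // e.pt = x} := ⟨⟨e₀, he₀⟩⟩
    choose g hgi hg using fun i : {e : MEt Good // e.pt = x} => hext' i.1 (i.2.symm ▸ hxV)
    refine evenly_aux hVo hxV g hg ?_ ?_
    · intro i j q hq h
      refine Subtype.ext (ext' (i.2.trans j.2.symm) (hgi i) ((j.1.mem_iff (hgi j)).2 ?_))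
      exact (hid _ _ (hg i) (hg j) q hq h).eventuallyEq_of_mem (hVo.mem_nhds (j.2.symm ▸ hxV))
    · intro e he
      obtain ⟨k, hke, hk⟩ := hext' e he
      obtain ⟨i, hp, hi⟩ := exists_of_good (hk x hxV)
      refine ⟨⟨i, hp⟩, (e.mem_iff hke).2 ?_⟩
      have h1 := (i.mem_iff hi).1 (hgi ⟨i, hp⟩)
      rw [show i.pt = x from hp] at h1
      exact (hid _ _ (hg ⟨i, hp⟩) hk x hxV h1).eventuallyEq_of_mem (hVo.mem_nhds he)
  · refine (IsEvenlyCovered.of_preimage_eq_empty Empty (hVo.mem_nhds hxV) ?_).to_isEvenlyCovered_preimage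
    refine Set.eq_empty_of_forall_notMem fun e he => hne ?_
    obtain ⟨k, -, hk⟩ := hext' e he
    obtain ⟨i, hp, -⟩ := exists_of_good (hk x hxV)
    exact ⟨i, hp⟩

end MEt

theorem monodromy {M T : Type} [TopologicalSpace M] [SimplyConnectedSpace M]
    [LocallyPathConnectedSpace M] (Good : M → (M → T) → Prop)
    (hgerm : ∀ y f f', Good y f → f' =ᶠ[𝓝 y] f → Good y f')
    (hloc : ∀ y, ∃ W, IsOpen W ∧ y ∈ W ∧
      (∀ y' ∈ W, ∀ f, Good y' f → ∃ f', (∀ z ∈ W, Good z f') ∧ f' =ᶠ[𝓝 y'] f) ∧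
      ∀ f f', (∀ z ∈ W, Good z f) → (∀ z ∈ W, Good z f') → ∀ y' ∈ W, f =ᶠ[𝓝 y'] f' → EqOn f f' W)
    {y₀ : M} {f₀ : M → T} (h₀ : Good y₀ f₀) : ∃ F, (∀ y, Good y F) ∧ F =ᶠ[𝓝 y₀] f₀ := by
  obtain ⟨e₀, hp₀, he₀⟩ := MEt.exists_of_good h₀
  obtain ⟨F, ⟨hF₀, hF⟩, -⟩ := (MEt.isCoveringMap_pt hloc).existsUnique_continuousMap_lifts
    (ContinuousMap.id M) y₀ e₀ (by simpa using hp₀)
  have hFp : ∀ x, (F x).pt = x := fun x => congrFun hF x
  choose r hr hr' using fun x => (F x).exists_mem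
  have key : ∀ x, ∀ g ∈ (F x).cls, (fun y => r y y) =ᶠ[𝓝 x] g := by
    intro x g hg
    have h1 : ∀ᶠ y in 𝓝 x, g ∈ (F y).cls :=
      ((MEt.isOpen_sheet g).preimage F.continuous).mem_nhds hg
    filter_upwards [h1] with y hy
    have h2 := ((F y).mem_iff hy).1 (hr y)
    rw [hFp] at h2
    exact h2.eq_of_nhds
  refine ⟨fun y => r y y, fun x => ?_, key y₀ f₀ (hF₀ ▸ he₀)⟩
  have h3 := hr' x
  rw [hFp] at h3
  exact hgerm x _ _ h3 (key x _ (hr x))

/-- a retract of a simply connected space is simply connected. -/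
theorem simplyConnected_of_retract {M Y : Type} [TopologicalSpace M] [TopologicalSpace Y]
    [SimplyConnectedSpace M] {q : M → Y} {s : Y → M} (hq : Continuous q) (hs : Continuous s)
    (h : ∀ y, q (s y) = y) : SimplyConnectedSpace Y := by
  refine simply_connected_iff_paths_homotopic'.2
    ⟨(Function.RightInverse.surjective h).pathConnectedSpace hq, fun {x y} p₁ p₂ => ?_⟩
  have h1 := ((SimplyConnectedSpace.paths_homotopic (p₁.map hs) (p₂.map hs)).map ⟨q, hq⟩).pathCast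
    (h x).symm (h y).symm
  convert h1 using 1 <;> ext t <;> simp [h]

end Crest.Agent.R266
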