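import Crest.Agent.R266.CKDefs
import Crest.Agent.R266.Frob1

/-! Row 266 (S0404): parallel forms along a vertical curve, local theory. -/

set_option autoImplicit false
set_option linter.unusedSectionVars false

open Set Filter Topology Metric
open scoped Manifold ContDiff

noncomputable section
namespace Crest.Agent.R266

/-- fundamental solution of `Φ' = Φ A` and its inverse (`Ψ' = - A Ψ`): apply
`Crest.Agent.R264.exists_local_flow` to `(u, Φ, Ψ) ↦ (1, Φ ∘ A u, - A u ∘ Ψ)`; `(Φ Ψ)' = 0`, and a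
one-sided inverse in finite dimension is two-sided. -/
theorem lin_fund {E : Type} [NormedAddCommGroup E] [NormedSpace ℂ E] [FiniteDimensional ℂ E]
    {A : ℂ → E →L[ℂ] E} {u₀ : ℂ} (hA : ∀ᶠ u in 𝓝 u₀, DifferentiableAt ℂ A u) :
    ∃ Φ Ψ : ℂ → E →L[ℂ] E, ∀ᶠ u in 𝓝 u₀, HasDerivAt Φ ((Φ u).comp (A u)) u ∧
      HasDerivAt Ψ (-(A u).comp (Ψ u)) u ∧ (∀ v, Φ u (Ψ u v) = v) ∧ ∀ v, Ψ u (Φ u v) = v := by
  obtain ⟨U, hU, hUo, hu₀⟩ := _root_.eventually_nhds_iff.1 hA
  have hAU : DifferentiableOn ℂ A U := fun u hu => (hU u hu).differentiableWithinAt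
  have hX : DifferentiableOn ℂ (fun s : ℂ × (E →L[ℂ] E) × (E →L[ℂ] E) =>
      (((1 : ℂ), s.2.1.comp (A s.1), -(A s.1).comp s.2.2) : ℂ × (E →L[ℂ] E) × (E →L[ℂ] E)))
      (U ×ˢ univ) := by
    have hA1 : DifferentiableOn ℂ (fun s : ℂ × (E →L[ℂ] E) × (E →L[ℂ] E) => A s.1) (U ×ˢ univ) :=
      hAU.comp differentiableOn_fst fun q hq => hq.1
    refine DifferentiableOn.prodMk (differentiableOn_const _) (DifferentiableOn.prodMk ?_ ?_)
    · exact (differentiableOn_snd.fst).clm_comp hA1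
    · exact (hA1.clm_comp differentiableOn_snd.snd).neg
  obtain ⟨ε, hε, Γ, -, -, hf⟩ := R264.exists_local_flow (hUo.prod isOpen_univ) hX
    (a := (u₀, ContinuousLinearMap.id ℂ E, ContinuousLinearMap.id ℂ E)) ⟨hu₀, mem_univ _⟩
  obtain ⟨h0, hd⟩ := hf _ (mem_ball_self hε)
  set γ : ℂ → ℂ × (E →L[ℂ] E) × (E →L[ℂ] E) :=
    fun s => Γ (s, (u₀, ContinuousLinearMap.id ℂ E, ContinuousLinearMap.id ℂ E)) with hγ
  have h0' : γ 0 = (u₀, ContinuousLinearMap.id ℂ E, ContinuousLinearMap.id ℂ E) := h0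
  have hd1 : ∀ t ∈ ball (0 : ℂ) ε, HasDerivAt (fun s => (γ s).1) 1 t := fun t ht => by
    have := (ContinuousLinearMap.fst ℂ ℂ ((E →L[ℂ] E) × (E →L[ℂ] E))).hasFDerivAt.comp_hasDerivAt t
      (hd t ht)
    exact this
  have hd2 : ∀ t ∈ ball (0 : ℂ) ε,
      HasDerivAt (fun s => (γ s).2.1) ((γ t).2.1.comp (A (γ t).1)) t := fun t ht => by
    have := ((ContinuousLinearMap.fst ℂ (E →L[ℂ] E) (E →L[ℂ] E)).comp
      (ContinuousLinearMap.snd ℂ ℂ ((E →L[ℂ] E) × (E →L[ℂ] E)))).hasFDerivAt.comp_hasDerivAt t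
        (hd t ht)
    exact this
  have hd3 : ∀ t ∈ ball (0 : ℂ) ε,
      HasDerivAt (fun s => (γ s).2.2) (-(A (γ t).1).comp (γ t).2.2) t := fun t ht => by
    have := ((ContinuousLinearMap.snd ℂ (E →L[ℂ] E) (E →L[ℂ] E)).comp
      (ContinuousLinearMap.snd ℂ ℂ ((E →L[ℂ] E) × (E →L[ℂ] E)))).hasFDerivAt.comp_hasDerivAt t
        (hd t ht)
    exact this
  have e1 : ∀ t ∈ ball (0 : ℂ) ε, (γ t).1 - (u₀ + t) = 0 := by
    refine lin_zero (L := fun _ => 0) continuousOn_const (fun t ht => ?_) (mem_ball_self hε)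
      (by simp [h0'])
    exact ((hd1 t ht).fun_sub ((hasDerivAt_id' t).const_add u₀)).congr_deriv (by simp)
  have e2 : ∀ t ∈ ball (0 : ℂ) ε,
      (γ t).2.1.comp (γ t).2.2 - ContinuousLinearMap.id ℂ E = 0 := by
    refine lin_zero (L := fun _ => 0) continuousOn_const (fun t ht => ?_) (mem_ball_self hε)
      (by simp [h0'])
    have := ((hd2 t ht).clm_comp (hd3 t ht)).sub_const (ContinuousLinearMap.id ℂ E)
    refine this.congr_deriv ?_
    ext v
    simp
  refine ⟨fun u => (γ (u - u₀)).2.1, fun u => (γ (u - u₀)).2.2, ?_⟩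
  filter_upwards [ball_mem_nhds u₀ hε] with u hu
  have hu' : u - u₀ ∈ ball (0 : ℂ) ε := by simpa [dist_eq_norm] using hu
  have e3 : (γ (u - u₀)).1 = u := by
    have := sub_eq_zero.1 (e1 _ hu')
    rw [this]; ring
  have hs : HasDerivAt (fun u : ℂ => u - u₀) 1 u := (hasDerivAt_id u).sub_const u₀
  have e4 : ∀ v, (γ (u - u₀)).2.1 ((γ (u - u₀)).2.2 v) = v := fun v => by
    have := congrArg (fun L : E →L[ℂ] E => L v) (sub_eq_zero.1 (e2 _ hu'))
    simpa using this
  refine ⟨?_, ?_, e4, fun v => ?_⟩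
  · have := (hd2 _ hu').scomp u hs
    rw [e3, one_smul] at this
    exact this
  · have := (hd3 _ hu').scomp u hs
    rw [e3, one_smul] at this
    exact this
  · have h1 : ((γ (u - u₀)).2.1 : E →ₗ[ℂ] E) * ((γ (u - u₀)).2.2 : E →ₗ[ℂ] E) = 1 := by
      ext w; exact e4 w
    have h2 := mul_eq_one_comm.1 h1
    exact congrArg (fun L : E →ₗ[ℂ] E => L v) h2

variable {E : Type} [NormedAddCommGroup E] [NormedSpace ℂ E] [FiniteDimensional ℂ E]
  {X : Type} [TopologicalSpace X] [ChartedSpace E X] [IsManifold 𝓘(ℂ, E) ω X]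
  {P : X → E →L[ℂ] E}

theorem IsPF.differentiableAt_Ac (hP : IsPF P) {β : ℂ → X} {u : ℂ} {c : X}
    (hβ : ∀ᶠ t in 𝓝 u, HolAt ℂ E β t) (hc : β u ∈ (chartAt E c).source) :
    DifferentiableAt ℂ (Ac P β c) u := by
  have han := analyticAt_chart hβ hc
  have ht : chartAt E c (β u) ∈ (chartAt E c).target := (chartAt E c).map_source hc
  have h1 : DifferentiableAt ℂ (fun t => Pc P c (chartAt E c (β t))) u :=
    DifferentiableAt.comp (g := Pc P c) (f := chartAt E c ∘ β) u (hP.B2b_diff ht)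
      han.differentiableAt
  have h2 : DifferentiableAt ℂ (fun t => fderiv ℂ (Pc P c) (chartAt E c (β t))) u :=
    DifferentiableAt.comp (F := E) (G := E →L[ℂ] E →L[ℂ] E) (g := fderiv ℂ (Pc P c))
      (f := chartAt E c ∘ β) u (hP.B2b_diff2 ht) han.differentiableAt
  have h3 : DifferentiableAt ℂ (deriv (chartAt E c ∘ β)) u := han.deriv.differentiableAt
  have h4 : DifferentiableAt ℂ
      (fun t => (fderiv ℂ (Pc P c) (chartAt E c (β t))).flip) u :=
    ((ContinuousLinearMap.flipₗᵢ ℂ E E E).toContinuousLinearEquiv.differentiableAt).comp u h2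
  unfold Ac
  exact ((h4.clm_apply h3).clm_comp h1).add
    ((h2.clm_apply h3).clm_comp ((differentiableAt_const _).sub h1))

theorem ParC_change_aux {T : E → E} {p p' : E → E →L[ℂ] E} {γ : ℂ → E} {u : ℂ} {b : E}
    {l : ℂ → E →L[ℂ] ℂ} (hT : AnalyticAt ℂ T (γ u)) (hp : DifferentiableAt ℂ p (γ u))
    (hp' : DifferentiableAt ℂ p' (T (γ u)))
    (h : ∀ᶠ z in 𝓝 (γ u), ∀ b, p' (T z) (fderiv ℂ T z b) = fderiv ℂ T z (p z b))
    (hγ : HasDerivAt γ b u) (hb : p (γ u) b = 0) (hi : ∀ v, p (γ u) (p (γ u) v) = p (γ u) v)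
    (hl : HasDerivAt l ((l u).comp (((fderiv ℂ p' (T (γ u))).flip (fderiv ℂ T (γ u) b)).comp
      (p' (T (γ u))) + (fderiv ℂ p' (T (γ u)) (fderiv ℂ T (γ u) b)).comp
        (ContinuousLinearMap.id ℂ E - p' (T (γ u))))) u)
    (hl' : ∀ w, l u (p' (T (γ u)) w) = l u w) :
    HasDerivAt (fun t => (l t).comp (fderiv ℂ T (γ t))) (((l u).comp (fderiv ℂ T (γ u))).comp
      (((fderiv ℂ p (γ u)).flip b).comp (p (γ u)) +
        (fderiv ℂ p (γ u) b).comp (ContinuousLinearMap.id ℂ E - p (γ u)))) u := by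
  haveI : CompleteSpace E := FiniteDimensional.complete ℂ E
  have h1 : HasDerivAt (fun t => fderiv ℂ T (γ t)) (fderiv ℂ (fderiv ℂ T) (γ u) b) u :=
    hT.fderiv.differentiableAt.hasFDerivAt.comp_hasDerivAt u hγ
  refine (hl.clm_comp h1).congr_deriv ?_
  ext v
  have hs : IsSymmSndFDerivAt ℂ T (γ u) := (hT.contDiffAt (n := ω)).isSymmSndFDerivAt_of_omega
  have k1 := cov_formula hT hp hp' h (p (γ u) v) b
  have k2 := cov_formula hT hp hp' h b (v - p (γ u) v)
  have k3 : p (γ u) (v - p (γ u) v) = 0 := by rw [map_sub, hi, sub_self]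
  rw [hb, map_zero, hs (p (γ u) v) b] at k1
  rw [k3, map_zero] at k2
  simp only [ContinuousLinearMap.add_apply, ContinuousLinearMap.comp_apply,
    ContinuousLinearMap.flip_apply, ContinuousLinearMap.sub_apply, ContinuousLinearMap.id_apply]
  rw [h.self_of_nhds v, ← map_sub (fderiv ℂ T (γ u)), k1, k2]
  simp only [map_add, map_sub, hl', map_zero]
  ring

/-- independence of the chart.  With `T` the transition from `c'` to `c`,
`lc β ℓ c' t = (lc β ℓ c t) ∘ DT (chart c' (β t))` near `u`; differentiate, use `cov_formula`,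
`Pc_trans`, `ℓ P = ℓ`, `P β' = 0` and the symmetry of `D²T`:
`ℓ̃ (Ã (DT v)) = - ℓ̃ (D²T β' v) + ℓ̃ (DT (A v))`. -/
theorem ParC.change (hP : IsPF P) {β : ℂ → X} {ℓ : ℂ → E →L[ℂ] ℂ} {u : ℂ} {c c' : X}
    (hβ : HolAt ℂ E β u) (hv : VT ℂ P β u) (hc : β u ∈ (chartAt E c).source)
    (hc' : β u ∈ (chartAt E c').source) (h : ParC P β ℓ c u) : ParC P β ℓ c' u := by
  refine ⟨?_, h.2⟩
  have hd : ∀ {a : X}, β u ∈ (chartAt E a).source →
      HasDerivAt (chartAt E a ∘ β) (tc E a (β u) (md ℂ E β u 1)) u := fun ha =>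
    (hasFDerivAt_chart hβ ha).hasDerivAt
  have hl : ∀ t, β t ∈ (chartAt E c).source → β t ∈ (chartAt E c').source → lc β ℓ c' t =
      (lc β ℓ c t).comp (fderiv ℂ (chartAt E c ∘ (chartAt E c').symm) (chartAt E c' (β t))) :=
    fun t h1 h2 => by
      ext v
      rw [fderiv_trans h2 h1]
      simp only [lc, ContinuousLinearMap.comp_apply, ti_tc h1]
  have hTy : (chartAt E c ∘ (chartAt E c').symm) (chartAt E c' (β u)) = chartAt E c (β u) := by
    simp only [Function.comp_apply, (chartAt E c').left_inv hc']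
  have hb : fderiv ℂ (chartAt E c ∘ (chartAt E c').symm) (chartAt E c' (β u))
      (tc E c' (β u) (md ℂ E β u 1)) = tc E c (β u) (md ℂ E β u 1) := by
    rw [fderiv_trans hc' hc, ContinuousLinearMap.comp_apply, ti_tc hc']
  have hp : ∀ {a : X}, β u ∈ (chartAt E a).source →
      DifferentiableAt ℂ (Pc P a) (chartAt E a (β u)) := fun {a} ha =>
    (hP.hol a).differentiableAt ((chartAt E a).open_target.mem_nhds ((chartAt E a).map_source ha))
  have key := ParC_change_aux (T := chartAt E c ∘ (chartAt E c').symm) (p := Pc P c')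
    (p' := Pc P c) (γ := chartAt E c' ∘ β) (l := lc β ℓ c) (analyticAt_trans hc' hc) (hp hc')
    (by rw [Function.comp_apply (f := chartAt E c'), hTy]; exact hp hc) (Pc_trans P hc' hc) (hd hc')
    (by rw [Function.comp_apply, Pc_tc P hc', hv, map_zero])
    (hP.Pc_idem ((chartAt E c').map_source hc'))
    (by
      rw [Function.comp_apply (f := chartAt E c'), hTy, hb, ← (hd hc).deriv]
      exact h.1)
    (fun w => by
      rw [Function.comp_apply (f := chartAt E c'), hTy, ← tc_ti hc w, Pc_tc P hc]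
      simp only [lc, ContinuousLinearMap.comp_apply, ti_tc hc]
      exact h.2 _)
  rw [hl u hc hc', Ac, (hd hc').deriv]
  refine key.congr_of_eventuallyEq ?_
  filter_upwards [hβ.continuousAt.preimage_mem_nhds ((chartAt E c).open_source.mem_nhds hc),
    hβ.continuousAt.preimage_mem_nhds ((chartAt E c').open_source.mem_nhds hc')] with t h1 h2
  exact hl t h1 h2

/-- the condition `ℓ P = ℓ` propagates: `m t = ℓ̂ t ∘ (1 - P̂ t)` satisfies
`m' = - m ∘ DP̂[β'] ∘ P̂` (`fderiv_idem`), so `lin_zero` applies. -/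
theorem par_propagate (hP : IsPF P) {β : ℂ → X} {c : X} {u₀ : ℂ} {r : ℝ} {l : ℂ → E →L[ℂ] ℂ}
    (hβ : ∀ t ∈ ball u₀ r, HolAt ℂ E β t ∧ β t ∈ (chartAt E c).source)
    (hl : ∀ t ∈ ball u₀ r, HasDerivAt l ((l t).comp (Ac P β c t)) t) {u₁ : ℂ}
    (h₁ : u₁ ∈ ball u₀ r) (h : ∀ v, l u₁ (Pc P c (chartAt E c (β u₁)) v) = l u₁ v) :
    ∀ t ∈ ball u₀ r, ∀ v, l t (Pc P c (chartAt E c (β t)) v) = l t v := by
  set b : ℂ → E := chartAt E c ∘ β with hb
  have hev : ∀ t ∈ ball u₀ r, ∀ᶠ s in 𝓝 t, HolAt ℂ E β s := fun t ht =>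
    (isOpen_ball.eventually_mem ht).mono fun s hs => (hβ s hs).1
  have han : ∀ t ∈ ball u₀ r, AnalyticAt ℂ b t := fun t ht =>
    analyticAt_chart (hev t ht) (hβ t ht).2
  have htg : ∀ t ∈ ball u₀ r, b t ∈ (chartAt E c).target := fun t ht =>
    (chartAt E c).map_source (hβ t ht).2
  have hp : ∀ t ∈ ball u₀ r, HasDerivAt (fun s => Pc P c (b s))
      (fderiv ℂ (Pc P c) (b t) (deriv b t)) t := fun t ht =>
    (hP.B2b_diff (htg t ht)).hasFDerivAt.comp_hasDerivAt t
      (han t ht).differentiableAt.hasDerivAt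
  set K : ℂ → E →L[ℂ] E := fun t =>
    -((fderiv ℂ (Pc P c) (b t) (deriv b t)).comp (Pc P c (b t))) with hK
  have hKd : ∀ t ∈ ball u₀ r, DifferentiableAt ℂ K t := fun t ht => by
    have h2 : DifferentiableAt ℂ (fun t => fderiv ℂ (Pc P c) (b t)) t :=
      DifferentiableAt.comp (F := E) (G := E →L[ℂ] E →L[ℂ] E) (g := fderiv ℂ (Pc P c))
        (f := b) t (hP.B2b_diff2 (htg t ht)) (han t ht).differentiableAt
    exact ((h2.clm_apply (han t ht).deriv.differentiableAt).clm_comp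
      (hp t ht).differentiableAt).neg
  have key := lin_zero (F := E →L[ℂ] ℂ)
    (W := fun t => (l t).comp (ContinuousLinearMap.id ℂ E - Pc P c (b t)))
    (L := fun t => (ContinuousLinearMap.compL ℂ E E ℂ).flip (K t)) (t₀ := u₀) (r := r)
    (fun t ht => (((ContinuousLinearMap.compL ℂ E E ℂ).flip.continuous.continuousAt).comp
      (hKd t ht).continuousAt).continuousWithinAt) (fun t ht => ?_) h₁ ?_
  · intro t ht v
    have := congrArg (fun L : E →L[ℂ] ℂ => L v) (key t ht)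
    simp only [ContinuousLinearMap.comp_apply, sub_apply,
      ContinuousLinearMap.id_apply, map_sub, zero_apply] at this
    exact (sub_eq_zero.1 this).symm
  · have h1 := (hl t ht).clm_comp ((hp t ht).const_sub (ContinuousLinearMap.id ℂ E))
    refine h1.congr_deriv ?_
    ext v
    have hi : ∀ᶠ z in 𝓝 (b t), ∀ v, Pc P c z (Pc P c z v) = Pc P c z v :=
      ((chartAt E c).open_target.eventually_mem (htg t ht)).mono fun z hz v => hP.Pc_idem hz v
    have hid : ∀ w, Pc P c (b t) (Pc P c (b t) w) = Pc P c (b t) w :=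
      fun w => hP.Pc_idem (htg t ht) w
    have h2 := fderiv_idem (hP.B2b_diff (htg t ht)) hi (deriv b t) (Pc P c (b t) v)
    rw [hid] at h2
    have h3 : Pc P c (b t) (fderiv ℂ (Pc P c) (b t) (deriv b t) (Pc P c (b t) v)) = 0 := by
      simpa using h2
    have e : chartAt E c (β t) = b t := rfl
    simp only [hK, Ac, e, ← hb, ContinuousLinearMap.flip_apply, ContinuousLinearMap.compL_apply,
      ContinuousLinearMap.comp_apply, add_apply,
      sub_apply, neg_apply, ContinuousLinearMap.id_apply,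
      map_sub, map_neg, map_add, hid, h3, sub_self, map_zero]
    ring
  · ext v
    have := h v
    simp only [ContinuousLinearMap.comp_apply, sub_apply,
      ContinuousLinearMap.id_apply, map_sub, zero_apply]
    exact sub_eq_zero.2 this.symm

/-- reparametrisation. -/
theorem ParC.comp {β : ℂ → X} {ℓ : ℂ → E →L[ℂ] ℂ} {c : X} {h : ℂ → ℂ} {u : ℂ}
    (hβ : HolAt ℂ E β (h u)) (hc : β (h u) ∈ (chartAt E c).source) (hh : DifferentiableAt ℂ h u)
    (hl : ParC P β ℓ c (h u)) : ParC P (β ∘ h) (ℓ ∘ h) c u := by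
  refine ⟨?_, hl.2⟩
  have hd : HasDerivAt (chartAt E c ∘ β) (deriv (chartAt E c ∘ β) (h u)) (h u) :=
    (hasFDerivAt_chart hβ hc).differentiableAt.hasDerivAt
  have e1 : deriv (chartAt E c ∘ (β ∘ h)) u = deriv h u • deriv (chartAt E c ∘ β) (h u) :=
    (hd.scomp u hh.hasDerivAt).deriv
  have e2 : Ac P (β ∘ h) c u = deriv h u • Ac P β c (h u) := by
    ext v
    simp only [Ac, e1, Function.comp_apply, map_smul, add_apply,
      ContinuousLinearMap.comp_apply, smul_apply, smul_add]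
  have h1 := hl.1.scomp u hh.hasDerivAt
  have e3 : lc (β ∘ h) (ℓ ∘ h) c = lc β ℓ c ∘ h := rfl
  rw [e3, e2]
  refine h1.congr_deriv ?_
  ext v
  simp

end Crest.Agent.R266
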