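import Crest.Agent.R266.Par1
import Crest.Agent.R266.Mono

/-! Row 266 (S0404): along a vertical rational curve the bundle `range P` is trivial. -/

set_option autoImplicit false
set_option linter.unusedSectionVars false

open Set Filter Topology Metric
open scoped Manifold ContDiff

noncomputable section
namespace Crest.Agent.R266

variable {E : Type} [NormedAddCommGroup E] [NormedSpace ℂ E] [FiniteDimensional ℂ E]
  {X : Type} [TopologicalSpace X] [ChartedSpace E X] [IsManifold 𝓘(ℂ, E) ω X]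
  {P : X → E →L[ℂ] E}

theorem ep_congr {β : ℂ → X} {ℓ ℓ' : ℂ → E →L[ℂ] ℂ} {c : X} {u : ℂ} (h : ParC P β ℓ c u)
    (he : ℓ' =ᶠ[𝓝 u] ℓ) : ParC P β ℓ' c u := by
  have h1 : lc β ℓ' c =ᶠ[𝓝 u] lc β ℓ c := by
    filter_upwards [he] with t ht
    simp only [lc, ht]
  refine ⟨?_, fun v => ?_⟩
  · rw [h1.self_of_nhds]
    exact h.1.congr_of_eventuallyEq h1
  · rw [he.self_of_nhds]
    exact h.2 v

theorem ep_local (hP : IsPF P) {β : ℂ → X} (hβ : ∀ u, HolAt ℂ E β u ∧ VT ℂ P β u) (u₀ : ℂ) :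
    ∃ r > 0, (∀ u₁ ∈ ball u₀ r, ∀ ℓ₁ : E →L[ℂ] ℂ, (∀ v, ℓ₁ (P (β u₁) v) = ℓ₁ v) →
        ∃ ℓ : ℂ → E →L[ℂ] ℂ, (∀ t ∈ ball u₀ r, ParC P β ℓ (β t) t) ∧ ℓ u₁ = ℓ₁) ∧
      ∀ (S : Set ℂ) (ℓ ℓ' : ℂ → E →L[ℂ] ℂ), IsOpen S → IsPreconnected S → S ⊆ ball u₀ r →
        (∀ t ∈ S, ParC P β ℓ (β t) t) → (∀ t ∈ S, ParC P β ℓ' (β t) t) →
        ∀ u ∈ S, ℓ u = ℓ' u → EqOn ℓ ℓ' S := by
  have hsrc : ∀ᶠ t in 𝓝 u₀, β t ∈ (chartAt E (β u₀)).source := B2b_ev (hβ u₀).1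
  have hA : ∀ᶠ t in 𝓝 u₀, DifferentiableAt ℂ (Ac P β (β u₀)) t := by
    filter_upwards [hsrc] with t ht
    exact hP.differentiableAt_Ac (Eventually.of_forall fun s => (hβ s).1) ht
  obtain ⟨Φ, Ψ, hΦ⟩ := lin_fund hA
  obtain ⟨r, hr, hb⟩ := Metric.eventually_nhds_iff_ball.1 (hsrc.and hΦ)
  generalize β u₀ = c at hb
  refine ⟨r, hr, fun u₁ hu₁ ℓ₁ h₁ => ?_, fun S ℓ ℓ' hS hS' hSb hℓ hℓ' u hu he => ?_⟩
  · obtain ⟨ξ, hξ⟩ : ∃ ξ : E →L[ℂ] ℂ, ξ = (ℓ₁.comp (ti E c (chartAt E c (β u₁)))).comp (Ψ u₁) :=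
      ⟨_, rfl⟩
    have hl : ∀ t ∈ ball u₀ r, HasDerivAt (fun s => ξ.comp (Φ s))
        ((ξ.comp (Φ t)).comp (Ac P β c t)) t := by
      intro t ht
      have := (hasDerivAt_const t ξ).clm_comp (hb t ht).2.1
      rw [ContinuousLinearMap.zero_comp, zero_add] at this
      exact this
    have hl1 : ∀ v, ξ.comp (Φ u₁) v = ℓ₁ (ti E c (chartAt E c (β u₁)) v) := by
      intro v
      rw [hξ]
      simp only [ContinuousLinearMap.comp_apply, (hb u₁ hu₁).2.2.2.2 v]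
    have hpar := par_propagate hP (l := fun s => ξ.comp (Φ s)) (fun t ht => ⟨(hβ t).1, (hb t ht).1⟩) hl hu₁
      (fun v => by
        rw [hl1, hl1]
        conv_lhs => rw [← tc_ti (hb u₁ hu₁).1 v, Pc_tc P (hb u₁ hu₁).1, ti_tc (hb u₁ hu₁).1, h₁])
    have hlc : ∀ t ∈ ball u₀ r,
        lc β (fun s => (ξ.comp (Φ s)).comp (tc E c (β s))) c t = ξ.comp (Φ t) := by
      intro t ht
      ext v
      simp only [lc, ContinuousLinearMap.comp_apply, tc_ti (hb t ht).1]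
    refine ⟨fun s => (ξ.comp (Φ s)).comp (tc E c (β s)), fun t ht => ?_, ?_⟩
    · refine ParC.change hP (hβ t).1 (hβ t).2 (hb t ht).1 (mem_chart_source E _) ⟨?_, fun v => ?_⟩
      · rw [hlc t ht]
        refine (hl t ht).congr_of_eventuallyEq ?_
        filter_upwards [isOpen_ball.mem_nhds ht] with s hs using hlc s hs
      · have := hpar t ht (tc E c (β t) v)
        rw [Pc_tc P (hb t ht).1] at this
        exact this
    · ext v
      rw [ContinuousLinearMap.comp_apply, hl1, ti_tc (hb u₁ hu₁).1]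
  · have key : ∀ m : ℂ → E →L[ℂ] ℂ, (∀ t ∈ S, ParC P β m (β t) t) → ∀ t ∈ S,
        (lc β m c t).comp (Ψ t) = (lc β m c u).comp (Ψ u) := by
      intro m hm t ht
      have hd : ∀ s ∈ S, HasDerivAt (fun s => (lc β m c s).comp (Ψ s)) 0 s := by
        intro s hs
        have h1 := (ParC.change hP (hβ s).1 (hβ s).2 (mem_chart_source E _) (hb s (hSb hs)).1
          (hm s hs)).1
        have h2 := h1.clm_comp (hb s (hSb hs)).2.2.1
        convert h2 using 1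
        ext v
        simp
      exact hS.is_const_of_deriv_eq_zero hS'
        (fun s hs => (hd s hs).differentiableAt.differentiableWithinAt)
        (fun s hs => (hd s hs).deriv) ht hu
    intro t ht
    have h1 : (lc β ℓ c t).comp (Ψ t) = (lc β ℓ' c t).comp (Ψ t) := by
      rw [key ℓ hℓ t ht, key ℓ' hℓ' t ht]
      simp only [lc, he]
    ext v
    have h2 := DFunLike.congr_fun h1 (Φ t (tc E c (β t) v))
    simpa only [lc, ContinuousLinearMap.comp_apply, (hb t (hSb ht)).2.2.2.2,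
      ti_tc (hb t (hSb ht)).1] using h2

/-- `monodromy` on `ℂ` with `Good u ℓ := ∀ᶠ t in 𝓝 u, ParC P β ℓ (β t) t`.  On a small disc `W` around
`u₀` (inside the chart at `c = β u₀`, with `Φ, Ψ` from `lin_fund` for `Ac P β c`) the good germs at
`u₁ ∈ W` are `ℓ t = ξ ∘ Φ t ∘ tc c (β t)`, `ξ = lc β ℓ c u₁ ∘ Ψ u₁` (`(ℓ̂ Ψ)' = 0`; `ParC.change`,
`par_propagate`). -/
theorem exists_par (hP : IsPF P) {β : ℂ → X} (hβ : ∀ u, HolAt ℂ E β u ∧ VT ℂ P β u) (u₁ : ℂ)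
    {ℓ₁ : E →L[ℂ] ℂ} (h₁ : ∀ v, ℓ₁ (P (β u₁) v) = ℓ₁ v) :
    ∃ ℓ : ℂ → E →L[ℂ] ℂ, (∀ u, ParC P β ℓ (β u) u) ∧ ℓ u₁ = ℓ₁ := by
  obtain ⟨r₁, hr₁, hex, -⟩ := ep_local hP hβ u₁
  obtain ⟨ℓ₀, hℓ₀, hℓ₁⟩ := hex u₁ (mem_ball_self hr₁) ℓ₁ h₁
  obtain ⟨ℓ, hℓ, he⟩ := monodromy (M := ℂ) (T := E →L[ℂ] ℂ)
    (fun u ℓ => ∀ᶠ t in 𝓝 u, ParC P β ℓ (β t) t)
    (fun y f f' hf he => by
      filter_upwards [hf, he.eventuallyEq_nhds] with t h1 h2 using ep_congr h1 h2)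
    (fun y => by
      obtain ⟨r, hr, hex, huq⟩ := ep_local hP hβ y
      refine ⟨ball y r, isOpen_ball, mem_ball_self hr, fun y' hy' f hf => ?_,
        fun f f' hf hf' y' hy' he => ?_⟩
      · obtain ⟨f', h1, h2⟩ := hex y' hy' (f y') hf.self_of_nhds.2
        refine ⟨f', fun z hz => ?_, ?_⟩
        · filter_upwards [isOpen_ball.mem_nhds hz] with t ht using h1 t ht
        · obtain ⟨ρ, hρ, hb⟩ := Metric.eventually_nhds_iff_ball.1
            (hf.and (show ∀ᶠ t in 𝓝 y', t ∈ ball y r from isOpen_ball.mem_nhds hy'))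
          have := huq (ball y' ρ) f' f isOpen_ball (convex_ball y' ρ).isPreconnected
            (fun t ht => (hb t ht).2) (fun t ht => h1 t (hb t ht).2) (fun t ht => (hb t ht).1) y'
            (mem_ball_self hρ) h2
          filter_upwards [ball_mem_nhds y' hρ] with t ht using this ht
      · exact huq (ball y r) f f' isOpen_ball (convex_ball y r).isPreconnected Subset.rfl
          (fun t ht => (hf t ht).self_of_nhds) (fun t ht => (hf' t ht).self_of_nhds) y' hy'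
          he.self_of_nhds)
    (y₀ := u₁) (f₀ := ℓ₀) (by
      filter_upwards [ball_mem_nhds u₁ hr₁] with t ht using hℓ₀ t ht)
  exact ⟨ℓ, fun u => (hℓ u).self_of_nhds, he.self_of_nhds.trans hℓ₁⟩

theorem van_punct {r : ℝ} (hr : 0 < r) : IsPreconnected (ball (0 : ℂ) r \ {0}) := by
  have h : ball (0 : ℂ) r \ {0} = Complex.exp '' {z : ℂ | z.re < Real.log r} := by
    ext v
    simp only [mem_diff, mem_ball_zero_iff, mem_singleton_iff, mem_image, mem_setOf_eq]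
    constructor
    · rintro ⟨hv, hv0⟩
      refine ⟨Complex.log v, ?_, Complex.exp_log hv0⟩
      rw [Complex.log_re]
      exact Real.log_lt_log (norm_pos_iff.2 hv0) hv
    · rintro ⟨z, hz, rfl⟩
      refine ⟨?_, Complex.exp_ne_zero z⟩
      rw [Complex.norm_exp]
      exact (Real.lt_log_iff_exp_lt hr).1 hz
  rw [h]
  exact (convex_halfSpace_re_lt _).isPreconnected.image _ Complex.continuous_exp.continuousOn

theorem ParC.van_congr {β β' : ℂ → X} {ℓ : ℂ → E →L[ℂ] ℂ} {c : X} {u : ℂ}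
    (h : ParC P β ℓ c u) (he : β' =ᶠ[𝓝 u] β) : ParC P β' ℓ c u := by
  have h0 : β' u = β u := he.eq_of_nhds
  have h1 : lc β' ℓ c =ᶠ[𝓝 u] lc β ℓ c := by
    filter_upwards [he] with t ht
    simp only [lc, ht]
  have h2 : Ac P β' c u = Ac P β c u := by
    simp only [Ac, h0, (he.fun_comp (chartAt E c)).deriv_eq]
  refine ⟨?_, by rw [h0]; exact h.2⟩
  rw [h2, h1.eq_of_nhds]
  exact h.1.congr_of_eventuallyEq h1

/-- For `ℓ` from `exists_par` the function `u ↦ ℓ u (σ₀ u) = ℓ̂ (σ̂)` is entire.  Near infinity,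
`v ↦ ℓ v⁻¹` is parallel along `β₁` on a punctured disc (`ParC.comp`, `ParC.change` to the chart at
`β₁ 0`), so `ℓ̂ ∘ Ψ` is constant there (connected) and `ℓ̂ = ξ ∘ Φ` is bounded: the entire function
is bounded, hence constant (`Differentiable.apply_eq_apply_of_bounded`), equal to its value `0` at
`u₀`.  Take `ℓ₁ = ℓ' ∘ P` with `ℓ'` any form (`exists_dual_vector`). -/
theorem van (hP : IsPF P) {β₀ β₁ : ℂ → X} (hβ : RC E β₀ β₁) (hv : ∀ u, VT ℂ P β₀ u)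
    {σ₀ σ₁ : ℂ → E} (h₀ : ∀ u, HolSec E β₀ σ₀ u) (h₁ : HolSec E β₁ σ₁ 0)
    (hg : ∀ v, v ≠ 0 → σ₁ v = σ₀ v⁻¹) (hp : ∀ u, P (β₀ u) (σ₀ u) = σ₀ u) {u₀ : ℂ}
    (hz : σ₀ u₀ = 0) (u : ℂ) : σ₀ u = 0 := by
  by_contra hne
  obtain ⟨g, -, hgx⟩ := exists_dual_vector ℂ (σ₀ u) (norm_ne_zero_iff.2 hne)
  obtain ⟨ℓ, hℓ, hℓu⟩ := exists_par hP (fun t => ⟨hβ.hol₀ t, hv t⟩) u
    (ℓ₁ := g.comp (P (β₀ u))) (fun v => by simp [hP.idem])
  obtain ⟨f, hf⟩ : ∃ f : ℂ → ℂ, f = fun t => ℓ t (σ₀ t) := ⟨_, rfl⟩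
  have hfd : Differentiable ℂ f := by
    intro t
    have h1 : DifferentiableAt ℂ
        (fun s => lc β₀ ℓ (β₀ t) s (tc E (β₀ t) (β₀ s) (σ₀ s))) t :=
      (hℓ t).1.differentiableAt.clm_apply (h₀ t).2
    refine h1.congr_of_eventuallyEq ?_
    filter_upwards [B2b_ev (hβ.hol₀ t)] with s hs
    simp only [hf, lc, ContinuousLinearMap.comp_apply, ti_tc hs]
  have hsrc : ∀ᶠ v in 𝓝 (0 : ℂ), β₁ v ∈ (chartAt E (β₁ 0)).source := B2b_ev (hβ.hol₁ 0)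
  obtain ⟨Φ, Ψ, hΦ⟩ := lin_fund (A := Ac P β₁ (β₁ 0)) (u₀ := 0) (by
    filter_upwards [hsrc] with v hv'
    exact hP.differentiableAt_Ac (Eventually.of_forall hβ.hol₁) hv')
  obtain ⟨r, hr, hball⟩ := Metric.eventually_nhds_iff_ball.1 (hsrc.and hΦ)
  have hpar : ∀ v ∈ ball (0 : ℂ) r \ {0}, ParC P β₁ (ℓ ∘ fun v : ℂ => v⁻¹) (β₁ 0) v := by
    rintro v ⟨hvb, hv0⟩
    have hv0' : v ≠ 0 := hv0
    have hd : DifferentiableAt ℂ (fun v : ℂ => v⁻¹) v := differentiableAt_inv hv0'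
    have he : β₁ =ᶠ[𝓝 v] β₀ ∘ fun v : ℂ => v⁻¹ := by
      filter_upwards [eventually_ne_nhds hv0'] with w hw
      exact hβ.glue w hw
    have h1 : ParC P (β₀ ∘ fun v : ℂ => v⁻¹) (ℓ ∘ fun v : ℂ => v⁻¹) (β₀ v⁻¹) v :=
      ParC.comp (h := fun v : ℂ => v⁻¹) (hβ.hol₀ _) (mem_chart_source E _) hd (hℓ _)
    have h2 : VT ℂ P β₁ v :=
      (VT.comp (h := fun v : ℂ => v⁻¹) (hβ.hol₀ _) (hv _) (holAt_self.2 hd)).congr he
    refine ParC.change hP (c := β₀ v⁻¹) (hβ.hol₁ v) h2 ?_ (hball v hvb).1 (h1.van_congr he)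
    rw [hβ.glue v hv0']
    exact mem_chart_source E _
  have hder : ∀ v ∈ ball (0 : ℂ) r \ {0}, HasDerivAt
      (fun w => (lc β₁ (ℓ ∘ fun v : ℂ => v⁻¹) (β₁ 0) w).comp (Ψ w)) 0 v := by
    intro v hvm
    have h1 := (hpar v hvm).1.clm_comp (hball v hvm.1).2.2.1
    convert h1 using 1
    ext w
    simp
  have hopen : IsOpen (ball (0 : ℂ) r \ {0}) := isOpen_ball.sdiff isClosed_singleton
  obtain ⟨ξ, hξ⟩ := hopen.exists_is_const_of_deriv_eq_zero (van_punct hr)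
    (fun v hvm => (hder v hvm).differentiableAt.differentiableWithinAt)
    (fun v hvm => (hder v hvm).deriv)
  have hΦc : ContinuousAt Φ 0 := (hball 0 (mem_ball_self hr)).2.1.continuousAt
  have hlim : Tendsto (fun v : ℂ => f v⁻¹) (𝓝[≠] 0)
      (𝓝 (ξ (Φ 0 (tc E (β₁ 0) (β₁ 0) (σ₁ 0))))) := by
    have h1 : ContinuousAt (fun v => ξ (Φ v (tc E (β₁ 0) (β₁ v) (σ₁ v)))) 0 :=
      ξ.continuous.continuousAt.comp (hΦc.clm_apply h₁.2.continuousAt)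
    refine (h1.tendsto.mono_left nhdsWithin_le_nhds).congr' ?_
    filter_upwards [self_mem_nhdsWithin, mem_nhdsWithin_of_mem_nhds (ball_mem_nhds (0 : ℂ) hr)]
      with v hv0 hvb
    have hv0' : v ≠ 0 := hv0
    rw [← hξ v ⟨hvb, hv0⟩]
    simp only [ContinuousLinearMap.comp_apply, (hball v hvb).2.2.2.2, lc, ti_tc (hball v hvb).1,
      Function.comp, hf, hg v hv0']
  have hlim' : Tendsto f (cocompact ℂ) (𝓝 (ξ (Φ 0 (tc E (β₁ 0) (β₁ 0) (σ₁ 0))))) := by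
    rw [← Metric.cobounded_eq_cocompact]
    refine (hlim.comp tendsto_inv₀_cobounded').congr fun v => ?_
    simp only [Function.comp, inv_inv]
  have e1 := hfd.apply_eq_of_tendsto_cocompact u hlim'
  have e2 := hfd.apply_eq_of_tendsto_cocompact u₀ hlim'
  rw [← e2] at e1
  simp only [hf, hℓu, hz, map_zero, ContinuousLinearMap.comp_apply, hp u, hgx] at e1
  exact hne (by simpa using e1)

end Crest.Agent.R266
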