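import Crest.Agent.R266.CKDefs

/-! Row 266 (S0404): the affine cone over a projective embedding. -/

set_option autoImplicit false
set_option linter.unusedSectionVars false

open Set Filter Topology Metric
open scoped Manifold ContDiff

noncomputable section
namespace Crest.Agent.R266

open Crest.AlgGeometry.HolSplit

variable {n N : ℕ} {X : Type} [TopologicalSpace X] [ChartedSpace (Model n) X]
  [IsManifold (mI n) ω X] [T2Space X] [CompactSpace X] [Nonempty X] {ι : ProjEmbedding n X N}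

theorem coords_eq_smul {p x : X} (hx : x ∈ ι.nbhd p) :
    ∃ c : ℂ, c ≠ 0 ∧ ι.coords p x = c • ι.coords x x := by
  obtain ⟨c, hc⟩ := ι.compatible x p x ⟨ι.mem_nbhd x, hx⟩
  refine ⟨c, ?_, hc⟩
  rintro rfl
  exact ι.ne_zero p x hx (by rw [hc, zero_smul])

theorem holAt_coords {p x : X} (hx : x ∈ ι.nbhd p) :
    HolAt (Model n) (Fin (N + 1) → ℂ) (ι.coords p) x :=
  ((ι.holomorphic p).contMDiffAt ((ι.isOpen_nbhd p).mem_nhds hx)).mdifferentiableAt (by simp)

theorem prop2_iff {p x : X} (hx : x ∈ ι.nbhd p) {v : Fin (N + 1) → ℂ} :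
    Prop2 ι v x ↔ ∀ i j, v i * ι.coords p x j = v j * ι.coords p x i := by
  obtain ⟨c, hc0, hc⟩ := coords_eq_smul hx
  rw [hc]
  unfold Prop2
  simp only [Pi.smul_apply, smul_eq_mul]
  constructor
  · intro h i j
    have := h i j
    linear_combination c * this
  · intro h i j
    apply mul_left_cancel₀ hc0
    have := h i j
    linear_combination this

theorem over_iff_prop2 {x : X} {v : Fin (N + 1) → ℂ} : Over ι v x ↔ v ≠ 0 ∧ Prop2 ι v x := by
  constructor
  · rintro ⟨hv, c, hc⟩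
    refine ⟨hv, fun i j => ?_⟩
    rw [hc]
    simp only [Pi.smul_apply, smul_eq_mul]
    ring
  · rintro ⟨hv, h⟩
    refine ⟨hv, ?_⟩
    obtain ⟨j, hj⟩ := Function.ne_iff.1 (ι.ne_zero x x (ι.mem_nbhd x))
    have hj' : ι.coords x x j ≠ 0 := hj
    refine ⟨v j / ι.coords x x j, funext fun i => ?_⟩
    simp only [Pi.smul_apply, smul_eq_mul]
    have := h i j
    field_simp
    linear_combination this

theorem over_coords {p x : X} (hx : x ∈ ι.nbhd p) : Over ι (ι.coords p x) x := by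
  obtain ⟨c, -, hc⟩ := coords_eq_smul hx
  exact ⟨ι.ne_zero p x hx, c, hc⟩

theorem Over.unique {x y : X} {v : Fin (N + 1) → ℂ} (hx : Over ι v x) (hy : Over ι v y) :
    x = y := by
  obtain ⟨hv, c, hc⟩ := hx
  obtain ⟨-, d, hd⟩ := hy
  have hd0 : d ≠ 0 := by
    rintro rfl
    exact hv (by rw [hd, zero_smul])
  refine ι.injective x y x y (ι.mem_nbhd x) (ι.mem_nbhd y) ⟨d⁻¹ * c, ?_⟩
  rw [mul_smul, ← hc, hd, smul_smul, inv_mul_cancel₀ hd0, one_smul]

theorem Over.smul {x : X} {v : Fin (N + 1) → ℂ} (hx : Over ι v x) {c : ℂ} (hc : c ≠ 0) :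
    Over ι (c • v) x := by
  obtain ⟨hv, d, hd⟩ := hx
  exact ⟨smul_ne_zero hc hv, c * d, by rw [mul_smul, ← hd]⟩

theorem Over.pt_eq {x : X} {v : Fin (N + 1) → ℂ} (hx : Over ι v x) : pt ι v = x := by
  have h : ∃ x, Over ι v x := ⟨x, hx⟩
  unfold pt
  rw [dif_pos h]
  exact h.choose_spec.unique hx

theorem over_pt {v : Fin (N + 1) → ℂ} (h : ∃ x, Over ι v x) : Over ι v (pt ι v) := by
  obtain ⟨x, hx⟩ := h
  rw [hx.pt_eq]
  exact hx

/-- the cone over a closed set is closed: the relation `{(v, x) | Prop2 v x}` is closed in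
`ℂ^{N+1} × X` by `prop2_iff`, and `X` is compact (`isClosedMap_fst_of_compactSpace`). -/
theorem isClosed_cone {K : Set X} (hK : IsClosed K) :
    IsClosed {v : Fin (N + 1) → ℂ | ∃ x ∈ K, Prop2 ι v x} ∧
      IsClosed {q : (Fin (N + 1) → ℂ) × X | Prop2 ι q.1 q.2} := by
  have h2 : IsClosed {q : (Fin (N + 1) → ℂ) × X | Prop2 ι q.1 q.2} := by
    rw [← isOpen_compl_iff, isOpen_iff_mem_nhds]
    rintro ⟨v, p⟩ hq
    have hq' : ¬ Prop2 ι v p := hq
    unfold Prop2 at hq'
    push Not at hq'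
    obtain ⟨i, j, hij⟩ := hq'
    have hc : ContinuousAt (fun q : (Fin (N + 1) → ℂ) × X => ι.coords p q.2) (v, p) :=
      ContinuousAt.comp (g := ι.coords p) (f := Prod.snd)
        (holAt_coords (ι.mem_nbhd p)).continuousAt continuousAt_snd
    have hc1 : ContinuousAt (fun q : (Fin (N + 1) → ℂ) × X => q.1 i * ι.coords p q.2 j) (v, p) :=
      ((continuous_apply i).continuousAt.comp continuousAt_fst).mul
        ((continuous_apply j).continuousAt.comp hc)
    have hc2 : ContinuousAt (fun q : (Fin (N + 1) → ℂ) × X => q.1 j * ι.coords p q.2 i) (v, p) :=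
      ((continuous_apply j).continuousAt.comp continuousAt_fst).mul
        ((continuous_apply i).continuousAt.comp hc)
    have hne := (hc1.sub hc2).eventually_ne (sub_ne_zero.2 hij)
    have hn : ∀ᶠ q : (Fin (N + 1) → ℂ) × X in 𝓝 (v, p), q.2 ∈ ι.nbhd p :=
      continuousAt_snd.eventually ((ι.isOpen_nbhd p).mem_nhds (ι.mem_nbhd p))
    filter_upwards [hne, hn] with q h1 h2 h3
    exact h1 (sub_eq_zero.2 ((prop2_iff h2).1 h3 i j))
  refine ⟨?_, h2⟩
  have h3 := isClosedMap_fst_of_compactSpace _ (h2.inter (hK.preimage continuous_snd))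
  convert h3 using 1
  ext v
  constructor
  · rintro ⟨x, hx, hv⟩
    exact ⟨(v, x), ⟨hv, hx⟩, rfl⟩
  · rintro ⟨⟨w, x⟩, ⟨hv, hx⟩, rfl⟩
    exact ⟨x, hx, hv⟩

/-- local holomorphic retraction onto the cone.  `Θ (c, y) = c • coords x (chart.symm y)` has
injective differential at `(c₀, chart x)` (`ι.immersive`); `L` a linear left inverse, `κ` a local
inverse of `L ∘ Θ` (`Crest.Agent.R264.exists_local_inverse`), `r = chart.symm ∘ snd ∘ κ ∘ L`.  If
`v'` is near `v` and lies over `x'` then `x'` is near `x` (`isClosed_cone` for the complement of a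
small open neighbourhood of `x`, `Over.unique`) and the scalar `v' j / coords x x' j` is near
`c₀`. -/
theorem exists_retr {x : X} {v : Fin (N + 1) → ℂ} (h : Over ι v x) :
    ∃ r : (Fin (N + 1) → ℂ) → X, r v = x ∧ ∀ᶠ v' in 𝓝 v,
      HolAt (Fin (N + 1) → ℂ) (Model n) r v' ∧ ∀ x', Over ι v' x' → r v' = x' := by
  obtain ⟨j, hj⟩ := Function.ne_iff.1 (ι.ne_zero x x (ι.mem_nbhd x))
  have hj' : ι.coords x x j ≠ 0 := hj
  set g : X → (Fin (N + 1) → ℂ) := fun z => (ι.coords x z j)⁻¹ • ι.coords x z with hg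
  have hca : ContinuousAt (fun z => ι.coords x z j) x :=
    (continuous_apply j).continuousAt.comp (holAt_coords (ι.mem_nbhd x)).continuousAt
  have hO : {z | z ∈ ι.nbhd x ∧ ι.coords x z j ≠ 0} ∈ 𝓝 x :=
    Filter.inter_mem ((ι.isOpen_nbhd x).mem_nhds (ι.mem_nbhd x)) (hca.eventually_ne hj')
  -- the normalisation map
  set ν : (Fin (N + 1) → ℂ) → (Fin (N + 1) → ℂ) := fun w => (w j)⁻¹ • w with hν
  have hνd : ∀ w : Fin (N + 1) → ℂ, w j ≠ 0 → DifferentiableAt ℂ ν w := fun w hw =>
    (DifferentiableAt.inv (h := fun f : Fin (N + 1) → ℂ => f j) (differentiableAt_apply j w) hw).smul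
      differentiableAt_id
  have hgν : g = ν ∘ ι.coords x := rfl
  have hgh : ∀ z, z ∈ ι.nbhd x → ι.coords x z j ≠ 0 →
      HolAt (Model n) (Fin (N + 1) → ℂ) g z := fun z hz hz' =>
    MDifferentiableAt.comp z (holAt_self.2 (hνd _ hz')) (holAt_coords hz)
  -- kernel of the differential of the normalisation
  have hker : ∀ w u : Fin (N + 1) → ℂ, w j ≠ 0 → fderiv ℂ ν w u = 0 → ∃ c : ℂ, u = c • w := by
    intro w u hw hu
    have h1 : (fun y : Fin (N + 1) → ℂ => y j • ν y) =ᶠ[𝓝 w] id := by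
      filter_upwards [(continuous_apply j).continuousAt.eventually_ne hw] with y hy
      simp only [hν, id, smul_smul, mul_inv_cancel₀ hy, one_smul]
    have h2 : HasFDerivAt (fun y : Fin (N + 1) → ℂ => y j • ν y) _ w :=
      (hasFDerivAt_apply j w).smul (hνd w hw).hasFDerivAt
    have h3 := (h2.congr_of_eventuallyEq h1.symm).unique (hasFDerivAt_id w)
    have h4 := congrArg (fun T : (Fin (N + 1) → ℂ) →L[ℂ] (Fin (N + 1) → ℂ) => T u) h3
    simp only [ContinuousLinearMap.add_apply, ContinuousLinearMap.smul_apply, hu, smul_zero,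
      zero_add, ContinuousLinearMap.smulRight_apply, ContinuousLinearMap.id_apply] at h4
    refine ⟨ContinuousLinearMap.proj (R := ℂ) (φ := fun _ : Fin (N + 1) => ℂ) j u * (w j)⁻¹, ?_⟩
    rw [mul_smul]
    exact h4.symm
  have hinj : Function.Injective (md (Model n) (Fin (N + 1) → ℂ) g x) := by
    rw [injective_iff_map_eq_zero]
    intro w hw
    rw [hgν, md_comp_apply (holAt_self.2 (hνd _ hj')) (holAt_coords (ι.mem_nbhd x)),
      md_self] at hw
    exact ι.immersive x x (ι.mem_nbhd x) w (hker _ _ hj' hw)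
  obtain ⟨L₀, hL₀⟩ := LinearMap.exists_leftInverse_of_injective
    (md (Model n) (Fin (N + 1) → ℂ) g x).toLinearMap (LinearMap.ker_eq_bot.2 hinj)
  set L : (Fin (N + 1) → ℂ) →L[ℂ] Model n := LinearMap.toContinuousLinearMap L₀ with hL
  have hLw : ∀ w, L (md (Model n) (Fin (N + 1) → ℂ) g x w) = w := fun w =>
    congrArg (fun T : Model n →ₗ[ℂ] Model n => T w) hL₀
  have hf : ∀ᶠ z in 𝓝 x, HolAt (Model n) (Model n) (L ∘ g) z := by
    filter_upwards [hO] with z hz
    exact MDifferentiableAt.comp z (holAt_self.2 L.differentiableAt) (hgh z hz.1 hz.2)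
  have hb : Function.Bijective (md (Model n) (Model n) (L ∘ g) x) := by
    have : ⇑(md (Model n) (Model n) (L ∘ g) x) = id := by
      funext w
      rw [md_comp_apply (holAt_self.2 L.differentiableAt) (hgh x (ι.mem_nbhd x) hj'), md_self,
        L.fderiv]
      exact hLw w
    rw [this]
    exact Function.bijective_id
  obtain ⟨e, hxe, heO, he, -, hes⟩ := exists_local_inv hf hb hO
  -- normalising a vector over a point of the source
  have hnorm : ∀ (w : Fin (N + 1) → ℂ) (z : X), z ∈ e.source → Over ι w z →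
      w j ≠ 0 ∧ L (ν w) = e z := by
    intro w z hz hw
    obtain ⟨hz1, hz2⟩ := heO hz
    obtain ⟨c, hc0, hc⟩ := coords_eq_smul hz1
    obtain ⟨hw0, d, hd⟩ := hw
    have hd0 : d ≠ 0 := by
      rintro rfl
      exact hw0 (by rw [hd, zero_smul])
    have hwz : w = (d * c⁻¹) • ι.coords x z := by
      rw [hc, smul_smul, mul_assoc, inv_mul_cancel₀ hc0, mul_one, hd]
    have hdc : d * c⁻¹ ≠ 0 := mul_ne_zero hd0 (inv_ne_zero hc0)
    refine ⟨?_, ?_⟩
    · rw [hwz]
      exact mul_ne_zero hdc hz2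
    · rw [he z, hwz]
      simp only [Function.comp, hν, hg, Pi.smul_apply, smul_eq_mul, smul_smul]
      congr 2
      field_simp
  obtain ⟨hvj, hve⟩ := hnorm v x hxe h
  refine ⟨fun w => e.symm (L (ν w)), ?_, ?_⟩
  · show e.symm (L (ν v)) = x
    rw [hve, e.left_inv hxe]
  · have h1 : ∀ᶠ w in 𝓝 v, w j ≠ 0 := (continuous_apply j).continuousAt.eventually_ne hvj
    have h2 : ∀ᶠ w in 𝓝 v, L (ν w) ∈ e.target := by
      have hc : ContinuousAt (fun w => L (ν w)) v :=
        L.continuous.continuousAt.comp (hνd v hvj).continuousAt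
      refine hc.eventually (e.open_target.mem_nhds ?_)
      show L (ν v) ∈ e.target
      rw [hve]
      exact e.map_source hxe
    have h3 : ∀ᶠ w in 𝓝 v, w ∉ {v : Fin (N + 1) → ℂ | ∃ x ∈ e.sourceᶜ, Prop2 ι v x} := by
      refine (isClosed_cone (ι := ι) e.open_source.isClosed_compl).1.isOpen_compl.mem_nhds ?_
      rintro ⟨z, hz, hz'⟩
      have := h.unique (over_iff_prop2.2 ⟨h.1, hz'⟩)
      exact hz (this ▸ hxe)
    filter_upwards [h1, h2, h3] with w hw1 hw2 hw3
    refine ⟨?_, fun z hz => ?_⟩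
    · exact MDifferentiableAt.comp w (g := e.symm) (f := fun w => L (ν w)) (hes _ hw2)
        (holAt_self.2 (L.differentiableAt.comp w (hνd w hw1)))
    · have hzs : z ∈ e.source := by
        by_contra hn
        exact hw3 ⟨z, hn, (over_iff_prop2.1 hz).2⟩
      show e.symm (L (ν w)) = z
      rw [(hnorm w z hzs hz).2, e.left_inv hzs]

end Crest.Agent.R266
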