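import Crest.Agent.R266.Sard
import Crest.Agent.R266.LocAn

/-! Row 266 (S0404): a large image forces a submersive family.

Induction on `M = finrank T`, for all `T`, `Z`, `ev`; contrapositive: if there is no submersive
family then `dimH (ev '' Z) ≤ 2 (finrank F - 1)`.  `M = 0`: `Z` is a subsingleton.  `M = m + 1`:
cover `Z` by countably many balls `W` on which the equations `𝓕` and the extension `e'` are defined
(`countable_cover_nhdsWithin`, `dimH_bUnion`).  Key step (hyp): if `f` is holomorphic and non-zero on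
the ball `W`, then `dimH (ev '' (Z ∩ W ∩ {f = 0})) ≤ ..` by `hyp_cover` and the induction
hypothesis for `s.1 ∩ s.2 ⁻¹' Z` (`LocAn.preimage`) and `ev ∘ s.2` (a family for these gives a family
for `Z` by composition).  If some `f ∈ 𝓕` is non-zero on `W` apply (hyp).  Otherwise `W ⊆ Z`,
`ev = e'` on `W`, the rank of `de'` is `< finrank F` on `W` (else `h = id` is a family); let `k` be
the maximal rank on `W`: points of rank `k` by `dimH_le_of_rank` and a countable cover, the others by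
`exists_rank_fun` and (hyp). -/

set_option autoImplicit false
set_option linter.unusedSectionVars false

open Set Filter Topology Metric
open scoped Manifold ContDiff

noncomputable section
namespace Crest.Agent.R266

section Aux

variable {F : Type} [NormedAddCommGroup F] [NormedSpace ℂ F] [FiniteDimensional ℂ F]

/-- there is a submersive family -/
def S2Fam {T : Type} [NormedAddCommGroup T] [NormedSpace ℂ T] (Z : Set T) (ev : T → F) : Prop :=
  ∃ (Θ : Type) (_ : NormedAddCommGroup Θ) (_ : NormedSpace ℂ Θ) (_ : FiniteDimensional ℂ Θ)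
    (h : Θ → T) (B : Set Θ) (θ₀ : Θ), IsOpen B ∧ θ₀ ∈ B ∧ DifferentiableOn ℂ h B ∧
    MapsTo h B Z ∧ Function.Surjective (fderiv ℂ (ev ∘ h) θ₀)

theorem S2_local {T : Type} [NormedAddCommGroup T] [NormedSpace ℂ T] [FiniteDimensional ℂ T]
    {Z : Set T} {ev : T → F} {d : ENNReal}
    (h : ∀ θ ∈ Z, ∃ N ∈ 𝓝 θ, dimH (ev '' (Z ∩ N)) ≤ d) : dimH (ev '' Z) ≤ d := by
  have := FiniteDimensional.proper ℂ T
  choose! N hN hd using h
  obtain ⟨t, ht, htc, hc⟩ := TopologicalSpace.countable_cover_nhdsWithin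
    (f := fun θ => Z ∩ N θ) (s := Z) fun θ hθ => inter_mem_nhdsWithin Z (hN θ hθ)
  refine (dimH_mono (image_mono hc)).trans ?_
  rw [image_iUnion₂, dimH_bUnion htc]
  exact iSup₂_le fun θ hθ => hd θ (ht hθ)

theorem S2_aux (M : ℕ) : ∀ (T : Type) [NormedAddCommGroup T] [NormedSpace ℂ T]
    [FiniteDimensional ℂ T], Module.finrank ℂ T = M → ∀ (Z : Set T) (ev : T → F), LocAn Z →
    (∀ θ ∈ Z, ∃ e' : T → F,
      ∀ᶠ θ' in 𝓝 θ, DifferentiableAt ℂ e' θ' ∧ (θ' ∈ Z → e' θ' = ev θ')) → ¬ S2Fam Z ev →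
    dimH (ev '' Z) ≤ ((2 * (Module.finrank ℂ F - 1) : ℕ) : ENNReal) := by
  induction M with
  | zero =>
    intro T _ _ _ hT Z ev _ _ _
    have := Module.finrank_zero_iff.1 hT
    rw [dimH_subsingleton (subsingleton_of_subsingleton.image ev)]
    exact zero_le
  | succ m ih =>
  intro T _ _ _ hT Z ev hZ hev hs
  have hyp : ∀ {W : Set T} {f : T → ℂ}, IsOpen W → IsPreconnected W → DifferentiableOn ℂ f W →
      (∃ θ ∈ W, f θ ≠ 0) → dimH (ev '' (Z ∩ {θ ∈ W | f θ = 0})) ≤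
        ((2 * (Module.finrank ℂ F - 1) : ℕ) : ENNReal) := by
    intro W f hW hc hf h0
    obtain ⟨S, hS, h1, h2⟩ := hyp_cover hT hW hc hf h0
    have hsub : ev '' (Z ∩ {θ ∈ W | f θ = 0}) ⊆ ⋃ s ∈ S, (ev ∘ s.2) '' (s.1 ∩ s.2 ⁻¹' Z) := by
      rintro _ ⟨θ, ⟨hθ, hθW, hf0⟩, rfl⟩
      obtain ⟨s, hs, x, hx, rfl⟩ := h2 θ hθW hf0
      exact mem_biUnion hs ⟨x, ⟨hx, hθ⟩, rfl⟩
    refine (dimH_mono hsub).trans ?_
    rw [dimH_bUnion hS]
    refine iSup₂_le fun s hs' => ih (Fin m → ℂ) (by simp) _ _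
      (hZ.preimage (h1 s hs').1 (h1 s hs').2) (fun x hx => ?_) fun hx => hs ?_
    · obtain ⟨e', he'⟩ := hev _ hx.2
      have hn := (h1 s hs').1.mem_nhds hx.1
      refine ⟨e' ∘ s.2, ?_⟩
      filter_upwards [((h1 s hs').2.differentiableAt hn).continuousAt.eventually he', hn]
        with y hy hy'
      exact ⟨hy.1.comp y ((h1 s hs').2.differentiableAt ((h1 s hs').1.mem_nhds hy')),
        fun hz => hy.2 hz.2⟩
    · obtain ⟨Θ, _, _, _, h, B, θ₀, a1, a2, a3, a4, a5⟩ := hx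
      exact ⟨Θ, _, _, inferInstance, s.2 ∘ h, B, θ₀, a1, a2,
        (h1 s hs').2.comp a3 fun y hy => (a4 hy).1, fun y hy => (a4 hy).2, a5⟩
  refine S2_local fun θ hθ => ?_
  obtain ⟨W, hW, hθW, 𝓕, h𝓕, hZW⟩ := hZ θ hθ
  obtain ⟨e', he'⟩ := hev θ hθ
  obtain ⟨r, hr, hB⟩ := Metric.eventually_nhds_iff_ball.1 (he'.and (hW.mem_nhds hθW))
  refine ⟨ball θ r, ball_mem_nhds θ hr, ?_⟩
  have hc := (convex_ball θ r).isPreconnected
  by_cases h1 : ∃ f ∈ 𝓕, ∃ x ∈ ball θ r, f x ≠ 0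
  · obtain ⟨f, hf, h0⟩ := h1
    refine (dimH_mono (image_mono fun x hx => ?_)).trans
      (hyp isOpen_ball hc ((h𝓕 f hf).mono fun x hx => (hB x hx).2) h0)
    exact ⟨hx.1, hx.2, (hZW x (hB x hx.2).2).1 hx.1 f hf⟩
  push Not at h1
  have hBZ : ∀ x ∈ ball θ r, x ∈ Z := fun x hx => (hZW x (hB x hx).2).2 fun f hf => h1 f hf x hx
  have heq : ∀ x ∈ ball θ r, e' x = ev x := fun x hx => (hB x hx).1.2 (hBZ x hx)
  obtain ⟨rk, hrk⟩ : ∃ rk : T → ℕ, ∀ x,
      rk x = Module.finrank ℂ (LinearMap.range (fderiv ℂ e' x : T →ₗ[ℂ] F)) := ⟨_, fun _ => rfl⟩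
  have hlt : ∀ x ∈ ball θ r, rk x < Module.finrank ℂ F := fun x hx => by
    rw [hrk]
    refine Submodule.finrank_lt fun ht => hs ⟨T, _, _, inferInstance, id, ball θ r, x, isOpen_ball,
      hx, differentiableOn_id, hBZ, ?_⟩
    have : ev ∘ id =ᶠ[𝓝 x] e' :=
      mem_of_superset (isOpen_ball.mem_nhds hx) fun y hy => (heq y hy).symm
    rw [this.fderiv_eq]
    exact LinearMap.range_eq_top.1 ht
  have hbd : BddAbove (rk '' ball θ r) := ⟨_, forall_mem_image.2 fun x hx => (hlt x hx).le⟩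
  obtain ⟨x₀, hx₀, hk⟩ := Nat.sSup_mem ⟨_, mem_image_of_mem rk (mem_ball_self hr)⟩ hbd
  have hle : ∀ x ∈ ball θ r, rk x ≤ rk x₀ := fun x hx => hk ▸ le_csSup hbd (mem_image_of_mem rk hx)
  obtain ⟨f, f1, f2, f3⟩ := exists_rank_fun isOpen_ball
    (fun x hx => (hB x hx).1.1.differentiableWithinAt) hx₀ (hrk x₀).symm
  have hsub : Z ∩ ball θ r ⊆ (Z ∩ {x ∈ ball θ r | f x = 0}) ∪ {x ∈ ball θ r | rk x = rk x₀} := by
    intro x hx
    rcases (hle x hx.2).eq_or_lt with h | h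
    · exact Or.inr ⟨hx.2, h⟩
    · exact Or.inl ⟨hx.1, hx.2, f3 x hx.2 (hrk x ▸ h)⟩
  refine (dimH_mono (image_mono hsub)).trans ?_
  rw [image_union, dimH_union]
  refine max_le (hyp isOpen_ball hc f1 ⟨x₀, hx₀, f2⟩) (S2_local fun x hx => ?_)
  obtain ⟨O, hO, hd⟩ := dimH_le_of_rank (e := e') (k := rk x₀)
    (mem_of_superset (isOpen_ball.mem_nhds hx.1) fun y hy => ⟨(hB y hy).1.1, hrk y ▸ hle y hy⟩)
    ((hrk x).symm.trans hx.2)
  refine ⟨O, hO, (dimH_mono ?_).trans (hd.trans ?_)⟩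
  · rintro _ ⟨y, hy, rfl⟩
    exact ⟨y, hy.2, heq y hy.1.1⟩
  · have := hlt x₀ hx₀
    exact_mod_cast (by omega : 2 * rk x₀ ≤ 2 * (Module.finrank ℂ F - 1))

end Aux

theorem submersive_family {F : Type} [NormedAddCommGroup F] [NormedSpace ℂ F]
    [FiniteDimensional ℂ F] {T : Type} [NormedAddCommGroup T] [NormedSpace ℂ T]
    [FiniteDimensional ℂ T] {Z : Set T} (hZ : LocAn Z) {ev : T → F}
    (hev : ∀ θ ∈ Z, ∃ e' : T → F,
      ∀ᶠ θ' in 𝓝 θ, DifferentiableAt ℂ e' θ' ∧ (θ' ∈ Z → e' θ' = ev θ'))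
    (hd : ((2 * (Module.finrank ℂ F - 1) : ℕ) : ENNReal) < dimH (ev '' Z)) :
    ∃ (Θ : Type) (_ : NormedAddCommGroup Θ) (_ : NormedSpace ℂ Θ) (_ : FiniteDimensional ℂ Θ)
      (h : Θ → T) (B : Set Θ) (θ₀ : Θ), IsOpen B ∧ θ₀ ∈ B ∧ DifferentiableOn ℂ h B ∧
      MapsTo h B Z ∧ Function.Surjective (fderiv ℂ (ev ∘ h) θ₀) := by
  by_contra hs
  exact hd.not_ge (S2_aux _ T rfl Z ev hZ hev hs)

end Crest.Agent.R266
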