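import Crest.Agent.R266.Par2

/-! Row 266 (S0404): the variational argument. -/

set_option autoImplicit false
set_option linter.unusedSectionVars false

open Set Filter Topology Metric
open scoped Manifold ContDiff

noncomputable section
namespace Crest.Agent.R266

variable {E : Type} [NormedAddCommGroup E] [NormedSpace ℂ E] [FiniteDimensional ℂ E]
  {X : Type} [TopologicalSpace X] [ChartedSpace E X] [IsManifold 𝓘(ℂ, E) ω X]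
  {P : X → E →L[ℂ] E}

variable {Θ : Type} [NormedAddCommGroup Θ] [NormedSpace ℂ Θ] [FiniteDimensional ℂ Θ]
  {B : Set Θ} {θ₀ : Θ}

theorem X1_diff_inr (θ₀ : Θ) (z : ℂ) : DifferentiableAt ℂ (fun u : ℂ => ((θ₀, u) : Θ × ℂ)) z :=
  (differentiableAt_const θ₀).prodMk differentiableAt_id

theorem X1_hasF_inl (θ₀ : Θ) (u : ℂ) :
    HasFDerivAt (fun θ : Θ => ((θ, u) : Θ × ℂ)) (ContinuousLinearMap.inl ℂ Θ ℂ) θ₀ :=
  hasFDerivAt_prodMk_left θ₀ u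

theorem X1_ev {α : Θ × ℂ → X} (h : ∀ θ ∈ B, ∀ u, HolAt (Θ × ℂ) E α (θ, u)) (hB : IsOpen B)
    (hθ : θ₀ ∈ B) (u : ℂ) : ∀ᶠ z in 𝓝 ((θ₀, u) : Θ × ℂ), HolAt (Θ × ℂ) E α z := by
  have : ∀ᶠ z in 𝓝 ((θ₀, u) : Θ × ℂ), z.1 ∈ B :=
    continuous_fst.continuousAt.preimage_mem_nhds (hB.mem_nhds hθ)
  filter_upwards [this] with z hz using h z.1 hz z.2

theorem Fam.rc {α₀ α₁ : Θ × ℂ → X} (h : Fam E B α₀ α₁) (hθ : θ₀ ∈ B) :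
    RC E (fun u => α₀ (θ₀, u)) (fun v => α₁ (θ₀, v)) := by
  refine ⟨fun z => ?_, fun z => ?_, fun z hz => h.glue θ₀ hθ z hz⟩
  · exact (h.hol₀ θ₀ hθ z).comp z (holAt_self.2 (X1_diff_inr θ₀ z))
  · exact (h.hol₁ θ₀ hθ z).comp z (holAt_self.2 (X1_diff_inr θ₀ z))

/-- the variation fields in the two charts agree (`α₁ = α₀ ∘ (id × inv)` near `(θ₀, v)`). -/
theorem Fam.md_glue {α₀ α₁ : Θ × ℂ → X} (h : Fam E B α₀ α₁) (hB : IsOpen B) (hθ : θ₀ ∈ B) (a : Θ)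
    {v : ℂ} (hv : v ≠ 0) :
    md (Θ × ℂ) E α₁ (θ₀, v) (a, 0) = md (Θ × ℂ) E α₀ (θ₀, v⁻¹) (a, 0) := by
  have h1 : HolAt Θ (Θ × ℂ) (fun θ : Θ => ((θ, v) : Θ × ℂ)) θ₀ :=
    holAt_self.2 (X1_hasF_inl θ₀ v).differentiableAt
  have h1' : HolAt Θ (Θ × ℂ) (fun θ : Θ => ((θ, v⁻¹) : Θ × ℂ)) θ₀ :=
    holAt_self.2 (X1_hasF_inl θ₀ v⁻¹).differentiableAt
  have h2 := md_comp_apply (g := α₁) (f := fun θ : Θ => ((θ, v) : Θ × ℂ)) (y := θ₀)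
    (h.hol₁ θ₀ hθ v) h1 a
  have h2' := md_comp_apply (g := α₀) (f := fun θ : Θ => ((θ, v⁻¹) : Θ × ℂ)) (y := θ₀)
    (h.hol₀ θ₀ hθ v⁻¹) h1' a
  rw [md_self, (X1_hasF_inl θ₀ v).fderiv] at h2
  rw [md_self, (X1_hasF_inl θ₀ v⁻¹).fderiv] at h2'
  have h3 : (α₁ ∘ fun θ : Θ => ((θ, v) : Θ × ℂ)) =ᶠ[𝓝 θ₀] (α₀ ∘ fun θ : Θ => ((θ, v⁻¹) : Θ × ℂ)) := by
    filter_upwards [hB.mem_nhds hθ] with θ hθ' using h.glue θ hθ' v hv
  have h4 := md_congr (F := Θ) (E := E) h3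
  rw [h4] at h2
  exact h2.symm.trans h2'

theorem md_slice {α : Θ × ℂ → X} {u : ℂ} (h : HolAt (Θ × ℂ) E α (θ₀, u)) (a : Θ) :
    md Θ E (fun θ => α (θ, u)) θ₀ a = md (Θ × ℂ) E α (θ₀, u) (a, 0) := by
  have h1 : HolAt Θ (Θ × ℂ) (fun θ : Θ => ((θ, u) : Θ × ℂ)) θ₀ :=
    holAt_self.2 (X1_hasF_inl θ₀ u).differentiableAt
  have h2 := md_comp_apply (g := α) (f := fun θ : Θ => ((θ, u) : Θ × ℂ)) (y := θ₀) h h1 a
  rw [md_self, (X1_hasF_inl θ₀ u).fderiv] at h2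
  exact h2

/-- `van` for `σ u = P (dα (a, 0))` (`holSec_md`, `HolSec.comp`, `HolSec.proj`). -/
theorem Fam.van (hP : IsPF P) {α₀ α₁ : Θ × ℂ → X} (h : Fam E B α₀ α₁) (hB : IsOpen B)
    (hθ : θ₀ ∈ B) (hv : ∀ u, VT ℂ P (fun u => α₀ (θ₀, u)) u) (a : Θ) {u₀ : ℂ}
    (hz : P (α₀ (θ₀, u₀)) (md (Θ × ℂ) E α₀ (θ₀, u₀) (a, 0)) = 0) (u : ℂ) :
    P (α₀ (θ₀, u)) (md (Θ × ℂ) E α₀ (θ₀, u) (a, 0)) = 0 := by
  have hs : ∀ {α : Θ × ℂ → X}, (∀ θ ∈ B, ∀ u, HolAt (Θ × ℂ) E α (θ, u)) → ∀ u,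
      HolSec E (fun u : ℂ => α (θ₀, u))
        (fun u : ℂ => P (α (θ₀, u)) (md (Θ × ℂ) E α (θ₀, u) (a, 0))) u := by
    intro α hα u
    have h1 := holSec_md (X1_ev hα hB hθ u) ((a, 0) : Θ × ℂ)
    have h2 := HolSec.comp (h := fun u : ℂ => ((θ₀, u) : Θ × ℂ)) (u := u) h1 (X1_diff_inr θ₀ u)
    exact HolSec.proj hP h2
  refine Crest.Agent.R266.van hP (h.rc hθ) hv (hs h.hol₀) (hs h.hol₁ 0) (fun v hv0 => ?_)
    (fun u => hP.idem _ _) hz u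
  show P (α₁ (θ₀, v)) (md (Θ × ℂ) E α₁ (θ₀, v) (a, 0)) =
    P (α₀ (θ₀, v⁻¹)) (md (Θ × ℂ) E α₀ (θ₀, v⁻¹) (a, 0))
  rw [h.md_glue hB hθ a hv0, h.glue θ₀ hθ v hv0]

private theorem X2_surj {G : Type} [NormedAddCommGroup G] [NormedSpace ℂ G] [FiniteDimensional ℂ G]
    {L : ℂ → G →L[ℂ] E} {u₀ : ℂ} (hL : ∀ g, ContinuousAt (fun u => L u g) u₀)
    (hs : Function.Surjective (L u₀)) : ∀ᶠ u in 𝓝 u₀, Function.Surjective (L u) := by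
  have : CompleteSpace E := FiniteDimensional.complete ℂ E
  obtain ⟨R, hR⟩ := (L u₀).exists_rightInverse_of_surjective
    (LinearMap.range_eq_top.2 hs)
  have hc : ContinuousAt (fun u => (L u).comp R) u₀ :=
    continuousAt_clm_apply.2 fun e => hL (R e)
  have hu : IsUnit ((L u₀).comp R) := by
    rw [hR]; exact isUnit_one
  have hev : ∀ᶠ u in 𝓝 u₀, IsUnit ((L u).comp R) :=
    hc.preimage_mem_nhds (Units.isOpen.mem_nhds hu)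
  filter_upwards [hev] with u hu e
  obtain ⟨w, hw⟩ := hu
  refine ⟨R ((w⁻¹ : (E →L[ℂ] E)ˣ).1 e), ?_⟩
  have h1 : (w.1 * (w⁻¹ : (E →L[ℂ] E)ˣ).1) e = e := by
    rw [Units.mul_inv]; rfl
  rw [hw] at h1
  exact h1

private theorem X2_sec (hP : IsPF P) {α : Θ × ℂ → X} (h : ∀ θ ∈ B, ∀ u, HolAt (Θ × ℂ) E α (θ, u))
    (hB : IsOpen B) (hθ : θ₀ ∈ B) (a : Θ) (u : ℂ) :
    HolSec E (fun u => α (θ₀, u))
      (fun u => sw P (α (θ₀, u)) (md (Θ × ℂ) E α (θ₀, u) (a, 0))) u := by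
  have h1 : ∀ᶠ z in 𝓝 (θ₀, u), HolAt (Θ × ℂ) E α z := by
    have : B ×ˢ (univ : Set ℂ) ∈ 𝓝 (θ₀, u) :=
      (hB.prod isOpen_univ).mem_nhds ⟨hθ, mem_univ _⟩
    filter_upwards [this] with z hz
    exact h z.1 hz.1 z.2
  have h2 := (holSec_md h1 (a, 0)).comp (h := fun u : ℂ => (θ₀, u)) (u := u) (by fun_prop)
  exact h2.proj hP.sw

private theorem X2_P_sw (hP : IsPF P) (x : X) (v : E) : P x (sw P x v) = 0 := by
  simp [sw, hP.idem]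

/-- `Q = sw P`, `τ a u = Q (dβ₀ (θ₀, u) (a, 0))`.  `van` for `u ↦ Nt P (β u) (τ a u) (τ a' u)`
(`HolSec.Nt`, `IsPF.P_Nt`), which vanishes at `0`.  The map `(a, v) ↦ tc (τ a u) + Pc v` is
continuous in `u` (for each `(a, v)`, finite dimension) and surjective at `u = 1`, hence near `1`; so
the `τ a u` span `ker P` and `Nzero P (β u)` for `u` near `1` (`nzero_iff_Nt`), then everywhere
(`IsPF.nzero_of_eventually`). -/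
theorem nzero_middle (hP : IsPF P) {β₀ β₁ : Θ × ℂ → X} (h : Fam E B β₀ β₁) (hB : IsOpen B)
    (hθ : θ₀ ∈ B) (hv : ∀ u, VT ℂ P (fun u => β₀ (θ₀, u)) u)
    (h0 : ∀ a, sw P (β₀ (θ₀, 0)) (md (Θ × ℂ) E β₀ (θ₀, 0) (a, 0)) = 0)
    (h1 : ∀ b, P (β₀ (θ₀, 1)) b = 0 →
      ∃ a, sw P (β₀ (θ₀, 1)) (md (Θ × ℂ) E β₀ (θ₀, 1) (a, 0)) = b) (u : ℂ) :
    Nzero P (β₀ (θ₀, u)) := by
  have hrc := h.rc hθ
  have hN : ∀ a a' u, Nt P (β₀ (θ₀, u)) (sw P (β₀ (θ₀, u)) (md (Θ × ℂ) E β₀ (θ₀, u) (a, 0)))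
      (sw P (β₀ (θ₀, u)) (md (Θ × ℂ) E β₀ (θ₀, u) (a', 0))) = 0 := by
    intro a a' u
    refine van hP hrc hv
      (σ₀ := fun u => Nt P (β₀ (θ₀, u)) (sw P (β₀ (θ₀, u)) (md (Θ × ℂ) E β₀ (θ₀, u) (a, 0)))
        (sw P (β₀ (θ₀, u)) (md (Θ × ℂ) E β₀ (θ₀, u) (a', 0))))
      (σ₁ := fun u => Nt P (β₁ (θ₀, u)) (sw P (β₁ (θ₀, u)) (md (Θ × ℂ) E β₁ (θ₀, u) (a, 0)))
        (sw P (β₁ (θ₀, u)) (md (Θ × ℂ) E β₁ (θ₀, u) (a', 0))))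
      (fun u => ?_) ?_ (fun v hv0 => ?_) (fun u => ?_) (u₀ := 0) ?_ u
    · exact HolSec.Nt hP (X2_sec hP h.hol₀ hB hθ a u) (X2_sec hP h.hol₀ hB hθ a' u)
        (Eventually.of_forall fun t => ⟨X2_P_sw hP _ _, X2_P_sw hP _ _⟩)
    · exact HolSec.Nt hP (X2_sec hP h.hol₁ hB hθ a 0) (X2_sec hP h.hol₁ hB hθ a' 0)
        (Eventually.of_forall fun t => ⟨X2_P_sw hP _ _, X2_P_sw hP _ _⟩)
    · simp only [h.md_glue hB hθ _ hv0, h.glue θ₀ hθ v hv0]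
    · exact hP.P_Nt (X2_P_sw hP _ _) (X2_P_sw hP _ _)
    · simp only [h0]
      simp [Nt]
  refine hP.nzero_of_eventually (F := ℂ) (f := fun u => β₀ (θ₀, u)) hrc.hol₀ (y₀ := 1) ?_ u
  set c : X := β₀ (θ₀, 1) with hcdef
  have hc : β₀ (θ₀, 1) ∈ (chartAt E c).source := mem_chart_source E c
  let L : ℂ → Θ × E →L[ℂ] E := fun u =>
    ((tc E c (β₀ (θ₀, u))).comp ((sw P (β₀ (θ₀, u))).comp
      ((md (Θ × ℂ) E β₀ (θ₀, u)).comp (ContinuousLinearMap.inl ℂ Θ ℂ)))).coprod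
      (Pc P c (chartAt E c (β₀ (θ₀, u))))
  have hLa : ∀ u a v, L u (a, v) =
      tc E c (β₀ (θ₀, u)) (sw P (β₀ (θ₀, u)) (md (Θ × ℂ) E β₀ (θ₀, u) (a, 0))) +
        Pc P c (chartAt E c (β₀ (θ₀, u))) v := fun u a v => rfl
  have hL : ∀ g, ContinuousAt (fun u => L u g) 1 := by
    rintro ⟨a, v⟩
    simp only [hLa]
    have h1 : DifferentiableAt ℂ (chartAt E c ∘ fun u => β₀ (θ₀, u)) 1 :=
      (hasFDerivAt_chart (hrc.hol₀ 1) hc).differentiableAt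
    have h2 : DifferentiableAt ℂ (Pc P c) ((chartAt E c ∘ fun u => β₀ (θ₀, u)) 1) :=
      hP.B2b_diff ((chartAt E c).map_source hc)
    have h3 : DifferentiableAt ℂ (fun u => Pc P c (chartAt E c (β₀ (θ₀, u))) v) 1 :=
      (h2.comp 1 h1).clm_apply (differentiableAt_const v)
    exact ((X2_sec hP h.hol₀ hB hθ a 1).2.add h3).continuousAt
  have hs : Function.Surjective (L 1) := by
    intro e
    obtain ⟨a, ha⟩ := h1 (sw P c e) (X2_P_sw hP _ _)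
    refine ⟨(a, e), ?_⟩
    rw [hLa, ← hcdef, tc_self, Pc_self, ha]
    simp [sw]
  filter_upwards [X2_surj hL hs, B2b_ev (hrc.hol₀ 1)] with t ht hts
  have key : ∀ b, P (β₀ (θ₀, t)) b = 0 →
      ∃ a, sw P (β₀ (θ₀, t)) (md (Θ × ℂ) E β₀ (θ₀, t) (a, 0)) = b := by
    intro b hb
    obtain ⟨⟨a, v⟩, hav⟩ := ht (tc E c (β₀ (θ₀, t)) b)
    refine ⟨a, ?_⟩
    rw [hLa, ← tc_ti hts v, Pc_tc P hts, ← map_add] at hav
    have h2 := congrArg (ti E c (chartAt E c (β₀ (θ₀, t)))) hav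
    rw [ti_tc hts, ti_tc hts] at h2
    have h3 := congrArg (P (β₀ (θ₀, t))) h2
    rw [map_add, X2_P_sw hP, hP.idem, zero_add, hb] at h3
    rw [h3, add_zero] at h2
    exact h2
  refine nzero_iff_Nt.2 fun a b ha hb => ?_
  obtain ⟨a', rfl⟩ := key a ha
  obtain ⟨b', rfl⟩ := key b hb
  exact hN a' b' t

/-- `Fam.van` for `sw P` along `α` gives `h0`.  Along `γ`: `T_u a = Q (dγ₀ (θ₀, u) (a, 0))` maps to
`ker (P (γ u))`, `ker T₀ ≤ ker T₁`, `range T₁ = ker P`, so by rank–nullity and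
`IsPF.finrank_ker_eq`, `range T₀ = ker P`, which is `h1` (`md_slice`, `md_congr`). -/
theorem variation [PreconnectedSpace X] (hP : IsPF P) {α₀ α₁ β₀ β₁ γ₀ γ₁ : Θ × ℂ → X}
    (hα : Fam E B α₀ α₁) (hβ : Fam E B β₀ β₁) (hγ : Fam E B γ₀ γ₁) (hB : IsOpen B) (hθ : θ₀ ∈ B)
    (htα : ∀ u, HT ℂ P (fun u => α₀ (θ₀, u)) u) (htβ : ∀ u, VT ℂ P (fun u => β₀ (θ₀, u)) u)
    (htγ : ∀ u, HT ℂ P (fun u => γ₀ (θ₀, u)) u) {x : X} (hx : ∀ θ ∈ B, α₀ (θ, 0) = x)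
    (h₁ : ∀ θ ∈ B, α₀ (θ, 1) = β₀ (θ, 0)) (h₂ : ∀ θ ∈ B, β₀ (θ, 1) = γ₀ (θ, 0))
    (hs : Function.Surjective (md Θ E (fun θ => γ₀ (θ, 1)) θ₀)) (u : ℂ) :
    Nzero P (β₀ (θ₀, u)) := by
  have hQ : IsPF (sw P) := hP.sw
  have hev : ∀ᶠ θ in 𝓝 θ₀, θ ∈ B := hB.mem_nhds hθ
  refine nzero_middle hP hβ hB hθ htβ (fun a => ?_) (fun b hb => ?_) u
  · have e0 : md (Θ × ℂ) E α₀ (θ₀, 0) (a, 0) = 0 := by
      rw [← md_slice (hα.hol₀ θ₀ hθ 0) a]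
      have : (fun θ => α₀ (θ, 0)) =ᶠ[𝓝 θ₀] fun _ => x := by
        filter_upwards [hev] with θ h using hx θ h
      rw [md_congr (F := Θ) (E := E) this, md_const]; rfl
    have e1 := hα.van hQ hB hθ (fun u => HT_iff_sw.1 (htα u)) a (u₀ := 0)
      (by rw [e0, map_zero]) 1
    have e2 : md (Θ × ℂ) E α₀ (θ₀, 1) (a, 0) = md (Θ × ℂ) E β₀ (θ₀, 0) (a, 0) := by
      rw [← md_slice (hα.hol₀ θ₀ hθ 1) a, ← md_slice (hβ.hol₀ θ₀ hθ 0) a]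
      have : (fun θ => α₀ (θ, 1)) =ᶠ[𝓝 θ₀] fun θ => β₀ (θ, 0) := by
        filter_upwards [hev] with θ h using h₁ θ h
      rw [md_congr (F := Θ) (E := E) this]
    rw [e2, h₁ θ₀ hθ] at e1
    exact e1
  · let T : ℂ → Θ →ₗ[ℂ] E := fun t =>
      ((sw P (γ₀ (θ₀, t))).comp ((md (Θ × ℂ) E γ₀ (θ₀, t)).comp
        (ContinuousLinearMap.inl ℂ Θ ℂ)) : Θ →L[ℂ] E)
    have hT : ∀ t a, T t a = sw P (γ₀ (θ₀, t)) (md (Θ × ℂ) E γ₀ (θ₀, t) (a, 0)) := fun t a => rfl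
    have hle : ∀ t, LinearMap.range (T t) ≤ LinearMap.ker (P (γ₀ (θ₀, t)) : E →ₗ[ℂ] E) := by
      rintro t _ ⟨a, rfl⟩
      show P (γ₀ (θ₀, t)) (T t a) = 0
      rw [hT, sw_apply, map_sub, hP.idem, sub_self]
    have hk : LinearMap.ker (T 0) ≤ LinearMap.ker (T 1) := by
      intro a ha
      exact hγ.van hQ hB hθ (fun u => HT_iff_sw.1 (htγ u)) a (u₀ := 0) ha 1
    have hr1 : LinearMap.range (T 1) = LinearMap.ker (P (γ₀ (θ₀, 1)) : E →ₗ[ℂ] E) := by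
      refine le_antisymm (hle 1) fun w hw => ?_
      obtain ⟨a, ha⟩ := hs w
      refine ⟨a, ?_⟩
      rw [hT, ← md_slice (hγ.hol₀ θ₀ hθ 1) a, ha, sw_apply]
      have : P (γ₀ (θ₀, 1)) w = 0 := hw
      rw [this, sub_zero]
    have hr0 : LinearMap.range (T 0) = LinearMap.ker (P (γ₀ (θ₀, 0)) : E →ₗ[ℂ] E) := by
      refine Submodule.eq_of_le_of_finrank_le (hle 0) ?_
      have a0 := LinearMap.finrank_range_add_finrank_ker (T 0)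
      have a1 := LinearMap.finrank_range_add_finrank_ker (T 1)
      have a2 := Submodule.finrank_mono hk
      have a3 := hP.finrank_ker_eq (γ₀ (θ₀, 0)) (γ₀ (θ₀, 1))
      rw [hr1] at a1
      omega
    have hb' : b ∈ LinearMap.ker (P (γ₀ (θ₀, 0)) : E →ₗ[ℂ] E) := by
      rw [← h₂ θ₀ hθ]; exact hb
    rw [← hr0] at hb'
    obtain ⟨a, ha⟩ := hb'
    refine ⟨a, ?_⟩
    have e2 : md (Θ × ℂ) E β₀ (θ₀, 1) (a, 0) = md (Θ × ℂ) E γ₀ (θ₀, 0) (a, 0) := by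
      rw [← md_slice (hβ.hol₀ θ₀ hθ 1) a, ← md_slice (hγ.hol₀ θ₀ hθ 0) a]
      have : (fun θ => β₀ (θ, 1)) =ᶠ[𝓝 θ₀] fun θ => γ₀ (θ, 0) := by
        filter_upwards [hev] with θ h using h₂ θ h
      rw [md_congr (F := Θ) (E := E) this]
    rw [e2, h₂ θ₀ hθ]
    exact ha

end Crest.Agent.R266
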