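import Crest.Agent.R266.Chain
import Crest.Agent.R266.Sard2
import Crest.Agent.R266.Var
import Crest.Agent.R266.Bridge

/-! Row 266 (S0404): the torsion vanishes on a rationally connected projective manifold. -/

set_option autoImplicit false
set_option linter.unusedSectionVars false

open Set Filter Topology Metric
open scoped Manifold ContDiff

noncomputable section
namespace Crest.Agent.R266

open Crest.AlgGeometry.HolSplit

variable {n : ℕ} {X : Type} [TopologicalSpace X] [ChartedSpace (Model n) X]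
  [IsManifold (mI n) ω X] [T2Space X] [CompactSpace X] [ConnectedSpace X]

/-- an analytic subset is closed; a box outside it. -/
theorem exists_box (hrc : IsRationallyConnected n X) :
    ∃ (x₀ y₀ : X) (U V : Set X), IsOpen U ∧ IsOpen V ∧ x₀ ∈ U ∧ y₀ ∈ V ∧
      ∀ x ∈ U, ∀ y ∈ V, OnRationalCurve (n := n) x y := by
  obtain ⟨A, hA, hne, hrc⟩ := hrc
  obtain ⟨p, hp⟩ : ∃ p, p ∉ A := by
    by_contra h
    push Not at h
    exact hne (eq_univ_of_forall h)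
  obtain ⟨W, k, f, hW, hpW, hf, hAW⟩ := hA p
  obtain ⟨i, hi⟩ : ∃ i, f i p ≠ 0 := by
    by_contra h
    push Not at h
    have : p ∈ A ∩ W := by rw [hAW]; exact ⟨hpW, h⟩
    exact hp this.1
  have hc : ContinuousAt (f i) p := (hf i).continuousOn.continuousAt (hW.mem_nhds hpW)
  have hO : {q | q ∈ W ∧ f i q ≠ 0} ∈ 𝓝 p :=
    inter_mem (hW.mem_nhds hpW) (hc.eventually_ne hi)
  obtain ⟨U, V, hU, hpU, hV, hpV, hUV⟩ := mem_nhds_prod_iff'.mp hO
  refine ⟨p.1, p.2, U, V, hU, hV, hpU, hpV, fun x hx y hy => hrc x y fun hxy => ?_⟩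
  have h1 := hUV (mk_mem_prod hx hy)
  have h2 : (x, y) ∈ A ∩ W := ⟨hxy, h1.1⟩
  rw [hAW] at h2
  exact h1.2 (h2.2 i)

/-- If `Nzero P` holds on `U`, `IsPF.nzero_of_eventually` with `f = id`.  Otherwise let `x ∈ U` with
`¬ Nzero P x`, `U₂ = {¬ Nzero P}` (open), `V' = V ∩ (chartAt y₀).source`,
`Z d = {θ ∈ Chains ι P x U₂ d | cv θ.2.2 1 ∈ V'}`, `ev θ = chartAt y₀ (cv θ.2.2 1)`.  The open set
`chartAt y₀ '' V'` (dimension `2n`, `Real.dimH_of_nonempty_interior`,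
`finrank_real_of_complex`) is covered by the countably many `ev '' Z d` (`rc_normalise`,
`exists_chain`), so `submersive_family` applies to one of them (`dimH_iUnion`, `locAn_chains`,
`GoodC.exists_ext`).  `fam_cv`, `hasFDerivAt_chart`, `variation`. -/
theorem nzero_of_rc (hn : 1 ≤ n) (hproj : IsProjective n X) (hrc : IsRationallyConnected n X)
    {P : X → Model n →L[ℂ] Model n} (hP : IsPF P) (x : X) : Nzero P x := by
  obtain ⟨N, ⟨ι⟩⟩ := hproj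
  obtain ⟨x₀, y₀, U, V, hU, hV, hx₀, hy₀, hUV⟩ := exists_box hrc
  by_cases hall : ∀ x ∈ U, Nzero P x
  · exact hP.nzero_of_eventually (F := Model n) (M := X) (f := id)
      (fun _ => mdifferentiableAt_id) (y₀ := x₀)
      (by filter_upwards [hU.mem_nhds hx₀] with y hy using hall y hy) x
  exfalso
  push Not at hall
  obtain ⟨x₁, hx₁, hn₁⟩ := hall
  set U₂ : Set X := {x | Nzero P x}ᶜ with hU₂
  have hU₂o : IsOpen U₂ := hP.isClosed_nzero.isOpen_compl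
  set c := chartAt (Model n) y₀ with hc
  set V' : Set X := V ∩ c.source with hV'
  have hV'o : IsOpen V' := hV.inter c.open_source
  let Z : (d : ℕ × ℕ × ℕ) → Set (Par N d.1 d.2.1 d.2.2) := fun d =>
    {θ ∈ Chains ι P x₁ U₂ d.1 d.2.1 d.2.2 | cv ι θ.2.2 1 ∈ V'}
  let ev : (d : ℕ × ℕ × ℕ) → Par N d.1 d.2.1 d.2.2 → Model n := fun d θ => c (cv ι θ.2.2 1)
  have hcover : c '' V' ⊆ ⋃ d, ev d '' Z d := by
    rintro _ ⟨y, hy, rfl⟩
    obtain ⟨g₀, g₁, hg, h0, h1⟩ := rc_normalise (hUV x₁ hx₁ y hy.1)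
    obtain ⟨d₁, d₂, d₃, θ, hθ, hθ1⟩ := exists_chain ι hP hg hU₂o (by rw [h0]; exact hn₁)
    rw [h0] at hθ
    rw [h1] at hθ1
    refine mem_iUnion.mpr ⟨(d₁, d₂, d₃), θ, ⟨hθ, ?_⟩, ?_⟩
    · show cv ι θ.2.2 1 ∈ V'
      rw [hθ1]; exact hy
    · show c (cv ι θ.2.2 1) = c y
      rw [hθ1]
  have hdim : dimH (c '' V') = ((2 * n : ℕ) : ENNReal) := by
    have hm : c '' V' ∈ 𝓝 (c y₀) :=
      c.image_mem_nhds (mem_chart_source _ y₀) (hV'o.mem_nhds ⟨hy₀, mem_chart_source _ y₀⟩)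
    rw [Real.dimH_of_mem_nhds hm, finrank_real_of_complex, finrank_euclideanSpace_fin]
  obtain ⟨d, hd⟩ : ∃ d, ((2 * (Module.finrank ℂ (Model n) - 1) : ℕ) : ENNReal) <
      dimH (ev d '' Z d) := by
    by_contra h
    push Not at h
    have h1 := (dimH_mono hcover).trans_eq (dimH_iUnion _)
    rw [hdim] at h1
    have h2 := h1.trans (iSup_le h)
    rw [finrank_euclideanSpace_fin] at h2
    have h3 : 2 * n ≤ 2 * (n - 1) := by exact_mod_cast h2
    omega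
  have hev : ∀ θ ∈ Z d, ∃ e' : Par N d.1 d.2.1 d.2.2 → Model n,
      ∀ᶠ θ' in 𝓝 θ, DifferentiableAt ℂ e' θ' ∧ (θ' ∈ Z d → e' θ' = ev d θ') := by
    intro θ hθ
    obtain ⟨R, hR0, hR⟩ := GoodC.exists_ext hθ.1.2.2.1 1
    let j : Par N d.1 d.2.1 d.2.2 → (Fin (d.2.2 + 1) → Fin (N + 1) → ℂ) × ℂ := fun θ' => (θ'.2.2, 1)
    have hj : Differentiable ℂ j := by simp only [j]; fun_prop
    have hjt : Tendsto j (𝓝 θ) (𝓝 (θ.2.2, 1)) := hj.continuous.tendsto θ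
    have hRc : ContinuousAt R (θ.2.2, 1) := hR.self_of_nhds.1.continuousAt
    have hsrc : ∀ᶠ q in 𝓝 (θ.2.2, (1 : ℂ)), R q ∈ c.source :=
      hRc.eventually (c.open_source.mem_nhds (by rw [hR0]; exact hθ.2.2))
    refine ⟨fun θ' => c (R (j θ')), ?_⟩
    filter_upwards [hjt.eventually hR, hjt.eventually hsrc] with θ' h1 h2
    refine ⟨?_, fun hθ' => ?_⟩
    · exact ((hasFDerivAt_chart h1.1 h2).differentiableAt).comp θ' (hj θ')
    · have hov : Over ι (Hev θ'.2.2 1 1) (cv ι θ'.2.2 1) :=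
        over_pt (hθ'.1.2.2.1 1 1 (Or.inl one_ne_zero))
      show c (R (j θ')) = c (cv ι θ'.2.2 1)
      rw [h1.2 _ hov]
  obtain ⟨Θ, _, _, _, h, B, θ₀, hB, hθ₀, hh, hZ, hs⟩ :=
    submersive_family (locAn_chains hP x₁ hU₂o hV'o d.1 d.2.1 d.2.2) hev hd
  have hα := fam_cv (ι := ι) hB (h := fun θ => (h θ).1) hh.fst fun θ hθ => (hZ hθ).1.1
  have hβ := fam_cv (ι := ι) hB (h := fun θ => (h θ).2.1) hh.snd.fst fun θ hθ => (hZ hθ).1.2.1
  have hγ := fam_cv (ι := ι) hB (h := fun θ => (h θ).2.2) hh.snd.snd fun θ hθ => (hZ hθ).1.2.2.1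
  obtain ⟨⟨-, -, -, t1, t2, t3, -, -, -, u, hu⟩, hV₀⟩ := hZ hθ₀
  have hol : HolAt Θ (Model n) (fun θ => cv ι (h θ).2.2 1) θ₀ := by
    have h1 : HolAt Θ (Θ × ℂ) (fun θ : Θ => (θ, (1 : ℂ))) θ₀ := holAt_self.mpr (by fun_prop)
    exact MDifferentiableAt.comp (g := fun q : Θ × ℂ => cv ι (h q.1).2.2 q.2)
      (f := fun θ : Θ => (θ, (1 : ℂ))) θ₀ (hγ.hol₀ θ₀ hθ₀ 1) h1
  have hs' : Function.Surjective (md Θ (Model n) (fun θ => cv ι (h θ).2.2 1) θ₀) := by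
    intro v
    have hfd := (hasFDerivAt_chart hol hV₀.2).fderiv
    obtain ⟨a, ha⟩ := hs (tc (Model n) y₀ (cv ι (h θ₀).2.2 1) v)
    have e : (ev d ∘ h) = (chartAt (Model n) y₀ ∘ fun θ => cv ι (h θ).2.2 1) := rfl
    rw [e, hfd] at ha
    refine ⟨a, ?_⟩
    have := congrArg (ti (Model n) y₀ (chartAt (Model n) y₀ (cv ι (h θ₀).2.2 1))) ha
    rwa [ContinuousLinearMap.comp_apply, ti_tc hV₀.2, ti_tc hV₀.2] at this
  exact hu (variation hP hα hβ hγ hB hθ₀ t1 t2 t3 (x := x₁) (fun θ hθ => (hZ hθ).1.2.2.2.2.2.2.1)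
    (fun θ hθ => (hZ hθ).1.2.2.2.2.2.2.2.1) (fun θ hθ => (hZ hθ).1.2.2.2.2.2.2.2.2.1) hs' u)

theorem s0404_core (hn : 1 ≤ n) (hproj : IsProjective n X) (hrc : IsRationallyConnected n X)
    (S : Splitting n X) : S.FirstIntegrable ∧ S.SecondIntegrable :=
  ⟨(first_iff S).2 (nzero_of_rc hn hproj hrc (spP_isPF S).sw),
    (second_iff S).2 (nzero_of_rc hn hproj hrc (spP_isPF S))⟩

end Crest.Agent.R266
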