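import Crest.Agent.R266.Proj

/-! Row 266 (S0404): meromorphic functions on the sphere are rational. -/

set_option autoImplicit false
set_option linter.unusedSectionVars false

open Set Filter Topology Metric
open scoped Manifold ContDiff

noncomputable section
namespace Crest.Agent.R266

open Polynomial in
/-- an entire function of polynomial growth is a polynomial. -/
theorem Rat_poly_of_growth (m : ℕ) : ∀ h : ℂ → ℂ, Differentiable ℂ h →
    (∃ c, Tendsto (fun z => h z / z ^ m) (cocompact ℂ) (𝓝 c)) →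
    ∃ p : ℂ[X], ∀ z, h z = p.eval z := by
  induction m with
  | zero =>
    rintro h hh ⟨c, hc⟩
    refine ⟨C c, fun z => ?_⟩
    simp only [pow_zero, div_one] at hc
    rw [eval_C]
    exact hh.apply_eq_of_tendsto_cocompact z hc
  | succ m ih =>
    rintro h hh ⟨c, hc⟩
    have hd : Differentiable ℂ (dslope h 0) := by
      rw [← differentiableOn_univ] at hh ⊢
      exact (Complex.differentiableOn_dslope univ_mem).2 hh
    have hi : Tendsto (fun z : ℂ => z⁻¹) (cocompact ℂ) (𝓝 0) := by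
      rw [← cobounded_eq_cocompact]
      exact tendsto_inv₀_cobounded
    have hne : ∀ᶠ z : ℂ in cocompact ℂ, z ≠ 0 :=
      (isCompact_singleton (x := (0 : ℂ))).compl_mem_cocompact
    obtain ⟨p, hp⟩ := ih (dslope h 0) hd ⟨c - h 0 * 0 ^ (m + 1), by
      refine (hc.sub ((hi.pow (m + 1)).const_mul (h 0))).congr' ?_
      filter_upwards [hne] with z hz
      rw [dslope_of_ne _ hz, slope_def_field, sub_zero, inv_pow]
      field_simp
      ring⟩
    refine ⟨C (h 0) + X * p, fun z => ?_⟩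
    have := sub_smul_dslope h 0 z
    rw [eval_add, eval_C, eval_mul, eval_X, ← hp z]
    rw [sub_zero, smul_eq_mul] at this
    rw [this]
    ring

open Polynomial in
/-- clearing the finitely many poles. -/
theorem Rat_clear (S : Finset ℂ) : ∀ f : ℂ → ℂ, (∀ z, MeromorphicAt f z) →
    (∀ z, z ∉ S → AnalyticAt ℂ f z) →
    (∃ (m : ℕ) (c : ℂ), Tendsto (fun z => f z / z ^ m) (cocompact ℂ) (𝓝 c)) →
    ∃ p q : ℂ[X], q ≠ 0 ∧ ∀ z, q.eval z * f z = p.eval z := by
  classical
  induction S using Finset.induction_on with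
  | empty =>
    rintro f - ha ⟨m, hc⟩
    obtain ⟨p, hp⟩ := Rat_poly_of_growth m f
      (fun z => (ha z (Finset.notMem_empty z)).differentiableAt) hc
    exact ⟨p, 1, one_ne_zero, fun z => by rw [eval_one, one_mul, hp]⟩
  | insert a S _ ih =>
    rintro f hf ha ⟨m, c, hc⟩
    obtain ⟨k, hk⟩ := hf a
    have hi : Tendsto (fun z : ℂ => z⁻¹) (cocompact ℂ) (𝓝 0) := by
      rw [← cobounded_eq_cocompact]
      exact tendsto_inv₀_cobounded
    have hne : ∀ᶠ z : ℂ in cocompact ℂ, z ≠ 0 :=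
      (isCompact_singleton (x := (0 : ℂ))).compl_mem_cocompact
    have hpw : ∀ z, AnalyticAt ℂ (fun w : ℂ => (w - a) ^ k) z := fun z => by fun_prop
    obtain ⟨p, q, hq, hpq⟩ := ih (fun z => (z - a) ^ k * f z)
      (fun z => (hpw z).meromorphicAt.mul (hf z))
      (fun z hz => by
        by_cases hza : z = a
        · subst hza
          simpa only [smul_eq_mul] using hk
        · exact (hpw z).mul (ha z (by simp [hza, hz])))
      ⟨k + m, (1 - a * 0) ^ k * c, by
        refine ((((hi.const_mul a).const_sub 1).pow k).mul hc).congr' ?_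
        filter_upwards [hne] with z hz
        have e : 1 - a * z⁻¹ = (z - a) / z := by field_simp
        rw [e, div_pow, pow_add]
        field_simp⟩
    refine ⟨p, q * (X - C a) ^ k, mul_ne_zero hq (pow_ne_zero _ (X_sub_C_ne_zero a)), fun z => ?_⟩
    rw [← hpq z, eval_mul, eval_pow, eval_sub, eval_X, eval_C, mul_assoc]

open Polynomial in
/-- `f` is analytic outside a finite set `S` (analytic near `∞`; the non-analytic points are
discrete, `MeromorphicAt.eventually_analyticAt`).  Multiply by `q = ∏_{a ∈ S} (X - a)^m` to get,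
after changing values on `S`, an entire function of polynomial growth, which is a polynomial
(Liouville after dividing out, or Cauchy estimates). -/
theorem rat_of_meromorphic {f : ℂ → ℂ} (hf : ∀ z, MeromorphicAt f z)
    (hinf : MeromorphicAt (fun v => f v⁻¹) 0) :
    ∃ p q : ℂ[X], q ≠ 0 ∧ ∀ᶠ z in cofinite, q.eval z * f z = p.eval z := by
  have hi : Tendsto (fun z : ℂ => z⁻¹) (cocompact ℂ) (𝓝[≠] 0) := by
    rw [← cobounded_eq_cocompact]
    exact tendsto_inv₀_cobounded'
  have hne : ∀ᶠ z : ℂ in cocompact ℂ, z ≠ 0 :=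
    (isCompact_singleton (x := (0 : ℂ))).compl_mem_cocompact
  have hfar : ∀ᶠ z in cocompact ℂ, AnalyticAt ℂ f z := by
    filter_upwards [hi.eventually hinf.eventually_analyticAt, hne] with z hz hz0
    have h1 := hz.comp (f := fun w : ℂ => w⁻¹) (analyticAt_inv hz0)
    have e : (fun v => f v⁻¹) ∘ (fun w : ℂ => w⁻¹) = f := by
      funext w
      simp
    rwa [e] at h1
  obtain ⟨K, hK, hKs⟩ := mem_cocompact.1 hfar
  obtain ⟨S, -, hS⟩ := hK.elim_nhds_subcover (fun z => {w | w ≠ z → AnalyticAt ℂ f w})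
    (fun z _ => eventually_nhdsWithin_iff.1 (hf z).eventually_analyticAt)
  obtain ⟨m, hm⟩ := hinf
  obtain ⟨p, q, hq, hpq⟩ := Rat_clear S f hf (fun z hz => by
      by_cases hzK : z ∈ K
      · obtain ⟨w, hw, hzw⟩ := mem_iUnion₂.1 (hS hzK)
        exact hzw fun e => hz (e ▸ hw)
      · exact hKs hzK)
    ⟨m, _, by
      refine (hm.continuousAt.tendsto.comp (hi.mono_right nhdsWithin_le_nhds)).congr fun z => ?_
      simp only [Function.comp, sub_zero, inv_inv, smul_eq_mul, inv_pow]
      rw [div_eq_mul_inv, mul_comm]⟩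
  exact ⟨p, q, hq, Eventually.of_forall hpq⟩

open Crest.AlgGeometry.HolSplit

variable {n N : ℕ} {X : Type} [TopologicalSpace X] [ChartedSpace (Model n) X]
  [IsManifold (mI n) ω X] [T2Space X] [CompactSpace X] [Nonempty X] {ι : ProjEmbedding n X N}

/-- the local analytic version of the homogeneous coordinates along a holomorphic curve. -/
theorem Rat_local {g : ℂ → X} (hg : ∀ z, HolAt ℂ (Model n) g z) (z₀ : ℂ) :
    (∀ i, AnalyticAt ℂ (fun z => ι.coords (g z₀) (g z) i) z₀) ∧
      ∀ᶠ z in 𝓝 z₀, ∃ c : ℂ, c ≠ 0 ∧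
        ∀ i, ι.coords (g z₀) (g z) i = c * ι.coords (g z) (g z) i := by
  have hn : ∀ᶠ z in 𝓝 z₀, g z ∈ ι.nbhd (g z₀) :=
    (hg z₀).continuousAt.preimage_mem_nhds ((ι.isOpen_nbhd _).mem_nhds (ι.mem_nbhd _))
  refine ⟨fun i => ?_, ?_⟩
  · rw [Complex.analyticAt_iff_eventually_differentiableAt]
    filter_upwards [hn] with z hz
    have h1 : HolAt ℂ (Fin (N + 1) → ℂ) (ι.coords (g z₀) ∘ g) z :=
      MDifferentiableAt.comp z (holAt_coords hz) (hg z)
    exact differentiableAt_pi.1 (holAt_self.1 h1) i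
  · filter_upwards [hn] with z hz
    obtain ⟨c, hc, e⟩ := coords_eq_smul hz
    exact ⟨c, hc, fun i => by rw [e, Pi.smul_apply, smul_eq_mul]⟩

theorem Rat_mero {g : ℂ → X} (hg : ∀ z, HolAt ℂ (Model n) g z) (i j : Fin (N + 1)) (z₀ : ℂ) :
    MeromorphicAt (fun z => ι.coords (g z) (g z) i / ι.coords (g z) (g z) j) z₀ := by
  obtain ⟨ha, hc⟩ := Rat_local (ι := ι) hg z₀
  refine ((ha i).meromorphicAt.div (ha j).meromorphicAt).congr ?_
  filter_upwards [nhdsWithin_le_nhds hc] with z hz
  obtain ⟨c, hc0, e⟩ := hz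
  simp only [Pi.div_apply]
  rw [e i, e j, mul_div_mul_left _ _ hc0]

theorem Rat_isolated {g : ℂ → X} (hg : ∀ z, HolAt ℂ (Model n) g z) (j : Fin (N + 1))
    (hj : ∃ z, ι.coords (g z) (g z) j ≠ 0) (z₀ : ℂ) :
    ∀ᶠ z in 𝓝[≠] z₀, ι.coords (g z) (g z) j ≠ 0 := by
  have hor : ∀ z₀ : ℂ, (∀ᶠ z in 𝓝 z₀, ι.coords (g z) (g z) j = 0) ∨
      ∀ᶠ z in 𝓝[≠] z₀, ι.coords (g z) (g z) j ≠ 0 := by
    intro z₀
    obtain ⟨ha, hc⟩ := Rat_local (ι := ι) hg z₀
    rcases (ha j).eventually_eq_zero_or_eventually_ne_zero with h | h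
    · left
      filter_upwards [h, hc] with z hz hz'
      obtain ⟨c, hc0, e⟩ := hz'
      rw [e j] at hz
      exact (mul_eq_zero.1 hz).resolve_left hc0
    · right
      filter_upwards [h, nhdsWithin_le_nhds hc] with z hz hz'
      obtain ⟨c, hc0, e⟩ := hz'
      rw [e j] at hz
      exact right_ne_zero_of_mul hz
  have hclop : IsClopen {z₀ : ℂ | ∀ᶠ z in 𝓝 z₀, ι.coords (g z) (g z) j = 0} := by
    refine ⟨?_, isOpen_setOfPred_eventually_nhds⟩
    rw [← isOpen_compl_iff, isOpen_iff_mem_nhds]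
    intro w hw
    have h := eventually_nhdsWithin_iff.1 ((hor w).resolve_left hw)
    filter_upwards [h] with z hz hz'
    by_cases hzw : z = w
    · exact hw (hzw ▸ hz')
    · exact hz hzw (Filter.Eventually.self_of_nhds (p := fun z => ι.coords (g z) (g z) j = 0) hz')
  rcases isClopen_iff.1 hclop with h | h
  · refine (hor z₀).resolve_left fun h' => ?_
    have : z₀ ∈ {z₀ : ℂ | ∀ᶠ z in 𝓝 z₀, ι.coords (g z) (g z) j = 0} := h'
    rw [h] at this
    exact this
  · obtain ⟨z, hz⟩ := hj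
    have : z ∈ {z₀ : ℂ | ∀ᶠ z in 𝓝 z₀, ι.coords (g z) (g z) j = 0} := by
      rw [h]; exact mem_univ z
    exact absurd (Filter.Eventually.self_of_nhds (p := fun z => ι.coords (g z) (g z) j = 0)
      this) hz

open Polynomial in
/-- `f z = c z i / c z j`, `c z = coords (g₀ z) (g₀ z)`; near `z₀` it equals the quotient of the
analytic functions `coords p (g₀ z) i`, `coords p (g₀ z) j`, `p = g₀ z₀` (`coords_eq_smul`); same at
`∞` with `g₁`.  The zeros of `c z j` are isolated (the set where it vanishes identically near `z` is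
clopen), so the identity holds on a punctured neighbourhood of each point, and by continuity of the
local version at the point. -/
theorem rc_ratio {g₀ g₁ : ℂ → X} (hg : RC (Model n) g₀ g₁) (i j : Fin (N + 1))
    (hj : ∃ z, ι.coords (g₀ z) (g₀ z) j ≠ 0) :
    ∃ p q : ℂ[X], q ≠ 0 ∧
      ∀ z, q.eval z * ι.coords (g₀ z) (g₀ z) i = p.eval z * ι.coords (g₀ z) (g₀ z) j := by
  obtain ⟨p, q, hq, hpq⟩ := rat_of_meromorphic
    (f := fun z => ι.coords (g₀ z) (g₀ z) i / ι.coords (g₀ z) (g₀ z) j)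
    (Rat_mero hg.hol₀ i j) (by
      refine (Rat_mero (ι := ι) hg.hol₁ i j 0).congr ?_
      filter_upwards [self_mem_nhdsWithin] with v hv
      rw [hg.glue v hv])
  refine ⟨p, q, hq, fun z₀ => ?_⟩
  obtain ⟨ha, hc⟩ := Rat_local (ι := ι) hg.hol₀ z₀
  have h1 : (fun z => q.eval z * ι.coords (g₀ z₀) (g₀ z) i) =ᶠ[𝓝[≠] z₀]
      fun z => p.eval z * ι.coords (g₀ z₀) (g₀ z) j := by
    filter_upwards [nhdsNE_le_cofinite z₀ hpq, Rat_isolated hg.hol₀ j hj z₀,
      nhdsWithin_le_nhds hc] with z h2 h3 h4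
    obtain ⟨c, -, e⟩ := h4
    rw [e i, e j, ← h2]
    field_simp
  exact tendsto_nhds_unique_of_eventuallyEq
    ((q.continuous.continuousAt.mul (ha i).continuousAt).tendsto.mono_left nhdsWithin_le_nhds)
    ((p.continuous.continuousAt.mul (ha j).continuousAt).tendsto.mono_left nhdsWithin_le_nhds) h1

end Crest.Agent.R266
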