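import Crest.Agent.R266.HSard1
import Crest.Agent.R266.Defs

/-! Row 266 (S0404): stratification of analytic sets and Sard's theorem. -/

set_option autoImplicit false
set_option linter.unusedSectionVars false

open Set Filter Topology Metric
open scoped Manifold ContDiff

noncomputable section
namespace Crest.Agent.R266

variable {T F : Type} [NormedAddCommGroup T] [NormedSpace ℂ T] [FiniteDimensional ℂ T]
  [NormedAddCommGroup F] [NormedSpace ℂ F] [FiniteDimensional ℂ F]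

/-- a non-singular hypersurface is locally the image of an open subset of `ℂ^m`
(`Crest.Agent.R264.exists_local_inverse` for `θ ↦ (g θ, L θ)`, `L : T → ℂ^m` linear, injective on
`ker (dg θ₀)`). -/
theorem hyp_local {m : ℕ} (hT : Module.finrank ℂ T = m + 1) {g : T → ℂ} {θ₀ : T}
    (hg : ∀ᶠ θ in 𝓝 θ₀, DifferentiableAt ℂ g θ) (hd : fderiv ℂ g θ₀ ≠ 0) :
    ∃ (B : Set (Fin m → ℂ)) (h : (Fin m → ℂ) → T), IsOpen B ∧ DifferentiableOn ℂ h B ∧
      ∀ᶠ θ in 𝓝 θ₀, g θ = 0 → θ ∈ h '' B := by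
  by_cases h0 : g θ₀ = 0
  · obtain ⟨ψ, V, hV, hψ, N, hN, hh⟩ := hyper_param hg h0 hd
    have hk : Module.finrank ℂ (LinearMap.ker (fderiv ℂ g θ₀ : T →ₗ[ℂ] ℂ)) = m := by
      have h1 := LinearMap.finrank_range_add_finrank_ker (fderiv ℂ g θ₀ : T →ₗ[ℂ] ℂ)
      have h2 : LinearMap.range (fderiv ℂ g θ₀ : T →ₗ[ℂ] ℂ) = ⊤ := by
        rcases eq_bot_or_eq_top (LinearMap.range (fderiv ℂ g θ₀ : T →ₗ[ℂ] ℂ)) with h | h
        · exact absurd (ContinuousLinearMap.coe_injective (LinearMap.range_eq_bot.1 h)) hd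
        · exact h
      rw [h2, finrank_top, Module.finrank_self, hT] at h1
      omega
    let e : (Fin m → ℂ) ≃L[ℂ] LinearMap.ker (fderiv ℂ g θ₀ : T →ₗ[ℂ] ℂ) :=
      (LinearEquiv.ofFinrankEq _ _ (by simp [hk])).toContinuousLinearEquiv
    refine ⟨e ⁻¹' V, ψ ∘ e, hV.preimage e.continuous,
      hψ.comp e.differentiable.differentiableOn fun x hx => hx, ?_⟩
    filter_upwards [hN] with θ hθ hg0
    obtain ⟨v, hv, rfl⟩ := hh θ hθ hg0
    exact ⟨e.symm v, by simpa using hv, by simp⟩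
  · refine ⟨∅, fun _ => θ₀, isOpen_empty, differentiableOn_empty, ?_⟩
    filter_upwards [hg.self_of_nhds.continuousAt.eventually_ne h0] with θ hθ h using absurd h hθ

/-- the zero set of a non-zero holomorphic function is covered by countably many images of open
subsets of `ℂ^m`.  For a basis `b` and a list `l` of indices let `g_l` be the iterated directional
derivative (`g_[] = f`, `g_(i :: l) θ = fderiv g_l θ (b i)`).  At a zero `θ` of `f` not all `g_l θ`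
vanish (else all `iteratedFDeriv` vanish at `θ`, or: the set where all `g_l` vanish is clopen in
`W` since the functions `g_l` satisfy a closed system along lines; use analyticity); a shortest
list `i :: l` with `g_(i :: l) θ ≠ 0` gives `g_l θ = 0`, `dg_l θ ≠ 0`.  For each `l` cover
`{g_l = 0, dg_l ≠ 0}` by countably many neighbourhoods (`countable_cover_nhdsWithin`). -/
theorem hyp_cover {m : ℕ} (hT : Module.finrank ℂ T = m + 1) {f : T → ℂ} {W : Set T}
    (hW : IsOpen W) (hc : IsPreconnected W) (hf : DifferentiableOn ℂ f W) (h0 : ∃ θ ∈ W, f θ ≠ 0) :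
    ∃ S : Set (Set (Fin m → ℂ) × ((Fin m → ℂ) → T)), S.Countable ∧
      (∀ s ∈ S, IsOpen s.1 ∧ DifferentiableOn ℂ s.2 s.1) ∧
      ∀ θ ∈ W, f θ = 0 → ∃ s ∈ S, θ ∈ s.2 '' s.1 := by
  have := FiniteDimensional.proper ℂ T
  -- a set is `Cov` if it is covered by countably many images
  let Cov : Set T → Prop := fun A => ∃ S : Set (Set (Fin m → ℂ) × ((Fin m → ℂ) → T)),
    S.Countable ∧ (∀ s ∈ S, IsOpen s.1 ∧ DifferentiableOn ℂ s.2 s.1) ∧
      ∀ θ ∈ A, ∃ s ∈ S, θ ∈ s.2 '' s.1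
  have hloc : ∀ A : Set T, (∀ θ ∈ A, ∃ N ∈ 𝓝 θ, Cov (A ∩ N)) → Cov A := by
    intro A hA
    choose! N hN hC using hA
    obtain ⟨t, htA, htc, hcov⟩ := TopologicalSpace.countable_cover_nhdsWithin (s := A) (f := N)
      fun x hx => mem_nhdsWithin_of_mem_nhds (hN x hx)
    choose! S hS1 hS2 hS3 using hC
    refine ⟨⋃ x ∈ t, S x, htc.biUnion fun x hx => hS1 x (htA hx), ?_, ?_⟩
    · intro s hs
      obtain ⟨x, hx, hs⟩ := mem_iUnion₂.1 hs
      exact hS2 x (htA hx) s hs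
    · intro θ hθ
      obtain ⟨x, hx, hx'⟩ := mem_iUnion₂.1 (hcov hθ)
      obtain ⟨s, hs, hs'⟩ := hS3 x (htA hx) θ ⟨hθ, hx'⟩
      exact ⟨s, mem_iUnion₂.2 ⟨x, hx, hs⟩, hs'⟩
  have hone : ∀ g : T → ℂ, DifferentiableOn ℂ g W →
      Cov {θ | θ ∈ W ∧ g θ = 0 ∧ fderiv ℂ g θ ≠ 0} := by
    intro g hg
    refine hloc _ fun θ hθ => ?_
    obtain ⟨B, h, hB, hh, hev⟩ := hyp_local hT (g := g) (θ₀ := θ)
      (hg.eventually_differentiableAt (hW.mem_nhds hθ.1)) hθ.2.2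
    refine ⟨_, hev, {(B, h)}, countable_singleton _, ?_, ?_⟩
    · rintro s rfl; exact ⟨hB, hh⟩
    · intro θ' hθ'; exact ⟨_, rfl, hθ'.2 hθ'.1.2.1⟩
  have hall : Cov {θ | θ ∈ W ∧ f θ = 0} := by
    refine hloc _ fun θ hθ => ?_
    have hne : ¬ f =ᶠ[𝓝 θ] 0 := fun h => by
      obtain ⟨θ₁, h1, h2⟩ := h0
      exact h2 (Crest.Agent.R264.SCV.eqOn_of_eventuallyEq hW hc hf (differentiableOn_const 0)
        hθ.1 h h1)
    obtain ⟨N, hN, -, j, g, hg, hz⟩ := zero_set_cover hW hf hθ.1 hne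
    choose S hS1 hS2 hS3 using fun i => hone (g i) (hg i)
    refine ⟨N, hN, ⋃ i, S i, countable_iUnion hS1, ?_, ?_⟩
    · intro s hs
      obtain ⟨i, hs⟩ := mem_iUnion.1 hs
      exact hS2 i s hs
    · intro θ' hθ'
      obtain ⟨i, -, h1, h2⟩ := hz θ' hθ'.2 hθ'.1.2
      obtain ⟨s, hs, hs'⟩ := hS3 i θ' ⟨hθ'.1.1, h1, h2⟩
      exact ⟨s, mem_iUnion.2 ⟨i, hs⟩, hs'⟩
  obtain ⟨S, h1, h2, h3⟩ := hall
  exact ⟨S, h1, h2, fun θ hθ h => h3 θ ⟨hθ, h⟩⟩

private theorem z2_dimH_img {P : Type} [NormedAddCommGroup P] [NormedSpace ℂ P]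
    [FiniteDimensional ℂ P] {g : P → F} {u₀ : P} {ρ : ℝ}
    (hg : DifferentiableOn ℂ g (ball u₀ ρ)) :
    dimH (g '' ball u₀ ρ) ≤ ((2 * Module.finrank ℂ P : ℕ) : ENNReal) := by
  haveI := FiniteDimensional.complete ℂ F
  haveI : FiniteDimensional ℝ P := FiniteDimensional.complexToReal P
  have h1 : ContDiffOn ℝ 1 g (ball u₀ ρ) :=
    ((Crest.Agent.R264.SCV.analyticOnNhd isOpen_ball hg).contDiffOn_of_completeSpace
      (n := 1)).restrict_scalars ℝ
  refine (h1.dimH_image_le (convex_ball _ _) subset_rfl).trans ?_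
  refine (dimH_mono (subset_univ _)).trans ?_
  rw [Real.dimH_univ_eq_finrank, finrank_real_of_complex]

private theorem z2_aux {P Q : Type} [NormedAddCommGroup P] [NormedSpace ℂ P]
    [FiniteDimensional ℂ P] [NormedAddCommGroup Q] [NormedSpace ℂ Q] [FiniteDimensional ℂ Q]
    {ev : T → F} {θ : T} (hev : ∀ᶠ x in 𝓝 θ, DifferentiableAt ℂ ev x)
    (hr : ∀ᶠ x in 𝓝 θ, Module.finrank ℂ (LinearMap.range (fderiv ℂ ev x : T →ₗ[ℂ] F)) ≤
      Module.finrank ℂ P)
    (L : F →L[ℂ] P) (π : T →L[ℂ] Q)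
    (hb : Function.Bijective ((L.comp (fderiv ℂ ev θ)).prod π)) :
    ∃ N ∈ 𝓝 θ, dimH (ev '' N) ≤ ((2 * Module.finrank ℂ P : ℕ) : ENNReal) := by
  obtain ⟨O, hO, hOo, hOθ⟩ := _root_.eventually_nhds_iff.1 (hev.and hr)
  let τ : T → P × Q := fun x => (L (ev x), π x)
  have hτ : ∀ x ∈ O, HasFDerivAt τ ((L.comp (fderiv ℂ ev x)).prod π) x := fun x hx =>
    (L.hasFDerivAt.comp x (hO x hx).1.hasFDerivAt).prodMk π.hasFDerivAt
  have hτd : DifferentiableOn ℂ τ O := fun x hx => (hτ x hx).differentiableAt.differentiableWithinAt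
  obtain ⟨A, B, σ, hA, hAθ, hAO, hB, hσ, h1, h2, h3, h4⟩ :=
    Crest.Agent.R264.exists_local_inverse hOo hτd hOθ (by rw [(hτ θ hOθ).fderiv]; exact hb)
  obtain ⟨ρ, hρ, hρB⟩ := Metric.isOpen_iff.1 hB _ (h1 hAθ)
  have hG : ∀ y ∈ B, HasFDerivAt (ev ∘ σ) ((fderiv ℂ ev (σ y)).comp (fderiv ℂ σ y)) y :=
    fun y hy => (hO _ (hAO (h2 hy))).1.hasFDerivAt.comp y
      (hσ.differentiableAt (hB.mem_nhds hy)).hasFDerivAt
  have hL : ∀ y ∈ B, ∀ w, L (fderiv ℂ ev (σ y) (fderiv ℂ σ y w)) = w.1 := by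
    intro y hy w
    have e1 := L.hasFDerivAt.comp y (hG y hy)
    have e2 : (fun z : P × Q => z.1) =ᶠ[𝓝 y] L ∘ ev ∘ σ := by
      filter_upwards [hB.mem_nhds hy] with z hz
      exact (congrArg Prod.fst (h4 z hz)).symm
    have e3 := (e1.congr_of_eventuallyEq e2).unique hasFDerivAt_fst
    exact congrArg (fun M : P × Q →L[ℂ] P => M w) e3
  have hz : ∀ y ∈ B, ∀ κ : Q, fderiv ℂ ev (σ y) (fderiv ℂ σ y (0, κ)) = 0 := by
    intro y hy κ
    let D : P →ₗ[ℂ] F := (fderiv ℂ ev (σ y) : T →ₗ[ℂ] F) ∘ₗ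
      (fderiv ℂ σ y : P × Q →ₗ[ℂ] T) ∘ₗ LinearMap.inl ℂ P Q
    have hDi : Function.Injective D := by
      intro a b hab
      have := congrArg L hab
      exact (hL y hy (a, 0)).symm.trans (this.trans (hL y hy (b, 0)))
    have hle : LinearMap.range D ≤ LinearMap.range (fderiv ℂ ev (σ y) : T →ₗ[ℂ] F) :=
      LinearMap.range_comp_le_range _ _
    have heq : LinearMap.range D = LinearMap.range (fderiv ℂ ev (σ y) : T →ₗ[ℂ] F) := by
      apply Submodule.eq_of_le_of_finrank_le hle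
      rw [LinearMap.finrank_range_of_inj hDi]
      exact (hO _ (hAO (h2 hy))).2
    have hm : fderiv ℂ ev (σ y) (fderiv ℂ σ y (0, κ)) ∈ LinearMap.range D := by
      rw [heq]; exact ⟨_, rfl⟩
    obtain ⟨ξ, hξ⟩ := hm
    have h5 : ξ = 0 := by
      have := congrArg L hξ
      exact (hL y hy (ξ, 0)).symm.trans (this.trans (hL y hy (0, κ)))
    rw [← hξ, h5, map_zero]
  have hbox : ∀ u ∈ ball (τ θ).1 ρ, ∀ κ ∈ ball (τ θ).2 ρ, (u, κ) ∈ B := by
    intro u hu κ hκ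
    apply hρB
    rw [← ball_prod_same]
    exact ⟨hu, hκ⟩
  have hconst : ∀ u ∈ ball (τ θ).1 ρ, ∀ κ ∈ ball (τ θ).2 ρ,
      ev (σ (u, κ)) = ev (σ (u, (τ θ).2)) := by
    intro u hu κ hκ
    have hd : ∀ κ ∈ ball (τ θ).2 ρ, HasFDerivAt (fun κ => ev (σ (u, κ))) (0 : Q →L[ℂ] F) κ := by
      intro κ hκ
      have e1 := (hG _ (hbox u hu κ hκ)).comp κ (hasFDerivAt_prodMk_right (𝕜 := ℂ) u κ)
      refine HasFDerivAt.congr_fderiv e1 ?_
      ext w
      exact hz _ (hbox u hu κ hκ) w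
    exact isOpen_ball.is_const_of_fderiv_eq_zero (𝕜 := ℂ) (f := fun κ => ev (σ (u, κ)))
      (convex_ball _ _).isPreconnected
      (fun κ hκ => (hd κ hκ).differentiableAt.differentiableWithinAt)
      (fun κ hκ => (hd κ hκ).fderiv) hκ (mem_ball_self hρ)
  have hg : DifferentiableOn ℂ (fun u => ev (σ (u, (τ θ).2))) (ball (τ θ).1 ρ) := by
    intro u hu
    exact ((hG _ (hbox u hu _ (mem_ball_self hρ))).comp u
      (hasFDerivAt_prodMk_left (𝕜 := ℂ) u (τ θ).2)).differentiableAt.differentiableWithinAt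
  refine ⟨A ∩ τ ⁻¹' ball (τ θ) (ρ / 2), inter_mem (hA.mem_nhds hAθ)
    ((hτ θ hOθ).continuousAt.preimage_mem_nhds (ball_mem_nhds _ (half_pos hρ))), ?_⟩
  refine (dimH_mono ?_).trans (z2_dimH_img hg)
  rintro _ ⟨x, ⟨hxA, hx⟩, rfl⟩
  rw [mem_preimage, ← ball_prod_same] at hx
  have hs : ρ / 2 ≤ ρ := by linarith
  refine ⟨(τ x).1, ball_subset_ball hs hx.1, ?_⟩
  have := hconst _ (ball_subset_ball hs hx.1) _ (ball_subset_ball hs hx.2)
  simp only [Prod.mk.eta] at this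
  rw [h3 x hxA] at this
  exact this.symm

/-- constant rank: let `k` be the rank of `de θ₀`, maximal near `θ₀`.  With `π : F → range`-coordinates
`ℂ^k` and `L : T → ker (de θ₀)` linear such that `G = (π ∘ e, L)` has bijective differential at
`θ₀`, `e ∘ G⁻¹ (a, b)` does not depend on `b` on a small product of balls (its differential has
rank `≤ k` and `π`-component `(a, b) ↦ a`).  So near `θ₀` the image lies in the image of a `C¹` map
from a ball of real dimension `2k` (`ContDiffOn.dimH_image_le`, `Real.dimH_univ_eq_finrank`). -/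
theorem dimH_le_of_rank {e : T → F} {θ₀ : T} {k : ℕ}
    (he : ∀ᶠ θ in 𝓝 θ₀, DifferentiableAt ℂ e θ ∧
      Module.finrank ℂ (LinearMap.range (fderiv ℂ e θ : T →ₗ[ℂ] F)) ≤ k)
    (hk : Module.finrank ℂ (LinearMap.range (fderiv ℂ e θ₀ : T →ₗ[ℂ] F)) = k) :
    ∃ O ∈ 𝓝 θ₀, dimH (e '' O) ≤ ((2 * k : ℕ) : ENNReal) := by
  set A : T →ₗ[ℂ] F := (fderiv ℂ e θ₀ : T →ₗ[ℂ] F) with hA
  obtain ⟨L₀, hL₀⟩ := LinearMap.exists_leftInverse_of_injective (LinearMap.range A).subtype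
    (Submodule.ker_subtype _)
  obtain ⟨π₀, hπ₀⟩ := LinearMap.exists_leftInverse_of_injective (LinearMap.ker A).subtype
    (Submodule.ker_subtype _)
  subst hk
  refine z2_aux (he.mono fun _ h => h.1) (he.mono fun _ h => h.2) (LinearMap.toContinuousLinearMap L₀)
    (LinearMap.toContinuousLinearMap π₀) ?_
  have hinj : Function.Injective (((LinearMap.toContinuousLinearMap L₀).comp
      (fderiv ℂ e θ₀)).prod (LinearMap.toContinuousLinearMap π₀)) := by
    rw [injective_iff_map_eq_zero]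
    intro v hv
    have h1 : L₀ (A v) = 0 := congrArg Prod.fst hv
    have h2 : π₀ v = 0 := congrArg Prod.snd hv
    have h3 : L₀ (A v) = ⟨A v, v, rfl⟩ := LinearMap.congr_fun hL₀ ⟨A v, v, rfl⟩
    have h4 : A v = 0 := congrArg Subtype.val (h3.symm.trans h1)
    have h5 : π₀ v = ⟨v, h4⟩ := LinearMap.congr_fun hπ₀ ⟨v, h4⟩
    exact congrArg Subtype.val (h5.symm.trans h2)
  refine ⟨hinj, ?_⟩
  have hfr : Module.finrank ℂ T =
      Module.finrank ℂ (LinearMap.range A × LinearMap.ker A) := by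
    rw [Module.finrank_prod, LinearMap.finrank_range_add_finrank_ker]
  exact (LinearMap.injective_iff_surjective_of_finrank_eq_finrank
    (f := ((((LinearMap.toContinuousLinearMap L₀).comp
      (fderiv ℂ e θ₀)).prod (LinearMap.toContinuousLinearMap π₀) :
        T →L[ℂ] LinearMap.range A × LinearMap.ker A) :
        T →ₗ[ℂ] LinearMap.range A × LinearMap.ker A)) hfr).1 hinj

/-- the points of non-maximal rank lie in the zero set of a non-zero holomorphic function: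
`f θ = det (π ∘ de θ ∘ j)` with `j : ℂ^k → T`, `π : F → ℂ^k` chosen at a point of rank `k`. -/
theorem exists_rank_fun {e : T → F} {W : Set T} (hW : IsOpen W) (he : DifferentiableOn ℂ e W)
    {θ₀ : T} (h₀ : θ₀ ∈ W) {k : ℕ}
    (hk : Module.finrank ℂ (LinearMap.range (fderiv ℂ e θ₀ : T →ₗ[ℂ] F)) = k) :
    ∃ f : T → ℂ, DifferentiableOn ℂ f W ∧ f θ₀ ≠ 0 ∧ ∀ θ ∈ W,
      Module.finrank ℂ (LinearMap.range (fderiv ℂ e θ : T →ₗ[ℂ] F)) < k → f θ = 0 := by
  obtain ⟨h, hh, h1, h2⟩ := exists_minor hW he θ₀ h₀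
  refine ⟨h, hh, h1, fun θ hθ hlt => ?_⟩
  by_contra hne
  have := h2 θ hθ hne
  omega

end Crest.Agent.R266
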