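import Crest.Agent.R266.Basic3

/-! Row 266: weak form of `dω = 0`; algebra of Hermitian forms; escape lemma. -/

set_option autoImplicit false
set_option linter.unusedSectionVars false

open Set Filter Topology Metric MeasureTheory
open scoped Manifold ContDiff

noncomputable section
namespace Crest.Agent.R266

theorem weak_integrable {h k : ℂ × ℂ → ℝ} {G : Set (ℂ × ℂ)} (hG : IsOpen G)
    (hh : ContinuousOn h G) (hk : Continuous k) (hs : HasCompactSupport k)
    (hsG : tsupport k ⊆ G) : Integrable fun y => k y * h y := by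
  have h1 : Continuous fun y => k y * h y :=
    (hk.continuousOn.mul hh).continuous_of_tsupport_subset hG
      ((tsupport_mul_subset_left (f := k) (g := h)).trans hsG)
  exact h1.integrable_of_hasCompactSupport hs.mul_right

theorem weak_parts {h f : ℂ × ℂ → ℝ} {G : Set (ℂ × ℂ)} (hG : IsOpen G) (hh : ContDiffOn ℝ 1 h G)
    (hf : ContDiff ℝ 1 f) (hs : HasCompactSupport f) (hsG : tsupport f ⊆ G) (u : ℂ × ℂ) :
    Integrable (fun y => fderiv ℝ f y u * h y) ∧ Integrable (fun y => f y * fderiv ℝ h y u) ∧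
      ∫ y, f y * fderiv ℝ h y u = -∫ y, fderiv ℝ f y u * h y := by
  have i1 : Integrable (fun y => fderiv ℝ f y u * h y) :=
    weak_integrable hG hh.continuousOn ((hf.continuous_fderiv one_ne_zero).clm_apply continuous_const)
      (hs.fderiv_apply ℝ u) ((tsupport_fderiv_apply_subset ℝ u).trans hsG)
  have i2 : Integrable (fun y => f y * fderiv ℝ h y u) :=
    weak_integrable hG ((hh.continuousOn_fderiv_of_isOpen hG le_rfl).clm_apply continuousOn_const)
      hf.continuous hs hsG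
  have : (volume : Measure (ℂ × ℂ)).IsAddHaarMeasure := Measure.prod.instIsAddHaarMeasure _ _
  refine ⟨i1, i2, integral_mul_fderiv_eq_neg_fderiv_mul_of_integrable i1 i2
    (weak_integrable hG hh.continuousOn hf.continuous hs hsG)
    (fun x _ => hf.differentiable one_ne_zero x) fun x hx => ?_⟩
  exact (hh.contDiffAt (hG.mem_nhds (hsG hx))).differentiableAt one_ne_zero

/-- integration by parts: for each of the three terms, `y ↦ f y * H y a b` is `C¹` with compact
support (it vanishes near points outside `tsupport f`), so the integral of its directional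
derivative is zero (`integral_fderiv_eq_zero`-type lemma, e.g.
`integral_mul_fderiv_eq_neg_fderiv_mul_of_integrable` or
`integral_bilinear_hasFDerivAt_right_eq_neg_left_of_integrable` with the constant function 1);
the remaining terms are `f` times the cyclic sum. The integrand is also integrable. -/
theorem weak_closed {H : ℂ × ℂ → ℂ × ℂ → ℂ × ℂ → ℝ} {G : Set (ℂ × ℂ)} (hG : IsOpen G)
    (hH : ClosedOn H G) {f : ℂ × ℂ → ℝ} (hf : ContDiff ℝ 1 f) (hs : HasCompactSupport f)
    (hsG : tsupport f ⊆ G) (u v w : ℂ × ℂ) :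
    ∫ y, (fderiv ℝ f y u * H y (Complex.I • v) w - fderiv ℝ f y v * H y (Complex.I • u) w +
      fderiv ℝ f y w * H y (Complex.I • u) v) = 0 := by
  obtain ⟨a1, b1, c1⟩ := weak_parts hG (hH.1 (Complex.I • v) w) hf hs hsG u
  obtain ⟨a2, b2, c2⟩ := weak_parts hG (hH.1 (Complex.I • u) w) hf hs hsG v
  obtain ⟨a3, b3, c3⟩ := weak_parts hG (hH.1 (Complex.I • u) v) hf hs hsG w
  have h0 : ∫ y, (f y * fderiv ℝ (fun z => H z (Complex.I • v) w) y u
      - f y * fderiv ℝ (fun z => H z (Complex.I • u) w) y v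
      + f y * fderiv ℝ (fun z => H z (Complex.I • u) v) y w) = 0 := by
    refine integral_eq_zero_of_ae (Eventually.of_forall fun y => ?_)
    by_cases hy : y ∈ G
    · have := hH.2 y hy u v w
      simp only [Pi.zero_apply]
      linear_combination f y * this
    · have : f y = 0 := image_eq_zero_of_notMem_tsupport fun h => hy (hsG h)
      simp [this]
  have e1 := integral_add (b1.sub b2) b3
  have e2 := integral_add (a1.sub a2) a3
  simp only [Pi.sub_apply] at e1 e2
  rw [e1, integral_sub b1 b2, c1, c2, c3] at h0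
  rw [e2, integral_sub a1 a2]
  linarith

/-- a continuous compactly supported weight times a function continuous on `G ⊇ tsupport`. -/
theorem integrable_mul_of_tsupport {h k : ℂ × ℂ → ℝ} {G : Set (ℂ × ℂ)} (hG : IsOpen G)
    (hh : ContinuousOn h G) (hk : Continuous k) (hs : HasCompactSupport k)
    (hsG : tsupport k ⊆ G) : Integrable fun y => k y * h y := weak_integrable hG hh hk hs hsG

variable {E A B : Type} [NormedAddCommGroup E] [NormedSpace ℂ E] [FiniteDimensional ℂ E]
  [NormedAddCommGroup A] [NormedSpace ℂ A] [FiniteDimensional ℂ A]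
  [NormedAddCommGroup B] [NormedSpace ℂ B] [FiniteDimensional ℂ B]
  {X : Type} [TopologicalSpace X] [ChartedSpace E X] [IsManifold 𝓘(ℂ, E) ω X] [T2Space X]
  {P : X → E →L[ℂ] E} {g : X → E →L[ℝ] E →L[ℝ] ℝ} {c C : ℝ}

theorem KData.I_self (hK : KData g) (x : X) (u : E) : g x (Complex.I • u) u = 0 := by
  have h1 := hK.herm x (Complex.I • u) u
  rw [_root_.smul_smul, Complex.I_mul_I, neg_one_smul, map_neg, neg_apply, hK.symm x u] at h1
  linarith

theorem KData.smul_smul (hK : KData g) (x : X) (s t : ℂ) (u v : E) :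
    g x (s • u) (t • v) = (s * (starRingEnd ℂ) t).re * g x u v +
      (s * (starRingEnd ℂ) t).im * g x (Complex.I • u) v := by
  have e : ∀ (r : ℂ) (a : E), r • a = r.re • a + r.im • (Complex.I • a) := by
    intro r a
    conv_lhs => rw [← Complex.re_add_im r]
    rw [add_smul, mul_smul, Complex.coe_smul, Complex.coe_smul]
  have h1 : g x u (Complex.I • v) = -g x (Complex.I • u) v := by
    rw [← hK.herm x u, _root_.smul_smul, Complex.I_mul_I, neg_one_smul, map_neg]
  rw [e s u, e t v]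
  simp only [map_add, map_smul, add_apply, smul_apply, smul_eq_mul, hK.herm, h1, Complex.mul_re,
    Complex.mul_im, Complex.conj_re, Complex.conj_im]
  ring

theorem KData.smul_self (hK : KData g) (x : X) (s : ℂ) (u : E) :
    g x (s • u) (s • u) = ‖s‖ ^ 2 * g x u u := by
  rw [hK.smul_smul, hK.I_self, Complex.mul_conj, Complex.normSq_eq_norm_sq, Complex.ofReal_re, mul_zero,
    add_zero]

theorem KData.cs (hK : KData g) (x : X) (u v : E) : (g x u v) ^ 2 ≤ g x u u * g x v v := by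
  have h : ∀ t : ℝ, 0 ≤ g x v v * (t * t) + 2 * g x u v * t + g x u u := by
    intro t
    have := hK.nonneg x (u + t • v)
    simp only [map_add, map_smul, add_apply, smul_apply, smul_eq_mul, hK.symm x v u] at this
    linarith
  have := discrim_le_zero h
  rw [discrim] at this
  linarith

theorem KData.add_le (hK : KData g) (x : X) (u v : E) :
    g x (u + v) (u + v) ≤ 2 * g x u u + 2 * g x v v := by
  have := hK.nonneg x (u - v)
  simp only [map_sub, sub_apply] at this
  simp only [map_add, add_apply]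
  linarith

theorem KData.pb_le_en (hK : KData g) (φ : ℂ × ℂ → X) (y v : ℂ × ℂ) :
    pb g φ y v v ≤ 2 * ‖v‖ ^ 2 * en g φ y := by
  have e : md (ℂ × ℂ) E φ y v = v.1 • md (ℂ × ℂ) E φ y (1, 0) + v.2 • md (ℂ × ℂ) E φ y (0, 1) := by
    rw [← map_smul, ← map_smul, ← map_add]
    congr 1
    ext <;> simp
  unfold en pb
  rw [e]
  refine (hK.add_le _ _ _).trans ?_
  rw [hK.smul_self, hK.smul_self]
  have h1 : ‖v.1‖ ^ 2 ≤ ‖v‖ ^ 2 := pow_le_pow_left₀ (norm_nonneg _) (norm_fst_le v) 2
  have h2 : ‖v.2‖ ^ 2 ≤ ‖v‖ ^ 2 := pow_le_pow_left₀ (norm_nonneg _) (norm_snd_le v) 2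
  have h3 := mul_le_mul_of_nonneg_right h1 (hK.nonneg (φ y) (md (ℂ × ℂ) E φ y (1, 0)))
  have h4 := mul_le_mul_of_nonneg_right h2 (hK.nonneg (φ y) (md (ℂ × ℂ) E φ y (0, 1)))
  linarith

/-- a short path starting well inside a product chart stays in the chart.  The set
`e.symm '' closedBall 0 ρ` (`ρ < 3/4`) is compact, hence closed; continuity argument
(`IsClosed.Icc_subset_of_forall_mem_nhdsWithin` or `sSup`), and on `[a, t]` the mean value
inequality for `e ∘ Φ ∘ γ` whose derivative has norm `≤ L` by `Cmp`. -/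
theorem escape {e : OpenPartialHomeomorph X (A × B)} (he : IsPC P e) (hcmp : Cmp g c C e)
    (hc : 0 < c) {Φ : ℂ × ℂ → X} {γ γ' : ℝ → ℂ × ℂ} {a b L : ℝ} (hL : 0 ≤ L)
    (hγ : ∀ t ∈ Icc a b, HasDerivAt γ (γ' t) t ∧ HolAt (ℂ × ℂ) E Φ (γ t) ∧
      pb g Φ (γ t) (γ' t) (γ' t) ≤ c * L ^ 2)
    (h0 : Φ (γ a) ∈ e.source) (h1 : ‖e (Φ (γ a))‖ + L * (b - a) < 3 / 4) :
    ∀ t ∈ Icc a b, Φ (γ t) ∈ e.source ∧ ‖e (Φ (γ t)) - e (Φ (γ a))‖ ≤ L * (t - a) := by
  have : ProperSpace (A × B) := FiniteDimensional.proper ℂ (A × B)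
  set ρ : ℝ := ‖e (Φ (γ a))‖ + L * (b - a) with hρ
  have hp : ∀ t ∈ Icc a b, ContinuousAt (fun t => Φ (γ t)) t := fun t ht =>
    ContinuousAt.comp (f := γ) (g := Φ) (hγ t ht).2.1.continuousAt (hγ t ht).1.continuousAt
  have hder : ∀ t ∈ Icc a b, Φ (γ t) ∈ e.source → ‖e (Φ (γ t))‖ ≤ 3 / 4 →
      ∃ d, HasDerivAt (fun t => e (Φ (γ t))) d t ∧ ‖d‖ ≤ L := by
    intro t ht hs hn
    obtain ⟨h1, h2, h3⟩ := hγ t ht
    have h4 : HolAt (ℂ × ℂ) (A × B) (e ∘ Φ) (γ t) := (he.hol _ hs).comp (γ t) h2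
    have h5 := (holAt_self.1 h4).hasFDerivAt
    rw [← md_self, md_comp (he.hol _ hs) h2] at h5
    have h6 := (h5.restrictScalars ℝ).comp_hasDerivAt t h1
    refine ⟨_, h6, ?_⟩
    have h7 := (hcmp _ hs hn (md (ℂ × ℂ) E Φ (γ t) (γ' t))).1
    have h8 : ‖md E (A × B) e (Φ (γ t)) (md (ℂ × ℂ) E Φ (γ t) (γ' t))‖ ^ 2 ≤ L ^ 2 :=
      le_of_mul_le_mul_left (h7.trans h3) hc
    exact (pow_le_pow_iff_left₀ (norm_nonneg _) hL two_ne_zero).1 h8
  have hsub : closedBall (0 : A × B) ρ ⊆ e.target := by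
    rw [he.target_eq]
    exact closedBall_subset_ball (by linarith)
  have hK : IsClosed (e.symm '' closedBall (0 : A × B) ρ) :=
    ((isCompact_closedBall _ _).image_of_continuousOn (e.continuousOn_symm.mono hsub)).isClosed
  have hKs : e.symm '' closedBall (0 : A × B) ρ ⊆ e.source := by
    rintro _ ⟨y, hy, rfl⟩
    exact e.map_target (hsub hy)
  have hbd : ∀ t ∈ Icc a b, ‖e (Φ (γ t)) - e (Φ (γ a))‖ ≤ L * (t - a) → ‖e (Φ (γ t))‖ ≤ ρ := by
    intro t ht h
    have h2 : L * (t - a) ≤ L * (b - a) := mul_le_mul_of_nonneg_left (by linarith [ht.2]) hL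
    have h3 := norm_sub_norm_le (e (Φ (γ t))) (e (Φ (γ a)))
    linarith
  set s : Set ℝ := {t | Φ (γ t) ∈ e.source ∧ ‖e (Φ (γ t)) - e (Φ (γ a))‖ ≤ L * (t - a)} with hs
  have hT : IsClosed (Icc a b ∩ (fun t => Φ (γ t)) ⁻¹' (e.symm '' closedBall (0 : A × B) ρ)) :=
    ContinuousOn.preimage_isClosed_of_isClosed (fun t ht => (hp t ht).continuousWithinAt)
      isClosed_Icc hK
  have hcl : IsClosed (s ∩ Icc a b) := by
    have hc1 : ContinuousOn (fun t => L * (t - a) - ‖e (Φ (γ t)) - e (Φ (γ a))‖)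
        (Icc a b ∩ (fun t => Φ (γ t)) ⁻¹' (e.symm '' closedBall (0 : A × B) ρ)) := by
      refine ContinuousOn.sub (by fun_prop) (ContinuousOn.norm (ContinuousOn.sub ?_
        continuousOn_const))
      intro t ht
      exact (ContinuousAt.comp (f := fun t => Φ (γ t)) (g := e)
        (e.continuousAt (hKs ht.2)) (hp t ht.1)).continuousWithinAt
    have := hc1.preimage_isClosed_of_isClosed hT (isClosed_Ici (a := (0 : ℝ)))
    convert this using 1
    ext t
    constructor
    · rintro ⟨⟨h2, h3⟩, ht⟩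
      refine ⟨⟨ht, e (Φ (γ t)), ?_, e.left_inv h2⟩, ?_⟩
      · simpa using hbd t ht h3
      · simpa using h3
    · rintro ⟨⟨ht, h2⟩, h3⟩
      exact ⟨⟨hKs h2, by simpa using h3⟩, ht⟩
  refine fun t ht => hcl.Icc_subset_of_forall_mem_nhdsWithin ⟨h0, by simp⟩ ?_ ht
  rintro x ⟨⟨hx1, hx2⟩, hx⟩
  have hx' : x ∈ Icc a b := Ico_subset_Icc_self hx
  have hn : ‖e (Φ (γ x))‖ < 3 / 4 := (hbd x hx' hx2).trans_lt h1
  have hev : ∀ᶠ y in 𝓝 x, Φ (γ y) ∈ e.source ∧ ‖e (Φ (γ y))‖ < 3 / 4 ∧ y < b := by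
    refine Eventually.and ((hp x hx').preimage_mem_nhds (e.open_source.mem_nhds hx1))
      (Eventually.and ?_ (Iio_mem_nhds hx.2))
    exact (ContinuousAt.comp (f := fun t => Φ (γ t)) (g := e)
      (e.continuousAt hx1) (hp x hx')).norm.eventually_lt continuousAt_const hn
  obtain ⟨δ, hδ, hball⟩ := Metric.eventually_nhds_iff_ball.1 hev
  have hmem : Ioo x (x + δ) ∈ 𝓝[>] x := Ioo_mem_nhdsGT (by linarith)
  filter_upwards [hmem] with y hy
  have hin : ∀ z ∈ Icc x y, z ∈ ball x δ := fun z hz => by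
    rw [mem_ball, Real.dist_eq, abs_lt]
    constructor <;> linarith [hz.1, hz.2, hy.2]
  have hz' : ∀ z ∈ Icc x y, z ∈ Icc a b := fun z hz =>
    ⟨hx.1.trans hz.1, (hball z (hin z hz)).2.2.le⟩
  choose! d hd using fun z (hz : z ∈ Icc x y) =>
    hder z (hz' z hz) (hball z (hin z hz)).1 (hball z (hin z hz)).2.1.le
  have hmv := norm_image_sub_le_of_norm_deriv_le_segment'
    (f := fun t => e (Φ (γ t))) (f' := d) (C := L) (a := x) (b := y)
    (fun z hz => (hd z hz).1.hasDerivWithinAt)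
    (fun z hz => (hd z (Ico_subset_Icc_self hz)).2) y (right_mem_Icc.2 hy.1.le)
  refine ⟨(hball y (hin y (right_mem_Icc.2 hy.1.le))).1, ?_⟩
  have h9 := norm_sub_le_norm_sub_add_norm_sub (e (Φ (γ y))) (e (Φ (γ x))) (e (Φ (γ a)))
  have h10 : L * (y - a) = L * (y - x) + L * (x - a) := by ring
  linarith

end Crest.Agent.R266
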